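import Vale.Agent.P188.CntW

/-! Volume bounds near a facet. -/

namespace Vale.Agent.P188.Geo

open Mdl MeasureTheory
open scoped InnerProductSpace

variable {G : Geo} {ν : Ht G.k}

theorem Cnt_bb (y : G.V) (c c' : Fin G.n → ℝ) : IsCompact (G.bb y c c') := by
  have h1 : G.bb y c c' = (fun q : G.V × G.V => G.st (G.st y q.1) q.2) '' (G.B c ×ˢ G.B c') := by
    ext v
    constructor
    · rintro ⟨b, hb, g, hg, rfl⟩
      exact ⟨(b, g), ⟨hb, hg⟩, rfl⟩
    · rintro ⟨⟨b, g⟩, ⟨hb, hg⟩, rfl⟩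
      exact ⟨b, hb, g, hg, rfl⟩
  have h2 : Continuous fun q : G.V × G.V => (y, q.1) := continuous_const.prodMk continuous_fst
  have h3 := (contDiff_st (M := G.toMdl)).continuous.comp h2
  have h4 := (contDiff_st (M := G.toMdl)).continuous.comp (h3.prodMk continuous_snd)
  rw [h1]
  exact (isCompact_Zon.prod isCompact_Zon).image h4

theorem Cnt_sum (A : G.Adapt ν) (a : Ht G.k) : ∑ j, ⟪A.u j, a⟫_ℝ = 0 := by
  rw [A.same fun v => ⟪v, a⟫_ℝ, ← sum_inner, G.uni, inner_zero_left]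

theorem Cnt_ad (hν : ν ∈ G.Nn) : ∃ A : G.Adapt ν, ∀ a : Ht G.k,
    ∑ j, (if j.val < A.m then ⟪A.u j, a⟫_ℝ else 0) = G.del ν * ⟪ν, a⟫_ℝ := by
  have h := exists_adapt hν
  refine ⟨h.some, fun a => ?_⟩
  rw [del, dif_pos h, Finset.sum_mul, Finset.sum_filter]
  refine Finset.sum_congr rfl fun j _ => ?_
  split_ifs with k
  · obtain ⟨r, -, hr⟩ := h.some.top j k
    rw [hr, inner_smul_left, inner_smul_left, real_inner_self_eq_norm_sq, norm_Nn hν]
    simp
  · rfl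

theorem Cnt_le_exp (x : ℝ) : x ≤ Real.exp x := by
  have := Real.add_one_le_exp x
  linarith

theorem Cnt_exp (A : G.Adapt ν) : ∃ C, 0 ≤ C ∧ ∀ (S : Set G.V) (e : Fin G.N → ℝ),
    MeasurableSet S → (∀ v ∈ S, ∀ v' ∈ S, ∀ j, (∀ i < j, A.z.repr (v' - v) i = 0) →
      |A.z.repr (v' - v) j| ≤ Real.exp (e j)) →
      volume S ≤ ENNReal.ofReal (Real.exp (∑ j, e j + C)) := by
  obtain ⟨C, hC, h⟩ := flag_up (volume : Measure G.V) A.z
  refine ⟨C, hC.le, fun S e hS he => (h S _ hS (fun j => (Real.exp_pos _).le) he).trans ?_⟩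
  refine ENNReal.ofReal_le_ofReal ?_
  rw [Real.exp_add, Real.exp_sum, mul_comm]
  exact mul_le_mul_of_nonneg_left (Cnt_le_exp C)
    (Finset.prod_nonneg fun j _ => (Real.exp_pos _).le)

theorem Cnt_prod (A : G.Adapt ν) : ∃ C, 0 ≤ C ∧ ∀ c,
    ∏ j, wid A.z (G.B c) j ≤ Real.exp (G.h c + C) := by
  obtain ⟨C, hC, h⟩ := flag_low (volume : Measure G.V) A.z
  obtain ⟨C', hC', h'⟩ := vol_B G
  refine ⟨C' + C⁻¹, by positivity, fun c => ?_⟩
  have h1 := (h (G.B c) isCompact_Zon convex_Zon zero_mem_Zon fun v hv => neg_mem_Zon hv).trans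
    (h' c).2
  rw [ENNReal.ofReal_le_ofReal_iff (Real.exp_pos _).le, ← le_inv_mul_iff₀ hC] at h1
  refine h1.trans ?_
  rw [← add_assoc, Real.exp_add _ C⁻¹, mul_comm]
  exact mul_le_mul_of_nonneg_left (Cnt_le_exp _) (Real.exp_pos _).le

theorem Cnt_main (A : G.Adapt ν) : ∃ C, 0 ≤ C ∧ ∀ (S : Set G.V) (c : Fin G.n → ℝ)
    (e : Fin G.N → ℝ), MeasurableSet S →
    (∀ v ∈ S, ∀ v' ∈ S, ∀ j, (∀ i < j, A.z.repr (v' - v) i = 0) →
      |A.z.repr (v' - v) j| ≤ Real.exp (e j) * wid A.z (G.B c) j) →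
      volume S ≤ ENNReal.ofReal (Real.exp (G.h c + ∑ j, e j + C)) := by
  obtain ⟨C, hC, h⟩ := flag_up (volume : Measure G.V) A.z
  obtain ⟨C', hC', h'⟩ := Cnt_prod A
  refine ⟨C' + C, by positivity, fun S c e hS he =>
    (h S _ hS (fun j => mul_nonneg (Real.exp_pos _).le (wid_nonneg _ _ _)) he).trans ?_⟩
  refine ENNReal.ofReal_le_ofReal ?_
  have e1 : Real.exp (G.h c + ∑ j, e j + (C' + C)) =
      Real.exp C * (Real.exp (∑ j, e j) * Real.exp (G.h c + C')) := by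
    rw [← Real.exp_add, ← Real.exp_add]
    congr 1
    ring
  rw [Finset.prod_mul_distrib, ← Real.exp_sum, e1]
  exact mul_le_mul (Cnt_le_exp C) (mul_le_mul_of_nonneg_left (h' c) (Real.exp_pos _).le)
    (mul_nonneg (Real.exp_pos _).le (Finset.prod_nonneg fun j _ => wid_nonneg _ _ _))
    (Real.exp_pos _).le

theorem Cnt_top {c : Fin G.n → ℝ} {w : Ht G.k} {μ μ' : ℝ} (h : G.Top ν c w μ) (hμ : μ' ≤ μ) :
    G.Top ν c w μ' := ⟨h.1, fun i hi => by
      have := h.2 i hi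
      linarith⟩

theorem Cnt_fin {N K C β : ℝ} (hN : 0 ≤ N) (hK : 0 ≤ K) (hC : 0 ≤ C) (hβ : 0 ≤ β) :
    N * (K * (β + 1)) + C ≤ (N * K + K + C + 1) * (β + 1) := by
  have h1 : 0 ≤ K * (β + 1) := by positivity
  have h2 : 0 ≤ C * β := by positivity
  nlinarith

theorem cnt_S (hν : ν ∈ G.Nn) : ∃ C > 0, ∀ (c : Fin G.n → ℝ) (a a' : Ht G.k) (β : ℝ), 0 ≤ β →
    (∀ i, G.par ν i → c i ≤ ⟪G.lam i, a'⟫_ℝ) →
      volume ((G.B fun i => G.la a i + β) ∩ G.B fun i => c i + β) ≤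
        ENNReal.ofReal (Real.exp (-(G.del ν * ⟪ν, a - a'⟫_ℝ) + C * (β + 1))) := by
  obtain ⟨A, hA⟩ := Cnt_ad hν
  obtain ⟨C, hC, h⟩ := Cnt_exp A
  obtain ⟨C₁, hC₁, h₁⟩ := wid_cell A
  refine ⟨G.N * (2 * C₁) + 2 * C₁ + C + 1, by positivity, fun c a a' β hβ hc => ?_⟩
  refine (h _ (fun j => ⟪A.u j, a⟫_ℝ - (if j.val < A.m then ⟪A.u j, a - a'⟫_ℝ else 0) +
    2 * C₁ * (β + 1)) (isCompact_Zon.inter isCompact_Zon).measurableSet ?_).trans ?_
  · intro v hv v' hv' j hj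
    have hβ' : 0 ≤ β + 1 := by positivity
    have a0 : C₁ * (β + 1 + 1) ≤ 2 * C₁ * (β + 1) := by nlinarith
    split_ifs with k
    · have a1 : v' - v ∈ G.B fun i => c i + β + 1 := by
        rw [sub_eq_add_neg]
        exact add_mem_Zon hv'.2 (neg_mem_Zon hv.2)
      have a2 := wid_top A (c := fun i => c i + β + 1) (c' := fun i => G.la a' i + (β + 1))
        (fun i hi => by
          have : c i ≤ G.la a' i := hc i hi
          linarith) k
      have a3 := wid_le A.z (S := G.B fun i => G.la a' i + (β + 1)) (j := j) (Real.exp_pos _).le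
        fun v hv _ => (h₁ a' _ hβ' j).2 v hv
      refine (le_wid A.z isCompact_Zon a1 hj).trans (a2.trans (a3.trans ?_))
      rw [inner_sub_right]
      exact Real.exp_le_exp.2 (by linarith)
    · have a1 : v' - v ∈ G.B fun i => G.la a i + (β + 1) := by
        rw [sub_eq_add_neg]
        simp only [← add_assoc]
        exact add_mem_Zon hv'.1 (neg_mem_Zon hv.1)
      exact ((h₁ a _ hβ' j).2 _ a1).trans (Real.exp_le_exp.2 (by linarith))
  · refine ENNReal.ofReal_le_ofReal (Real.exp_le_exp.2 ?_)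
    rw [Finset.sum_add_distrib, Finset.sum_sub_distrib, Cnt_sum, hA, Finset.sum_const,
      Finset.card_univ, Fintype.card_fin, nsmul_eq_mul]
    have := Cnt_fin (N := G.N) (K := 2 * C₁) (Nat.cast_nonneg _) (by positivity) hC hβ
    linarith

theorem cnt_A (hν : ν ∈ G.Nn) : ∃ C > 0, ∀ (c c' : Fin G.n → ℝ) (w w' : Ht G.k) (β ρ : ℝ)
    (y y' : G.V), 0 ≤ β → 0 ≤ ρ → G.Top ν c w' (C * (ρ + β + 1)) →
    (∀ i, G.par ν i → c' i ≤ ⟪G.lam i, w⟫_ℝ) →
      volume (G.bb y (fun i => c i + β) (fun i => G.la w' i + ρ) ∩ G.bx y' fun i => c' i + β) ≤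
        ENNReal.ofReal (Real.exp (G.h c + G.del ν * ⟪ν, w - w'⟫_ℝ + C * (β + 1))) := by
  obtain ⟨A, hA⟩ := Cnt_ad hν
  obtain ⟨C, hC, h⟩ := Cnt_main A
  obtain ⟨C₁, hC₁, h₁⟩ := wid_bb A
  obtain ⟨C₂, hC₂, h₂⟩ := wid_bx A
  obtain ⟨C₃, hC₃, h₃⟩ := wid_cell A
  obtain ⟨K, hK⟩ : ∃ K : ℝ, K = C₁ + C₂ + 2 * C₃ + G.F.d * C₃ := ⟨_, rfl⟩
  have hd : (0 : ℝ) ≤ G.F.d * C₃ := by positivity
  have hK0 : 0 ≤ K := by rw [hK]; positivity
  refine ⟨G.N * K + K + C + 1, by positivity, fun c c' w w' β ρ y y' hβ hρ hT hc => ?_⟩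
  refine (h _ c (fun j => (if j.val < A.m then ⟪A.u j, w - w'⟫_ℝ else 0) + K * (β + 1))
    ((Cnt_bb _ _ _).inter (isCompact_bx _ _)).measurableSet ?_).trans ?_
  · intro v hv v' hv' j hj
    split_ifs with k
    · have a1 := h₂ _ y' v hv.2 v' hv'.2 j hj
      have a2 := wid_top A (c := fun i => c' i + β) (c' := fun i => G.la w i + β)
        (fun i hi => by
          have : c' i ≤ G.la w i := hc i hi
          linarith) k
      have a3 := wid_le A.z (S := G.B fun i => G.la w i + β) (j := j) (Real.exp_pos _).le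
        fun v hv _ => (h₃ w _ hβ j).2 v hv
      have a4 := (h₃ w' 0 le_rfl j).1.trans (wid_add A (G.la w') hC₃ j)
      have a5 := wid_top A (c := G.la w') (c' := c) (fun i hi => (hT.1 i hi).ge) k
      have a6 : Real.exp (⟪A.u j, w'⟫_ℝ - C₃ - G.F.d * C₃) ≤ wid A.z (G.B c) j := by
        rw [Real.exp_sub _ (G.F.d * C₃), div_le_iff₀' (Real.exp_pos _)]
        exact a4.trans (mul_le_mul_of_nonneg_left a5 (Real.exp_pos _).le)
      refine a1.trans ((mul_le_mul (Cnt_le_exp C₂) (a2.trans a3) (wid_nonneg _ _ _)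
        (Real.exp_pos _).le).trans (le_trans ?_
          (mul_le_mul_of_nonneg_left a6 (Real.exp_pos _).le)))
      rw [← Real.exp_add, ← Real.exp_add, inner_sub_right]
      refine Real.exp_le_exp.2 ?_
      have b1 : 0 ≤ (C₁ + C₂ + C₃ + G.F.d * C₃) * β := by positivity
      rw [hK]
      nlinarith
    · have b0 : C₁ ≤ K := by rw [hK]; linarith
      have b1 : C₁ ≤ G.N * K + K + C + 1 := by
        have : (0 : ℝ) ≤ G.N * K := by positivity
        linarith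
      refine (h₁ c w' β ρ y hβ hρ (Cnt_top hT (mul_le_mul_of_nonneg_right b1 (by positivity)))
        v hv.1 v' hv'.1 j (not_lt.1 k) hj).trans
        (mul_le_mul_of_nonneg_right (Real.exp_le_exp.2 ?_) (wid_nonneg _ _ _))
      rw [zero_add]
      exact mul_le_mul_of_nonneg_right b0 (by positivity)
  · refine ENNReal.ofReal_le_ofReal (Real.exp_le_exp.2 ?_)
    rw [Finset.sum_add_distrib, hA, Finset.sum_const, Finset.card_univ, Fintype.card_fin,
      nsmul_eq_mul]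
    have := Cnt_fin (N := G.N) (Nat.cast_nonneg _) hK0 hC hβ
    linarith

theorem cnt_B (hν : ν ∈ G.Nn) : ∃ C > 0, ∀ (c : Fin G.n → ℝ) (w w' : Ht G.k) (β ρ : ℝ)
    (y y' : G.V), 0 ≤ β → 0 ≤ ρ → G.Top ν c w' (C * (ρ + β + 1)) → 0 ≤ ⟪ν, w - w'⟫_ℝ →
      volume ((G.bx y fun i => c i + β) ∩
        G.bb y' (fun i => c i + G.la (w - w') i + β) (fun i => G.la w i + ρ)) ≤
        ENNReal.ofReal (Real.exp (G.h c - G.hp (w - w') + C * (β + 1))) := by
  obtain ⟨A⟩ := exists_adapt hν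
  obtain ⟨C, hC, h⟩ := Cnt_main A
  obtain ⟨C₁, hC₁, h₁⟩ := wid_bb A
  obtain ⟨C₂, hC₂, h₂⟩ := wid_bx A
  obtain ⟨K, hK⟩ : ∃ K : ℝ, K = C₁ + C₂ + G.F.d := ⟨_, rfl⟩
  have hd : (0 : ℝ) ≤ G.F.d := by positivity
  have hK0 : 0 ≤ K := by rw [hK]; positivity
  refine ⟨G.N * K + K + C + 1, by positivity, fun c w w' β ρ y y' hβ hρ hT hw => ?_⟩
  refine (h _ c (fun j => K * (β + 1) - max (-⟪A.u j, w - w'⟫_ℝ) 0)
    ((isCompact_bx _ _).inter (Cnt_bb _ _ _)).measurableSet ?_).trans ?_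
  · intro v hv v' hv' j hj
    rcases le_or_gt 0 ⟪A.u j, w - w'⟫_ℝ with k | k
    · refine (h₂ _ y v hv.1 v' hv'.1 j hj).trans ((mul_le_mul (Cnt_le_exp C₂) (wid_add A c hβ j)
        (wid_nonneg _ _ _) (Real.exp_pos _).le).trans ?_)
      rw [← mul_assoc, ← Real.exp_add, max_eq_right (neg_nonpos.2 k), sub_zero]
      refine mul_le_mul_of_nonneg_right (Real.exp_le_exp.2 ?_) (wid_nonneg _ _ _)
      have b1 : 0 ≤ (C₁ + C₂) * β := by positivity
      rw [hK]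
      nlinarith
    · have hj' : A.m ≤ j.val := by
        by_contra k'
        obtain ⟨r, hr, e⟩ := A.top j (not_le.1 k')
        rw [e, real_inner_smul_left] at k
        exact absurd (mul_nonneg hr hw) (not_le.2 k)
      have b0 : C₁ ≤ K := by rw [hK]; linarith
      have b1 : C₁ ≤ G.N * K + K + C + 1 := by
        have : (0 : ℝ) ≤ G.N * K := by positivity
        linarith
      have hT' := Cnt_top hT (mul_le_mul_of_nonneg_right b1 (by positivity : 0 ≤ ρ + β + 1))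
      have e : ∀ i, G.la (w - w') i = ⟪G.lam i, w⟫_ℝ - ⟪G.lam i, w'⟫_ℝ :=
        fun i => inner_sub_right _ _ _
      have hT'' : G.Top ν (fun i => c i + G.la (w - w') i) w (C₁ * (ρ + β + 1)) := by
        refine ⟨fun i hi => ?_, fun i hi => ?_⟩
        · have := hT'.1 i hi
          have := e i
          linarith
        · have := hT'.2 i hi
          have := e i
          linarith
      refine (h₁ _ w β ρ y' hβ hρ hT'' v hv.2 v' hv'.2 j hj' hj).trans ?_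
      rw [wid_dl, ← mul_assoc, ← Real.exp_add, max_eq_left (neg_nonneg.2 k.le), sub_neg_eq_add]
      refine mul_le_mul_of_nonneg_right (Real.exp_le_exp.2 ?_) (wid_nonneg _ _ _)
      have := mul_le_mul_of_nonneg_right b0 (by positivity : 0 ≤ β + 1)
      linarith
  · refine ENNReal.ofReal_le_ofReal (Real.exp_le_exp.2 ?_)
    rw [Finset.sum_sub_distrib, A.same fun v => max (-⟪v, w - w'⟫_ℝ) 0, Finset.sum_const,
      Finset.card_univ, Fintype.card_fin, nsmul_eq_mul, hp]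
    have := Cnt_fin (N := G.N) (Nat.cast_nonneg _) hK0 hC hβ
    linarith

end Vale.Agent.P188.Geo
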