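import Vale.Agent.P188.XL
import Vale.Agent.P188.Cnt

/-! The two inequalities at a facet. -/

namespace Vale.Agent.P188.Sys

open MeasureTheory Filter Mdl
open scoped InnerProductSpace ENNReal

variable {G : Geo}

theorem AB_near (G : Geo) : ∃ Λ Cs Ct : ℝ, 0 < Λ ∧ 1 ≤ Cs ∧ 0 ≤ Ct ∧ ∀ (S : Sys G) (n : S.I)
    (z y v : G.V) (w : Ht G.k) (c : Fin G.n → ℝ) (ε : ℝ), 0 ≤ S.R n → S.Lp n z y w c ε →
    (G.la w ≤ c → G.len ((S.f n z)⁻¹ * v) ≤ 1 →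
      v ∈ G.bx y fun i => S.R n * c i + (ε * S.R n + (Λ * (ε * S.R n) + Cs * 1) + Ct)) ∧
    ∀ (z' : G.V) (r : ℝ), G.len (z⁻¹ * z') ≤ r → G.len ((S.f n z')⁻¹ * v) ≤ 1 →
      v ∈ G.bb y (fun i => S.R n * c i + (ε * S.R n + (Λ * (ε * S.R n) + Cs * 1) + Ct))
        fun i => G.la (S.R n • w) i + (Λ * (ε * S.R n) + Cs * (S.K * r + S.K + 1)) := by
  obtain ⟨l, Λ, -, hΛ, hl⟩ := G.lam_bd
  obtain ⟨Cs, hCs, hs⟩ := G.step_mem
  obtain ⟨Ct, hCt, ht⟩ := G.CntC_tr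
  refine ⟨Λ, Cs, Ct, hΛ, hCs, hCt, fun S n z y v w c ε hR hp => ?_⟩
  have h0 : 0 ≤ ε * S.R n := (norm_nonneg _).trans hp.1
  have key : ∀ r, 1 ≤ r → G.len ((S.f n z)⁻¹ * v) ≤ r → v ∈ G.bx (S.f n z)
      fun i => G.la (S.R n • w) i + (Λ * (ε * S.R n) + Cs * r) := fun r h1 h2 => by
    refine Geo.B_mono (fun i => ?_) (hs _ _ _ h1 h2)
    have b1 := Geo.CntC_sz (G := G) (ρ := Cs * r) (by positivity) i
    have b2 := (real_inner_le_norm (G.lam i) (S.T n z - S.R n • w)).trans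
      (mul_le_mul (hl i).1 hp.1 (norm_nonneg _) hΛ.le)
    rw [inner_sub_right] at b2
    change ⟪G.lam i, S.T n z⟫_ℝ + _ ≤ ⟪G.lam i, S.R n • w⟫_ℝ + _
    linarith
  refine ⟨fun hw hv => ht _ _ _ _ _ _ h0 (by positivity) hp.2
    (Geo.CntC_mono (key 1 le_rfl hv) fun i => add_le_add ?_ le_rfl), fun z' r h1 h2 => ?_⟩
  · exact (real_inner_smul_right _ _ _).trans_le (mul_le_mul_of_nonneg_left (hw i) hR)
  have hK := zero_le_one.trans S.one_le_K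
  have h3 := mul_nonneg hK ((isLen_len.nonneg _).trans h1)
  refine ⟨_, Geo.B_mono (fun i => add_le_add le_rfl ?_) hp.2, _, key _ (by linarith)
    ((Coarse_tri _ (S.f n z') _).trans (add_le_add (((S.q n).lf _ _).trans
      (add_le_add (mul_le_mul_of_nonneg_left h1 hK) le_rfl)) h2)), ?_⟩
  · rw [add_assoc]
    exact le_add_of_nonneg_right (by positivity)
  · simp only [Geo.CntW_cancel']

theorem AB_par (S : Sys G) {Λ Cs Ct C ρ μ ε : ℝ} (hΛ : 0 < Λ) (hs : 1 ≤ Cs) (hC : 0 < C)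
    (hμ : C * Cs * S.K * ρ < μ) (hε : 0 < ε) : ∃ δ > 0, ∀ᶠ n in S.U, 0 ≤ S.R n ∧
      C * (Λ * (δ * S.R n) + Cs * (S.K * (ρ * S.R n) + S.K + 1) +
        (δ * S.R n + (Λ * (δ * S.R n) + Cs * 1) + Ct) + 1) ≤ S.R n * μ ∧
      C * (δ * S.R n + (Λ * (δ * S.R n) + Cs * 1) + Ct + 1) ≤ S.R n * ε := by
  have hm : 0 < min (μ - C * Cs * S.K * ρ) ε := lt_min (by linarith) hε
  have hK := zero_le_one.trans S.one_le_K
  obtain ⟨δ, hδ, e⟩ : ∃ δ > 0, δ * (C * (1 + 2 * Λ)) = min (μ - C * Cs * S.K * ρ) ε / 2 :=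
    ⟨_ / _, div_pos (half_pos hm) (by positivity), div_mul_cancel₀ _ (by positivity)⟩
  refine ⟨δ, hδ, ?_⟩
  filter_upwards [S.ev_R 0, S.SysB_ev (C * (Cs * (S.K + 2) + Ct + 1)) (half_pos hm)] with n h0 h1
  have e' := congrArg (· * S.R n) e
  have h2 := mul_le_mul_of_nonneg_right (min_le_left (μ - C * Cs * S.K * ρ) ε) h0
  have h3 := mul_le_mul_of_nonneg_right (min_le_right (μ - C * Cs * S.K * ρ) ε) h0
  have h4 : 0 ≤ C * (Λ * (δ * S.R n)) := by positivity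
  have h5 : 0 ≤ C * (Cs * (S.K + 1)) := by positivity
  exact ⟨h0, by linarith, by linarith⟩

theorem AB_top {ν w : Ht G.k} {c : Fin G.n → ℝ} {μ R : ℝ} (h : G.Top ν c w μ) (hR : 0 ≤ R) :
    G.Top ν (fun i => R * c i) (R • w) (R * μ) := by
  refine ⟨fun i hi => ?_, fun i hi => ?_⟩ <;> rw [real_inner_smul_right]
  · exact congrArg (R * ·) (h.1 i hi)
  · rw [← mul_add]
    exact mul_le_mul_of_nonneg_left (h.2 i hi) hR

theorem AB_log (S : Sys G) (C : ℝ) {M ε : ℝ} (hC : 0 ≤ C) (hM : 0 ≤ M) (hε : 0 < ε) :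
    ∀ᶠ n in S.U, 0 ≤ S.R n ∧ 0 ≤ Real.log (S.R n) + M ∧
      C * (Real.log (S.R n) + M + 1) ≤ S.R n * ε := by
  filter_upwards [S.ev_R 1, S.ev_log (C * (M + 1)) hε] with n h1 h2
  have h3 := Real.log_nonneg h1
  have h4 : 0 ≤ C * M * Real.log (S.R n) := by positivity
  exact ⟨by linarith, by linarith, by linarith⟩

theorem AB_fib {A B : Set G.V} {m : ℝ≥0∞} (hB : volume B ≤ m)
    (h : ∀ k ∈ A, ∀ k' ∈ A, G.st (-k) k' ∈ B) : volume A ≤ m := by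
  rcases A.eq_empty_or_nonempty with rfl | ⟨k, hk⟩
  · simp
  · exact (measure_mono fun k' hk' => h k hk k' hk').trans ((vol_st_left (-k) B).trans_le hB)

theorem AB_unif {P : Ht G.k → ℝ → Prop} (h : ∀ ν ∈ G.Nn, ∃ C > 0, P ν C) :
    ∃ C₀ > 0, ∀ ν ∈ G.Nn, ∃ C > 0, C ≤ C₀ ∧ P ν C := by
  choose! C h1 h2 using h
  have h0 : 0 ≤ ∑ ν ∈ G.Nn, C ν := Finset.sum_nonneg fun ν hν => (h1 ν hν).le
  exact ⟨∑ ν ∈ G.Nn, C ν + 1, by linarith, fun ν hν => ⟨C ν, h1 ν hν,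
    (Finset.single_le_sum (fun ν hν => (h1 ν hν).le) hν).trans (by linarith), h2 ν hν⟩⟩

theorem al (G : Geo) : ∃ C > 0, ∀ (S : Sys G) (y y₁ y₂ : S.I → G.V) (D : S.I → Set G.V)
    (a a' w w' ν ν' : Ht G.k) (c c' : Fin G.n → ℝ) (β : Ht G.k → ℝ) (η ρ μ C₀ L : ℝ), 0 ≤ ρ →
    ν ∈ G.Nn → ν' ∈ G.Nn → S.Big D η →
    (∀ᶠ n in S.U, ∀ k ∈ D n, ‖G.ht (G.st (y n) k)‖ ≤ C₀ * S.R n ∧ k ∈ G.B (G.ty (S.R n) β L) ∧
      G.len ((G.pr (S.R n • a') (G.st (y n) k))⁻¹ * G.pr (S.R n • a) (G.st (y n) k)) ≤ ρ * S.R n) →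
    β ν = ⟪ν, a'⟫_ℝ → G.Top ν' c' w' μ → C * S.K * ρ < μ → G.la w ≤ c →
    (∀ i, G.par ν' i → c i ≤ ⟪G.lam i, w⟫_ℝ) → S.Two y D a a' w w' c c' y₁ y₂ →
    η + G.del ν * ⟪ν, a - a'⟫_ℝ ≤ G.h c' + G.del ν' * ⟪ν', w - w'⟫_ℝ := by
  obtain ⟨Λ, Cs, Ct, hΛ, hs, ht, hn⟩ := AB_near G
  obtain ⟨C₁, hC₁, hA⟩ := AB_unif fun ν hν => Geo.cnt_A (G := G) (ν := ν) hν
  refine ⟨C₁ * Cs, by positivity, fun S y y₁ y₂ D a a' w w' ν ν' c c' β η ρ μ C₀ L hρ hν hν' hD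
    hk hβ hT hμ hw hc h2 => ?_⟩
  obtain ⟨C, hC, hC', hA⟩ := hA ν' hν'
  have hK := zero_le_one.trans S.one_le_K
  rw [add_comm η, ← le_neg_add_iff_add_le]
  refine count S (F := fun n k => S.f n (G.pr (S.R n • a) (G.st (y n) k))) hD
    (fun ε hε => ?_) fun ε hε => ?_
  · obtain ⟨C₂, hC₂, hf⟩ := S.fib a C₀
    obtain ⟨C₃, -, hb⟩ := st_Bx G.x
    obtain ⟨C₄, hC₄, hS⟩ := Geo.cnt_S hν
    filter_upwards [hf, hk, S.AB_log C₄ hC₄.le (hC₂.trans (le_max_left _ (L + C₃))) hε] with n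
      h3 h4 h5 p
    refine AB_fib ((hS (fun i => S.R n * G.cs β i) (S.R n • a) (S.R n • a') _ h5.2.1
      fun i hi => ?_).trans (ENNReal.ofReal_le_ofReal (Real.exp_le_exp.2 ?_)))
      fun k hk k' hk' => ⟨?_, ?_⟩
    · rw [real_inner_smul_right, Geo.cs]
      refine mul_le_mul_of_nonneg_left (le_of_eq ?_) h5.1
      rcases hi with hi | hi
      · simp [hi]
      · rw [hi, hβ, ← hi, ← real_inner_smul_left, ← Geo.lam_eq]
    · rw [← smul_sub, real_inner_smul_right]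
      linarith [h5.2.2]
    · exact Geo.B_mono (fun i => by linarith [le_max_left C₂ (L + C₃)])
        (h3 _ p k k' (h4 k hk.1).1 (h4 k' hk'.1).1 hk.2 hk'.2)
    · refine Geo.B_mono (fun i => ?_) (hb _ _ (neg_mem_Zon (h4 k hk.1).2.1) _ (h4 k' hk'.1).2.1)
      simp only [Geo.ty]
      linarith [le_max_right C₂ (L + C₃)]
  · obtain ⟨δ, hδ, hp⟩ := S.AB_par (Ct := Ct) hΛ hs hC (lt_of_le_of_lt (by gcongr) hμ) hε
    refine ⟨fun n => G.bb (y₁ n) _ _ ∩ G.bx (y₂ n) _, hp.mono fun n h => (hA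
      (fun i => S.R n * c' i) (fun i => S.R n * c i) (S.R n • w) (S.R n • w') _ _ (y₁ n) (y₂ n)
      (by have := h.1; positivity) (by have := h.1; positivity) (Geo.Cnt_top (AB_top hT h.1) h.2.1)
      fun i hi => ?_).trans (ENNReal.ofReal_le_ofReal (Real.exp_le_exp.2 ?_)),
      (h2.good δ hδ).mono ?_⟩
    · rw [real_inner_smul_right]
      exact mul_le_mul_of_nonneg_left (hc i hi) h.1
    · rw [← smul_sub, real_inner_smul_right, Geo.h_smul _ h.1]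
      linarith [h.2.2]
    · filter_upwards [hp, hk] with n h h4 k hk
      refine ⟨hk.1, fun hg => hk.2 ?_⟩
      rintro v ⟨_, rfl, hv⟩
      exact ⟨(hn S n _ _ v _ _ _ h.1 hg.1).2 _ _ (h4 k hk.1).2.2 hv,
        (hn S n _ _ v _ _ _ h.1 hg.2).1 hw hv⟩

theorem bl (G : Geo) : ∃ C > 0, ∀ (S : Sys G) (y y₁ y₂ : S.I → G.V) (D : S.I → Set G.V)
    (a a' w w' ν' : Ht G.k) (c' : Fin G.n → ℝ) (η ρ μ C₀ : ℝ), 0 ≤ ρ → ν' ∈ G.Nn → S.Big D η →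
    (∀ᶠ n in S.U, ∀ k ∈ D n, ‖G.ht (G.st (y n) k)‖ ≤ C₀ * S.R n ∧
      G.len ((G.pr (S.R n • a') (G.st (y n) k))⁻¹ * G.pr (S.R n • a) (G.st (y n) k)) ≤ ρ * S.R n) →
    G.Top ν' c' w' μ → C * S.K * ρ < μ → 0 ≤ ⟪ν', w - w'⟫_ℝ →
    S.Two y D a a' w w' (fun i => c' i + G.la (w - w') i) c' y₁ y₂ →
    η ≤ G.h c' - G.hp (w - w') := by
  obtain ⟨Λ, Cs, Ct, hΛ, hs, ht, hn⟩ := AB_near G
  obtain ⟨C₁, hC₁, hA⟩ := AB_unif fun ν hν => Geo.cnt_B (G := G) (ν := ν) hν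
  refine ⟨C₁ * Cs, by positivity, fun S y y₁ y₂ D a a' w w' ν' c' η ρ μ C₀ hρ hν' hD
    hk hT hμ hw h2 => ?_⟩
  obtain ⟨C, hC, hC', hA⟩ := hA ν' hν'
  have hK := zero_le_one.trans S.one_le_K
  rw [← zero_add (_ - _)]
  refine count S (F := fun n k => S.f n (G.pr (S.R n • a') (G.st (y n) k))) hD
    (fun ε hε => ?_) fun ε hε => ?_
  · obtain ⟨C₂, hC₂, hf⟩ := S.fib a' C₀
    obtain ⟨C₃, hC₃, hb⟩ := G.vol_B
    filter_upwards [hf, hk, S.AB_log (G.N * G.F.d + C₃) (by positivity) hC₂ hε] with n h3 h4 h5 p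
    refine AB_fib ((hb _).2.trans (ENNReal.ofReal_le_ofReal (Real.exp_le_exp.2 ?_)))
      fun k hk k' hk' => h3 _ p k k' (h4 k hk.1).1 (h4 k' hk'.1).1 hk.2 hk'.2
    have e1 := Geo.h_shift (G := G) (fun _ => 0 + (Real.log (S.R n) + C₂)) (S.R n • a')
    have e2 := Geo.h_add (G := G) (fun _ => 0) h5.2.1
    have e3 : G.h (fun _ => 0) = 0 := by simpa using Geo.h_smul (G := G) (fun _ => 0) le_rfl
    rw [← e1, e3] at e2
    simp only [zero_add, add_comm (_ + C₂), ← add_assoc] at e2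
    have e4 := mul_nonneg hC₃ h5.2.1
    have e5 : (0 : ℝ) ≤ G.N * G.F.d := by positivity
    linarith [h5.2.2]
  · obtain ⟨δ, hδ, hp⟩ := S.AB_par (Ct := Ct) hΛ hs hC (lt_of_le_of_lt (by gcongr) hμ) hε
    refine ⟨fun n => G.bx (y₁ n) _ ∩ G.bb (y₂ n) _ _, hp.mono fun n h => (hA
      (fun i => S.R n * c' i) (S.R n • w) (S.R n • w') _ _ (y₁ n) (y₂ n)
      (by have := h.1; positivity) (by have := h.1; positivity) (Geo.Cnt_top (AB_top hT h.1) h.2.1)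
      ?_).trans (ENNReal.ofReal_le_ofReal (Real.exp_le_exp.2 ?_)), (h2.good δ hδ).mono ?_⟩
    · rw [← smul_sub, real_inner_smul_right]
      exact mul_nonneg h.1 hw
    · rw [← smul_sub, Geo.hp_smul _ h.1, Geo.h_smul _ h.1]
      linarith [h.2.2]
    · filter_upwards [hp, hk] with n h h4 k hk
      refine ⟨hk.1, fun hg => hk.2 ?_⟩
      rintro v ⟨_, rfl, hv⟩
      refine ⟨(hn S n _ _ v _ _ _ h.1 hg.1).1 (fun i => ?_) hv, ?_⟩
      · by_cases hi : G.par ν' i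
        · exact (hT.1 i hi).ge
        · exact (le_add_of_nonneg_right (le_trans (by positivity) hμ.le)).trans (hT.2 i hi)
      · have := (hn S n _ _ v _ _ _ h.1 hg.2).2 _ _
          ((Coarse_sym _ _).trans_le (h4 k hk.1).2) hv
        simp only [Geo.la, ← smul_sub, real_inner_smul_right, ← mul_add] at this ⊢
        exact this

end Vale.Agent.P188.Sys
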