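import Vale.Agent.P188.Stmt

/-! Analytic submersions do not shrink sets of positive measure too much. -/

namespace Vale.Agent.P188

open MeasureTheory Filter Topology

theorem AcAbs_one {f : ℝ → ℝ} (hf : AnalyticOnNhd ℝ f Set.univ) (h : ∃ s, f s ≠ 0) :
    volume {s | f s = 0} = 0 := by
  rcases hf.eqOn_zero_or_eventually_ne_zero_of_preconnected isPreconnected_univ with h0 | h0
  · obtain ⟨s, hs⟩ := h
    exact (hs (h0 (Set.mem_univ s))).elim
  · have h1 := ae_restrict_le_codiscreteWithin (μ := (volume : Measure ℝ)) MeasurableSet.univ h0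
    rw [Measure.restrict_univ] at h1
    have h2 : ∀ᵐ s ∂(volume : Measure ℝ), f s ≠ 0 := h1
    rw [ae_iff] at h2
    simpa using h2

theorem AcAbs_cons {m : ℕ} :
    AnalyticOnNhd ℝ (fun p : ℝ × (Fin m → ℝ) => (Fin.cons p.1 p.2 : Fin (m + 1) → ℝ)) Set.univ := by
  intro p _
  refine AnalyticAt.pi fun i => ?_
  refine Fin.cases ?_ (fun j => ?_) i
  · simpa using analyticAt_fst
  · simp only [Fin.cons_succ]
    exact ((ContinuousLinearMap.proj (R := ℝ) (φ := fun _ : Fin m => ℝ) j).analyticAt _).comp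
      analyticAt_snd

theorem null_zero {m : ℕ} {f : (Fin m → ℝ) → ℝ} (hf : AnalyticOnNhd ℝ f Set.univ)
    (h : ∃ s, f s ≠ 0) : volume {s | f s = 0} = 0 := by
  induction m with
  | zero =>
    obtain ⟨s, hs⟩ := h
    have : {s | f s = 0} = ∅ := by
      ext t
      simp only [Set.mem_ofPred_eq, Set.mem_empty_iff_false, iff_false]
      rwa [Subsingleton.elim t s]
    rw [this, measure_empty]
  | succ m ih =>
    obtain ⟨s, hs⟩ := h
    have hg : AnalyticOnNhd ℝ (fun p : ℝ × (Fin m → ℝ) => f (Fin.cons p.1 p.2)) Set.univ :=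
      fun p _ => (hf _ (Set.mem_univ _)).comp (AcAbs_cons p (Set.mem_univ _))
    have hgc : Continuous fun p : ℝ × (Fin m → ℝ) => f (Fin.cons p.1 p.2) :=
      continuousOn_univ.1 hg.continuousOn
    have h1 : volume {y : Fin m → ℝ | f (Fin.cons (s 0) y) = 0} = 0 := by
      refine ih (f := fun y => f (Fin.cons (s 0) y)) (fun y _ => ?_) ⟨Fin.tail s, ?_⟩
      · exact (hg (s 0, y) (Set.mem_univ _)).comp_of_eq (analyticAt_const.prod analyticAt_id) rfl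
      · simpa using hs
    have hm : MeasurableSet {p : ℝ × (Fin m → ℝ) | f (Fin.cons p.1 p.2) = 0} :=
      (isClosed_eq hgc continuous_const).measurableSet
    have h2 : (volume : Measure (ℝ × (Fin m → ℝ))) {p | f (Fin.cons p.1 p.2) = 0} = 0 := by
      rw [Measure.volume_eq_prod, Measure.prod_apply_symm hm]
      refine lintegral_eq_zero_of_ae_eq_zero ?_
      have h3 : ∀ᵐ y : Fin m → ℝ, f (Fin.cons (s 0) y) ≠ 0 := by
        rw [ae_iff]; simpa using h1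
      filter_upwards [h3] with y hy
      exact AcAbs_one (f := fun t => f (Fin.cons t y)) (fun t _ =>
        (hg (t, y) (Set.mem_univ _)).comp_of_eq (analyticAt_id.prod analyticAt_const) rfl) ⟨_, hy⟩
    have h4 := (volume_preserving_piFinSuccAbove (fun _ : Fin (m + 1) => ℝ) 0).measure_preimage
      hm.nullMeasurableSet
    rw [h2] at h4
    rw [← h4]
    congr 1
    ext t
    simp [MeasurableEquiv.piFinSuccAbove]

theorem AcAbs_det {m : ℕ} {Φ : (Fin m → ℝ) → (Fin m → ℝ)} (hΦ : AnalyticOnNhd ℝ Φ Set.univ) :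
    AnalyticOnNhd ℝ (fun s => (fderiv ℝ Φ s).det) Set.univ := by
  have h1 : (fun s => (fderiv ℝ Φ s).det) = fun s => ∑ σ : Equiv.Perm (Fin m),
      ((Equiv.Perm.sign σ : ℤ) : ℝ) * ∏ i, fderiv ℝ Φ s (Pi.single i 1) (σ i) := by
    funext s
    rw [ContinuousLinearMap.det, ← LinearMap.det_toMatrix', Matrix.det_apply']
    simp [LinearMap.toMatrix'_apply]
  rw [h1]
  intro s _
  refine Finset.analyticAt_fun_sum _ fun σ _ => analyticAt_const.mul ?_
  refine Finset.analyticAt_fun_prod _ fun i _ => ?_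
  have h2 : AnalyticAt ℝ (fun s => fderiv ℝ Φ s (Pi.single i 1)) s := by
    have h3 := ((ContinuousLinearMap.apply ℝ (Fin m → ℝ)
      (Pi.single i (1 : ℝ) : Fin m → ℝ)).analyticAt _).comp (hΦ.fderiv s (Set.mem_univ _))
    exact h3
  exact ((ContinuousLinearMap.proj (R := ℝ) (φ := fun _ : Fin m => ℝ) (σ i)).analyticAt _).comp h2

theorem AcAbs_prod {F N : Type} [NormedAddCommGroup F] [NormedSpace ℝ F] [FiniteDimensional ℝ F]
    [MeasurableSpace F] [BorelSpace F] [NormedAddCommGroup N] [NormedSpace ℝ N]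
    [FiniteDimensional ℝ N] (μ : Measure F) [μ.IsAddHaarMeasure] {m : ℕ}
    (T : (Fin m → ℝ) ≃L[ℝ] F × N) {B : Set N} (hB : IsCompact B) :
    ∃ c : NNReal, ∀ A : Set F, volume (T ⁻¹' (A ×ˢ B)) ≤ c * μ A := by
  borelize N
  obtain ⟨c, hc⟩ : ∃ c : NNReal, (volume : Measure (Fin m → ℝ)).map T =
      c • μ.prod (Measure.addHaar : Measure N) :=
    ⟨_, Measure.isAddLeftInvariant_eq_smul _ _⟩
  have hB' : (Measure.addHaar : Measure N) B ≠ ⊤ := hB.measure_lt_top.ne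
  refine ⟨c * ((Measure.addHaar : Measure N) B).toNNReal, fun A => ?_⟩
  have h1 : volume (T ⁻¹' (A ×ˢ B)) = (volume : Measure (Fin m → ℝ)).map T (A ×ˢ B) :=
    (T.toHomeomorph.toMeasurableEquiv.map_apply _).symm
  rw [h1, hc, Measure.smul_apply, Measure.prod_prod, ENNReal.coe_mul, ENNReal.coe_toNNReal hB',
    ENNReal.smul_def, smul_eq_mul, mul_assoc, mul_comm (μ A)]

theorem AcAbs_loc {E : Type} [NormedAddCommGroup E] [NormedSpace ℝ E] {m : ℕ}
    {Φ : E × (Fin m → ℝ) → (Fin m → ℝ)} (hΦ : ContDiff ℝ ⊤ Φ) (e₀ : E) (s₀ : Fin m → ℝ)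
    (hd : (fderiv ℝ (fun s => Φ (e₀, s)) s₀).det ≠ 0) :
    ∃ W ∈ 𝓝 s₀, ∃ c : NNReal, ∀ᶠ e in 𝓝 e₀, ∀ S ⊆ W,
      volume S ≤ c * volume ((fun s => Φ (e, s)) '' S) := by
  obtain ⟨A, hA⟩ : ∃ A, A = fderiv ℝ (fun s => Φ (e₀, s)) s₀ := ⟨_, rfl⟩
  rw [← hA] at hd
  have hpos : 0 < |A.det| := abs_pos.2 hd
  obtain ⟨c, hc0, hc⟩ : ∃ c : NNReal, 0 < c ∧ (c : ENNReal) < ENNReal.ofReal |A.det| := by
    refine ⟨(|A.det| / 2).toNNReal, Real.toNNReal_pos.2 (by linarith), ?_⟩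
    exact (ENNReal.ofReal_lt_ofReal_iff hpos).2 (by linarith)
  obtain ⟨δ, hδ, hδ0⟩ := ((mul_le_addHaar_image_of_lt_det (volume : Measure (Fin m → ℝ)) A
    hc).and self_mem_nhdsWithin).exists
  have hs : HasStrictFDerivAt Φ (fderiv ℝ Φ (e₀, s₀)) (e₀, s₀) :=
    hΦ.contDiffAt.hasStrictFDerivAt (by simp)
  have hA' : A = (fderiv ℝ Φ (e₀, s₀)).comp (ContinuousLinearMap.inr ℝ E (Fin m → ℝ)) := by
    rw [hA]
    exact (hs.hasFDerivAt.comp s₀ (hasFDerivAt_prodMk_right e₀ s₀)).fderiv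
  obtain ⟨U, hU, hap⟩ := hs.approximates_deriv_on_nhds (c := δ) (Or.inr hδ0)
  rw [mem_nhds_prod_iff] at hU
  obtain ⟨U₁, hU₁, W, hW, hUW⟩ := hU
  refine ⟨W, hW, c⁻¹, ?_⟩
  filter_upwards [hU₁] with e he S hS
  have h1 : ApproximatesLinearOn (fun s => Φ (e, s)) A S δ := by
    intro x hx y hy
    have h2 := hap (e, x) (hUW ⟨he, hS hx⟩) (e, y) (hUW ⟨he, hS hy⟩)
    have h3 : ((e, x) : E × (Fin m → ℝ)) - (e, y) = (0, x - y) := by simp
    rw [h3] at h2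
    rw [hA']
    simpa using h2
  have h4 := hδ S _ h1
  have h5 : (c : ENNReal) ≠ 0 := by simpa using hc0.ne'
  rw [ENNReal.coe_inv hc0.ne']
  calc volume S = (c : ENNReal)⁻¹ * (c * volume S) := by
        rw [← mul_assoc, ENNReal.inv_mul_cancel h5 ENNReal.coe_ne_top, one_mul]
    _ ≤ _ := by gcongr

theorem AcAbs_cpt {E : Type} [NormedAddCommGroup E] [NormedSpace ℝ E] {m : ℕ}
    {Φ : E × (Fin m → ℝ) → (Fin m → ℝ)} (hΦ : ContDiff ℝ ⊤ Φ) (e₀ : E) {G : Set (Fin m → ℝ)}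
    (hG : IsCompact G) (hd : ∀ s ∈ G, (fderiv ℝ (fun s => Φ (e₀, s)) s).det ≠ 0) :
    ∃ c : NNReal, ∀ᶠ e in 𝓝 e₀, ∀ S ⊆ G, volume S ≤ c * volume ((fun s => Φ (e, s)) '' S) := by
  refine hG.induction_on (p := fun G => ∃ c : NNReal, ∀ᶠ e in 𝓝 e₀, ∀ S ⊆ G,
    volume S ≤ c * volume ((fun s => Φ (e, s)) '' S)) ?_ ?_ ?_ ?_
  · refine ⟨0, Eventually.of_forall fun e S hS => ?_⟩
    rw [Set.subset_empty_iff.1 hS]
    simp
  · rintro s t hst ⟨c, hc⟩
    exact ⟨c, hc.mono fun e he S hS => he S (hS.trans hst)⟩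
  · rintro s t ⟨c, hc⟩ ⟨d, hd⟩
    refine ⟨c + d, ?_⟩
    filter_upwards [hc, hd] with e h1 h2 S hS
    have h3 : S ⊆ S ∩ s ∪ S ∩ t := by
      rw [← Set.inter_union_distrib_left]
      exact Set.subset_inter le_rfl hS
    calc volume S ≤ volume (S ∩ s) + volume (S ∩ t) :=
          (measure_mono h3).trans (measure_union_le _ _)
      _ ≤ c * volume ((fun s => Φ (e, s)) '' (S ∩ s)) +
            d * volume ((fun s => Φ (e, s)) '' (S ∩ t)) :=
          add_le_add (h1 _ Set.inter_subset_right) (h2 _ Set.inter_subset_right)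
      _ ≤ c * volume ((fun s => Φ (e, s)) '' S) + d * volume ((fun s => Φ (e, s)) '' S) := by
          gcongr <;> exact Set.inter_subset_left
      _ = _ := by rw [ENNReal.coe_add, add_mul]
  · intro s hs
    obtain ⟨W, hW, h⟩ := AcAbs_loc hΦ e₀ s (hd s hs)
    exact ⟨W, mem_nhdsWithin_of_mem_nhds hW, h⟩

theorem AcAbs_pt {E F : Type} [NormedAddCommGroup E] [NormedSpace ℝ E] [NormedAddCommGroup F]
    [NormedSpace ℝ F] [FiniteDimensional ℝ F] [MeasurableSpace F] [BorelSpace F]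
    (μ : Measure F) [μ.IsAddHaarMeasure] {m : ℕ} {P : E → (Fin m → ℝ) → F}
    (hP : ContDiff ℝ ⊤ fun q : E × (Fin m → ℝ) => P q.1 q.2) (e₀ : E)
    (hs : ∃ s, Function.Surjective (fderiv ℝ (P e₀) s)) {θ : ℝ} (hθ : 0 < θ) :
    ∃ κ > 0, ∀ᶠ e in 𝓝 e₀, ∀ Θ ⊆ Set.Icc (-1 : Fin m → ℝ) 1,
      ENNReal.ofReal θ ≤ volume Θ → ENNReal.ofReal κ ≤ μ (P e '' Θ) := by
  obtain ⟨s₁, hs₁⟩ := hs
  obtain ⟨L, hL⟩ : ∃ L, L = fderiv ℝ (P e₀) s₁ := ⟨_, rfl⟩
  rw [← hL] at hs₁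
  obtain ⟨B, hB⟩ := L.exists_rightInverse_of_surjective (LinearMap.range_eq_top.2 hs₁)
  have hB' : Function.RightInverse B L := fun y => by
    simpa using congrArg (fun T : F →L[ℝ] F => T y) hB
  obtain ⟨T, hT⟩ : ∃ T : (Fin m → ℝ) ≃L[ℝ] F × L.ker, ∀ x, (T x).1 = L x :=
    ⟨ContinuousLinearEquiv.equivOfRightInverse L B hB', fun _ => rfl⟩
  obtain ⟨Φ, hΦd⟩ : ∃ Φ : E × (Fin m → ℝ) → (Fin m → ℝ),
      Φ = fun q => T.symm (P q.1 q.2, (T q.2).2) := ⟨_, rfl⟩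
  have hΦ : ContDiff ℝ ⊤ Φ := by
    rw [hΦd]
    exact T.symm.contDiff.comp (hP.prodMk (contDiff_snd.comp (T.contDiff.comp contDiff_snd)))
  have hΦ0 : ContDiff ℝ ⊤ fun s => Φ (e₀, s) := hΦ.comp (contDiff_const.prodMk contDiff_id)
  have hP0 : ContDiff ℝ ⊤ (P e₀) := hP.comp (contDiff_const.prodMk contDiff_id)
  have hg := AcAbs_det hΦ0.analyticOnNhd
  have hg1 : (fderiv ℝ (fun s => Φ (e₀, s)) s₁).det ≠ 0 := by
    have h1 : HasFDerivAt (P e₀) L s₁ := by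
      rw [hL]; exact (hP0.differentiable (by simp) s₁).hasFDerivAt
    have h2 : HasFDerivAt (fun s => Φ (e₀, s)) ((T.symm : F × L.ker →L[ℝ] (Fin m → ℝ)).comp
        (L.prod ((ContinuousLinearMap.snd ℝ F L.ker).comp
          (T : (Fin m → ℝ) →L[ℝ] F × L.ker)))) s₁ := by
      rw [hΦd]
      exact T.symm.hasFDerivAt.comp s₁ (h1.prodMk (hasFDerivAt_snd.comp s₁ T.hasFDerivAt))
    have h3 : (T.symm : F × L.ker →L[ℝ] (Fin m → ℝ)).comp
        (L.prod ((ContinuousLinearMap.snd ℝ F L.ker).comp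
          (T : (Fin m → ℝ) →L[ℝ] F × L.ker))) = ContinuousLinearMap.id ℝ _ := by
      refine ContinuousLinearMap.ext fun x => ?_
      have h4 : (L x, (T x).2) = T x := by rw [← hT x]
      simp [h4]
    rw [h2.fderiv, h3]
    simp [ContinuousLinearMap.det]
  have hZ := null_zero hg ⟨s₁, hg1⟩
  have hZm : MeasurableSet {s | (fderiv ℝ (fun s => Φ (e₀, s)) s).det = 0} :=
    (isClosed_eq (continuousOn_univ.1 hg.continuousOn) continuous_const).measurableSet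
  obtain ⟨Z, hZd⟩ : ∃ Z, Z = {s | (fderiv ℝ (fun s => Φ (e₀, s)) s).det = 0} := ⟨_, rfl⟩
  rw [← hZd] at hZ hZm
  have hQ : IsCompact (Set.Icc (-1 : Fin m → ℝ) 1) := isCompact_Icc
  have hθ2 : ENNReal.ofReal (θ / 2) ≠ 0 := by simpa using hθ
  obtain ⟨G, hGs, hG, hGm⟩ := (measurableSet_Icc.diff hZm).exists_isCompact_sdiff_lt
    (μ := (volume : Measure (Fin m → ℝ))) (A := Set.Icc (-1 : Fin m → ℝ) 1 \ Z)
    ((measure_mono Set.sdiff_subset).trans_lt hQ.measure_lt_top).ne hθ2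
  obtain ⟨c, hc⟩ := AcAbs_cpt hΦ e₀ hG fun s hs h => (hGs hs).2 (by rw [hZd]; exact h)
  have hBc : IsCompact ((fun s => (T s).2) '' G) := hG.image (continuous_snd.comp T.continuous)
  obtain ⟨d, hd⟩ := AcAbs_prod μ T hBc
  refine ⟨θ / 2 / (c * d + 1), by positivity, ?_⟩
  filter_upwards [hc] with e he Θ hΘ hθΘ
  have h1 : ENNReal.ofReal (θ / 2) ≤ volume (Θ ∩ G) := by
    have h2 : Θ ⊆ Θ ∩ G ∪ ((Set.Icc (-1 : Fin m → ℝ) 1 \ Z) \ G ∪ Z) := by
      intro x hx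
      by_cases h3 : x ∈ G
      · exact Or.inl ⟨hx, h3⟩
      · by_cases h4 : x ∈ Z
        · exact Or.inr (Or.inr h4)
        · exact Or.inr (Or.inl ⟨⟨hΘ hx, h4⟩, h3⟩)
    have h3 : volume Θ ≤ volume (Θ ∩ G) + ENNReal.ofReal (θ / 2) := by
      refine (measure_mono h2).trans ((measure_union_le _ _).trans ?_)
      gcongr
      refine (measure_union_le _ _).trans ?_
      rw [hZ, add_zero]
      exact hGm.le
    have h4 : ENNReal.ofReal θ = ENNReal.ofReal (θ / 2) + ENNReal.ofReal (θ / 2) := by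
      rw [← ENNReal.ofReal_add (by linarith) (by linarith)]
      congr 1
      ring
    rw [h4] at hθΘ
    exact (ENNReal.add_le_add_iff_right ENNReal.ofReal_ne_top).1 (hθΘ.trans h3)
  have h2 : (fun s => Φ (e, s)) '' (Θ ∩ G) ⊆ T ⁻¹' ((P e '' Θ) ×ˢ ((fun s => (T s).2) '' G)) := by
    rintro _ ⟨s, hs, rfl⟩
    rw [hΦd]
    simp only [Set.mem_preimage, ContinuousLinearEquiv.apply_symm_apply]
    exact ⟨⟨s, hs.1, rfl⟩, ⟨s, hs.2, rfl⟩⟩
  have h3 : ENNReal.ofReal (θ / 2) ≤ ENNReal.ofReal (c * d + 1) * μ (P e '' Θ) :=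
    calc ENNReal.ofReal (θ / 2) ≤ c * volume ((fun s => Φ (e, s)) '' (Θ ∩ G)) :=
          h1.trans (he _ Set.inter_subset_right)
      _ ≤ c * (d * μ (P e '' Θ)) := by
          gcongr
          exact (measure_mono h2).trans (hd _)
      _ = ENNReal.ofReal (c * d) * μ (P e '' Θ) := by
          rw [← mul_assoc, ENNReal.ofReal_mul c.coe_nonneg]
          simp
      _ ≤ _ := by
          gcongr
          linarith
  have h4 : (0 : ℝ) < c * d + 1 := by positivity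
  rw [ENNReal.ofReal_div_of_pos h4]
  exact ENNReal.div_le_of_le_mul' h3

theorem ac_abs {E F : Type} [NormedAddCommGroup E] [NormedSpace ℝ E] [NormedAddCommGroup F]
    [NormedSpace ℝ F] [FiniteDimensional ℝ F] [MeasurableSpace F] [BorelSpace F]
    (μ : Measure F) [μ.IsAddHaarMeasure] {m : ℕ} {P : E → (Fin m → ℝ) → F}
    (hP : ContDiff ℝ ⊤ fun q : E × (Fin m → ℝ) => P q.1 q.2) {K : Set E} (hK : IsCompact K)
    (hs : ∀ e ∈ K, ∃ s, Function.Surjective (fderiv ℝ (P e) s)) {θ : ℝ} (hθ : 0 < θ) :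
    ∃ κ > 0, ∀ e ∈ K, ∀ Θ ⊆ Set.Icc (-1 : Fin m → ℝ) 1, MeasurableSet Θ →
      ENNReal.ofReal θ ≤ volume Θ → ENNReal.ofReal κ ≤ μ (P e '' Θ) := by
  refine hK.induction_on (p := fun K => ∃ κ > 0, ∀ e ∈ K, ∀ Θ ⊆ Set.Icc (-1 : Fin m → ℝ) 1,
    MeasurableSet Θ → ENNReal.ofReal θ ≤ volume Θ → ENNReal.ofReal κ ≤ μ (P e '' Θ)) ?_ ?_ ?_ ?_
  · exact ⟨1, one_pos, fun e he => he.elim⟩
  · rintro s t hst ⟨κ, h0, h⟩
    exact ⟨κ, h0, fun e he => h e (hst he)⟩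
  · rintro s t ⟨κ, h0, h⟩ ⟨κ', h0', h'⟩
    refine ⟨min κ κ', lt_min h0 h0', fun e he Θ h1 h2 h3 => ?_⟩
    rcases he with he | he
    · exact (ENNReal.ofReal_le_ofReal (min_le_left _ _)).trans (h e he Θ h1 h2 h3)
    · exact (ENNReal.ofReal_le_ofReal (min_le_right _ _)).trans (h' e he Θ h1 h2 h3)
  · intro e he
    obtain ⟨κ, h0, h⟩ := AcAbs_pt μ hP e (hs e he) hθ
    exact ⟨_, mem_nhdsWithin_of_mem_nhds h, κ, h0, fun e' he' Θ h1 _ h3 => he' Θ h1 h3⟩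

end Vale.Agent.P188
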