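import Vale.Agent.P188.Stmt

/-! Linear images of subsets of symmetric convex bodies. -/

namespace Vale.Agent.P188

open MeasureTheory

theorem acPush_half {G : Type} [NormedAddCommGroup G] [NormedSpace ℝ G] [FiniteDimensional ℝ G]
    [MeasurableSpace G] [BorelSpace G] (l : Measure G) [l.IsAddHaarMeasure] (a : G) {S T : Set G}
    (h : ∀ g ∈ S, (1 / 2 : ℝ) • (g + a) ∈ T) : l S ≤ 2 ^ Module.finrank ℝ G * l T := by
  have h1 : S ⊆ (fun g => g + a) ⁻¹' ((fun g => (1 / 2 : ℝ) • g) ⁻¹' T) := h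
  refine (measure_mono h1).trans_eq ?_
  rw [measure_preimage_add_right, Measure.addHaar_preimage_smul l (by norm_num), one_div, inv_pow,
    inv_inv, abs_of_nonneg (by positivity), ENNReal.ofReal_pow zero_le_two, ENNReal.ofReal_ofNat]

theorem acPush_prod {F G : Type} [NormedAddCommGroup F] [NormedSpace ℝ F] [FiniteDimensional ℝ F]
    [MeasurableSpace F] [BorelSpace F] (ν : Measure F) [ν.IsAddHaarMeasure]
    [NormedAddCommGroup G] [NormedSpace ℝ G] [FiniteDimensional ℝ G] [MeasurableSpace G]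
    [BorelSpace G] (l : Measure G) [l.IsAddHaarMeasure] {Z B : Set (F × G)} (hZ : IsCompact Z)
    (hc : Convex ℝ Z) (hs : ∀ v ∈ Z, -v ∈ Z) (hB : B ⊆ Z) :
    ν.prod l B * ν (Prod.fst '' Z) ≤
      4 ^ (Module.finrank ℝ F + Module.finrank ℝ G) * (ν.prod l Z * ν (Prod.fst '' B)) := by
  have hm : MeasurableSet Z := hZ.isClosed.measurableSet
  have mid : ∀ x ∈ Z, ∀ y ∈ Z, (1 / 2 : ℝ) • (x + y) ∈ Z := fun x hx y hy => by
    rw [smul_add]
    exact hc hx hy (by norm_num) (by norm_num) (by norm_num)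
  set n := Module.finrank ℝ F
  set k := Module.finrank ℝ G
  set Z0 : Set G := Prod.mk 0 ⁻¹' Z with hZ0
  have f1 : ∀ v, l (Prod.mk v ⁻¹' Z) ≤ 2 ^ k * l Z0 := fun v => by
    rcases (Prod.mk v ⁻¹' Z).eq_empty_or_nonempty with e | ⟨a, ha⟩
    · rw [e, measure_empty]
      exact bot_le
    refine acPush_half l (-a) fun g hg => ?_
    have h1 := mid _ hg _ (hs _ ha)
    simpa [hZ0] using h1
  have u1 : ν.prod l B ≤ 2 ^ k * l Z0 * ν (Prod.fst '' B) := by
    set T := toMeasurable ν (Prod.fst '' B)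
    have hT : MeasurableSet T := measurableSet_toMeasurable _ _
    have h1 : B ⊆ Z ∩ Prod.fst ⁻¹' T := fun x hx =>
      ⟨hB hx, subset_toMeasurable _ _ (Set.mem_image_of_mem _ hx)⟩
    refine (measure_mono h1).trans ?_
    rw [Measure.prod_apply (hm.inter (measurable_fst hT)), ← measure_toMeasurable (Prod.fst '' B),
      ← lintegral_indicator_const hT]
    refine lintegral_mono fun v => ?_
    by_cases hv : v ∈ T
    · rw [Set.indicator_of_mem hv]
      exact (measure_mono fun g hg => hg.1).trans (f1 v)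
    · rw [Set.indicator_of_notMem hv]
      have e : Prod.mk v ⁻¹' (Z ∩ Prod.fst ⁻¹' T) = ∅ :=
        Set.eq_empty_of_forall_notMem fun g hg => hv hg.2
      simp only [e, measure_empty, le_refl]
  set H : Set F := (fun v => (2 : ℝ) • v) ⁻¹' (Prod.fst '' Z) with hH
  have mH : MeasurableSet H :=
    ((hZ.image continuous_fst).isClosed.preimage (continuous_const_smul _)).measurableSet
  have u2 : ν (Prod.fst '' Z) ≤ 2 ^ n * ν H := acPush_half ν 0 fun w hw => by
    simpa [hH, smul_smul] using hw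
  have u3 : l Z0 * ν H ≤ 2 ^ k * ν.prod l Z := by
    rw [Measure.prod_apply hm, ← lintegral_indicator_const mH,
      ← lintegral_const_mul _ (measurable_measure_prodMk_left hm)]
    refine lintegral_mono fun v => ?_
    by_cases hv : v ∈ H
    · rw [Set.indicator_of_mem hv]
      obtain ⟨x, hx, e⟩ := hv
      refine acPush_half l x.2 fun g hg => ?_
      have h1 := mid _ hg _ hx
      have e1 : (1 / 2 : ℝ) • (((0 : F), g) + x) = (v, (1 / 2 : ℝ) • (g + x.2)) := by
        refine Prod.ext ?_ rfl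
        simp only [Prod.smul_fst, Prod.fst_add, zero_add, e, smul_smul]
        norm_num
      rwa [e1] at h1
    · rw [Set.indicator_of_notMem hv]
      exact bot_le
  have e4 : (2 : ENNReal) ^ n * (2 ^ k * 2 ^ k) ≤ 4 ^ (n + k) := by
    rw [pow_add, ← mul_pow, show (2 : ENNReal) * 2 = 4 by norm_num]
    gcongr
    norm_num
  calc _ ≤ 2 ^ k * l Z0 * ν (Prod.fst '' B) * (2 ^ n * ν H) := mul_le_mul' u1 u2
    _ = 2 ^ n * 2 ^ k * ν (Prod.fst '' B) * (l Z0 * ν H) := by ring
    _ ≤ 2 ^ n * 2 ^ k * ν (Prod.fst '' B) * (2 ^ k * ν.prod l Z) := mul_le_mul' le_rfl u3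
    _ = 2 ^ n * (2 ^ k * 2 ^ k) * (ν.prod l Z * ν (Prod.fst '' B)) := by ring
    _ ≤ _ := mul_le_mul' e4 le_rfl

theorem ac_push {E F : Type} [NormedAddCommGroup E] [NormedSpace ℝ E] [FiniteDimensional ℝ E]
    [MeasurableSpace E] [BorelSpace E] (μ : Measure E) [μ.IsAddHaarMeasure]
    [NormedAddCommGroup F] [NormedSpace ℝ F] [FiniteDimensional ℝ F] [MeasurableSpace F]
    [BorelSpace F] (ν : Measure F) [ν.IsAddHaarMeasure] (φ : E →ₗ[ℝ] F)
    (hφ : Function.Surjective φ) {Z B : Set E} (hZ : IsCompact Z) (hc : Convex ℝ Z)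
    (hs : ∀ v ∈ Z, -v ∈ Z) (hB : B ⊆ Z) :
    μ B * ν (φ '' Z) ≤ 4 ^ Module.finrank ℝ E * (μ Z * ν (φ '' B)) := by
  obtain ⟨q, hq⟩ := Submodule.exists_isCompl (LinearMap.ker φ)
  obtain ⟨e, he⟩ : ∃ e : E ≃L[ℝ] F × LinearMap.ker φ, ∀ x, (e x).1 = φ x :=
    ⟨(LinearMap.equivProdOfSurjectiveOfIsCompl φ ((LinearMap.ker φ).projectionOnto q hq)
      (LinearMap.range_eq_top.2 hφ) (Submodule.range_projectionOnto hq)
      (by rw [Submodule.ker_projectionOnto]; exact hq)).toContinuousLinearEquiv, fun _ => rfl⟩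
  borelize (↥(LinearMap.ker φ))
  let l : Measure (LinearMap.ker φ) := Measure.addHaar
  have h1 := Measure.isAddLeftInvariant_eq_smul (μ.map e) (ν.prod l)
  set c := Measure.addHaarScalarFactor (μ.map e) (ν.prod l)
  have h2 : ∀ S : Set E, μ S = c * ν.prod l (e '' S) := fun S => by
    have h3 := e.toHomeomorph.toMeasurableEquiv.map_apply (μ := μ) (e '' S)
    have h4 : μ.map e (e '' S) = μ (e ⁻¹' (e '' S)) := h3
    rw [e.injective.preimage_image, h1] at h4
    rw [← h4]
    rfl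
  have h5 : ∀ S : Set E, φ '' S = Prod.fst '' (e '' S) := fun S => by
    rw [Set.image_image]
    exact Set.image_congr fun x _ => (he x).symm
  have h7 : Convex ℝ (e '' Z) := hc.linear_image e.toLinearEquiv.toLinearMap
  have h6 := acPush_prod ν l (hZ.image e.continuous) h7
    (by
      rintro _ ⟨v, hv, rfl⟩
      exact ⟨-v, hs v hv, map_neg e v⟩) (Set.image_mono hB)
  rw [← Module.finrank_prod, ← e.toLinearEquiv.finrank_eq] at h6
  rw [h2 B, h2 Z, h5 B, h5 Z]
  calc _ = c * (ν.prod l (e '' B) * ν (Prod.fst '' (e '' Z))) := mul_assoc _ _ _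
    _ ≤ c * (4 ^ Module.finrank ℝ E * (ν.prod l (e '' Z) * ν (Prod.fst '' (e '' B)))) :=
      mul_le_mul' le_rfl h6
    _ = _ := by ring

end Vale.Agent.P188
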