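import Vale.Agent.P188.BoxD

/-! The free nilpotent model. -/

namespace Vale.Agent.P188.Mdl

section alg

variable {ι A : Type} [Ring A] [Algebra ℝ A]

/-- iterated commutators in an algebra -/
def freeCm (g : ι → A) : List ι → A
  | [] => 0
  | [i] => g i
  | i :: j :: l => g i * freeCm g (j :: l) - freeCm g (j :: l) * g i

/-- the span of the nonempty words of length at least `k` -/
def freeJ (g : ι → A) (k : ℕ) : Submodule ℝ A :=
  Submodule.span ℝ {a | ∃ l : List ι, l ≠ [] ∧ k ≤ l.length ∧ a = (l.map g).prod}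

/-- the span of the iterated commutators -/
def freeL (g : ι → A) : Submodule ℝ A := Submodule.span ℝ (Set.range (freeCm g))

theorem freeJ_mul (g : ι → A) (j k : ℕ) (x y : A) (hx : x ∈ freeJ g j) (hy : y ∈ freeJ g k) :
    x * y ∈ freeJ g (j + k) := by
  have h := Submodule.mul_mem_mul hx hy
  rw [freeJ, freeJ, Submodule.span_mul_span] at h
  refine Submodule.span_mono ?_ h
  rintro _ ⟨_, ⟨l, h1, h2, rfl⟩, _, ⟨l', -, h4, rfl⟩, rfl⟩
  refine ⟨l ++ l', by simp [h1], by simpa using add_le_add h2 h4, ?_⟩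
  simp only [List.map_append, List.prod_append]

theorem freeJ_anti (g : ι → A) (k : ℕ) : freeJ g (k + 1) ≤ freeJ g k :=
  Submodule.span_mono fun _ ⟨l, h1, h2, h3⟩ => ⟨l, h1, by omega, h3⟩

/-- the filtration by word length -/
def freeF (g : ι → A) (d : ℕ) (hz : ∀ l : List ι, l ≠ [] → d ≤ l.length → (l.map g).prod = 0) :
    Filt A where
  d := d
  J := freeJ g
  anti := freeJ_anti g
  mul := freeJ_mul g
  bot := by
    rw [freeJ, Submodule.span_eq_bot]
    rintro _ ⟨l, h1, h2, rfl⟩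
    exact hz l h1 h2

theorem free_g_mem (g : ι → A) (i : ι) : g i ∈ freeJ g 1 :=
  Submodule.subset_span ⟨[i], by simp, by simp, by simp⟩

theorem free_cm_mem (g : ι → A) : ∀ l : List ι, freeCm g l ∈ freeJ g 1
  | [] => zero_mem _
  | [i] => free_g_mem g i
  | i :: j :: l => sub_mem
      (freeJ_anti g 1 (freeJ_mul g 1 1 _ _ (free_g_mem g i) (free_cm_mem g (j :: l))))
      (freeJ_anti g 1 (freeJ_mul g 1 1 _ _ (free_cm_mem g (j :: l)) (free_g_mem g i)))

theorem freeL_le (g : ι → A) : freeL g ≤ freeJ g 1 := by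
  rw [freeL, Submodule.span_le]
  rintro _ ⟨l, rfl⟩
  exact free_cm_mem g l

theorem free_br_of (g : ι → A) {u : A} (h : ∀ l, u * freeCm g l - freeCm g l * u ∈ freeL g) :
    ∀ v ∈ freeL g, u * v - v * u ∈ freeL g := by
  intro v hv
  induction hv using Submodule.span_induction with
  | mem v hv =>
    obtain ⟨l, rfl⟩ := hv
    exact h l
  | zero => simp
  | add v w _ _ hv hw =>
    have e : u * (v + w) - (v + w) * u = (u * v - v * u) + (u * w - w * u) := by noncomm_ring
    rw [e]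
    exact add_mem hv hw
  | smul r v _ hv =>
    rw [mul_smul_comm, smul_mul_assoc, ← smul_sub]
    exact Submodule.smul_mem _ _ hv

theorem free_br_g (g : ι → A) (i : ι) : ∀ v ∈ freeL g, g i * v - v * g i ∈ freeL g := by
  refine free_br_of g fun l => ?_
  rcases l with _ | ⟨j, l⟩
  · simp [freeCm]
  · exact Submodule.subset_span ⟨i :: j :: l, rfl⟩

theorem free_br_cm (g : ι → A) : ∀ l : List ι, ∀ v ∈ freeL g,
    freeCm g l * v - v * freeCm g l ∈ freeL g
  | [], v, _ => by simp [freeCm]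
  | [i], v, hv => free_br_g g i v hv
  | i :: j :: l, v, hv => by
    have h1 := free_br_g g i _ (free_br_cm g (j :: l) v hv)
    have h2 := free_br_cm g (j :: l) _ (free_br_g g i v hv)
    have h3 := sub_mem h1 h2
    rw [freeCm]
    generalize freeCm g (j :: l) = c at h3 ⊢
    have e : (g i * c - c * g i) * v - v * (g i * c - c * g i) =
        g i * (c * v - v * c) - (c * v - v * c) * g i -
          (c * (g i * v - v * g i) - (g i * v - v * g i) * c) := by noncomm_ring
    rw [e]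
    exact h3

theorem free_lie (g : ι → A) : ∀ u ∈ freeL g, ∀ v ∈ freeL g, u * v - v * u ∈ freeL g := by
  intro u hu
  refine free_br_of g fun l => ?_
  rw [← neg_sub]
  exact neg_mem (free_br_cm g l u hu)

theorem free_map_cm {B : Type} [Ring B] [Algebra ℝ B] (ψ : A →ₐ[ℝ] B) (g : ι → A) :
    ∀ l : List ι, ψ (freeCm g l) = freeCm (fun i => ψ (g i)) l
  | [] => map_zero ψ
  | [_] => rfl
  | i :: j :: l => by
    rw [freeCm, freeCm, map_sub, map_mul, map_mul, free_map_cm ψ g (j :: l)]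

end alg

theorem free_em_yw {ι : Type} {M : Mdl} (x : ι → M.V) :
    ∀ l : List ι, M.em (yw x l) = freeCm (fun i => M.em (x i)) l
  | [] => map_zero _
  | [_] => rfl
  | i :: j :: l => by rw [yw, freeCm, em_br, free_em_yw x (j :: l)]

theorem free_prod {ι : Type} {M : Mdl} (x : ι → M.V) (l : List ι) (h1 : l ≠ [])
    (h2 : M.F.d ≤ l.length) : (l.map fun i => M.em (x i)).prod = 0 := by
  have h : ∀ (l : List ι) (i : ι),
      ((i :: l).map fun i => M.em (x i)).prod ∈ M.F.J (l.length + 1) := by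
    intro l
    induction l with
    | nil => exact fun i => by simpa using em_mem (x i)
    | cons j l ih =>
      intro i
      rw [List.map_cons, List.prod_cons, List.length_cons, add_comm _ 1]
      exact M.F.mul _ _ _ _ (em_mem (x i)) (ih j)
  obtain ⟨i, l, rfl⟩ := List.exists_cons_of_ne_nil h1
  have h3 : M.F.J (l.length + 1) ≤ M.F.J M.F.d := antitone_nat_of_succ_le M.F.anti h2
  have h4 := h3 (h l i)
  rwa [M.F.bot, Submodule.mem_bot] at h4

/-- the model attached to a Lie subalgebra, with trivial weights -/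
noncomputable def freeM {A : Type} [NormedRing A] [NormedAlgebra ℝ A] [FiniteDimensional ℝ A]
    (F : Filt A) (L : Submodule ℝ A) (h1 : L ≤ F.J 1)
    (h2 : ∀ u ∈ L, ∀ v ∈ L, u * v - v * u ∈ L) : Mdl where
  A := A
  F := F
  N := Module.finrank ℝ L
  k := 0
  e := L.subtype ∘ₗ (Module.finBasis ℝ L).equivFun.symm.toLinearMap
  inj := L.injective_subtype.comp (Module.finBasis ℝ L).equivFun.symm.injective
  mem x := h1 ((Module.finBasis ℝ L).equivFun.symm x).2
  lie x y := ⟨(Module.finBasis ℝ L).equivFun ⟨_, h2 _ ((Module.finBasis ℝ L).equivFun.symm x).2 _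
    ((Module.finBasis ℝ L).equivFun.symm y).2⟩, by
      simp only [LinearMap.comp_apply, LinearEquiv.coe_coe, LinearEquiv.symm_apply_apply,
        Submodule.subtype_apply]⟩
  w _ := 0
  D _ := AlgHom.id ℝ A
  D_e a x := by simp
  t := 0
  t_surj a := ⟨0, Subsingleton.elim _ _⟩
  t_lie _ _ _ _ := rfl
  t_w _ _ := rfl
  uni := by simp
  eff a _ := Subsingleton.elim _ _

theorem free_core (d : ℕ) (ι : Type) (R : Mdl) (g : ι → R.A) (hd : R.F.d = d)
    (hr : LinearMap.range R.em = freeL g)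
    (hu : ∀ (M : Mdl) (x : ι → M.V), M.F.d = d → ∃ ψ : R.A →ₐ[ℝ] M.A, ∀ i, ψ (g i) = M.em (x i)) :
    ∃ X : ι → R.V, Submodule.span ℝ (Set.range (yw X)) = ⊤ ∧
      ∀ (M : Mdl) (x : ι → M.V), M.F.d = d → ∃ φ : R.V →ₗ[ℝ] M.V, (∀ i, φ (X i) = x i) ∧
        (∀ u v, φ (R.br u v) = M.br (φ u) (φ v)) ∧ ∀ u v, φ (R.st u v) = M.st (φ u) (φ v) := by
  have h1 : ∀ i, ∃ z, R.em z = g i := fun i => by
    have h : g i ∈ freeL g := Submodule.subset_span ⟨[i], rfl⟩
    rwa [← hr] at h
  choose X hX using h1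
  have h2 : ∀ l, R.em (yw X l) = freeCm g l := fun l => by
    rw [free_em_yw]
    simp only [hX]
  refine ⟨X, ?_, fun M x hM => ?_⟩
  · refine Submodule.map_injective_of_injective (em_inj (M := R)) ?_
    rw [Submodule.map_top, hr, Submodule.map_span, ← Set.range_comp, freeL]
    congr 2
    exact funext h2
  · obtain ⟨ψ, hψ⟩ := hu M x hM
    have h3 : ∀ a ∈ freeL g, ψ a ∈ LinearMap.range M.em := by
      intro a ha
      refine Submodule.span_le.2 (?_ : _ ⊆ (((LinearMap.range M.em).comap ψ.toLinearMap :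
        Submodule ℝ R.A) : Set R.A)) ha
      rintro _ ⟨l, rfl⟩
      refine ⟨yw x l, ?_⟩
      rw [free_em_yw, AlgHom.toLinearMap_apply, free_map_cm]
      simp only [hψ]
    have h4 : ∀ u, M.em ((M.p ∘ₗ ψ.toLinearMap ∘ₗ R.em) u) = ψ (R.em u) := fun u => by
      obtain ⟨z, hz⟩ := h3 (R.em u) (hr ▸ LinearMap.mem_range_self _ u)
      simp only [LinearMap.comp_apply, AlgHom.toLinearMap_apply]
      rw [← hz, p_em]
    refine ⟨M.p ∘ₗ ψ.toLinearMap ∘ₗ R.em, fun i => em_inj ?_, fun u v => em_inj ?_,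
      fun u v => em_inj ?_⟩
    · rw [h4, hX, hψ]
    · rw [h4, em_br, em_br, h4, h4, map_sub, map_mul, map_mul]
    · rw [h4, em_st, em_st, h4, h4, map_bch, hd, hM]

/-- the relation that kills long words -/
def freeRel (ι : Type) (d : ℕ) (a b : FreeAlgebra ℝ ι) : Prop :=
  (∃ l : List ι, l ≠ [] ∧ d ≤ l.length ∧ a = (l.map (FreeAlgebra.ι ℝ)).prod) ∧ b = 0

/-- the generators of the truncated free algebra -/
noncomputable def freeG (ι : Type) (d : ℕ) (i : ι) : RingQuot (freeRel ι d) :=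
  RingQuot.mkAlgHom ℝ (freeRel ι d) (FreeAlgebra.ι ℝ i)

theorem freeG_zero {ι : Type} {d : ℕ} (l : List ι) (h1 : l ≠ []) (h2 : d ≤ l.length) :
    (l.map (freeG ι d)).prod = 0 := by
  have h := RingQuot.mkAlgHom_rel ℝ (s := freeRel ι d) ⟨⟨l, h1, h2, rfl⟩, rfl⟩
  rwa [map_zero, map_list_prod, List.map_map] at h

theorem free_fd (ι : Type) [Finite ι] (d : ℕ) : FiniteDimensional ℝ (RingQuot (freeRel ι d)) := by
  let P : Submodule ℝ (RingQuot (freeRel ι d)) :=
    Submodule.span ℝ (Set.range fun l : List ι => (l.map (freeG ι d)).prod)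
  have h1 : ∀ a, RingQuot.mkAlgHom ℝ (freeRel ι d) a ∈ P := by
    intro a
    induction a using FreeAlgebra.induction with
    | grade0 r =>
      rw [AlgHom.commutes, Algebra.algebraMap_eq_smul_one]
      exact P.smul_mem _ (Submodule.subset_span ⟨[], rfl⟩)
    | grade1 i => exact Submodule.subset_span ⟨[i], by simp [freeG]⟩
    | mul a b ha hb =>
      rw [map_mul]
      have h := Submodule.mul_mem_mul ha hb
      rw [Submodule.span_mul_span] at h
      refine Submodule.span_mono ?_ h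
      rintro _ ⟨_, ⟨l, rfl⟩, _, ⟨l', rfl⟩, rfl⟩
      exact ⟨l ++ l', by simp only [List.map_append, List.prod_append]⟩
    | add a b ha hb =>
      rw [map_add]
      exact add_mem ha hb
  refine ⟨Submodule.fg_def.2 ⟨(fun l : List ι => (l.map (freeG ι d)).prod) '' {l | l.length ≤ d},
    (List.finite_length_le ι d).image _, eq_top_iff.2 fun a _ => ?_⟩⟩
  obtain ⟨a, rfl⟩ := RingQuot.mkAlgHom_surjective ℝ (freeRel ι d) a
  refine Submodule.span_le.2 ?_ (h1 a)
  rintro _ ⟨l, rfl⟩
  by_cases h : l.length ≤ d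
  · exact Submodule.subset_span ⟨l, h, rfl⟩
  · have h2 : (l.map (freeG ι d)).prod = 0 :=
      freeG_zero l (by rintro rfl; exact h (Nat.zero_le _)) (by omega)
    simp only [h2, SetLike.mem_coe]
    exact zero_mem _

theorem free_univ {ι : Type} {d : ℕ} (M : Mdl) (x : ι → M.V) (hM : M.F.d = d) :
    ∃ ψ : RingQuot (freeRel ι d) →ₐ[ℝ] M.A, ∀ i, ψ (freeG ι d i) = M.em (x i) := by
  refine ⟨RingQuot.liftAlgHom ℝ ⟨FreeAlgebra.lift ℝ fun i => M.em (x i), ?_⟩, fun i => ?_⟩
  · rintro _ _ ⟨⟨l, h1, h2, rfl⟩, rfl⟩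
    rw [map_zero, map_list_prod, List.map_map, ← free_prod x l h1 (hM ▸ h2)]
    congr 2
    exact funext fun i => FreeAlgebra.lift_ι_apply _ i
  · rw [freeG, RingQuot.liftAlgHom_mkAlgHom_apply, FreeAlgebra.lift_ι_apply]

theorem exists_free (d : ℕ) (ι : Type) [Finite ι] : ∃ (R : Mdl) (X : ι → R.V), R.F.d = d ∧
    Submodule.span ℝ (Set.range (yw X)) = ⊤ ∧ ∀ (M : Mdl) (x : ι → M.V), M.F.d = d →
      ∃ φ : R.V →ₗ[ℝ] M.V, (∀ i, φ (X i) = x i) ∧ (∀ u v, φ (R.br u v) = M.br (φ u) (φ v)) ∧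
        ∀ u v, φ (R.st u v) = M.st (φ u) (φ v) := by
  have := free_fd ι d
  let b := Module.finBasis ℝ (RingQuot (freeRel ι d))
  let _ : NormedRing (Matrix (Fin (Module.finrank ℝ (RingQuot (freeRel ι d))))
    (Fin (Module.finrank ℝ (RingQuot (freeRel ι d)))) ℝ) := Matrix.linftyOpNormedRing
  let _ : NormedAlgebra ℝ (Matrix (Fin (Module.finrank ℝ (RingQuot (freeRel ι d))))
    (Fin (Module.finrank ℝ (RingQuot (freeRel ι d)))) ℝ) := Matrix.linftyOpNormedAlgebra
  let _ : NormedRing (RingQuot (freeRel ι d)) :=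
    NormedRing.induced _ _ (Algebra.leftMulMatrix b) (Algebra.leftMulMatrix_injective b)
  let _ : NormedAlgebra ℝ (RingQuot (freeRel ι d)) :=
    NormedAlgebra.induced ℝ _ _ (Algebra.leftMulMatrix b)
  obtain ⟨X, h1, h2⟩ := free_core d ι (freeM (freeF (freeG ι d) d freeG_zero) (freeL (freeG ι d))
    (freeL_le _) (free_lie _)) (freeG ι d) rfl
    ((LinearMap.range_comp_of_range_eq_top _ (LinearEquiv.range _)).trans
      (Submodule.range_subtype _)) free_univ
  exact ⟨_, X, rfl, h1, h2⟩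

end Vale.Agent.P188.Mdl
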