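import Vale.Agent.P188.BoxA
import Vale.Agent.P188.Free

/-! The ideal spanned by the words with a letter outside a set. -/

namespace Vale.Agent.P188.Mdl

variable {M : Mdl} {ι : Type} [Finite ι] {x : ι → M.V} {P : ι → Prop}

/-- the bracket with a fixed vector as a linear map -/
noncomputable def BoxI_brL (u : M.V) : M.V →ₗ[ℝ] M.V where
  toFun := M.br u
  map_add' := br_add u
  map_smul' c y := br_smul c u y

theorem BoxI_br_zero (u : M.V) : M.br u 0 = 0 := map_zero (BoxI_brL u)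

theorem BoxI_zero_br (u : M.V) : M.br 0 u = 0 := by rw [br_swap, BoxI_br_zero, neg_zero]

omit [Finite ι] in
theorem BoxI_cons (x : ι → M.V) (i : ι) {l : List ι} (h : l ≠ []) :
    M.br (x i) (yw x l) = yw x (i :: l) := by
  obtain ⟨j, l, rfl⟩ := List.exists_cons_of_ne_nil h
  rfl

omit [Finite ι] in
theorem BoxI_br_yw (x : ι → M.V) : ∀ l l' : List ι, M.br (yw x l) (yw x l') ∈
    Submodule.span ℝ {w | ∃ m, m.Perm (l ++ l') ∧ w = yw x m}
  | [], l' => by
    rw [yw, BoxI_zero_br]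
    exact zero_mem _
  | [i], l' => by
    by_cases h : l' = []
    · subst h
      rw [yw, yw, BoxI_br_zero]
      exact zero_mem _
    · rw [yw, BoxI_cons x i h]
      exact Submodule.subset_span ⟨i :: l', List.Perm.refl _, rfl⟩
  | i :: j :: l, l' => by
    rw [yw, br_jac]
    refine sub_mem ?_ ?_
    · have h1 := BoxI_br_yw x (j :: l) l'
      have h2 : Submodule.span ℝ {w | ∃ m, m.Perm (j :: l ++ l') ∧ w = yw x m} ≤
          (Submodule.span ℝ {w | ∃ m, m.Perm (i :: j :: l ++ l') ∧ w = yw x m}).comap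
            (BoxI_brL (x i)) := by
        refine Submodule.span_le.2 ?_
        rintro _ ⟨m, hm, rfl⟩
        have hne : m ≠ [] := by
          rintro rfl
          simpa using hm.length_eq
        refine Submodule.subset_span ⟨i :: m, hm.cons i, ?_⟩
        exact BoxI_cons x i hne
      exact h2 h1
    · by_cases h : l' = []
      · subst h
        rw [yw, BoxI_br_zero, BoxI_br_zero]
        exact zero_mem _
      · rw [BoxI_cons x i h]
        refine Submodule.span_mono ?_ (BoxI_br_yw x (j :: l) (i :: l'))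
        rintro _ ⟨m, hm, rfl⟩
        exact ⟨m, hm.trans List.perm_middle, rfl⟩

/-- the bracket of two words is a combination of rearrangements -/
theorem br_yw (x : ι → M.V) (l l' : List ι) : M.br (yw x l) (yw x l') ∈
    Submodule.span ℝ {w | ∃ m, m.Perm (l ++ l') ∧ w = yw x m} := BoxI_br_yw x l l'

theorem br_mem_Id (hx : Submodule.span ℝ (Set.range (yw x)) = ⊤) (u : M.V) {v : M.V}
    (hv : v ∈ Id x P) : M.br u v ∈ Id x P := by
  have h1 : Id x P ≤ (Id x P).comap (BoxI_brL u) := by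
    refine Submodule.span_le.2 ?_
    rintro _ ⟨l', ⟨i, hi, hP⟩, rfl⟩
    have h2 : Submodule.span ℝ (Set.range (yw x)) ≤ (Id x P).comap (BoxI_brL (yw x l')) := by
      refine Submodule.span_le.2 ?_
      rintro _ ⟨l, rfl⟩
      refine Submodule.span_mono ?_ (br_yw x l' l)
      rintro _ ⟨m, hm, rfl⟩
      exact ⟨m, ⟨i, hm.mem_iff.2 (List.mem_append_left _ hi), hP⟩, rfl⟩
    have h3 : M.br (yw x l') u ∈ Id x P := h2 (hx ▸ Submodule.mem_top)
    change M.br u (yw x l') ∈ Id x P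
    rw [br_swap]
    exact neg_mem h3
  exact h1 hv

theorem IZ_sub_Id {c : ι → ℝ} {v : M.V} (hv : v ∈ IZ x P c) : v ∈ Id x P := Zon_span hv

theorem st_mem_Id (hx : Submodule.span ℝ (Set.range (yw x)) = ⊤) {u v : M.V}
    (hu : u ∈ Id x P) (hv : v ∈ Id x P) : M.st u v ∈ Id x P :=
  st_mem (Id x P) (fun u _ _ hv => br_mem_Id hx u hv) hu hv

theorem BoxI_st_neg (hx : Submodule.span ℝ (Set.range (yw x)) = ⊤) (p : M.V) {k : M.V}
    (hk : k ∈ Id x P) : M.st (k + p) (-p) ∈ Id x P := by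
  have h0 : M.br (-p) p = 0 := by
    have h := Nil_smul (-1) 1 p
    rwa [one_smul, neg_one_smul] at h
  have h1 : M.br (k + p) (-p) ∈ Id x P := by
    rw [br_swap, br_add, h0, add_zero]
    exact neg_mem (br_mem_Id hx _ hk)
  have h2 := st_sub_mem (Id x P) (fun u _ hv => br_mem_Id hx u hv) h1
  have e : M.st (k + p) (-p) = (M.st (k + p) (-p) - (k + p) - -p) + k := by abel
  rw [e]
  exact add_mem h2 hk

theorem conj_mem_Id (hx : Submodule.span ℝ (Set.range (yw x)) = ⊤) (p : M.V) {v : M.V}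
    (hv : v ∈ Id x P) : M.st (M.st p v) (-p) ∈ Id x P := by
  have h1 := st_sub_mem (Id x P) (fun u _ hv => br_mem_Id hx u hv) (br_mem_Id hx p hv)
  have e : M.st p v = (M.st p v - p - v + v) + p := by abel
  rw [e]
  exact BoxI_st_neg hx p (add_mem h1 hv)

omit [Finite ι] in
theorem BoxI_le_cw {c : ι → ℝ} (hc : ∀ i, 0 ≤ c i) {l : List ι} {i : ι} (hi : i ∈ l) :
    c i ≤ cw c l :=
  List.single_le_sum (fun y hy => by
    obtain ⟨j, -, rfl⟩ := List.mem_map.1 hy
    exact hc j) _ (List.mem_map_of_mem hi)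

theorem BoxI_absorb (x : ι → M.V) (P : ι → Prop) : ∃ C, 0 ≤ C ∧ ∀ (c : ι → ℝ) (ρ : ℝ),
    (∀ i, 0 ≤ c i) → (∀ i, ¬P i → ρ + C ≤ c i) → ∀ v ∈ Id x P, ‖v‖ ≤ Real.exp ρ →
      v ∈ IZ x P c := by
  classical
  let W : Finset (List ι) := (ws ι M.F.d).filter fun l => ∃ i ∈ l, ¬P i
  let L : (W → ℝ) →ₗ[ℝ] M.V := Fintype.linearCombination ℝ fun l : W => yw x l.1
  have hL : Id x P ≤ LinearMap.range L := by
    refine Submodule.span_le.2 ?_
    rintro _ ⟨l, hl, rfl⟩
    by_cases h : M.F.d ≤ l.length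
    · rw [yw_long x h]
      exact zero_mem _
    · have hW : l ∈ W := by
        refine Finset.mem_filter.2 ⟨?_, hl⟩
        rw [ws, Set.Finite.mem_toFinset]
        exact not_le.1 h
      refine ⟨Pi.single ⟨l, hW⟩ 1, ?_⟩
      simp only [L, Fintype.linearCombination_apply_single, one_smul]
  obtain ⟨g, hg⟩ := LinearMap.exists_rightInverse_of_surjective L.rangeRestrict
    (LinearMap.range_rangeRestrict L)
  let g' := LinearMap.toContinuousLinearMap g
  refine ⟨‖g'‖, g'.opNorm_nonneg, fun c ρ hc hρ v hv hn => ?_⟩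
  let a : W → ℝ := g ⟨v, hL hv⟩
  have ha : L a = v := congrArg Subtype.val (LinearMap.congr_fun hg ⟨v, hL hv⟩)
  have hb : ‖a‖ ≤ Real.exp (ρ + ‖g'‖) := by
    have h1 : ‖a‖ ≤ ‖g'‖ * ‖v‖ := g'.le_opNorm ⟨v, hL hv⟩
    have h2 : ‖g'‖ ≤ Real.exp ‖g'‖ := by linarith [Real.add_one_le_exp ‖g'‖]
    rw [Real.exp_add, mul_comm]
    exact h1.trans (mul_le_mul h2 hn (norm_nonneg _) (Real.exp_pos _).le)
  refine ⟨fun l => if h : l ∈ W then a ⟨l, h⟩ / Real.exp (cw c l) else 0, fun l => ?_,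
    fun l hl => ?_, ?_⟩
  · by_cases h : l ∈ W
    · obtain ⟨i, hi, hP⟩ := (Finset.mem_filter.1 h).2
      simp only [dif_pos h]
      rw [abs_div, abs_of_pos (Real.exp_pos _), div_le_one (Real.exp_pos _)]
      have h1 : |a ⟨l, h⟩| ≤ ‖a‖ := norm_le_pi_norm a ⟨l, h⟩
      exact h1.trans (hb.trans (Real.exp_le_exp.2 ((hρ i hP).trans (BoxI_le_cw hc hi))))
    · simp only [dif_neg h, abs_zero, zero_le_one]
  · have h : l ∉ W := fun h => hl (Finset.mem_filter.1 h).2
    simp only [dif_neg h]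
  · rw [← ha, ← Finset.sum_subset (Finset.filter_subset (fun l => ∃ i ∈ l, ¬P i) _)]
    · rw [← Finset.sum_coe_sort W]
      simp only [L, Fintype.linearCombination_apply]
      refine Finset.sum_congr rfl fun l _ => ?_
      simp only [dif_pos l.2]
      rw [div_mul_cancel₀ _ (Real.exp_pos _).ne']
    · intro l _ hl
      have hl' : l ∉ W := hl
      simp only [dif_neg hl', zero_mul, zero_smul]

theorem split_Bx (x : ι → M.V) (P : ι → Prop) : ∃ C, 0 ≤ C ∧ ∀ c, ∀ v ∈ Bx x c,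
    ∃ k ∈ IZ x P fun i => c i + C, ∃ p ∈ SZ x P c, v = M.st k p := by
  obtain ⟨R, X, hd, hX, hu⟩ := exists_free M.F.d ι
  obtain ⟨C, hC, habs⟩ := BoxI_absorb X P
  have hK : IsCompact ((fun q : R.V × R.V => R.st q.1 (-q.2)) ''
      (Bx X (fun _ => 0) ×ˢ SZ X P fun _ => 0)) := by
    refine (isCompact_Zon.prod isCompact_Zon).image ?_
    exact contDiff_st.continuous.comp (continuous_fst.prodMk continuous_snd.neg)
  obtain ⟨ρ, hρ⟩ := hK.isBounded.exists_norm_le
  refine ⟨|ρ| + C, add_nonneg (abs_nonneg _) hC, fun c v hv => ?_⟩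
  obtain ⟨φ, h1, h2, h3⟩ := hu M (fun i => Real.exp (c i) • x i) rfl
  have hz : ∀ Q : List ι → Prop, φ '' Zon X Q (fun _ => 0) = Zon x Q c := fun Q => by
    rw [map_Zon hd φ h1 h2]
    simp only [add_zero]
  have hv' : v ∈ φ '' Zon X (fun _ => True) (fun _ => 0) := by
    rw [hz]
    exact hv
  obtain ⟨V, hV, rfl⟩ := hv'
  obtain ⟨k, hk, p, hp, e⟩ := Bx_split P hV
  have hm : R.st V (-p) ∈ Id X P := by
    rw [e]
    exact BoxI_st_neg hX p (IZ_sub_Id hk)
  have hn : ‖R.st V (-p)‖ ≤ Real.exp |ρ| := by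
    have h4 := hρ _ ⟨(V, p), ⟨hV, hp⟩, rfl⟩
    have h5 := Real.add_one_le_exp |ρ|
    have h6 := le_abs_self ρ
    exact h4.trans (by linarith)
  have hI := habs (fun _ => |ρ| + C) |ρ| (fun _ => add_nonneg (abs_nonneg _) hC)
    (fun _ _ => le_rfl) _ hm hn
  refine ⟨φ (R.st V (-p)), ?_, φ p, ?_, ?_⟩
  · have h4 := map_Zon (P := fun l => ∃ i ∈ l, ¬P i) hd φ h1 h2 fun _ => |ρ| + C
    rw [IZ, ← h4]
    exact ⟨_, hI, rfl⟩
  · rw [SZ, ← hz]
    exact ⟨_, hp, rfl⟩
  · rw [← h3, st_assoc, neg_st, st_zero]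

theorem absorb (x : ι → M.V) (P : ι → Prop) : ∃ C, 0 ≤ C ∧ ∀ (c : ι → ℝ) (ρ : ℝ),
    (∀ i, 0 ≤ c i) → (∀ i, ¬P i → ρ + C ≤ c i) → ∀ v ∈ Id x P, ‖v‖ ≤ Real.exp ρ →
      v ∈ IZ x P c := BoxI_absorb x P

end Vale.Agent.P188.Mdl
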