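import Vale.Agent.P188.Hh
import Vale.Agent.P188.BoxI

/-! Adapted bases. -/

namespace Vale.Agent.P188.Geo

open Mdl
open scoped InnerProductSpace

variable {G : Geo} {ν : Ht G.k}

/-- joint eigenvectors -/
def AdaptE (μ : Ht G.k) (y : G.V) : Prop := ∀ a, G.dl a y = Real.exp ⟪μ, a⟫_ℝ • y

open Classical in
/-- the projection onto a weight space -/
noncomputable def AdaptP (μ : Ht G.k) : G.V →ₗ[ℝ] G.V where
  toFun x := fun i => (if G.w i = μ then 1 else 0) * x i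
  map_add' _ _ := funext fun _ => mul_add _ _ _
  map_smul' _ _ := funext fun _ => mul_left_comm _ _ _

/-- graded subspaces -/
def AdaptG (Q : Submodule ℝ G.V) : Prop := ∀ μ, ∀ v ∈ Q, AdaptP μ v ∈ Q

open Classical in
theorem AdaptP_ap (μ : Ht G.k) (x : G.V) (i : Fin G.N) :
    AdaptP μ x i = (if G.w i = μ then 1 else 0) * x i := rfl

theorem Adapt_exp {μ μ' : Ht G.k} {s : ℝ} (hs : s ≠ 0)
    (h : ∀ a, Real.exp ⟪μ, a⟫_ℝ * s = Real.exp ⟪μ', a⟫_ℝ * s) : μ = μ' :=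
  ext_inner_right ℝ fun a => Real.exp_injective (mul_right_cancel₀ hs (h a))

theorem AdaptE_P (μ : Ht G.k) (v : G.V) : AdaptE μ (AdaptP μ v) := fun a => V.ext fun i => by
  rw [dl_ap, smul_ap, AdaptP_ap]
  split_ifs with h
  · rw [h]
  · rw [zero_mul, mul_zero, mul_zero]

theorem AdaptE.eq {μ : Ht G.k} {y : G.V} (h : AdaptE μ y) : AdaptP μ y = y := V.ext fun i => by
  rw [AdaptP_ap]
  split_ifs with h1
  · rw [one_mul]
  · rw [zero_mul]
    by_contra h2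
    exact h1 (Adapt_exp (Ne.symm h2) fun a => congrFun (h a) i)

theorem AdaptE.ne {μ μ' : Ht G.k} {y : G.V} (h : AdaptE μ y) (hne : μ ≠ μ') : AdaptP μ' y = 0 :=
  V.ext fun i => by
    rw [AdaptP_ap, zero_ap]
    split_ifs with h1
    · rw [one_mul]
      by_contra h2
      exact hne ((Adapt_exp h2 fun a => congrFun (h a) i).symm.trans h1)
    · rw [zero_mul]

theorem AdaptE.mem {μ : Ht G.k} {y : G.V} (h : AdaptE μ y) {Q : Submodule ℝ G.V} (hy : y ∈ Q)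
    (μ' : Ht G.k) : AdaptP μ' y ∈ Q := by
  by_cases h1 : μ = μ'
  · rw [← h1, h.eq]
    exact hy
  · rw [h.ne h1]
    exact zero_mem _

theorem Adapt_sum (v : G.V) {Q : Submodule ℝ G.V} (h : ∀ μ, AdaptP μ v ∈ Q) : v ∈ Q := by
  classical
  have h1 : v = ∑ μ ∈ Finset.univ.image G.w, AdaptP μ v := V.ext fun i => by
    refine Eq.trans ?_ (Finset.sum_apply (M := fun _ => ℝ) i _ _).symm
    rw [Finset.sum_eq_single (G.w i)]
    · rw [AdaptP_ap, if_pos rfl, one_mul]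
    · exact fun μ _ hμ => by rw [AdaptP_ap, if_neg hμ.symm, zero_mul]
    · exact fun h2 => absurd (Finset.mem_image_of_mem _ (Finset.mem_univ i)) h2
  rw [h1]
  exact Submodule.sum_mem _ fun μ _ => h μ

theorem AdaptE_bv (j : Fin G.N) : AdaptE (G.w j) (G.bv j) := fun a => V.ext fun i => by
  rw [dl_ap, smul_ap]
  by_cases h : i = j
  · rw [h]
  · rw [show G.bv j i = 0 from Pi.single_eq_of_ne h _, mul_zero, mul_zero]

theorem AdaptE.br {μ μ' : Ht G.k} {y y' : G.V} (h : AdaptE μ y) (h' : AdaptE μ' y') :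
    AdaptE (μ + μ') (G.br y y') := fun a => by
  rw [dl_br, h, h', br_smul, BoxA_smul_br, smul_smul, inner_add_left, Real.exp_add, mul_comm]

theorem AdaptE_yw (l : List (Fin G.n)) : AdaptE (l.map G.lam).sum (yw G.x l) := fun a => by
  rw [dl_yw (lam := G.lam) dl_x]
  congr 2
  induction l with
  | nil => exact (inner_zero_left _).symm
  | cons i l ih => rw [BoxA_cw_cons, ih, List.map_cons, List.sum_cons, inner_add_left]

theorem Adapt_brP (j : Fin G.N) (μ : Ht G.k) (v : G.V) :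
    G.br (G.bv j) (AdaptP μ v) = AdaptP (G.w j + μ) (G.br (G.bv j) v) := by
  have h : ∀ i, G.br (G.bv j) (AdaptP μ (G.bv i)) = AdaptP (G.w j + μ) (G.br (G.bv j) (G.bv i)) := by
    intro i
    by_cases h1 : G.w i = μ
    · rw [← h1, (AdaptE_bv i).eq, ((AdaptE_bv j).br (AdaptE_bv i)).eq]
    · rw [(AdaptE_bv i).ne h1, ((AdaptE_bv j).br (AdaptE_bv i)).ne fun h2 => h1 (add_left_cancel h2),
        BoxI_br_zero]
  change ((BoxI_brL (G.bv j)).comp (AdaptP μ)) v =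
    ((AdaptP (G.w j + μ)).comp (BoxI_brL (G.bv j))) v
  rw [eq_sum_bv v, map_sum, map_sum]
  exact Finset.sum_congr rfl fun i _ => by
    rw [map_smul, map_smul]
    exact congrArg _ (h i)

theorem Adapt_left {Q : Submodule ℝ G.V} {v : G.V} (h : ∀ j, G.br (G.bv j) v ∈ Q) (u : G.V) :
    G.br u v ∈ Q := by
  rw [br_swap]
  refine neg_mem ?_
  change BoxI_brL v u ∈ Q
  rw [eq_sum_bv u, map_sum]
  refine Submodule.sum_mem _ fun j _ => ?_
  rw [map_smul]
  refine Submodule.smul_mem _ _ ?_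
  change G.br v (G.bv j) ∈ Q
  rw [br_swap]
  exact neg_mem (h j)

theorem AdaptG_Id (P : Fin G.n → Prop) : AdaptG (Id G.x P) := fun μ v hv => by
  have h : Id G.x P ≤ (Id G.x P).comap (AdaptP μ) := Submodule.span_le.2 (by
    rintro _ ⟨l, hl, rfl⟩
    exact (AdaptE_yw l).mem (Q := Id G.x P) (Submodule.subset_span ⟨l, hl, rfl⟩) μ)
  exact h hv

theorem Adapt_cen {Q T : Submodule ℝ G.V} (hT : ∀ u, ∀ v ∈ T, G.br u v ∈ T) (h : ¬T ≤ Q) :
    ∃ v ∈ T, v ∉ Q ∧ ∀ u, G.br u v ∈ Q := by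
  by_contra hc
  obtain ⟨v, hv, hv'⟩ := SetLike.not_le_iff_exists.1 h
  have key : ∀ n : ℕ, ∃ l : List G.V, l.length = n ∧ l.foldr G.br v ∈ T ∧ l.foldr G.br v ∉ Q := by
    intro n
    induction n with
    | zero => exact ⟨[], rfl, hv, hv'⟩
    | succ n ih =>
      obtain ⟨l, h1, h2, h3⟩ := ih
      obtain ⟨u, hu⟩ := not_forall.1 fun h4 => hc ⟨_, h2, h3, h4⟩
      exact ⟨u :: l, by rw [List.length_cons, h1], hT u _ h2, hu⟩
  obtain ⟨l, h1, -, h2⟩ := key G.F.d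
  rw [br_nil l v (by omega)] at h2
  exact h2 (zero_mem _)

theorem Adapt_eig {Q T : Submodule ℝ G.V} (hQ : AdaptG Q) (hT' : AdaptG T)
    (hT : ∀ u, ∀ v ∈ T, G.br u v ∈ T) (h : ¬T ≤ Q) :
    ∃ v ∈ T, v ∉ Q ∧ (∀ u, G.br u v ∈ Q) ∧ ∃ μ, AdaptE μ v := by
  obtain ⟨v, h1, h2, h3⟩ := Adapt_cen hT h
  obtain ⟨μ, hμ⟩ := not_forall.1 fun h4 => h2 (Adapt_sum v h4)
  refine ⟨_, hT' μ v h1, hμ, Adapt_left fun j => ?_, μ, AdaptE_P μ v⟩
  rw [Adapt_brP]
  exact hQ _ _ (h3 _)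

theorem Adapt_step {I : Submodule ℝ G.V} (hI' : AdaptG I) (hI : ∀ u, ∀ v ∈ I, G.br u v ∈ I)
    (Q : Submodule ℝ G.V) : ∃ y : G.V, ∃ μ, AdaptG Q → Q ≠ ⊤ →
      y ∉ Q ∧ (∀ u, G.br u y ∈ Q) ∧ AdaptE μ y ∧ (¬I ≤ Q → y ∈ I) := by
  by_cases hQ : AdaptG Q ∧ Q ≠ ⊤
  · by_cases h : I ≤ Q
    · obtain ⟨v, -, h1, h2, μ, h3⟩ := Adapt_eig (T := ⊤) hQ.1 (fun _ _ _ => trivial)
        (fun _ _ _ => trivial) fun h4 => hQ.2 (top_le_iff.1 h4)
      exact ⟨v, μ, fun _ _ => ⟨h1, h2, h3, fun h4 => absurd h h4⟩⟩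
    · obtain ⟨v, h0, h1, h2, μ, h3⟩ := Adapt_eig hQ.1 hI' hI h
      exact ⟨v, μ, fun _ _ => ⟨h1, h2, h3, fun _ => h0⟩⟩
  · exact ⟨0, 0, fun h1 h2 => absurd ⟨h1, h2⟩ hQ⟩

theorem Adapt_rank : Module.finrank ℝ G.V = G.N := Module.finrank_fin_fun ℝ

theorem Adapt_chain {I : Submodule ℝ G.V} (hI' : AdaptG I) (hI : ∀ u, ∀ v ∈ I, G.br u v ∈ I) :
    ∃ (y : ℕ → G.V) (μ : ℕ → Ht G.k), ∀ n ≤ G.N,
      Module.finrank ℝ (Submodule.span ℝ (y '' Set.Iio n)) = n ∧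
      (Submodule.span ℝ (y '' Set.Iio n) ≤ I ∨ I ≤ Submodule.span ℝ (y '' Set.Iio n)) ∧
      ∀ j < n, AdaptE (μ j) (y j) ∧ ∀ u, G.br u (y j) ∈ Submodule.span ℝ (y '' Set.Iio j) := by
  choose f g hf using Adapt_step hI' hI
  obtain ⟨Q, hQ0, hQs⟩ : ∃ Q : ℕ → Submodule ℝ G.V, Q 0 = ⊥ ∧ ∀ n, Q (n + 1) = Q n ⊔ ℝ ∙ f (Q n) :=
    ⟨fun n => Nat.rec ⊥ (fun _ R => R ⊔ ℝ ∙ f R) n, rfl, fun _ => rfl⟩
  have hQ : ∀ n, Submodule.span ℝ ((fun n => f (Q n)) '' Set.Iio n) = Q n := by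
    intro n
    induction n with
    | zero =>
      rw [show Set.Iio 0 = (∅ : Set ℕ) from Set.Iio_bot, Set.image_empty, Submodule.span_empty,
        hQ0]
    | succ n ih =>
      rw [show Set.Iio (n + 1) = Set.Iic n from Set.ext fun _ => Nat.lt_succ_iff, ← Set.Iio_insert,
        Set.image_insert_eq, Submodule.span_insert, ih, sup_comm, hQs]
  refine ⟨fun n => f (Q n), fun n => g (Q n), fun n hn => ?_⟩
  rw [hQ]
  simp only [hQ]
  have key : AdaptG (Q n) ∧ Module.finrank ℝ ↥(Q n) = n ∧ (Q n ≤ I ∨ I ≤ Q n) ∧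
      ∀ j < n, AdaptE (g (Q j)) (f (Q j)) ∧ ∀ u, G.br u (f (Q j)) ∈ Q j := by
    induction n with
    | zero =>
      rw [hQ0]
      refine ⟨fun μ v hv => ?_, finrank_bot ℝ G.V, Or.inl bot_le, fun j hj => by omega⟩
      rw [(Submodule.mem_bot ℝ).1 hv, map_zero]
      exact zero_mem _
    | succ n ih =>
      obtain ⟨h1, h2, h3, h4⟩ := ih (by omega)
      obtain ⟨h5, h6, h7, h8⟩ := hf (Q n) h1 fun h => by
        rw [h, finrank_top, Adapt_rank] at h2
        omega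
      rw [hQs]
      refine ⟨fun μ v hv => ?_, by rw [Submodule.finrank_sup_span_singleton h5, h2], ?_,
        fun j hj => ?_⟩
      · obtain ⟨q, hq, p, hp, rfl⟩ := Submodule.mem_sup.1 hv
        obtain ⟨c, rfl⟩ := Submodule.mem_span_singleton.1 hp
        rw [map_add, map_smul]
        exact add_mem (Submodule.mem_sup_left (h1 μ q hq)) (Submodule.smul_mem _ _
          (h7.mem (Submodule.mem_sup_right (Submodule.mem_span_singleton_self _)) μ))
      · by_cases h : I ≤ Q n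
        · exact Or.inr (h.trans le_sup_left)
        · exact Or.inl (sup_le (h3.resolve_right h)
            ((Submodule.span_singleton_le_iff_mem _ _).2 (h8 h)))
      · rcases Nat.lt_succ_iff_lt_or_eq.1 hj with hj | rfl
        · exact h4 j hj
        · exact ⟨h7, h6⟩
  exact key.2

theorem Adapt_top {μ : Ht G.k} {y : G.V} (h : AdaptE μ y) (hy : y ∉ Id G.x (G.par ν)) :
    ∃ r : ℝ, 0 ≤ r ∧ μ = r • ν := by
  by_contra hc
  have h1 : Submodule.span ℝ (Set.range (yw G.x)) ≤ (Id G.x (G.par ν)).comap (AdaptP μ) := by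
    refine Submodule.span_le.2 ?_
    rintro _ ⟨l, rfl⟩
    by_cases hl : ∃ i ∈ l, ¬G.par ν i
    · exact (AdaptE_yw l).mem (Q := Id G.x (G.par ν)) (Submodule.subset_span ⟨l, hl, rfl⟩) μ
    have h2 : ∃ r : ℝ, 0 ≤ r ∧ (l.map G.lam).sum = r • ν := by
      induction l with
      | nil => exact ⟨0, le_rfl, (zero_smul ℝ ν).symm⟩
      | cons i l ih =>
        obtain ⟨r, hr, h2⟩ := ih fun ⟨j, hj, h3⟩ => hl ⟨j, List.mem_cons_of_mem _ hj, h3⟩
        rw [List.map_cons, List.sum_cons, h2]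
        rcases not_not.1 fun h3 => hl ⟨i, List.mem_cons_self, h3⟩ with h3 | h3
        · exact ⟨r, hr, by rw [h3, zero_add]⟩
        · exact ⟨‖G.lam i‖ + r, by positivity, by rw [add_smul, ← h3, ← lam_eq]⟩
    change AdaptP μ (yw G.x l) ∈ Id G.x (G.par ν)
    rw [(AdaptE_yw l).ne fun h3 => hc (by rwa [h3] at h2)]
    exact zero_mem _
  rw [span_x] at h1
  exact hy (h.eq ▸ h1 Submodule.mem_top)

theorem exists_adapt (hν : ν ∈ G.Nn) : Nonempty (G.Adapt ν) := by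
  have _ := hν
  obtain ⟨y, μ, h⟩ := Adapt_chain (AdaptG_Id (G.par ν)) fun u v hv => br_mem_Id span_x u hv
  have him : ∀ n ≤ G.N, y '' Set.Iio (G.N - n) =
      (fun j : Fin G.N => y (G.N - (j + 1))) '' {j | n ≤ j.val} := fun n hn => by
    ext v
    constructor
    · rintro ⟨i, hi, rfl⟩
      have hi' : i < G.N - n := hi
      exact ⟨⟨G.N - (i + 1), by omega⟩, (by omega : n ≤ G.N - (i + 1)), congrArg y (by
        change G.N - (G.N - (i + 1) + 1) = i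
        omega)⟩
    · rintro ⟨j, hj, rfl⟩
      have hj' : n ≤ j.val := hj
      exact ⟨_, (by omega : G.N - (j + 1) < G.N - n), rfl⟩
  have htop : ⊤ ≤ Submodule.span ℝ (Set.range fun j : Fin G.N => y (G.N - (j + 1))) := by
    have h1 := Submodule.eq_top_of_finrank_eq ((h _ le_rfl).1.trans Adapt_rank.symm)
    rw [← Nat.sub_zero G.N, him 0 (Nat.zero_le _)] at h1
    exact h1.ge.trans (Submodule.span_mono (Set.image_subset_range _ _))
  obtain ⟨z, hz⟩ : ∃ z : Module.Basis (Fin G.N) ℝ G.V, ⇑z = fun j : Fin G.N => y (G.N - (j + 1)) :=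
    ⟨_, coe_basisOfTopLeSpanOfCardEqFinrank _ htop ((Fintype.card_fin _).trans Adapt_rank.symm)⟩
  have hmem : ∀ n ≤ G.N, ∀ v, v ∈ Submodule.span ℝ (y '' Set.Iio (G.N - n)) ↔
      ∀ i : Fin G.N, i.val < n → z.repr v i = 0 := fun n hn v => by
    rw [him n hn, ← hz, z.mem_span_image]
    exact ⟨fun h1 i hi => not_not.1 fun h2 => absurd (h1 (Finsupp.mem_support_iff.2 h2))
      (not_le.2 hi), fun h1 i hi => not_lt.1 fun h2 => Finsupp.mem_support_iff.1 hi (h1 i h2)⟩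
  have hE : ∀ j : Fin G.N, AdaptE (μ (G.N - (j + 1))) (z j) := fun j => by
    rw [hz]
    exact ((h _ le_rfl).2.2 _ (by omega)).1
  have hr : Module.finrank ℝ (Id G.x (G.par ν)) ≤ G.N := (Submodule.finrank_le _).trans Adapt_rank.le
  have hI : ∀ v, v ∈ Id G.x (G.par ν) ↔ ∀ i : Fin G.N,
      i.val < G.N - Module.finrank ℝ (Id G.x (G.par ν)) → z.repr v i = 0 := fun v => by
    rw [← hmem _ (Nat.sub_le _ _), Nat.sub_sub_self hr]
    obtain ⟨h1, h2 | h2, -⟩ := h _ hr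
    · rw [Submodule.eq_of_le_of_finrank_eq h2 h1]
    · rw [← Submodule.eq_of_le_of_finrank_eq h2 h1.symm]
  refine ⟨⟨z, fun j => μ (G.N - (j + 1)), fun a j => hE j a, fun v v' j hj i hi => ?_, _, hI,
    fun i hi => Adapt_top (hE i) fun h1 => ?_, sum_wt z _ fun a j => hE j a⟩⟩
  · have h1 : Submodule.span ℝ (y '' Set.Iio (G.N - j)) ≤
        (Submodule.span ℝ (y '' Set.Iio (G.N - (j + 1)))).comap (BoxI_brL v) := by
      refine Submodule.span_le.2 ?_
      rintro _ ⟨n, hn, rfl⟩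
      have hn' : n < G.N - j := hn
      exact Submodule.span_mono (Set.image_mono (Set.Iio_subset_Iio (by omega)))
        (((h _ le_rfl).2.2 n (by omega)).2 v)
    exact (hmem (j + 1) j.2 _).1 (h1 ((hmem j j.2.le v').2 hj)) i (Nat.lt_succ_of_le hi)
  · simpa using (hI _).1 h1 i hi

theorem Adapt_repr (A : G.Adapt ν) (a : Ht G.k) (v : G.V) (j : Fin G.N) :
    A.z.repr (G.dl a v) j = Real.exp ⟪A.u j, a⟫_ℝ * A.z.repr v j := by
  have h : (A.z.coord j).comp (G.dl a) = Real.exp ⟪A.u j, a⟫_ℝ • A.z.coord j := A.z.ext fun i => by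
    by_cases h1 : i = j
    · simp [A.dl_z, h1]
    · simp [A.dl_z, h1]
  exact LinearMap.congr_fun h v

theorem del_pos (hν : ν ∈ G.Nn) : 0 < G.del ν := by
  have hA := exists_adapt hν
  rw [del, dif_pos hA]
  generalize hA.some = A
  obtain ⟨i, hi, rfl⟩ := mem_Nn hν
  have h1 : G.x i ∉ Id G.x (G.par (G.nu i)) := fun h => by
    have h2 : Id G.x (G.par (G.nu i)) ≤ LinearMap.ker (G.τ i) := Submodule.span_le.2 (by
      rintro _ ⟨l, ⟨j, hj, hl⟩, rfl⟩
      refine τ_yw i ?_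
      rintro rfl
      exact hl (Or.inr (by rw [List.mem_singleton.1 hj])))
    exact one_ne_zero ((τ_self i).symm.trans (h2 h))
  rw [A.mem_iff] at h1
  push Not at h1
  obtain ⟨j, hj, h2⟩ := h1
  have h3 : A.u j = G.lam i := Adapt_exp h2 fun a => by
    rw [← Adapt_repr, dl_x, map_smul, Finsupp.smul_apply, smul_eq_mul]
  have h4 : ∀ r : ℝ, ⟪r • G.nu i, G.nu i⟫_ℝ = r := fun r => by
    rw [real_inner_smul_left, real_inner_self_eq_norm_sq, norm_Nn hν]
    ring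
  refine Finset.sum_pos' (fun k hk => ?_) ⟨j, Finset.mem_filter.2 ⟨Finset.mem_univ _, hj⟩, ?_⟩
  · obtain ⟨r, hr, h5⟩ := A.top k (Finset.mem_filter.1 hk).2
    rwa [h5, h4]
  · rw [h3, lam_eq i, h4]
    exact norm_pos_iff.2 hi

theorem Adapt.repr_dl (A : G.Adapt ν) (a : Ht G.k) (v : G.V) (j : Fin G.N) :
    A.z.repr (G.dl a v) j = Real.exp ⟪A.u j, a⟫_ℝ * A.z.repr v j := Adapt_repr A a v j

/-- the subspaces of the flag -/
def AdaptF (A : G.Adapt ν) (j : Fin G.N) : Submodule ℝ G.V where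
  carrier := {v | ∀ i ≤ j, A.z.repr v i = 0}
  add_mem' h h' i hi := by rw [map_add, Finsupp.add_apply, h i hi, h' i hi, add_zero]
  zero_mem' i _ := by rw [map_zero, Finsupp.zero_apply]
  smul_mem' c v h i hi := by rw [map_smul, Finsupp.smul_apply, h i hi, smul_zero]

theorem AdaptF_br (A : G.Adapt ν) (j : Fin G.N) (u : G.V) : ∀ v ∈ AdaptF A j,
    G.br u v ∈ AdaptF A j := fun v hv => A.flag u v j fun i hi => hv i hi.le

theorem AdaptF_eq {A : G.Adapt ν} {j : Fin G.N} {u v : G.V} (h : u - v ∈ AdaptF A j) :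
    ∀ i ≤ j, A.z.repr u i = A.z.repr v i := fun i hi => by
  have h1 := h i hi
  rwa [map_sub, Finsupp.sub_apply, sub_eq_zero] at h1

theorem Adapt_neg (v : G.V) : G.br (-v) v = 0 := by
  simpa using Nil_smul (-1) 1 v

theorem Adapt.st_right (A : G.Adapt ν) (v : G.V) {p : G.V} {j : Fin G.N}
    (h : ∀ i < j, A.z.repr p i = 0) : ∀ i ≤ j, A.z.repr (G.st v p - v) i = A.z.repr p i :=
  AdaptF_eq (st_sub_mem _ (AdaptF_br A j) (A.flag v p j h))

theorem Adapt.st_sub (A : G.Adapt ν) {v v' : G.V} {j : Fin G.N}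
    (h : ∀ i < j, A.z.repr (v' - v) i = 0) :
    ∀ i ≤ j, A.z.repr (G.st (-v) v') i = A.z.repr (v' - v) i := by
  have h1 : G.br (-v) v' ∈ AdaptF A j := by
    rw [← add_sub_cancel v v', br_add, Adapt_neg, zero_add]
    exact A.flag _ _ j h
  have h2 := st_sub_mem _ (AdaptF_br A j) h1
  rw [show G.st (-v) v' - -v - v' = G.st (-v) v' - (v' - v) by abel] at h2
  exact AdaptF_eq h2

theorem Adapt.conj (A : G.Adapt ν) (q : G.V) {p : G.V} {j : Fin G.N}
    (h : ∀ i < j, A.z.repr p i = 0) :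
    ∀ i ≤ j, A.z.repr (G.st (G.st q p) (-q)) i = A.z.repr p i := by
  have h1 := st_sub_mem _ (AdaptF_br A j) (A.flag q p j h)
  have h2 : G.br (G.st q p) (-q) ∈ AdaptF A j := by
    rw [br_swap, show G.st q p = q + (p + (G.st q p - q - p)) by abel, br_add, br_add, Adapt_neg,
      zero_add]
    exact neg_mem (add_mem (A.flag _ _ j h) (AdaptF_br A j _ _ h1))
  have h3 := add_mem (st_sub_mem _ (AdaptF_br A j) h2) h1
  rw [show G.st (G.st q p) (-q) - G.st q p - -q + (G.st q p - q - p) =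
    G.st (G.st q p) (-q) - p by abel] at h3
  exact AdaptF_eq h3

end Vale.Agent.P188.Geo
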