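import Vale.Agent.P188.Sig

/-! Short maps that do not decrease the exponent of stars are symmetries. -/

namespace Vale.Agent.P188.Geo

open Classical
open scoped InnerProductSpace

open Filter Topology

/-- the local hypothesis -/
def ballH (G : Geo) (Φ : Ht G.k → Ht G.k) (a : Ht G.k) (r : ℝ) : Prop :=
  (∀ b ∈ Metric.ball a r, ∀ b' ∈ Metric.ball a r, ‖Φ b - Φ b'‖ ≤ ‖b - b'‖) ∧
    ∀ b ∈ Metric.ball a r, ∀ J : Finset (Ht G.k), (∀ v ∈ J, ‖v‖ ≤ r) → ∀ β : Ht G.k → ℝ,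
      (∀ v ∈ insert 0 J, ∀ s ∈ Set.Icc (0 : ℝ) 1, ∀ ν ∈ G.Nn,
        ⟪ν, Φ (b + s • v) - Φ b⟫_ℝ ≤ β ν) → G.hJ (insert 0 J) ≤ G.h (G.cs β)

section

variable {G : Geo} {Φ : Ht G.k → Ht G.k} {a b ν : Ht G.k} {r ρ : ℝ}

theorem ball_mem {x : ℝ} (hb : b ∈ Metric.ball a r) (hν : ν ∈ G.Nn) (h0 : 0 ≤ ρ) (h1 : ρ ≤ x) :
    b + ρ • ν ∈ Metric.ball a (r + x) := by
  rw [mem_ball_iff_norm] at hb ⊢
  rw [add_sub_right_comm]
  refine (norm_add_le _ _).trans_lt (add_lt_add_of_lt_of_le hb ?_)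
  rwa [norm_smul, norm_Nn hν, mul_one, Real.norm_of_nonneg h0]

theorem ball_lip (h : ballH G Φ a (r + r)) (hb : b ∈ Metric.ball a r) (hν : ν ∈ G.Nn) {s t : ℝ}
    (h0 : 0 ≤ s) (h1 : s ≤ t) (h2 : t ≤ r) : ‖Φ (b + t • ν) - Φ (b + s • ν)‖ ≤ t - s := by
  refine (h.1 _ (ball_mem hb hν (h0.trans h1) h2) _ (ball_mem hb hν h0 (h1.trans h2))).trans ?_
  rw [add_sub_add_left_eq_sub, ← sub_smul, norm_smul, norm_Nn hν, mul_one,
    Real.norm_of_nonneg (sub_nonneg.2 h1)]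

theorem ball_one (h : ballH G Φ a (r + r)) (hb : b ∈ Metric.ball a r) (h0 : 0 < ρ) (h1 : ρ ≤ r)
    {μ : Ht G.k} (hμ : μ ∈ G.Nn) : ∃ ν ∈ G.Nn, Φ (b + ρ • ν) - Φ b = ρ • μ := by
  by_contra hn
  push Not at hn
  have hin : ∀ {μ} v, μ ∈ G.Nn → ⟪μ, v⟫_ℝ ≤ ‖v‖ := fun {μ} v hμ => by
    simpa only [norm_Nn hμ, one_mul] using real_inner_le_norm μ v
  have hl : ∀ ν ∈ G.Nn, ∀ s, 0 ≤ s → s ≤ ρ → ‖Φ (b + s • ν) - Φ b‖ ≤ s := fun ν hν s h2 h3 => by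
    simpa using ball_lip h hb hν le_rfl h2 (h3.trans h1)
  have h2 : ∀ ν ∈ G.Nn, ⟪μ, Φ (b + ρ • ν) - Φ b⟫_ℝ < ρ := by
    intro ν hν
    have h3 : ‖ρ • μ‖ = ρ := by rw [norm_smul, norm_Nn hμ, mul_one, Real.norm_of_nonneg h0.le]
    refine lt_of_le_of_ne ((hin _ hμ).trans (hl ν hν ρ h0.le le_rfl)) fun e => hn ν hν ?_
    refine eq_of_norm_le_re_inner_eq_norm_sq (𝕜 := ℝ) (h3.symm ▸ hl ν hν ρ h0.le le_rfl) ?_
    rw [h3, inner_smul_right, real_inner_comm, e, RCLike.re_to_real, sq]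
  obtain ⟨m, hm, hm0, hm1⟩ : ∃ m, m < ρ ∧ 0 ≤ m ∧
      ∀ ν ∈ G.Nn, ⟪μ, Φ (b + ρ • ν) - Φ b⟫_ℝ ≤ m := by
    have h3 : ∀ᶠ m in 𝓝[<] ρ, ∀ ν ∈ G.Nn, ⟪μ, Φ (b + ρ • ν) - Φ b⟫_ℝ ≤ m :=
      (eventually_all_finset _).2 fun ν hν => nhdsWithin_le_nhds (eventually_ge_nhds (h2 ν hν))
    have h4 : ∀ᶠ m in 𝓝[<] ρ, 0 ≤ m := nhdsWithin_le_nhds (eventually_ge_nhds h0)
    obtain ⟨m, h5, h6, h7⟩ := (h4.and (h3.and self_mem_nhdsWithin)).exists
    exact ⟨m, h7, h5, h6⟩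
  have h3 := h.2 b (Metric.ball_subset_ball (by linarith) hb) (G.Nn.image (ρ • ·)) (by
    intro v hv
    obtain ⟨ν, hν, rfl⟩ := Finset.mem_image.1 hv
    rw [norm_smul, norm_Nn hν, mul_one, Real.norm_of_nonneg h0.le]
    linarith) (fun ν => if ν = μ then (ρ + m) / 2 else ρ) (by
    intro v hv s hs ν hν
    rcases Finset.mem_insert.1 hv with rfl | hv
    · simp only [smul_zero, add_zero, sub_self, inner_zero_right]
      split_ifs <;> linarith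
    obtain ⟨ν', hν', rfl⟩ := Finset.mem_image.1 hv
    have h4 : 0 ≤ s * ρ := mul_nonneg hs.1 h0.le
    have h5 : s * ρ ≤ ρ := mul_le_of_le_one_left h0.le hs.2
    have h6 := (hin _ hν).trans (hl ν' hν' _ h4 h5)
    rw [smul_smul]
    split_ifs with e
    · subst e
      have h7 := (hin (Φ (b + (s * ρ) • ν') - Φ (b + ρ • ν')) hν).trans
        ((norm_sub_rev _ _).trans_le (ball_lip h hb hν' h4 h5 h1))
      have h8 := hm1 ν' hν'
      rw [inner_sub_right] at h6 h7 h8 ⊢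
      linarith
    · linarith)
  have h4 : G.h (G.cs fun _ => ρ) ≤ G.hJ (insert 0 (G.Nn.image (ρ • ·))) :=
    le_hJ fun ν hν => ⟨ρ • ν, Finset.mem_insert_of_mem (Finset.mem_image_of_mem _ hν), by
      rw [inner_smul_right, real_inner_self_eq_norm_sq, norm_Nn hν, one_pow, mul_one]⟩
  obtain ⟨i, hi, rfl⟩ := mem_Nn hμ
  have h5 := h_strict (cs_mono (γ := fun ν => if ν = G.nu i then (ρ + m) / 2 else ρ)
    (γ' := fun _ => ρ) fun ν _ => by split_ifs <;> linarith) i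
  simp only [cs, if_true] at h5
  have h6 := mul_pos (norm_pos_iff.2 hi) (sub_pos.2 hm)
  change G.h (G.cs fun ν => if ν = G.nu i then (ρ + m) / 2 else ρ) + _ ≤
    G.h (G.cs fun _ => ρ) at h5
  linarith

theorem ball_two (h : ballH G Φ a (r + r)) (hb : b ∈ Metric.ball a r) (h0 : 0 < ρ) (h1 : ρ ≤ r)
    (hν : ν ∈ G.Nn) : ρ⁻¹ • (Φ (b + ρ • ν) - Φ b) ∈ G.Nn := by
  choose! g hg hg' using fun μ (hμ : μ ∈ G.Nn) => ball_one h hb h0 h1 hμ
  have h2 : Set.BijOn g G.Nn G.Nn := (G.Nn.finite_toSet.injOn_iff_bijOn_of_mapsTo hg).1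
    fun μ hμ μ' hμ' e => smul_right_injective _ h0.ne' ((hg' μ hμ).symm.trans (e ▸ hg' μ' hμ'))
  obtain ⟨μ, hμ, rfl⟩ := h2.surjOn hν
  rwa [hg' μ hμ, inv_smul_smul₀ h0.ne']

theorem ball_three (h : ballH G Φ a (r + r)) (hr : 0 < r) : ∃ π : Ht G.k → Ht G.k, ∀ ν ∈ G.Nn,
    π ν ∈ G.Nn ∧ ∀ b ∈ Metric.ball a r, ∀ ρ, 0 ≤ ρ → ρ ≤ r → Φ (b + ρ • ν) = Φ b + ρ • π ν := by
  refine ⟨fun ν => r⁻¹ • (Φ (a + r • ν) - Φ a), fun ν hν =>
    ⟨ball_two h (Metric.mem_ball_self hr) hr le_rfl hν, fun b hb ρ h0 h1 => ?_⟩⟩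
  rcases h0.eq_or_lt with rfl | h0
  · simp
  have hc : ContinuousOn Φ (Metric.ball a (r + r)) :=
    (LipschitzOnWith.of_dist_le_mul (K := 1) fun x hx y hy => by
      simpa only [dist_eq_norm, NNReal.coe_one, one_mul] using h.1 x hx y hy).continuousOn
  have h2 := ((convex_ball a r).prod (convex_Ioc 0 r)).isPreconnected.constant_of_mapsTo
    G.Nn.finite_toSet.isDiscrete (f := fun q => q.2⁻¹ • (Φ (q.1 + q.2 • ν) - Φ q.1))
    ((continuousOn_snd.inv₀ fun q hq => hq.2.1.ne').smul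
      ((hc.comp (by fun_prop) fun q hq => ball_mem hq.1 hν hq.2.1.le hq.2.2).sub
        (hc.comp continuousOn_fst fun q hq => Metric.ball_subset_ball (by linarith) hq.1)))
    (fun q hq => ball_two h hq.1 hq.2.1 hq.2.2 hν) (x := (b, ρ)) (y := (a, r)) ⟨hb, h0, h1⟩
    ⟨Metric.mem_ball_self hr, hr, le_rfl⟩
  simp only at h2 ⊢
  rw [← h2, smul_inv_smul₀ h0.ne', add_sub_cancel]

theorem ball_four {π : Ht G.k → Ht G.k} (h : ∀ ν ∈ G.Nn, ∀ b ∈ Metric.ball a (r + r), ∀ ρ, 0 ≤ ρ →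
    ρ ≤ r + r → Φ (b + ρ • ν) = Φ b + ρ • π ν) (hb : b ∈ Metric.ball a r) {s : Ht G.k → ℝ}
    (hs : ∀ ν, 0 ≤ s ν) (T : Finset (Ht G.k)) : T ⊆ G.Nn → ∑ ν ∈ T, s ν ≤ r →
      Φ (b + ∑ ν ∈ T, s ν • ν) = Φ b + ∑ ν ∈ T, s ν • π ν := by
  induction T using Finset.induction_on with
  | empty => simp
  | insert μ T hμ ih =>
    intro h1 h2
    have h3 := Finset.sum_nonneg fun ν (_ : ν ∈ T) => hs ν
    have h4 := hs μ
    have h5 : T ⊆ G.Nn := (Finset.subset_insert _ _).trans h1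
    rw [Finset.sum_insert hμ] at h2
    rw [Finset.sum_insert hμ, Finset.sum_insert hμ, add_comm (s μ • μ), add_comm (s μ • π μ),
      ← add_assoc, ← add_assoc, ← ih h5 (by linarith)]
    refine h μ (h1 (Finset.mem_insert_self _ _)) _ ?_ _ h4 (by linarith)
    rw [mem_ball_iff_norm] at hb ⊢
    rw [add_sub_right_comm]
    refine (norm_add_le _ _).trans_lt (add_lt_add_of_lt_of_le hb ((norm_sum_le _ _).trans ?_))
    refine le_trans (Finset.sum_le_sum fun ν hν => ?_) (by linarith : ∑ ν ∈ T, s ν ≤ r)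
    rw [norm_smul, norm_Nn (h5 hν), mul_one, Real.norm_of_nonneg (hs ν)]

/-- combinations of the images of the directions -/
noncomputable def ballL (G : Geo) (π : Ht G.k → Ht G.k) : (Ht G.k → ℝ) →ₗ[ℝ] Ht G.k :=
  ∑ ν ∈ G.Nn, (LinearMap.proj ν : (Ht G.k → ℝ) →ₗ[ℝ] ℝ).smulRight (π ν)

theorem ballL_apply (π : Ht G.k → Ht G.k) (s : Ht G.k → ℝ) :
    ballL G π s = ∑ ν ∈ G.Nn, s ν • π ν := by
  simp [ballL]

theorem ball_small (x : ℝ) (hr : 0 < r) : ∀ᶠ t in 𝓝[>] (0 : ℝ), 0 < t ∧ t * x < r := by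
  have h1 : Tendsto (fun t : ℝ => t * x) (𝓝 0) (𝓝 0) := by
    simpa using (continuous_mul_const x).tendsto 0
  exact eventually_mem_nhdsWithin.and (nhdsWithin_le_nhds (h1.eventually_lt_const hr))

theorem ball_five {π : Ht G.k → Ht G.k} (hr : 0 < r) (h : ∀ s : Ht G.k → ℝ, (∀ ν, 0 ≤ s ν) →
    ∑ ν ∈ G.Nn, s ν ≤ r → Φ (a + ballL G id s) = Φ a + ballL G π s) :
    ∃ A : Ht G.k →ₗ[ℝ] Ht G.k, ∀ s, A (ballL G id s) = ballL G π s := by
  have h1 : ∀ s s' : Ht G.k → ℝ, (∀ ν, 0 ≤ s ν) → (∀ ν, 0 ≤ s' ν) →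
      ballL G id s = ballL G id s' → ballL G π s = ballL G π s' := by
    intro s s' hs hs' e
    obtain ⟨t, ⟨t0, t1⟩, -, t2⟩ := ((ball_small (∑ ν ∈ G.Nn, s ν) hr).and
      (ball_small (∑ ν ∈ G.Nn, s' ν) hr)).exists
    rw [Finset.mul_sum] at t1 t2
    have e1 := h (t • s) (fun ν => mul_nonneg t0.le (hs ν)) t1.le
    have e2 := h (t • s') (fun ν => mul_nonneg t0.le (hs' ν)) t2.le
    rw [map_smul, map_smul] at e1 e2
    rw [e, e2] at e1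
    exact (smul_right_injective _ t0.ne' (add_left_cancel e1)).symm
  obtain ⟨C, -, hC⟩ := G.pos_span
  obtain ⟨g, hg⟩ := (ballL G id).exists_rightInverse_of_surjective (LinearMap.range_eq_top.2
    fun v => by
      obtain ⟨s, -, e, -⟩ := hC v
      exact ⟨s, (ballL_apply _ _).trans e.symm⟩)
  refine ⟨(ballL G π).comp g, fun s => ?_⟩
  have h2 : ballL G id (g (ballL G id s)) = ballL G id s := LinearMap.congr_fun hg _
  have h3 := h1 (g (ballL G id s) + (|g (ballL G id s)| + |s|)) (s + (|g (ballL G id s)| + |s|))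
    (fun ν => by
      have := neg_abs_le (g (ballL G id s) ν)
      have := abs_nonneg (s ν)
      simp only [Pi.add_apply, Pi.abs_apply]
      linarith) (fun ν => by
      have := neg_abs_le (s ν)
      have := abs_nonneg (g (ballL G id s) ν)
      simp only [Pi.add_apply, Pi.abs_apply]
      linarith) (by rw [map_add, map_add _ s, h2])
  rw [map_add, map_add _ s] at h3
  exact add_right_cancel h3

theorem ball_iso {A : Ht G.k →ₗ[ℝ] Ht G.k} (h1 : ∀ v, ‖A v‖ ≤ ‖v‖) (h2 : ∀ ν ∈ G.Nn, A ν ∈ G.Nn) :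
    ∃ σ : Ht G.k ≃ₗᵢ[ℝ] Ht G.k, ∀ v, σ v = A v := by
  have h3 : ∀ ν ∈ G.Nn, ∀ μ ∈ G.Nn, ⟪A ν, A μ⟫_ℝ = ⟪ν, μ⟫_ℝ := by
    intro ν hν μ hμ
    have e1 := pow_le_pow_left₀ (norm_nonneg _) (h1 (ν + μ)) 2
    have e2 := pow_le_pow_left₀ (norm_nonneg _) (h1 (ν - μ)) 2
    rw [map_add, norm_add_sq_real, norm_add_sq_real] at e1
    rw [map_sub, norm_sub_sq_real, norm_sub_sq_real] at e2
    rw [norm_Nn hν, norm_Nn hμ, norm_Nn (h2 ν hν), norm_Nn (h2 μ hμ)] at e1 e2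
    linarith
  obtain ⟨C, -, hC⟩ := G.pos_span
  refine ⟨(A.isometryOfInner fun v w => ?_).toLinearIsometryEquiv rfl, fun v => rfl⟩
  obtain ⟨s, -, rfl, -⟩ := hC v
  obtain ⟨t, -, rfl, -⟩ := hC w
  simp only [map_sum, map_smul, sum_inner, inner_sum, real_inner_smul_left, real_inner_smul_right]
  exact Finset.sum_congr rfl fun ν hν => Finset.sum_congr rfl fun μ hμ => by
    rw [h3 _ hμ _ hν]

theorem ball_loc (h : ballH G Φ a r) (hr : 0 < r) :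
    ∃ σ ∈ G.Sig, ∃ o, ∀ᶠ b in 𝓝 a, Φ b = σ b + o := by
  obtain ⟨r, rfl⟩ : ∃ x, r = x + x + (x + x) := ⟨r / 4, by ring⟩
  have r0 : 0 < r := by linarith
  obtain ⟨π, hπ⟩ := ball_three h (by linarith)
  have h4 : ∀ s : Ht G.k → ℝ, (∀ ν, 0 ≤ s ν) → ∑ ν ∈ G.Nn, s ν ≤ r →
      Φ (a + ballL G id s) = Φ a + ballL G π s := fun s hs h1 => by
    rw [ballL_apply, ballL_apply]
    exact ball_four (fun ν hν => (hπ ν hν).2) (Metric.mem_ball_self r0) hs _ subset_rfl h1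
  obtain ⟨A, hA⟩ := ball_five r0 h4
  obtain ⟨C, C0, hC⟩ := G.pos_span
  have h5 : ∀ v, C * ‖v‖ ≤ r → Φ (a + v) = Φ a + A v := by
    intro v hv
    obtain ⟨s, hs, e, h1⟩ := hC v
    have e' : v = ballL G id s := e.trans (ballL_apply id s).symm
    rw [e', hA]
    exact h4 s hs (h1.trans hv)
  have h6 : ∀ v, ∃ t : ℝ, 0 < t ∧ t ≤ r ∧ t * ‖v‖ < r ∧ Φ (a + t • v) = Φ a + t • A v := by
    intro v
    obtain ⟨t, ⟨⟨t0, t1⟩, -, t2⟩, -, t3⟩ := (((ball_small 1 r0).and (ball_small ‖v‖ r0)).and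
      (ball_small (C * ‖v‖) r0)).exists
    refine ⟨t, t0, by linarith, t2, (h5 _ ?_).trans (by rw [map_smul])⟩
    rw [norm_smul, Real.norm_of_nonneg t0.le]
    linarith
  have h7 : ∀ ν ∈ G.Nn, A ν ∈ G.Nn := by
    intro ν hν
    obtain ⟨t, t0, t1, -, e⟩ := h6 ν
    rw [(hπ ν hν).2 a (Metric.mem_ball_self (by linarith)) t t0.le (by linarith)] at e
    rw [← smul_right_injective _ t0.ne' (add_left_cancel e)]
    exact (hπ ν hν).1
  obtain ⟨σ, hσ⟩ := ball_iso (A := A) (fun v => by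
    obtain ⟨t, t0, -, t2, e⟩ := h6 v
    have h1 := h.1 (a + t • v) (by
      rw [mem_ball_iff_norm, add_sub_cancel_left, norm_smul, Real.norm_of_nonneg t0.le]
      linarith) a (Metric.mem_ball_self hr)
    rw [e, add_sub_cancel_left, add_sub_cancel_left, norm_smul, norm_smul,
      Real.norm_of_nonneg t0.le] at h1
    exact le_of_mul_le_mul_left h1 t0) h7
  refine ⟨σ, mem_Sig (fun ν hν => hσ ν ▸ h7 ν hν) (r := min r (r / C)) (by positivity)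
    fun J hJ => ?_, Φ a - σ a, ?_⟩
  · refine h.2 a (Metric.mem_ball_self hr) J
      (fun v hv => ((hJ v hv).trans (min_le_left _ _)).trans (by linarith)) _
      fun v hv s hs ν _ => ?_
    have h1 : ∀ w ∈ insert 0 J, ⟪ν, σ w⟫_ℝ ≤
        sSup ((fun a => ⟪ν, a⟫_ℝ) '' ((insert 0 J).image σ : Finset (Ht G.k))) := fun w hw =>
      le_csSup ((Finset.finite_toSet _).image _).bddAbove
        ⟨σ w, Finset.mem_coe.2 (Finset.mem_image_of_mem _ hw), rfl⟩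
    have h2 := h1 0 (Finset.mem_insert_self _ _)
    have h3 := h1 v hv
    rw [map_zero, inner_zero_right] at h2
    have h8 : C * ‖v‖ ≤ r := by
      rcases Finset.mem_insert.1 hv with rfl | hv
      · simpa using r0.le
      · rw [mul_comm, ← le_div_iff₀ C0]
        exact (hJ v hv).trans (min_le_right _ _)
    rw [h5 _ (by
      rw [norm_smul, Real.norm_of_nonneg hs.1, mul_left_comm]
      exact (mul_le_of_le_one_left (by positivity) hs.2).trans h8), add_sub_cancel_left, map_smul,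
      real_inner_smul_right, ← hσ]
    nlinarith [hs.1, hs.2]
  · filter_upwards [Metric.closedBall_mem_nhds a (div_pos r0 C0)] with b hb
    rw [mem_closedBall_iff_norm, le_div_iff₀ C0, mul_comm] at hb
    have h1 := h5 _ hb
    rw [add_sub_cancel, ← hσ, map_sub] at h1
    rw [h1]
    abel

theorem ball_ext {σ σ' : Ht G.k ≃ₗᵢ[ℝ] Ht G.k} {o o' : Ht G.k}
    (h : ∀ᶠ b in 𝓝 a, σ b + o = σ' b + o') (b : Ht G.k) : σ b + o = σ' b + o' := by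
  have h1 : Tendsto (fun t : ℝ => a + t • (b - a)) (𝓝[>] 0) (𝓝 a) :=
    tendsto_nhdsWithin_of_tendsto_nhds (Continuous.tendsto' (by fun_prop) _ _ (by simp))
  obtain ⟨t, h2, t0⟩ := ((h1.eventually h).and self_mem_nhdsWithin).exists
  have h3 := h.self_of_nhds
  rw [map_add, map_add, add_right_comm, h3, add_right_comm, add_left_inj, add_right_inj, map_smul,
    map_smul] at h2
  have h4 := smul_right_injective _ (ne_of_gt t0) h2
  simp only [map_sub] at h4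
  rw [← sub_add_cancel (σ b) (σ a), ← sub_add_cancel (σ' b) (σ' a), add_assoc, add_assoc, h3, h4]

end

set_option linter.unusedVariables false in
theorem affine_of_star (G : Geo) {Ω : Set (Ht G.k)} (ho : IsOpen Ω) (hc : IsPreconnected Ω)
    (hne : Ω.Nonempty) {Φ : Ht G.k → Ht G.k}
    (h : ∀ a ∈ Ω, ∃ r > 0,
      (∀ b ∈ Metric.ball a r, ∀ b' ∈ Metric.ball a r, ‖Φ b - Φ b'‖ ≤ ‖b - b'‖) ∧
      ∀ b ∈ Metric.ball a r, ∀ J : Finset (Ht G.k), (∀ v ∈ J, ‖v‖ ≤ r) → ∀ β : Ht G.k → ℝ,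
        (∀ v ∈ insert 0 J, ∀ s ∈ Set.Icc (0 : ℝ) 1, ∀ ν ∈ G.Nn,
          ⟪ν, Φ (b + s • v) - Φ b⟫_ℝ ≤ β ν) → G.hJ (insert 0 J) ≤ G.h (G.cs β)) :
    ∃ σ ∈ G.Sig, ∃ o, ∀ a ∈ Ω, Φ a = σ a + o := by
  obtain ⟨a, ha⟩ := hne
  have h1 : ∀ a ∈ Ω, ∃ σ ∈ G.Sig, ∃ o, ∀ᶠ b in 𝓝 a, Φ b = σ b + o := fun a ha => by
    obtain ⟨r, hr, h'⟩ := h a ha
    exact ball_loc h' hr
  obtain ⟨σ, hσ, o, h2⟩ := h1 a ha
  have h3 : Ω ⊆ {a | ∀ᶠ b in 𝓝 a, Φ b = σ b + o} := by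
    refine hc.subset_of_closure_inter_subset isOpen_setOfPred_eventually_nhds ⟨a, ha, h2⟩ ?_
    rintro a' ⟨h4, h5⟩
    obtain ⟨σ', -, o', h6⟩ := h1 a' h5
    obtain ⟨x, h7, h8⟩ := mem_closure_iff_nhds.1 h4 _ h6.eventually_nhds
    have h9 : ∀ᶠ b in 𝓝 x, σ' b + o' = σ b + o := by
      filter_upwards [h7, h8] with b e e'
      rw [← e, e']
    filter_upwards [h6] with b e
    rw [e, ball_ext h9]
  exact ⟨σ, hσ, o, fun b hb => (h3 hb).self_of_nhds⟩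

end Vale.Agent.P188.Geo
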