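import Vale.Agent.P188.Defs

/-! Exponential, logarithm and the Baker-Campbell-Hausdorff product. -/

namespace Vale.Agent.P188

variable {A : Type*} [Ring A] [Algebra ℝ A] (F : Filt A) {x y z : A}

theorem map_ex {B : Type*} [Ring B] [Algebra ℝ B] (φ : A →ₐ[ℝ] B) (d : ℕ) (x : A) :
    φ (ex d x) = ex d (φ x) := by
  simp only [ex, map_sum, map_smul, map_pow]

theorem map_lg {B : Type*} [Ring B] [Algebra ℝ B] (φ : A →ₐ[ℝ] B) (d : ℕ) (x : A) :
    φ (lg d x) = lg d (φ x) := by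
  simp only [lg, map_sum, map_smul, map_pow, map_sub, map_one]

theorem map_bch {B : Type*} [Ring B] [Algebra ℝ B] (φ : A →ₐ[ℝ] B) (d : ℕ) (x y : A) :
    φ (bch d x y) = bch d (φ x) (φ y) := by
  simp only [bch, map_lg, map_mul, map_ex]

theorem bch_ex_sub (d : ℕ) (x : A) :
    ex d x - 1 = ∑ k ∈ Finset.range d, (((k + 1).factorial : ℝ)⁻¹) • x ^ (k + 1) := by
  simp [ex, Finset.sum_range_succ']

section poly

open Polynomial

theorem bch_dvd {w : ℝ[X]} {k : ℕ} (h0 : X ∣ w) (h : X ^ k ∣ derivative w) : X ^ (k + 1) ∣ w := by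
  rw [X_pow_dvd_iff] at h ⊢
  intro n hn
  rcases n with _ | n
  · exact X_dvd_iff.1 h0
  · have h1 := h n (by omega)
    rw [coeff_derivative, mul_eq_zero] at h1
    exact h1.resolve_right (by positivity)

theorem bch_der_ex (d : ℕ) (p : ℝ[X]) :
    derivative (ex d p) = (ex d p - ((d.factorial : ℝ)⁻¹) • p ^ d) * derivative p := by
  have h1 : derivative (ex d p) = derivative (ex d p - 1) := by simp
  rw [h1, bch_ex_sub, ex, Finset.sum_range_succ, add_sub_cancel_right, Finset.sum_mul,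
    derivative_sum]
  refine Finset.sum_congr rfl fun k _ => ?_
  rw [derivative_smul, derivative_pow_succ, mul_assoc, ← smul_eq_C_mul, smul_smul, smul_mul_assoc,
    Nat.factorial_succ]
  congr 1
  have : (k.factorial : ℝ) ≠ 0 := by positivity
  push_cast
  field_simp

theorem bch_der_lg (d : ℕ) (p : ℝ[X]) :
    p * derivative (lg d p) = (1 - (1 - p) ^ d) * derivative p := by
  have h1 : derivative (lg d p) = (∑ k ∈ Finset.range d, (1 - p) ^ k) * derivative p := by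
    rw [lg, derivative_sum, Finset.sum_mul]
    refine Finset.sum_congr rfl fun k _ => ?_
    rw [derivative_smul, derivative_pow_succ, mul_assoc, ← smul_eq_C_mul, smul_smul,
      div_mul_cancel₀ _ (by positivity), ← neg_sub p 1, ← neg_one_smul ℝ (p - 1), _root_.smul_pow,
      smul_mul_assoc]
    simp
  rw [h1, ← mul_assoc, ← mul_neg_geom_sum, sub_sub_cancel]

theorem bch_X_ex (d : ℕ) {p : ℝ[X]} (h : X ∣ p) : X ∣ ex d p - 1 := by
  rw [bch_ex_sub]
  exact Finset.dvd_sum fun k _ => (dvd_pow h k.succ_ne_zero).trans (dvd_smul_of_dvd _ dvd_rfl)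

theorem bch_X_lg (d : ℕ) {p : ℝ[X]} (h : X ∣ p - 1) : X ∣ lg d p :=
  Finset.dvd_sum fun k _ => (dvd_pow h k.succ_ne_zero).trans (dvd_smul_of_dvd _ dvd_rfl)

theorem bch_cancel {p w : ℝ[X]} {k : ℕ} (hp : X ∣ p - 1) (h : X ^ k ∣ p * w) : X ^ k ∣ w := by
  obtain ⟨q, hq⟩ := hp
  have h1 : IsCoprime (X : ℝ[X]) p := ⟨-q, 1, by linear_combination hq⟩
  exact h1.pow_left.dvd_of_dvd_mul_left h

theorem bch_poly1 (d : ℕ) : X ^ (d + 1) ∣ lg d (ex d (X : ℝ[X])) - X := by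
  have h1 := bch_X_ex d (dvd_refl (X : ℝ[X]))
  refine bch_dvd ((bch_X_lg d h1).sub dvd_rfl) (bch_cancel h1 ?_)
  rw [derivative_sub, mul_sub, bch_der_lg, bch_der_ex, derivative_X]
  have h2 : X ^ d ∣ (1 - ex d (X : ℝ[X])) ^ d := pow_dvd_pow_of_dvd (dvd_sub_comm.1 h1) d
  have h3 : X ^ d ∣ ((d.factorial : ℝ)⁻¹) • (X : ℝ[X]) ^ d := dvd_smul_of_dvd _ dvd_rfl
  generalize ((d.factorial : ℝ)⁻¹) • (X : ℝ[X]) ^ d = r at h3
  generalize (1 - ex d (X : ℝ[X])) ^ d = s at h2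
  have e : (1 - s) * ((ex d X - r) * 1) - ex d X * 1 = -r - s * (ex d X - r) := by ring
  rw [e]
  exact h3.neg_right.sub (h2.mul_right _)

theorem bch_poly2 (d : ℕ) : X ^ (d + 1) ∣ ex d (lg d (1 + X : ℝ[X])) - (1 + X) := by
  have h0 : X ∣ (1 + X : ℝ[X]) - 1 := by simp
  have h1 := bch_X_lg d h0
  have h2 : X ∣ ex d (lg d (1 + X : ℝ[X])) - (1 + X) := by
    rw [← sub_sub]
    exact (bch_X_ex d h1).sub dvd_rfl
  have h3 : X ^ d ∣ (1 + X) * derivative (ex d (lg d (1 + X : ℝ[X])) - (1 + X)) -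
      (ex d (lg d (1 + X : ℝ[X])) - (1 + X)) := by
    rw [derivative_sub, mul_sub, bch_der_ex, mul_left_comm, bch_der_lg]
    have h4 : X ^ d ∣ (1 - (1 + X : ℝ[X])) ^ d := pow_dvd_pow_of_dvd (dvd_sub_comm.1 h0) d
    have h5 : X ^ d ∣ ((d.factorial : ℝ)⁻¹) • lg d (1 + X : ℝ[X]) ^ d :=
      dvd_smul_of_dvd _ (pow_dvd_pow_of_dvd h1 d)
    generalize ((d.factorial : ℝ)⁻¹) • lg d (1 + X : ℝ[X]) ^ d = r at h5
    generalize (1 - (1 + X : ℝ[X])) ^ d = s at h4
    generalize ex d (lg d (1 + X : ℝ[X])) = u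
    have e : (u - r) * ((1 - s) * derivative (1 + X)) - (1 + X) * derivative (1 + X) -
        (u - (1 + X)) = -r - s * (u - r) := by
      simp only [derivative_add, derivative_one, derivative_X]
      ring
    rw [e]
    exact h5.neg_right.sub (h4.mul_right _)
  have h6 : ∀ k ≤ d + 1, X ^ k ∣ ex d (lg d (1 + X : ℝ[X])) - (1 + X) := by
    intro k
    induction k with
    | zero => simp
    | succ k ih =>
      intro hk
      refine bch_dvd h2 (bch_cancel h0 ?_)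
      have h7 := ((pow_dvd_pow X (by omega : k ≤ d)).trans h3).add (ih (by omega))
      rwa [sub_add_cancel] at h7
  exact h6 _ le_rfl

theorem bch_lg_ex {d : ℕ} (h : x ^ (d + 1) = 0) : lg d (ex d x) = x := by
  obtain ⟨q, hq⟩ := bch_poly1 d
  have h1 := congrArg (aeval x) hq
  rwa [map_sub, map_lg, map_ex, map_mul, map_pow, aeval_X, h, zero_mul, sub_eq_zero] at h1

theorem bch_ex_lg {d : ℕ} (h : (y - 1) ^ (d + 1) = 0) : ex d (lg d y) = y := by
  obtain ⟨q, hq⟩ := bch_poly2 d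
  have h1 := congrArg (aeval (y - 1)) hq
  rwa [map_sub, map_ex, map_lg, map_mul, map_pow, map_add, map_one, aeval_X, h, zero_mul,
    sub_eq_zero, add_sub_cancel] at h1

end poly

theorem bch_ex_add {d1 d2 d3 : ℕ} (hx : x ^ (d1 + 1) = 0) (hy : y ^ (d2 + 1) = 0)
    (hz : (x + y) ^ (d3 + 1) = 0) (h : Commute x y) : ex d3 (x + y) = ex d1 x * ex d2 y := by
  let _ : Module ℚ A := Module.compHom A (algebraMap ℚ ℝ)
  have e : ∀ {d : ℕ} {a : A}, a ^ (d + 1) = 0 → ex d a = IsNilpotent.exp a := by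
    intro d a ha
    rw [IsNilpotent.exp_eq_sum ha, ex]
    refine Finset.sum_congr rfl fun k _ => ?_
    change _ = (algebraMap ℚ ℝ ((k.factorial : ℚ)⁻¹)) • a ^ k
    simp
  rw [e hx, e hy, e hz]
  exact IsNilpotent.exp_add_of_commute h ⟨_, hx⟩ ⟨_, hy⟩

theorem bch_pow (hx : x ∈ F.J 1) (k : ℕ) : x ^ (k + 1) ∈ F.J (k + 1) := by
  induction k with
  | zero => simpa using hx
  | succ k ih =>
    rw [pow_succ]
    exact F.mul _ _ _ _ ih hx

theorem bch_pow1 (hx : x ∈ F.J 1) (k : ℕ) : x ^ (k + 1) ∈ F.J 1 :=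
  antitone_nat_of_succ_le F.anti (Nat.le_add_left 1 k) (bch_pow F hx k)

theorem bch_nil (hx : x ∈ F.J 1) : x ^ (F.d + 1) = 0 := by
  have h := F.anti _ (bch_pow F hx F.d)
  rwa [F.bot, Submodule.mem_bot] at h

theorem ex_mem (hx : x ∈ F.J 1) : ex F.d x - 1 ∈ F.J 1 := by
  rw [bch_ex_sub]
  exact sum_mem fun k _ => Submodule.smul_mem _ _ (bch_pow1 F hx k)

theorem lg_mem (hy : y - 1 ∈ F.J 1) : lg F.d y ∈ F.J 1 :=
  sum_mem fun k _ => Submodule.smul_mem _ _ (bch_pow1 F hy k)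

theorem ex_lg (hy : y - 1 ∈ F.J 1) : ex F.d (lg F.d y) = y := bch_ex_lg (bch_nil F hy)

theorem lg_ex (hx : x ∈ F.J 1) : lg F.d (ex F.d x) = x := bch_lg_ex (bch_nil F hx)

theorem ex_add (hx : x ∈ F.J 1) (hy : y ∈ F.J 1) (h : Commute x y) :
    ex F.d (x + y) = ex F.d x * ex F.d y :=
  bch_ex_add (bch_nil F hx) (bch_nil F hy) (bch_nil F (add_mem hx hy)) h

theorem ex_zero (d : ℕ) : ex d (0 : A) = 1 := by
  rw [← sub_eq_zero, bch_ex_sub]
  simp

theorem bch_mul_mem (hx : x ∈ F.J 1) (hy : y ∈ F.J 1) : ex F.d x * ex F.d y - 1 ∈ F.J 1 := by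
  have e : ex F.d x * ex F.d y - 1 =
      (ex F.d x - 1) * (ex F.d y - 1) + (ex F.d x - 1) + (ex F.d y - 1) := by noncomm_ring
  rw [e]
  exact add_mem (add_mem (F.anti 1 (F.mul 1 1 _ _ (ex_mem F hx) (ex_mem F hy))) (ex_mem F hx))
    (ex_mem F hy)

theorem bch_mem (hx : x ∈ F.J 1) (hy : y ∈ F.J 1) : bch F.d x y ∈ F.J 1 :=
  lg_mem F (bch_mul_mem F hx hy)

theorem ex_bch (hx : x ∈ F.J 1) (hy : y ∈ F.J 1) :
    ex F.d (bch F.d x y) = ex F.d x * ex F.d y := ex_lg F (bch_mul_mem F hx hy)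

theorem bch_assoc (hx : x ∈ F.J 1) (hy : y ∈ F.J 1) (hz : z ∈ F.J 1) :
    bch F.d (bch F.d x y) z = bch F.d x (bch F.d y z) := by
  rw [bch, ex_bch F hx hy, mul_assoc, ← ex_bch F hy hz]
  rfl

theorem bch_comm (hx : x ∈ F.J 1) (hy : y ∈ F.J 1) (h : Commute x y) :
    bch F.d x y = x + y := by
  rw [bch, ← ex_add F hx hy h, lg_ex F (add_mem hx hy)]

theorem bch_conj (hx : x ∈ F.J 1) (hy : y ∈ F.J 1) :
    bch F.d (bch F.d x y) (-x) = ex F.d x * y * ex F.d (-x) := by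
  have h1 : ex F.d x * ex F.d (-x) = 1 := by
    rw [← ex_add F hx (neg_mem hx) (Commute.refl x).neg_right, add_neg_cancel, ex_zero]
  have h2 : ex F.d (-x) * ex F.d x = 1 := by
    rw [← ex_add F (neg_mem hx) hx (Commute.refl x).neg_left, neg_add_cancel, ex_zero]
  let φ : A →ₐ[ℝ] A := AlgHom.ofLinearMap
    (LinearMap.mulRight ℝ (ex F.d (-x)) ∘ₗ LinearMap.mulLeft ℝ (ex F.d x)) (by simp [h1])
    fun a b => by
      simp only [LinearMap.comp_apply, LinearMap.mulRight_apply, LinearMap.mulLeft_apply, mul_assoc]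
      rw [← mul_assoc (ex F.d (-x)), h2, one_mul]
  have h3 := map_lg φ F.d (ex F.d y)
  rw [lg_ex F hy] at h3
  rw [bch, ex_bch F hx hy]
  exact h3.symm

theorem bch_ad (hx : x ∈ F.J 1) : ∃ (T : Module.End ℝ A) (D : ℕ), T ^ (D + 1) = 0 ∧
    (∀ u, T u = x * u - u * x) ∧ ∀ u, ex D T u = ex F.d x * u * ex F.d (-x) := by
  have h1 : LinearMap.mulLeft ℝ x ^ (F.d + 1) = 0 := by
    rw [LinearMap.pow_mulLeft, bch_nil F hx, LinearMap.mulLeft_zero_eq_zero]
  have h2 : LinearMap.mulRight ℝ (-x) ^ (F.d + 1) = 0 := by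
    rw [LinearMap.pow_mulRight, bch_nil F (neg_mem hx), LinearMap.mulRight_zero_eq_zero]
  have h3 := LinearMap.commute_mulLeft_right (R := ℝ) x (-x)
  obtain ⟨D, hD⟩ := h3.isNilpotent_add ⟨_, h1⟩ ⟨_, h2⟩
  have h4 : (LinearMap.mulLeft ℝ x + LinearMap.mulRight ℝ (-x)) ^ (D + 1) = 0 := by
    rw [pow_succ, hD, zero_mul]
  refine ⟨_, D, h4, fun u => by simp [sub_eq_add_neg], fun u => ?_⟩
  have e1 : ∀ v, ex F.d (LinearMap.mulLeft ℝ x) v = ex F.d x * v := fun v => by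
    simp [ex, Finset.sum_mul]
  have e2 : ex F.d (LinearMap.mulRight ℝ (-x)) u = u * ex F.d (-x) := by
    simp [ex, Finset.mul_sum]
  rw [bch_ex_add h1 h2 h4 h3, Module.End.mul_apply, e1, e2, mul_assoc]

theorem bch_inv {T : Module.End ℝ A} {P : Submodule ℝ A} (h : ∀ u ∈ P, T u ∈ P) (k : ℕ) :
    ∀ u ∈ P, (T ^ k) u ∈ P := by
  induction k with
  | zero => simp
  | succ k ih => exact fun u hu => by rw [pow_succ, Module.End.mul_apply]; exact ih _ (h u hu)

/-- conjugation by an exponential moves an element inside the next step of a filtration -/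
theorem conj_sub_mem (hx : x ∈ F.J 1) (P : Submodule ℝ A) (hP : ∀ u ∈ P, x * u - u * x ∈ P)
    (h : x * y - y * x ∈ P) : ex F.d x * y * ex F.d (-x) - y ∈ P := by
  obtain ⟨T, D, -, h1, h2⟩ := bch_ad F hx
  have e : ex F.d x * y * ex F.d (-x) - y = (ex D T - 1) y := by
    rw [LinearMap.sub_apply, h2, Module.End.one_apply]
  rw [e, bch_ex_sub, LinearMap.sum_apply]
  refine sum_mem fun k _ => ?_
  rw [LinearMap.smul_apply, pow_succ, Module.End.mul_apply, h1]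
  exact P.smul_mem _ (bch_inv (fun u hu => h1 u ▸ hP u hu) k _ h)

/-- a subspace that is invariant under conjugation by `exp x` is invariant under `ad x` -/
theorem ad_mem_of_conj (hx : x ∈ F.J 1) (P : Submodule ℝ A)
    (hP : ∀ u ∈ P, ex F.d x * u * ex F.d (-x) ∈ P) (hy : y ∈ P) : x * y - y * x ∈ P := by
  obtain ⟨T, D, h0, h1, h2⟩ := bch_ad F hx
  rw [← h1, ← bch_lg_ex h0, lg, LinearMap.sum_apply]
  refine sum_mem fun k _ => ?_
  rw [LinearMap.smul_apply]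
  refine P.smul_mem _ (bch_inv (fun u hu => ?_) _ _ hy)
  rw [LinearMap.sub_apply, h2, Module.End.one_apply]
  exact sub_mem (hP u hu) hu

end Vale.Agent.P188
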