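import Vale.Agent.P188.Bch

/-! The Baker-Campbell-Hausdorff product of a Lie subalgebra. -/

namespace Vale.Agent.P188

open Polynomial

namespace BchL

variable {B : Type*} [Ring B] [Algebra ℝ B]

/-- polynomials with coefficients in a subspace -/
def cf (Q : Submodule ℝ B) : Submodule ℝ B[X] where
  carrier := {p | ∀ n, p.coeff n ∈ Q}
  add_mem' hp hq n := by
    rw [coeff_add]
    exact Q.add_mem (hp n) (hq n)
  zero_mem' n := by
    rw [coeff_zero]
    exact Q.zero_mem
  smul_mem' c p hp n := by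
    rw [coeff_smul]
    exact Q.smul_mem c (hp n)

theorem mon_mem {Q : Submodule ℝ B} {a : B} (h : a ∈ Q) (k : ℕ) : monomial k a ∈ cf Q := by
  intro n
  rw [coeff_monomial]
  split_ifs
  · exact h
  · exact Q.zero_mem

theorem cf_mono {Q Q' : Submodule ℝ B} (h : Q ≤ Q') {p : B[X]} (hp : p ∈ cf Q) : p ∈ cf Q' :=
  fun n => h (hp n)

theorem br_mem {M Q Q' : Submodule ℝ B} (h : ∀ a ∈ M, ∀ b ∈ Q, a * b - b * a ∈ Q') {p q : B[X]}
    (hp : p ∈ cf M) (hq : q ∈ cf Q) : p * q - q * p ∈ cf Q' := by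
  intro n
  rw [coeff_sub, coeff_mul, coeff_mul, ← Finset.Nat.sum_antidiagonal_swap
    (f := fun x => q.coeff x.1 * p.coeff x.2), ← Finset.sum_sub_distrib]
  exact Q'.sum_mem fun x _ => h _ (hp _) _ (hq _)

theorem mul_cast (a : B) (n : ℕ) : a * ((n : B) + 1) = ((n : ℝ) + 1) • a := by
  rw [add_smul, one_smul, Nat.cast_smul_eq_nsmul, nsmul_eq_mul', mul_add, mul_one]

theorem der_mem {Q : Submodule ℝ B} {p : B[X]} (hp : p ∈ cf Q) : derivative p ∈ cf Q := by
  intro n
  rw [coeff_derivative, mul_cast]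
  exact Q.smul_mem _ (hp _)

theorem of_der {Q : Submodule ℝ B} {p : B[X]} (h0 : p.coeff 0 ∈ Q) (hp : derivative p ∈ cf Q) :
    p ∈ cf Q := by
  intro n
  cases n with
  | zero => exact h0
  | succ n =>
    have h1 := hp n
    rw [coeff_derivative, mul_cast] at h1
    exact (Q.smul_mem_iff (by positivity)).1 h1

/-- the filtration of the polynomial algebra -/
def fp (F : Filt B) : Filt B[X] where
  d := F.d
  J k := cf (F.J k)
  anti k _ hp := cf_mono (F.anti k) hp
  mul j k p q hp hq n := by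
    rw [coeff_mul]
    exact Submodule.sum_mem _ fun x _ => F.mul _ _ _ _ (hp _) (hq _)
  bot := by
    refine (Submodule.eq_bot_iff _).2 fun p hp => Polynomial.ext fun n => ?_
    have h := hp n
    rw [F.bot] at h
    exact h

/-- evaluation at zero -/
noncomputable def ev0 : B[X] →ₐ[ℝ] B :=
  eval₂AlgHom (AlgHom.id ℝ B) 0 fun a => Commute.zero_right _

/-- evaluation at one -/
noncomputable def ev1 : B[X] →ₐ[ℝ] B :=
  eval₂AlgHom (AlgHom.id ℝ B) 1 fun a => Commute.one_right _

theorem ev0_eq (p : B[X]) : ev0 p = p.coeff 0 := eval₂_at_zero (p := p) (RingHom.id B)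

theorem ev1_mon (n : ℕ) (a : B) : ev1 (monomial n a) = a := by
  have h : ev1 (monomial n a) = a * 1 ^ n := eval₂_monomial (RingHom.id B) (1 : B)
  rw [h, one_pow, mul_one]

theorem ev1_mem {Q : Submodule ℝ B} {p : B[X]} (hp : p ∈ cf Q) : ev1 p ∈ Q := by
  rw [← sum_monomial_eq p, Polynomial.sum, map_sum]
  refine Q.sum_mem fun n _ => ?_
  rw [ev1_mon]
  exact hp n

theorem J_le (F : Filt B) {j k : ℕ} (h : j ≤ k) : F.J k ≤ F.J j :=
  antitone_nat_of_succ_le F.anti h

theorem pow_zero_of (F : Filt B) {z : B} (hz : z ∈ F.J 1) {n : ℕ} (hn : F.d < n) : z ^ n = 0 := by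
  have h : ∀ k, z ^ (k + 1) ∈ F.J (k + 1) := fun k => by
    induction k with
    | zero => rwa [zero_add, pow_one]
    | succ k ih =>
      rw [pow_succ]
      exact F.mul _ _ _ _ ih hz
  obtain ⟨k, rfl⟩ : ∃ k, n = k + 1 := ⟨n - 1, by omega⟩
  have h1 := J_le F hn.le (h k)
  rw [F.bot] at h1
  exact h1

/-- exponential generating polynomials -/
noncomputable def gen (d : ℕ) (a : ℕ → B) : B[X] :=
  ∑ k ∈ Finset.range (d + 1), monomial k (((k.factorial : ℝ)⁻¹) • a k)

theorem gen_coeff {d : ℕ} {a : ℕ → B} (h : ∀ n, d < n → a n = 0) (n : ℕ) :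
    (gen d a).coeff n = ((n.factorial : ℝ)⁻¹) • a n := by
  simp only [gen, finsetSum_coeff, coeff_monomial, Finset.sum_ite_eq', Finset.mem_range]
  split_ifs with h1
  · rfl
  · rw [h n (by omega), smul_zero]

theorem gen_der {d : ℕ} {a : ℕ → B} (h : ∀ n, d < n → a n = 0) (n : ℕ) :
    (derivative (gen d a)).coeff n = ((n.factorial : ℝ)⁻¹) • a (n + 1) := by
  rw [coeff_derivative, mul_cast, gen_coeff h, smul_smul, Nat.factorial_succ]
  congr 1
  push_cast
  field_simp

theorem ex_mon (d : ℕ) (z : B) : ex d (monomial 1 z) = gen d fun n => z ^ n := by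
  simp only [ex, gen, monomial_pow, one_mul, smul_monomial]

theorem der_ex (F : Filt B) {z : B} (hz : z ∈ F.J 1) :
    derivative (ex F.d (monomial 1 z)) = ex F.d (monomial 1 z) * C z := by
  ext n
  rw [ex_mon, gen_der fun n => pow_zero_of F hz, coeff_mul_C, gen_coeff fun n => pow_zero_of F hz,
    pow_succ, smul_mul_assoc]

theorem key (F : Filt B) (δ : B →ₗ[ℝ] B) (hδ : ∀ a b, δ (a * b) = δ a * b + a * δ b) {z : B}
    (hz : z ∈ F.J 1) (P : Submodule ℝ B) (hP : ∀ u ∈ P, z * u - u * z ∈ P)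
    (h : z * δ z - δ z * z ∈ P) : ex F.d (-z) * δ (ex F.d z) - δ z ∈ P := by
  have hz' : -z ∈ F.J 1 := (F.J 1).neg_mem hz
  have h1 : δ 1 = 0 := by
    have := hδ 1 1
    rw [mul_one, mul_one, one_mul] at this
    exact left_eq_add.1 this
  have h0 : ∀ n, F.d < n → δ (z ^ n) = 0 := fun n hn => by rw [pow_zero_of F hz hn, map_zero]
  set H : B[X] := gen F.d fun n => δ (z ^ n) with hH
  have dH : derivative H = C z * H + C (δ z) * ex F.d (monomial 1 z) := by
    ext n
    rw [hH, gen_der h0, coeff_add, coeff_C_mul, coeff_C_mul, gen_coeff h0, ex_mon,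
      gen_coeff fun n => pow_zero_of F hz, pow_succ', hδ, mul_smul_comm, mul_smul_comm, smul_add,
      add_comm]
  have hM : ∀ a ∈ Submodule.span ℝ {z}, ∀ b ∈ P, a * b - b * a ∈ P := fun a ha b hb => by
    obtain ⟨c, rfl⟩ := Submodule.mem_span_singleton.1 ha
    rw [smul_mul_assoc, mul_smul_comm, ← smul_sub]
    exact P.smul_mem c (hP b hb)
  have h2 := conj_sub_mem (fp F) (x := monomial 1 (-z)) (y := C (δ z)) (mon_mem hz' 1) (cf P)
    (fun u hu => br_mem hM (mon_mem (Submodule.neg_mem _ (Submodule.mem_span_singleton_self z)) 1)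
      hu) (by
      rw [monomial_mul_C, C_mul_monomial, ← map_sub, neg_mul, mul_neg, neg_sub_neg, ← neg_sub]
      exact mon_mem (P.neg_mem h) 1)
  rw [← map_neg, neg_neg] at h2
  have h3 : ex F.d (monomial 1 (-z)) * H - monomial 1 (δ z) ∈ cf P := by
    refine of_der ?_ ?_
    · rw [coeff_sub, mul_coeff_zero, hH, gen_coeff h0, pow_zero, h1, smul_zero, mul_zero,
        coeff_monomial, if_neg one_ne_zero, sub_zero]
      exact P.zero_mem
    · have e : derivative (ex F.d (monomial 1 (-z)) * H - monomial 1 (δ z)) =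
          ex F.d (monomial 1 (-z)) * C (δ z) * ex F.d (monomial 1 z) - C (δ z) := by
        rw [derivative_sub, derivative_mul, der_ex F hz', dH, derivative_monomial, Nat.cast_one,
          mul_one, Nat.sub_self, monomial_zero_left, map_neg C]
        noncomm_ring
      rw [e]
      exact h2
  have h4 := ev1_mem h3
  have h5 : ev1 H = δ (ex F.d z) := by
    simp only [hH, gen, ex, map_sum, ev1_mon, map_smul]
  rwa [map_sub, map_mul, map_ex, ev1_mon, ev1_mon, h5] at h4

/-- the derivative as a real linear map -/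
noncomputable def der : B[X] →ₗ[ℝ] B[X] where
  toFun := derivative
  map_add' _ _ := derivative_add
  map_smul' c p := derivative_smul c p

theorem step (F : Filt B) {x y : B} (hx : x ∈ F.J 1) (hy : y ∈ F.J 1) {M Q Q' : Submodule ℝ B}
    (hQ : Q' ≤ Q) (hb : ∀ a ∈ M, ∀ b ∈ Q, a * b - b * a ∈ Q') (hyM : y ∈ M)
    (hxy : x * y - y * x ∈ Q') (hz : bch F.d (C x) (monomial 1 y) ∈ cf M)
    (hu : bch F.d (C x) (monomial 1 y) - C x - monomial 1 y ∈ cf Q) :
    bch F.d (C x) (monomial 1 y) - C x - monomial 1 y ∈ cf Q' := by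
  have hx' : C x ∈ (fp F).J 1 := mon_mem hx 0
  have hy' : monomial 1 y ∈ (fp F).J 1 := mon_mem hy 1
  have hzJ : bch F.d (C x) (monomial 1 y) ∈ (fp F).J 1 := bch_mem (fp F) hx' hy'
  have hE : ex F.d (bch F.d (C x) (monomial 1 y)) = ex F.d (C x) * ex F.d (monomial 1 y) :=
    ex_bch (fp F) hx' hy'
  have h0 : (bch F.d (C x) (monomial 1 y)).coeff 0 = x := by
    rw [← ev0_eq, map_bch, ev0_eq, ev0_eq, coeff_C_zero, coeff_monomial, if_neg one_ne_zero,
      bch_comm F hx (F.J 1).zero_mem (Commute.zero_right x), add_zero]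
  generalize bch F.d (C x) (monomial 1 y) = z at hz hu hzJ hE h0
  have hd : derivative (z - C x - monomial 1 y) = derivative z - C y := by
    rw [derivative_sub, derivative_sub, derivative_C, sub_zero, derivative_monomial, Nat.cast_one,
      mul_one, Nat.sub_self, monomial_zero_left]
  have h1 : ex F.d (-z) * ex F.d z = 1 := by
    have := ex_add (fp F) (((fp F).J 1).neg_mem hzJ) hzJ (Commute.refl z).neg_left
    rw [neg_add_cancel, ex_zero] at this
    exact this.symm
  have h2 : derivative (ex F.d z) = ex F.d z * C y := by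
    have e : ex F.d (C x) = C (ex F.d x) := (map_ex (CAlgHom (R := ℝ)) F.d x).symm
    rw [hE, derivative_mul, der_ex F hy, e, derivative_C, zero_mul, zero_add, mul_assoc]
  have h3 : z * derivative z - derivative z * z ∈ cf Q' := by
    have a1 := br_mem hb hz (der_mem hu)
    have a2 := br_mem hb (mon_mem hyM 0) hu
    have a3 : C (x * y - y * x) ∈ cf Q' := mon_mem hxy 0
    have a4 : C y * monomial 1 y = monomial 1 y * C y := by rw [C_mul_monomial, monomial_mul_C]
    rw [hd] at a1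
    rw [monomial_zero_left] at a2
    have e : z * derivative z - derivative z * z =
        (z * (derivative z - C y) - (derivative z - C y) * z) -
          (C y * (z - C x - monomial 1 y) - (z - C x - monomial 1 y) * C y) +
          C (x * y - y * x) := by
      rw [map_sub, map_mul, map_mul, mul_sub (C y), mul_sub (C y), a4]
      noncomm_ring
    rw [e]
    exact (cf Q').add_mem ((cf Q').sub_mem a1 a2) a3
  have h4 : ex F.d (-z) * derivative (ex F.d z) - derivative z ∈ cf Q' :=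
    key (fp F) der (fun _ _ => derivative_mul) hzJ (cf Q')
      (fun u hu => br_mem hb hz (cf_mono hQ hu)) h3
  rw [h2, ← mul_assoc, h1, one_mul] at h4
  refine of_der ?_ ?_
  · rw [coeff_sub, coeff_sub, h0, coeff_C_zero, sub_self, coeff_monomial, if_neg one_ne_zero,
      sub_zero]
    exact Q'.zero_mem
  · rw [hd, ← neg_sub]
    exact (cf Q').neg_mem h4

theorem br_sup (F : Filt B) {L P : Submodule ℝ B} (hL : L ≤ F.J 1)
    (hP : ∀ u ∈ L, ∀ v ∈ P, u * v - v * u ∈ P) (j : ℕ) :
    ∀ a ∈ L, ∀ b ∈ P ⊔ F.J j, a * b - b * a ∈ P ⊔ F.J (j + 1) := by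
  intro a ha b hb
  obtain ⟨u, hu, v, hv, rfl⟩ := Submodule.mem_sup.1 hb
  have h1 := F.mul _ _ _ _ (hL ha) hv
  rw [add_comm] at h1
  have e : a * (u + v) - (u + v) * a = (a * u - u * a) + (a * v - v * a) := by noncomm_ring
  rw [e]
  exact Submodule.add_mem_sup (hP a ha u hu) ((F.J _).sub_mem h1 (F.mul _ _ _ _ hv (hL ha)))

theorem fin (F : Filt B) {x y : B} (hx : x ∈ F.J 1) (hy : y ∈ F.J 1) {P : Submodule ℝ B}
    (h : ∀ j, bch F.d (C x) (monomial 1 y) - C x - monomial 1 y ∈ cf (P ⊔ F.J (j + 1)) →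
      bch F.d (C x) (monomial 1 y) - C x - monomial 1 y ∈ cf (P ⊔ F.J (j + 1 + 1))) :
    bch F.d (C x) (monomial 1 y) - C x - monomial 1 y ∈ cf P := by
  have hx' : C x ∈ (fp F).J 1 := mon_mem hx 0
  have hy' : monomial 1 y ∈ (fp F).J 1 := mon_mem hy 1
  have h1 : ∀ j, bch F.d (C x) (monomial 1 y) - C x - monomial 1 y ∈ cf (P ⊔ F.J (j + 1)) := by
    intro j
    induction j with
    | zero =>
      exact cf_mono le_sup_right (((fp F).J 1).sub_mem
        (((fp F).J 1).sub_mem (bch_mem (fp F) hx' hy') hx') hy')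
    | succ j ih => exact h j ih
  refine cf_mono (sup_le le_rfl ?_) (h1 F.d)
  exact (F.anti _).trans (F.bot.le.trans bot_le)

theorem lie (F : Filt B) {x y : B} (L : Submodule ℝ B) (hL : L ≤ F.J 1)
    (hl : ∀ u ∈ L, ∀ v ∈ L, u * v - v * u ∈ L) (hx : x ∈ L) (hy : y ∈ L) :
    bch F.d (C x) (monomial 1 y) - C x - monomial 1 y ∈ cf L := by
  refine fin F (hL hx) (hL hy) fun j hj => ?_
  refine step F (hL hx) (hL hy) (M := L ⊔ F.J (j + 1)) (sup_le_sup_left (F.anti _) _) ?_
    (Submodule.mem_sup_left hy) (Submodule.mem_sup_left (hl x hx y hy)) ?_ hj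
  · intro a ha b hb
    obtain ⟨u, hu, v, hv, rfl⟩ := Submodule.mem_sup.1 ha
    have hb1 : b ∈ F.J 1 := sup_le hL (J_le F (by omega)) hb
    have h1 := F.mul _ _ _ _ hb1 hv
    rw [add_comm] at h1
    have e : (u + v) * b - b * (u + v) = (u * b - b * u) + (v * b - b * v) := by noncomm_ring
    rw [e]
    exact Submodule.add_mem _ (br_sup F hL hl _ u hu b hb)
      (Submodule.mem_sup_right ((F.J _).sub_mem (F.mul _ _ _ _ hv hb1) h1))
  · have h1 := (cf _).add_mem ((cf _).add_mem hj (mon_mem (Submodule.mem_sup_left hy) 1))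
      (mon_mem (Submodule.mem_sup_left hx) 0)
    rwa [sub_add_cancel, monomial_zero_left, sub_add_cancel] at h1

theorem ev1_bch (d : ℕ) (x y : B) :
    ev1 (bch d (C x) (monomial 1 y) - C x - monomial 1 y) = bch d x y - x - y := by
  rw [map_sub, map_sub, map_bch, ← monomial_zero_left, ev1_mon, ev1_mon]

end BchL

variable {A : Type*} [Ring A] [Algebra ℝ A] (F : Filt A) {x y z : A}

theorem bch_sub_mem (L P : Submodule ℝ A) (hL : L ≤ F.J 1)
    (hl : ∀ u ∈ L, ∀ v ∈ L, u * v - v * u ∈ L) (hP : ∀ u ∈ L, ∀ v ∈ P, u * v - v * u ∈ P)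
    (hx : x ∈ L) (hy : y ∈ L) (h : x * y - y * x ∈ P) : bch F.d x y - x - y ∈ P := by
  rw [← BchL.ev1_bch]
  refine BchL.ev1_mem (BchL.fin F (hL hx) (hL hy) fun j hj => ?_)
  refine BchL.step F (hL hx) (hL hy) (M := L) (sup_le_sup_left (F.anti _) _)
    (BchL.br_sup F hL hP _) hy (Submodule.mem_sup_left h) ?_ hj
  have h1 := (BchL.cf _).add_mem ((BchL.cf _).add_mem (BchL.lie F L hL hl hx hy)
    (BchL.mon_mem hy 1)) (BchL.mon_mem hx 0)
  rwa [sub_add_cancel, monomial_zero_left, sub_add_cancel] at h1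

theorem bch_mem_lie (L : Submodule ℝ A) (hL : L ≤ F.J 1)
    (hl : ∀ u ∈ L, ∀ v ∈ L, u * v - v * u ∈ L) (hx : x ∈ L) (hy : y ∈ L) :
    bch F.d x y ∈ L := by
  have h1 := L.add_mem (L.add_mem (bch_sub_mem F L L hL hl hl hx hy (hl x hx y hy)) hy) hx
  rwa [sub_add_cancel, sub_add_cancel] at h1

end Vale.Agent.P188
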