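import Vale.Agent.P188.BoxD

/-! Elementary properties of zonotopes. -/

namespace Vale.Agent.P188.Mdl

open scoped InnerProductSpace

variable {M : Mdl} {ι : Type} [Finite ι] {x : ι → M.V} {P Q : List ι → Prop} {c c' : ι → ℝ}
  {u v : M.V}

theorem BoxA_ws {d : ℕ} {l : List ι} : l ∈ ws ι d ↔ l.length < d := by
  simp [ws]

omit [Finite ι] in
theorem BoxA_cw_cons (c : ι → ℝ) (i : ι) (l : List ι) : cw c (i :: l) = c i + cw c l := by
  simp [cw]

omit [Finite ι] in
theorem BoxA_cw_add (c b : ι → ℝ) (l : List ι) :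
    cw (fun i => c i + b i) l = cw c l + cw b l := by
  induction l with
  | nil => simp [cw]
  | cons i l ih => rw [BoxA_cw_cons, BoxA_cw_cons, BoxA_cw_cons, ih]; ring

omit [Finite ι] in
theorem BoxA_cw_const (β : ℝ) (l : List ι) : cw (fun _ => β) l = l.length * β := by
  simp [cw]

omit [Finite ι] in
theorem BoxA_cw_le {c c' : ι → ℝ} {l : List ι} (h : ∀ i ∈ l, c i ≤ c' i) : cw c l ≤ cw c' l := by
  induction l with
  | nil => simp [cw]
  | cons i l ih =>
    rw [BoxA_cw_cons, BoxA_cw_cons]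
    exact add_le_add (h i (by simp)) (ih fun j hj => h j (by simp [hj]))

omit [Finite ι] in
theorem BoxA_len {l : List ι} (h : l ≠ []) : (1 : ℝ) ≤ l.length := by
  have := List.length_pos_iff.2 h
  exact_mod_cast this

theorem BoxA_intro (t : List ι → ℝ)
    (h1 : ∀ l, l.length < M.F.d → l ≠ [] → P l → |t l| ≤ Real.exp (cw c l))
    (h2 : ∀ l, ¬P l → t l = 0) : ∑ l ∈ ws ι M.F.d, t l • yw x l ∈ Zon x P c := by
  classical
  refine ⟨fun l => if l.length < M.F.d ∧ l ≠ [] ∧ P l then t l / Real.exp (cw c l) else 0,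
    fun l => ?_, fun l hl => by simp [hl], Finset.sum_congr rfl fun l hl => ?_⟩
  · dsimp only
    split_ifs with h
    · rw [abs_div, abs_of_pos (Real.exp_pos _), div_le_one (Real.exp_pos _)]
      exact h1 l h.1 h.2.1 h.2.2
    · simp
  · dsimp only
    split_ifs with h
    · rw [div_mul_cancel₀ _ (Real.exp_pos _).ne']
    · by_cases h0 : l = []
      · subst h0
        simp [yw]
      · have h3 : ¬P l := fun hp => h ⟨BoxA_ws.1 hl, h0, hp⟩
        simp [h2 l h3]

theorem BoxA_elim (h : v ∈ Zon x P c) : ∃ t : List ι → ℝ, (∀ l, |t l| ≤ Real.exp (cw c l)) ∧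
    (∀ l, ¬P l → t l = 0) ∧ v = ∑ l ∈ ws ι M.F.d, t l • yw x l := by
  obtain ⟨s, h1, h2, h3⟩ := h
  refine ⟨fun l => s l * Real.exp (cw c l), fun l => ?_, fun l hl => by simp [h2 l hl], h3⟩
  rw [abs_mul, abs_of_pos (Real.exp_pos _)]
  exact mul_le_of_le_one_left (Real.exp_pos _).le (h1 l)

theorem BoxA_scale (a : ℝ) (h : v ∈ Zon x P c)
    (ha : ∀ l, l.length < M.F.d → l ≠ [] → P l → |a| * Real.exp (cw c l) ≤ Real.exp (cw c' l)) :
    a • v ∈ Zon x P c' := by
  obtain ⟨t, h1, h2, rfl⟩ := BoxA_elim h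
  rw [Finset.smul_sum]
  simp only [smul_smul]
  refine BoxA_intro (fun l => a * t l) (fun l a1 a2 a3 => ?_) fun l hl => by simp [h2 l hl]
  rw [abs_mul]
  exact (mul_le_mul_of_nonneg_left (h1 l) (abs_nonneg a)).trans (ha l a1 a2 a3)

theorem BoxA_smul_br (c : ℝ) (x y : M.V) : M.br (c • x) y = c • M.br x y := by
  rw [br_swap, br_smul, br_swap y x, smul_neg, neg_neg]

omit [Finite ι] in
theorem BoxA_map_yw {R : Mdl} {X : ι → R.V} (φ : R.V →ₗ[ℝ] M.V)
    (h1 : ∀ i, φ (X i) = Real.exp (c i) • x i) (h2 : ∀ u v, φ (R.br u v) = M.br (φ u) (φ v))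
    (l : List ι) : φ (yw X l) = Real.exp (cw c l) • yw x l := by
  induction l with
  | nil => simp [yw]
  | cons i l ih =>
    cases l with
    | nil => simp [yw, cw, h1]
    | cons j l =>
      rw [yw, yw, h2, ih, h1, br_smul, BoxA_smul_br, smul_smul, BoxA_cw_cons c i, Real.exp_add,
        mul_comm]

theorem BoxA_norm (t : List ι → ℝ) {r : ℝ}
    (h : ∀ l, l.length < M.F.d → l ≠ [] → |t l| ≤ r) :
    ‖∑ l ∈ ws ι M.F.d, t l • yw x l‖ ≤ (∑ l ∈ ws ι M.F.d, ‖yw x l‖) * r := by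
  rw [Finset.sum_mul]
  refine (norm_sum_le _ _).trans (Finset.sum_le_sum fun l hl => ?_)
  by_cases h0 : l = []
  · subst h0
    simp [yw]
  · rw [norm_smul, Real.norm_eq_abs, mul_comm]
    exact mul_le_mul_of_nonneg_left (h l (BoxA_ws.1 hl) h0) (norm_nonneg _)

theorem yw_long (x : ι → M.V) {l : List ι} (h : M.F.d ≤ l.length) : yw x l = 0 := by
  have h1 : ∀ (l : List ι) (i : ι), ∃ (m : List M.V) (y : M.V), m.length = l.length ∧
      yw x (i :: l) = m.foldr M.br y := fun l => by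
    induction l with
    | nil => exact fun i => ⟨[], x i, rfl, rfl⟩
    | cons j l ih =>
      intro i
      obtain ⟨m, y, a1, a2⟩ := ih j
      exact ⟨x i :: m, y, by simp [a1], by rw [yw, a2, List.foldr_cons]⟩
  cases l with
  | nil => rfl
  | cons i l =>
    obtain ⟨m, y, a1, a2⟩ := h1 l i
    rw [a2]
    exact br_nil m y (by simpa [a1] using h)

theorem Zon_le (h : ∀ l, P l → ∀ i ∈ l, c i ≤ c' i) : Zon x P c ⊆ Zon x P c' := fun v hv => by
  rw [← one_smul ℝ v]
  refine BoxA_scale 1 hv fun l _ _ hl => ?_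
  rw [abs_one, one_mul]
  exact Real.exp_le_exp.2 (BoxA_cw_le (h l hl))

theorem Zon_mono (h : c ≤ c') : Zon x P c ⊆ Zon x P c' := Zon_le fun _ _ i _ => h i

theorem Zon_sub (h : ∀ l, P l → Q l) : Zon x P c ⊆ Zon x Q c := by
  rintro v ⟨s, h1, h2, h3⟩
  exact ⟨s, h1, fun l hl => h2 l fun hp => hl (h l hp), h3⟩

theorem zero_mem_Zon : (0 : M.V) ∈ Zon x P c := ⟨fun _ => 0, by simp, by simp, by simp⟩

theorem neg_mem_Zon (h : v ∈ Zon x P c) : -v ∈ Zon x P c := by
  rw [← neg_one_smul ℝ v]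
  exact BoxA_scale (-1) h fun l _ _ _ => by simp

theorem smul_mem_Zon {a : ℝ} (ha : |a| ≤ 1) (h : v ∈ Zon x P c) : a • v ∈ Zon x P c :=
  BoxA_scale a h fun _ _ _ _ => mul_le_of_le_one_left (Real.exp_pos _).le ha

theorem convex_Zon : Convex ℝ (Zon x P c) := by
  intro u hu v hv a b ha hb hab
  obtain ⟨s, s1, s2, rfl⟩ := BoxA_elim hu
  obtain ⟨t, t1, t2, rfl⟩ := BoxA_elim hv
  rw [Finset.smul_sum, Finset.smul_sum, ← Finset.sum_add_distrib]
  simp only [smul_smul, ← add_smul]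
  refine BoxA_intro (fun l => a * s l + b * t l) (fun l _ _ _ => ?_)
    fun l hl => by simp [s2 l hl, t2 l hl]
  refine (abs_add_le _ _).trans ?_
  rw [abs_mul, abs_mul, abs_of_nonneg ha, abs_of_nonneg hb]
  have e1 := mul_le_mul_of_nonneg_left (s1 l) ha
  have e2 := mul_le_mul_of_nonneg_left (t1 l) hb
  have e3 : a * Real.exp (cw c l) + b * Real.exp (cw c l) = Real.exp (cw c l) := by
    rw [← add_mul, hab, one_mul]
  linarith

theorem isCompact_Zon : IsCompact (Zon x P c) := by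
  classical
  have h1 : IsCompact (Set.univ.pi fun l : List ι =>
      if P l then Set.Icc (-1 : ℝ) 1 else {0}) := by
    refine isCompact_univ_pi fun l => ?_
    split_ifs
    · exact isCompact_Icc
    · exact isCompact_singleton
  have h2 : Continuous fun s : List ι → ℝ =>
      ∑ l ∈ ws ι M.F.d, (s l * Real.exp (cw c l)) • yw x l :=
    continuous_finset_sum _ fun l _ =>
      ((continuous_apply l).mul continuous_const).smul continuous_const
  have h3 : Zon x P c = (fun s : List ι → ℝ =>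
      ∑ l ∈ ws ι M.F.d, (s l * Real.exp (cw c l)) • yw x l) '' (Set.univ.pi fun l : List ι =>
      if P l then Set.Icc (-1 : ℝ) 1 else {0}) := by
    ext v
    constructor
    · rintro ⟨s, a1, a2, a3⟩
      refine ⟨s, fun l _ => ?_, a3.symm⟩
      dsimp only
      split_ifs with hl
      · exact abs_le.1 (a1 l)
      · exact a2 l hl
    · rintro ⟨s, a1, a2⟩
      refine ⟨s, fun l => ?_, fun l hl => ?_, a2.symm⟩
      · have := a1 l trivial
        dsimp only at this
        split_ifs at this with hl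
        · exact abs_le.2 this
        · rw [Set.mem_singleton_iff.1 this]
          simp
      · have := a1 l trivial
        dsimp only at this
        rw [if_neg hl] at this
        exact this
  rw [h3]
  exact h1.image h2

theorem add_mem_Zon (hu : u ∈ Zon x P c) (hv : v ∈ Zon x P c) :
    u + v ∈ Zon x P fun i => c i + 1 := by
  obtain ⟨s, s1, s2, rfl⟩ := BoxA_elim hu
  obtain ⟨t, t1, t2, rfl⟩ := BoxA_elim hv
  rw [← Finset.sum_add_distrib]
  simp only [← add_smul]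
  refine BoxA_intro (fun l => s l + t l) (fun l _ h0 _ => ?_)
    fun l hl => by simp [s2 l hl, t2 l hl]
  refine (abs_add_le _ _).trans ?_
  rw [BoxA_cw_add c fun _ => 1, BoxA_cw_const, Real.exp_add, mul_one]
  have e1 : (2 : ℝ) ≤ Real.exp l.length := by
    have := Real.add_one_le_exp (l.length : ℝ)
    have := BoxA_len h0
    linarith
  have e2 := mul_le_mul_of_nonneg_left e1 (Real.exp_pos (cw c l)).le
  have := s1 l
  have := t1 l
  linarith

theorem exp_smul_mem {β : ℝ} (hβ : 0 ≤ β) (h : v ∈ Zon x P c) :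
    Real.exp β • v ∈ Zon x P fun i => c i + β := by
  refine BoxA_scale _ h fun l _ h0 _ => ?_
  rw [abs_of_pos (Real.exp_pos _), ← Real.exp_add, BoxA_cw_add c fun _ => β, BoxA_cw_const,
    Real.exp_le_exp]
  have := mul_le_mul_of_nonneg_right (BoxA_len h0) hβ
  linarith

theorem shrink_mem {β : ℝ} (hβ : 0 ≤ β) (h : v ∈ Zon x P fun i => c i + β) :
    Real.exp (-(M.F.d * β)) • v ∈ Zon x P c := by
  refine BoxA_scale _ h fun l h1 _ _ => ?_
  rw [abs_of_pos (Real.exp_pos _), ← Real.exp_add, BoxA_cw_add c fun _ => β, BoxA_cw_const,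
    Real.exp_le_exp]
  have h2 : (l.length : ℝ) ≤ M.F.d := by exact_mod_cast h1.le
  have := mul_le_mul_of_nonneg_right h2 hβ
  linarith

theorem word_mem {l : List ι} (hl : P l) {s : ℝ} (hs : |s| ≤ Real.exp (cw c l)) :
    s • yw x l ∈ Zon x P c := by
  classical
  by_cases h : l.length < M.F.d
  · have e : s • yw x l = ∑ m ∈ ws ι M.F.d, (if m = l then s else 0) • yw x m := by
      rw [Finset.sum_eq_single l]
      · simp
      · intro m _ hm
        simp [hm]
      · intro h1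
        exact absurd (BoxA_ws.2 h) h1
    rw [e]
    refine BoxA_intro _ (fun m _ _ _ => ?_) fun m hm => if_neg fun h1 : m = l => hm (h1 ▸ hl)
    split_ifs with h1
    · exact h1 ▸ hs
    · simpa using (Real.exp_pos _).le
  · rw [yw_long x (not_lt.1 h), smul_zero]
    exact zero_mem_Zon

theorem gen_mem {i : ι} (hi : P [i]) {s : ℝ} (hs : |s| ≤ Real.exp (c i)) :
    s • x i ∈ Zon x P c :=
  word_mem (l := [i]) hi (by simpa [cw] using hs)

theorem Zon_span (h : v ∈ Zon x P c) : v ∈ Submodule.span ℝ {w | ∃ l, P l ∧ w = yw x l} := by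
  obtain ⟨t, -, h2, rfl⟩ := BoxA_elim h
  refine sum_mem fun l _ => ?_
  by_cases hl : P l
  · exact Submodule.smul_mem _ _ (Submodule.subset_span ⟨l, hl, rfl⟩)
  · simp [h2 l hl]

theorem Bx_split (p : ι → Prop) (h : v ∈ Bx x c) :
    ∃ k ∈ IZ x p c, ∃ q ∈ SZ x p c, v = k + q := by
  classical
  obtain ⟨t, h1, -, rfl⟩ := BoxA_elim h
  refine ⟨_, BoxA_intro (fun l => if ∀ i ∈ l, p i then 0 else t l) (fun l _ _ _ => ?_)
    (fun l hl => if_pos (by simpa using hl)), _,
    BoxA_intro (fun l => if ∀ i ∈ l, p i then t l else 0) (fun l _ _ hl => ?_)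
    (fun l hl => if_neg hl), ?_⟩
  · split_ifs
    · simpa using (Real.exp_pos _).le
    · exact h1 l
  · rw [if_pos hl]
    exact h1 l
  · rw [← Finset.sum_add_distrib]
    refine Finset.sum_congr rfl fun l _ => ?_
    split_ifs <;> simp

theorem dl_yw {lam : ι → Ht M.k} (hx : ∀ a i, M.dl a (x i) = Real.exp ⟪lam i, a⟫_ℝ • x i)
    (a : Ht M.k) (l : List ι) :
    M.dl a (yw x l) = Real.exp (cw (fun i => ⟪lam i, a⟫_ℝ) l) • yw x l :=
  BoxA_map_yw (M.dl a) (hx a) (dl_br a) l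

theorem dl_mem_Zon {lam : ι → Ht M.k} (hx : ∀ a i, M.dl a (x i) = Real.exp ⟪lam i, a⟫_ℝ • x i)
    (a : Ht M.k) : M.dl a v ∈ Zon x P (fun i => c i + ⟪lam i, a⟫_ℝ) ↔ v ∈ Zon x P c := by
  have h1 : ∀ (a : Ht M.k) (c : ι → ℝ) (v : M.V), v ∈ Zon x P c →
      M.dl a v ∈ Zon x P fun i => c i + ⟪lam i, a⟫_ℝ := fun a c v hv => by
    obtain ⟨t, t1, t2, rfl⟩ := BoxA_elim hv
    rw [map_sum]
    simp only [map_smul, dl_yw hx, smul_smul]
    refine BoxA_intro (fun l => t l * Real.exp (cw (fun i => ⟪lam i, a⟫_ℝ) l))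
      (fun l _ _ _ => ?_) fun l hl => by simp [t2 l hl]
    rw [abs_mul, abs_of_pos (Real.exp_pos _), BoxA_cw_add c fun i => ⟪lam i, a⟫_ℝ, Real.exp_add]
    exact mul_le_mul_of_nonneg_right (t1 l) (Real.exp_pos _).le
  refine ⟨fun h => ?_, h1 a c v⟩
  have h2 := h1 (-a) _ _ h
  rw [dl_dl, neg_add_cancel, dl_zero] at h2
  simpa only [inner_neg_right, add_neg_cancel_right] using h2

theorem IZ_shift {p : ι → Prop} {β : ℝ} (hβ : 0 ≤ β) (h1 : ∀ i, p i → c' i ≤ c i + β)
    (h2 : ∀ i, ¬p i → c' i + M.F.d * β ≤ c i) : IZ x p c' ⊆ IZ x p c := fun v hv => by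
  have h0 : (0 : ℝ) ≤ M.F.d * β := by positivity
  have h3 : ∀ l : List ι, cw c' l ≤ cw c l + l.length * β := fun l => by
    rw [← BoxA_cw_const, ← BoxA_cw_add]
    refine BoxA_cw_le fun i _ => ?_
    by_cases hi : p i
    · exact h1 i hi
    · have := h2 i hi
      linarith
  have h4 : ∀ l : List ι, (∃ i ∈ l, ¬p i) → cw c' l + M.F.d * β ≤ cw c l + l.length * β := by
    intro l
    induction l with
    | nil => simp
    | cons i l ih =>
      intro hl
      rw [BoxA_cw_cons, BoxA_cw_cons, List.length_cons]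
      push_cast
      by_cases hi : p i
      · have a1 := h1 i hi
        have a2 := ih (by simpa [hi] using hl)
        linarith
      · have a1 := h2 i hi
        have a2 := h3 l
        linarith
  rw [← one_smul ℝ v]
  refine BoxA_scale 1 hv fun l hl _ hp => ?_
  rw [abs_one, one_mul, Real.exp_le_exp]
  have h5 : (l.length : ℝ) ≤ M.F.d := by exact_mod_cast hl.le
  have := mul_le_mul_of_nonneg_right h5 hβ
  have := h4 l hp
  linarith

theorem norm_of_mem (x : ι → M.V) : ∃ C, 0 ≤ C ∧ ∀ β, 0 ≤ β → ∀ v ∈ Bx x fun _ => β,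
    ‖v‖ ≤ Real.exp (C * (β + 1)) := by
  have hS : 0 ≤ ∑ l ∈ ws ι M.F.d, ‖yw x l‖ := Finset.sum_nonneg fun _ _ => norm_nonneg _
  refine ⟨M.F.d + ∑ l ∈ ws ι M.F.d, ‖yw x l‖, by positivity, fun β hβ v hv => ?_⟩
  obtain ⟨t, h1, -, rfl⟩ := BoxA_elim hv
  refine (BoxA_norm t (r := Real.exp (M.F.d * β)) fun l hl _ => (h1 l).trans ?_).trans ?_
  · rw [BoxA_cw_const, Real.exp_le_exp]
    exact mul_le_mul_of_nonneg_right (by exact_mod_cast hl.le) hβ
  · generalize ∑ l ∈ ws ι M.F.d, ‖yw x l‖ = S at hS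
    have h2 : S ≤ Real.exp S := by
      have := Real.add_one_le_exp S
      linarith
    refine (mul_le_mul_of_nonneg_right h2 (Real.exp_pos _).le).trans ?_
    rw [← Real.exp_add, Real.exp_le_exp]
    have h3 : (0 : ℝ) ≤ M.F.d := by positivity
    nlinarith [mul_nonneg hS hβ]

theorem mem_of_norm (hx : Submodule.span ℝ (Set.range (yw x)) = ⊤) : ∃ C, 0 ≤ C ∧
    ∀ ρ, 0 ≤ ρ → ∀ v : M.V, ‖v‖ ≤ Real.exp ρ → v ∈ Bx x fun _ => ρ + C := by
  classical
  have h1 : LinearMap.range (Fintype.linearCombination ℝ fun l : ws ι M.F.d => yw x l.1) = ⊤ := by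
    rw [Fintype.range_linearCombination, eq_top_iff, ← hx, Submodule.span_le]
    rintro _ ⟨l, rfl⟩
    by_cases h : l.length < M.F.d
    · exact Submodule.subset_span ⟨⟨l, BoxA_ws.2 h⟩, rfl⟩
    · rw [yw_long x (not_lt.1 h)]
      exact Submodule.zero_mem _
  obtain ⟨g, hg⟩ := LinearMap.exists_rightInverse_of_surjective _ h1
  refine ⟨‖LinearMap.toContinuousLinearMap g‖, norm_nonneg _, fun ρ hρ v hv => ?_⟩
  have h2 : v = ∑ l ∈ ws ι M.F.d, (if h : l ∈ ws ι M.F.d then g v ⟨l, h⟩ else 0) • yw x l := by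
    have h3 := LinearMap.congr_fun hg v
    rw [LinearMap.comp_apply, Fintype.linearCombination_apply, LinearMap.id_apply] at h3
    rw [← Finset.sum_coe_sort]
    refine h3.symm.trans (Finset.sum_congr rfl fun l _ => ?_)
    rw [dif_pos l.2]
  rw [h2]
  refine BoxA_intro _ (fun l hl h0 _ => ?_) fun l hl => absurd trivial hl
  rw [dif_pos (BoxA_ws.2 hl), BoxA_cw_const]
  have h4 : |g v ⟨l, BoxA_ws.2 hl⟩| ≤ ‖g v‖ := norm_le_pi_norm (g v) _
  have h5 : ‖g v‖ ≤ ‖LinearMap.toContinuousLinearMap g‖ * ‖v‖ :=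
    (LinearMap.toContinuousLinearMap g).le_opNorm v
  have h6 := norm_nonneg (LinearMap.toContinuousLinearMap g)
  generalize ‖LinearMap.toContinuousLinearMap g‖ = K at h5 h6
  have h7 : K ≤ Real.exp K := by
    have := Real.add_one_le_exp K
    linarith
  refine h4.trans (h5.trans ((mul_le_mul h7 hv (norm_nonneg _) (Real.exp_pos _).le).trans ?_))
  rw [← Real.exp_add, Real.exp_le_exp]
  have := mul_le_mul_of_nonneg_right (BoxA_len h0) (add_nonneg hρ h6)
  linarith

theorem small_of_mem (x : ι → M.V) : ∃ C, 0 ≤ C ∧ ∀ β, 0 ≤ β → ∀ v ∈ Bx x fun _ => -β,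
    ‖v‖ ≤ C * Real.exp (-β) := by
  refine ⟨∑ l ∈ ws ι M.F.d, ‖yw x l‖, Finset.sum_nonneg fun _ _ => norm_nonneg _,
    fun β hβ v hv => ?_⟩
  obtain ⟨t, h1, -, rfl⟩ := BoxA_elim hv
  refine BoxA_norm t fun l _ h0 => (h1 l).trans ?_
  rw [BoxA_cw_const, Real.exp_le_exp]
  have := mul_le_mul_of_nonneg_right (BoxA_len h0) hβ
  linarith

/-- a map that preserves brackets and scales the letters maps the unit box onto a box -/
theorem map_Zon {R : Mdl} (hd : R.F.d = M.F.d) {X : ι → R.V} (φ : R.V →ₗ[ℝ] M.V)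
    (h1 : ∀ i, φ (X i) = Real.exp (c i) • x i) (h2 : ∀ u v, φ (R.br u v) = M.br (φ u) (φ v))
    (b : ι → ℝ) : φ '' Zon X P b = Zon x P fun i => c i + b i := by
  ext v
  constructor
  · rintro ⟨u, ⟨s, s1, s2, rfl⟩, rfl⟩
    refine ⟨s, s1, s2, ?_⟩
    rw [map_sum, hd]
    refine Finset.sum_congr rfl fun l _ => ?_
    rw [map_smul, BoxA_map_yw φ h1 h2, smul_smul, BoxA_cw_add, Real.exp_add]
    congr 1
    ring
  · rintro ⟨s, s1, s2, rfl⟩
    refine ⟨_, ⟨s, s1, s2, rfl⟩, ?_⟩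
    rw [map_sum, hd]
    refine Finset.sum_congr rfl fun l _ => ?_
    rw [map_smul, BoxA_map_yw φ h1 h2, smul_smul, BoxA_cw_add, Real.exp_add]
    congr 1
    ring

end Vale.Agent.P188.Mdl
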