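import Vale.Agent.P188.BoxG
import Vale.Agent.P188.AcAbs
import Vale.Agent.P188.AcPush

/-! Random products of letters are absolutely continuous, uniformly in the box. -/

namespace Vale.Agent.P188.Mdl

open MeasureTheory

variable {M : Mdl} {ι : Type} [Finite ι] {x : ι → M.V}

theorem BoxAC_open {E G F : Type} [NormedAddCommGroup E] [NormedSpace ℝ E] [NormedAddCommGroup G]
    [NormedSpace ℝ G] [NormedAddCommGroup F] [NormedSpace ℝ F] [FiniteDimensional ℝ F]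
    {P : E → G → F} (hP : ContDiff ℝ ⊤ fun q : E × G => P q.1 q.2) {s : G}
    (hs : Function.Surjective (fderiv ℝ (P 0) s)) :
    ∃ δ > 0, ∀ e, ‖e‖ < δ → Function.Surjective (fderiv ℝ (P e) s) := by
  haveI := FiniteDimensional.complete ℝ F
  obtain ⟨B, hB⟩ := (fderiv ℝ (P 0) s).exists_rightInverse_of_surjective
    (LinearMap.range_eq_top.2 hs)
  have h1 : Continuous fun e => fderiv ℝ (P e) s :=
    Continuous.fderiv (f := P) hP continuous_const le_top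
  have h2 : Continuous fun e => (fderiv ℝ (P e) s).comp B := h1.clm_comp continuous_const
  have h3 : IsOpen {e | IsUnit ((fderiv ℝ (P e) s).comp B)} := Units.isOpen.preimage h2
  have h4 : (0 : E) ∈ {e | IsUnit ((fderiv ℝ (P e) s).comp B)} := by
    rw [Set.mem_ofPred_eq, hB]
    exact isUnit_one
  obtain ⟨δ, hδ, h5⟩ := Metric.isOpen_iff.1 h3 0 h4
  refine ⟨δ, hδ, fun e he y => ?_⟩
  obtain ⟨u, hu⟩ := (h5 (mem_ball_zero_iff.2 he)).exists_right_inv
  exact ⟨B (u y), congrArg (fun T : F →L[ℝ] F => T y) hu⟩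

theorem BoxAC_pw_mem (x : ι → M.V) (m : ℕ) : ∃ C, 0 ≤ C ∧
    ∀ (j : Fin m → ι) (c : ι → ℝ) (e : Fin m → M.V) (s : Fin m → ℝ), (∀ r, e r ∈ Bx x c) →
      (∀ r, |s r| ≤ 1) → pw x j e c s ∈ Bx x fun i => c i + C := by
  obtain ⟨C₁, h0, h1⟩ := st_Bx x
  obtain ⟨C₂, h0', h2⟩ := prod_Bx x
  have h3 : 0 ≤ Real.log (m + 1) := Real.log_nonneg (by linarith [(Nat.cast_nonneg m : (0 : ℝ) ≤ m)])
  refine ⟨C₁ + Real.log (m + 1) + C₂, by positivity, fun j c e s he hs => ?_⟩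
  have h4 := h2 (fun i => c i + C₁)
    (List.ofFn fun r => M.st (e r) ((s r * Real.exp (c (j r))) • x (j r))) fun v hv => by
      obtain ⟨r, rfl⟩ := List.mem_ofFn.1 hv
      refine h1 c _ (he r) _ (gen_mem trivial ?_)
      rw [abs_mul, abs_of_pos (Real.exp_pos _)]
      exact mul_le_of_le_one_left (Real.exp_pos _).le (hs r)
  rw [List.length_ofFn] at h4
  exact Zon_mono (fun i => le_of_eq (by ring)) h4

theorem BoxAC_map_sp {R : Mdl} (φ : R.V →ₗ[ℝ] M.V)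
    (h : ∀ u v, φ (R.st u v) = M.st (φ u) (φ v)) (l : List R.V) : φ (sp l) = sp (l.map φ) := by
  induction l with
  | nil => exact map_zero φ
  | cons a l ih =>
    rw [sp, List.foldr_cons, h, List.map_cons, sp, List.foldr_cons]
    exact congrArg _ ih

omit [Finite ι] in
theorem BoxAC_map_pw {R : Mdl} {X : ι → R.V} {c : ι → ℝ} (φ : R.V →ₗ[ℝ] M.V)
    (h1 : ∀ i, φ (X i) = Real.exp (c i) • x i) (h : ∀ u v, φ (R.st u v) = M.st (φ u) (φ v))
    {m : ℕ} (j : Fin m → ι) (e : Fin m → R.V) (s : Fin m → ℝ) :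
    φ (pw X j e 0 s) = pw x j (fun r => φ (e r)) c s := by
  rw [pw, BoxAC_map_sp φ h, List.map_ofFn, pw]
  refine congrArg (fun f => sp (List.ofFn f)) (funext fun r => ?_)
  rw [Function.comp_apply, h, map_smul, h1, smul_smul, Pi.zero_apply, Real.exp_zero, mul_one]

omit [Finite ι] in
theorem BoxAC_surj (hx : Submodule.span ℝ (Set.range (yw x)) = ⊤) {R : Mdl} {X : ι → R.V}
    {c : ι → ℝ} (φ : R.V →ₗ[ℝ] M.V) (h1 : ∀ i, φ (X i) = Real.exp (c i) • x i)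
    (h2 : ∀ u v, φ (R.br u v) = M.br (φ u) (φ v)) : Function.Surjective φ := by
  rw [← LinearMap.range_eq_top, eq_top_iff, ← hx, Submodule.span_le]
  rintro _ ⟨l, rfl⟩
  refine ⟨(Real.exp (cw c l))⁻¹ • yw X l, ?_⟩
  rw [map_smul, BoxA_map_yw φ h1 h2, smul_smul, inv_mul_cancel₀ (Real.exp_pos _).ne', one_smul]

theorem ac_Bx (hx : Submodule.span ℝ (Set.range (yw x)) = ⊤) :
    ∃ (m : ℕ) (j : Fin m → ι) (β : ℝ), 0 ≤ β ∧ ∀ θ > 0, ∃ κ > 0, ∀ (c : ι → ℝ) (e : Fin m → M.V),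
      (∀ r, e r ∈ Bx x fun i => c i - β) → ∀ Θ ⊆ Set.Icc (-1 : Fin m → ℝ) 1, MeasurableSet Θ →
        ENNReal.ofReal θ ≤ volume Θ →
          ENNReal.ofReal κ * volume (Bx x c) ≤ volume (pw x j e c '' Θ) := by
  obtain ⟨R, X, hd, hX, hu⟩ := exists_free M.F.d ι
  obtain ⟨m, j, s₀, -, hs₀⟩ := exists_subm hX
  obtain ⟨δ, hδ, hop⟩ := BoxAC_open (P := fun e s => pw X j e 0 s) (contDiff_pw X j 0) hs₀
  obtain ⟨C₀, hC₀, hsm⟩ := small_of_mem X
  obtain ⟨β, hβ, hβδ⟩ : ∃ β : ℝ, 0 ≤ β ∧ C₀ * Real.exp (-β) < δ := by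
    refine ⟨C₀ / δ, by positivity, ?_⟩
    rw [Real.exp_neg, ← div_eq_mul_inv, div_lt_iff₀ (Real.exp_pos _)]
    have h1 := Real.add_one_le_exp (C₀ / δ)
    have h2 : δ * (C₀ / δ) = C₀ := by field_simp
    nlinarith
  obtain ⟨C, hC, hpw⟩ := BoxAC_pw_mem X m
  refine ⟨m, j, β, hβ, fun θ hθ => ?_⟩
  have hK : IsCompact (Set.univ.pi fun _ : Fin m => Bx X fun _ => -β) :=
    isCompact_univ_pi fun _ => isCompact_Zon
  obtain ⟨κ, hκ, hac⟩ := ac_abs volume (P := fun e s => pw X j e 0 s) (contDiff_pw X j 0) hK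
    (fun e he => ⟨s₀, hop e ((pi_norm_lt_iff hδ).2 fun r =>
      (hsm β hβ _ (he r (Set.mem_univ _))).trans_lt hβδ)⟩) hθ
  have hZ : IsCompact (Bx X fun i => (0 : ι → ℝ) i + C) := isCompact_Zon
  obtain ⟨D, hD, hD'⟩ : ∃ D : ℝ, 0 < D ∧ 4 ^ Module.finrank ℝ R.V *
      volume (Bx X fun i => (0 : ι → ℝ) i + C) ≤ ENNReal.ofReal D := by
    have h1 : (4 : ENNReal) ^ Module.finrank ℝ R.V *
        volume (Bx X fun i => (0 : ι → ℝ) i + C) ≠ ⊤ :=
      ENNReal.mul_ne_top (ENNReal.pow_ne_top (by norm_num)) hZ.measure_lt_top.ne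
    exact ⟨_, add_pos_of_nonneg_of_pos ENNReal.toReal_nonneg one_pos,
      (ENNReal.ofReal_toReal h1).ge.trans (ENNReal.ofReal_le_ofReal (le_add_of_nonneg_right
        zero_le_one))⟩
  refine ⟨κ / D, div_pos hκ hD, fun c e he Θ hΘ hm hv => ?_⟩
  obtain ⟨φ, h1, h2, h3⟩ := hu M (fun i => Real.exp (c i) • x i) rfl
  have h4 : ∀ r, ∃ e' ∈ Bx X fun _ => -β, φ e' = e r := fun r => by
    have h5 := map_Zon (P := fun _ => True) hd φ h1 h2 fun _ => -β
    exact (Set.ext_iff.1 h5 (e r)).2 (he r)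
  choose e' he' hφ using h4
  have h5 : pw X j e' 0 '' Θ ⊆ Bx X fun i => (0 : ι → ℝ) i + C := by
    rintro _ ⟨s, hs, rfl⟩
    refine hpw j 0 e' s (fun r => Zon_mono (fun i => neg_nonpos.2 hβ) (he' r)) fun r => ?_
    exact abs_le.2 ⟨(hΘ hs).1 r, (hΘ hs).2 r⟩
  have h6 := ac_push volume volume φ (BoxAC_surj hx φ h1 h2) hZ convex_Zon
    (fun _ => neg_mem_Zon) h5
  have h7 : φ '' (pw X j e' 0 '' Θ) = pw x j e c '' Θ := by
    rw [Set.image_image]
    refine Set.image_congr fun s _ => ?_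
    rw [BoxAC_map_pw φ h1 h3, funext hφ]
  have h8 : Bx x c ⊆ φ '' Bx X fun i => (0 : ι → ℝ) i + C := by
    rw [Bx, Bx, map_Zon hd φ h1 h2]
    exact Zon_mono fun i => le_add_of_nonneg_right ((zero_add C).ge.trans' hC)
  rw [h7, ← mul_assoc] at h6
  rw [ENNReal.ofReal_div_of_pos hD, ← ENNReal.mul_div_right_comm]
  refine ENNReal.div_le_of_le_mul' ?_
  exact (mul_le_mul' (hac e' (fun r _ => he' r) Θ hΘ hm hv) (measure_mono h8)).trans
    (h6.trans (mul_le_mul' hD' le_rfl))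

/-- volumes of comparable boxes -/
theorem vol_Bx_add (x : ι → M.V) (c : ι → ℝ) {β : ℝ} (hβ : 0 ≤ β) :
    volume (Bx x fun i => c i + β) ≤
      ENNReal.ofReal (Real.exp (M.N * M.F.d * β)) * volume (Bx x c) := by
  have h1 : (Bx x fun i => c i + β) ⊆ (Real.exp (M.F.d * β) • ·) '' Bx x c := fun v hv =>
    ⟨_, shrink_mem hβ hv, by
      simp only [smul_smul, ← Real.exp_add, add_neg_cancel, Real.exp_zero, one_smul]⟩
  have h2 : Module.finrank ℝ M.V = M.N := Module.finrank_fin_fun ℝ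
  refine (measure_mono h1).trans (le_of_eq ?_)
  rw [Set.image_smul, Measure.addHaar_smul_of_nonneg _ (Real.exp_pos _).le, h2, ← Real.exp_nat_mul, mul_assoc]

theorem vol_Bx_pos (hx : Submodule.span ℝ (Set.range (yw x)) = ⊤) (c : ι → ℝ) :
    0 < volume (Bx x c) := by
  obtain ⟨C, -, h⟩ := mem_of_norm hx
  obtain ⟨b, hb⟩ := (Set.finite_range fun i => 0 + C - c i).bddAbove
  have h1 : Metric.ball (0 : M.V) 1 ⊆ Bx x fun i => c i + max b 0 := fun v hv => by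
    refine Zon_mono (fun i => ?_) (h 0 le_rfl v ?_)
    · have h2 : 0 + C - c i ≤ b := hb ⟨i, rfl⟩
      have h3 := le_max_left b 0
      show 0 + C ≤ c i + max b 0
      linarith
    · rw [Real.exp_zero]
      exact (mem_ball_zero_iff.1 hv).le
  have h2 := ((Metric.measure_ball_pos volume (0 : M.V) one_pos).trans_le
    (measure_mono h1)).trans_le (vol_Bx_add x c (le_max_right b 0))
  exact pos_iff_ne_zero.2 (right_ne_zero_of_mul h2.ne')

end Vale.Agent.P188.Mdl
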