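import Vale.Agent.P188.BoxA
import Vale.Agent.P188.Free

/-! Products of boxes. -/

namespace Vale.Agent.P188.Mdl

variable {M : Mdl} {ι : Type} [Finite ι] (x : ι → M.V)

theorem BoxB_up : ∃ (R : Mdl) (X : ι → R.V), R.F.d = M.F.d ∧
    Submodule.span ℝ (Set.range (yw X)) = ⊤ ∧ ∀ c : ι → ℝ, ∃ φ : R.V →ₗ[ℝ] M.V,
      (∀ b, φ '' Bx X b = Bx x fun i => c i + b i) ∧
        ∀ u v, φ (R.st u v) = M.st (φ u) (φ v) := by
  obtain ⟨R, X, h1, h2, h3⟩ := exists_free M.F.d ι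
  refine ⟨R, X, h1, h2, fun c => ?_⟩
  obtain ⟨φ, a1, a2, a3⟩ := h3 M (fun i => Real.exp (c i) • x i) rfl
  exact ⟨φ, fun b => map_Zon h1 φ a1 a2 b, a3⟩

theorem BoxB_shr (hx : Submodule.span ℝ (Set.range (yw x)) = ⊤) (K : ℝ) : ∃ C, 0 ≤ C ∧
    ∀ γ, 0 ≤ γ → ∀ v : M.V, ‖v‖ ≤ K * Real.exp (-(M.F.d * γ)) → v ∈ Bx x fun _ => C - γ := by
  obtain ⟨C, h0, hC⟩ := mem_of_norm hx
  refine ⟨|K| + C, by positivity, fun γ hγ v hv => ?_⟩
  have h1 : ‖Real.exp (M.F.d * γ) • v‖ ≤ Real.exp |K| := by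
    rw [norm_smul, Real.norm_eq_abs, abs_of_pos (Real.exp_pos _)]
    refine (mul_le_mul_of_nonneg_left hv (Real.exp_pos _).le).trans ?_
    rw [mul_left_comm, ← Real.exp_add, add_neg_cancel, Real.exp_zero, mul_one]
    have := Real.add_one_le_exp |K|
    have := le_abs_self K
    linarith
  have h2 := hC _ (abs_nonneg K) _ h1
  have h3 : Real.exp (M.F.d * γ) • v ∈
      Zon x (fun _ => True) fun i => (fun _ => |K| + C - γ) i + γ := by
    simpa only [sub_add_cancel, Bx] using h2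
  have h4 := shrink_mem hγ h3
  rwa [smul_smul, ← Real.exp_add, neg_add_cancel, Real.exp_zero, one_smul] at h4

theorem BoxB_bdd (hx : Submodule.span ℝ (Set.range (yw x)) = ⊤) (K : ℝ) : ∃ C, 0 ≤ C ∧
    ∀ v : M.V, ‖v‖ ≤ K → v ∈ Bx x fun _ => C := by
  obtain ⟨C, h0, hC⟩ := BoxB_shr x hx K
  exact ⟨C, h0, fun v hv => by simpa using hC 0 le_rfl v (by simpa using hv)⟩

theorem BoxB_lip (f : M.V × M.V → M.V) (hf : ContDiff ℝ ⊤ f) (h0 : ∀ p, f (p, 0) = 0) (K : ℝ) :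
    ∃ L, 0 ≤ L ∧ ∀ p u, ‖p‖ ≤ K → ‖u‖ ≤ K → ‖f (p, u)‖ ≤ L * ‖u‖ := by
  have h1 : LocallyLipschitz f := (hf.of_le le_top : ContDiff ℝ 1 f).locallyLipschitz
  have : ProperSpace (M.V × M.V) := FiniteDimensional.proper ℝ _
  obtain ⟨L, hL⟩ := LocallyLipschitzOn.exists_lipschitzOnWith_of_compact
    (isCompact_closedBall (0 : M.V × M.V) K) h1.locallyLipschitzOn
  refine ⟨L, L.2, fun p u hp hu => ?_⟩
  have hK : 0 ≤ K := (norm_nonneg _).trans hp
  have h2 := hL.dist_le_mul (x := (p, u)) (by simp [Prod.norm_def, hp, hu]) (y := (p, 0))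
    (by simp [Prod.norm_def, hp, hK])
  simpa [h0, Prod.dist_eq] using h2

theorem BoxB_two (hx : Submodule.span ℝ (Set.range (yw x)) = ⊤) (f : M.V × M.V → M.V)
    (hf : ContDiff ℝ ⊤ f) (h0 : ∀ p, f (p, 0) = 0) : ∃ C, 0 ≤ C ∧ ∀ β, 0 ≤ β →
      ∀ p ∈ Bx x fun _ => 0, ∀ u ∈ Bx x fun _ => -β,
        f (p, u) ∈ Bx x fun _ => C - β / M.F.d := by
  obtain ⟨K, k0, hK⟩ := small_of_mem x
  obtain ⟨L, l0, hL⟩ := BoxB_lip f hf h0 K
  obtain ⟨C, c0, hC⟩ := BoxB_shr x hx (L * K)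
  refine ⟨C, c0, fun β hβ p hp u hu => hC _ (by positivity) _ ?_⟩
  have a1 : ‖p‖ ≤ K := by simpa using hK 0 le_rfl p (by simpa using hp)
  have a2 := hK β hβ u hu
  have a3 : Real.exp (-β) ≤ 1 := Real.exp_le_one_iff.2 (by linarith)
  have a4 : M.F.d * (β / M.F.d) ≤ β := by
    by_cases hd : (M.F.d : ℝ) = 0
    · rw [hd, zero_mul]
      exact hβ
    · rw [mul_div_cancel₀ _ hd]
  refine (hL p u a1 (a2.trans (mul_le_of_le_one_right k0 a3))).trans ?_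
  rw [mul_assoc]
  refine mul_le_mul_of_nonneg_left (a2.trans (mul_le_mul_of_nonneg_left ?_ k0)) l0
  exact Real.exp_le_exp.2 (by linarith)

theorem BoxB_c0 {f g : M.V × M.V → M.V} (hf : ContDiff ℝ ⊤ f) (hg : ContDiff ℝ ⊤ g) :
    ContDiff ℝ ⊤ fun q => M.st (f q) (g q) :=
  (contDiff_st (M := M)).comp (f := fun q => (f q, g q)) (hf.prodMk hg)

theorem BoxB_c1 : ContDiff ℝ ⊤ fun q : M.V × M.V => M.st (M.st (-q.1) q.2) q.1 :=
  BoxB_c0 (BoxB_c0 contDiff_fst.neg contDiff_snd) contDiff_fst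

theorem BoxB_c2 : ContDiff ℝ ⊤ fun q : M.V × M.V => M.st (-q.1) (q.1 + q.2) :=
  BoxB_c0 contDiff_fst.neg (contDiff_fst.add contDiff_snd)

theorem BoxB_ex (d : ℕ) (a : M.A) : 1 + ‖ex d a - 1‖ ≤ Real.exp ‖a‖ := by
  refine le_trans ?_ (Real.sum_le_exp_of_nonneg (norm_nonneg a) (d + 1))
  rw [bch_ex_sub, Finset.sum_range_succ', add_comm]
  refine add_le_add ((norm_sum_le _ _).trans (Finset.sum_le_sum fun k _ => ?_)) (by simp)
  rw [norm_smul, norm_inv, Real.norm_natCast, div_eq_inv_mul]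
  exact mul_le_mul_of_nonneg_left (norm_pow_le' a k.succ_pos) (by positivity)

theorem BoxB_sp {r : ℝ} (l : List M.V) (h : ∀ v ∈ l, ‖M.em v‖ ≤ r) :
    1 + ‖ex M.F.d (M.em (sp l)) - 1‖ ≤ Real.exp (l.length * r) := by
  induction l with
  | nil => simp [sp, ex_zero]
  | cons v l ih =>
    have a1 := ih fun w hw => h w (by simp [hw])
    have a2 := (BoxB_ex M.F.d (M.em v)).trans (Real.exp_le_exp.2 (h v (by simp)))
    have e : sp (v :: l) = M.st v (sp l) := rfl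
    rw [e, em_st, ex_bch M.F (em_mem _) (em_mem _), List.length_cons]
    generalize ex M.F.d (M.em v) = a at a2
    generalize ex M.F.d (M.em (sp l)) = b at a1
    have e2 : a * b - 1 = (a - 1) * (b - 1) + (a - 1) + (b - 1) := by noncomm_ring
    have a3 : ‖a * b - 1‖ ≤ ‖a - 1‖ * ‖b - 1‖ + ‖a - 1‖ + ‖b - 1‖ := by
      rw [e2]
      exact norm_add_le_of_le (norm_add_le_of_le (norm_mul_le _ _) le_rfl) le_rfl
    have a4 := mul_le_mul a2 a1 (by positivity) (Real.exp_pos _).le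
    rw [← Real.exp_add] at a4
    push_cast
    rw [add_mul, one_mul, add_comm _ r]
    nlinarith

theorem BoxB_spb (K : ℝ) (hK : 0 ≤ K) : ∃ L, ∀ l : List M.V,
    (∀ v ∈ l, ‖v‖ ≤ K * ((l.length : ℝ) + 1)⁻¹) → ‖sp l‖ ≤ L := by
  have hp : Continuous M.p := (LinearMap.toContinuousLinearMap M.p).continuous
  have h2 : Continuous (lg M.F.d : M.A → M.A) :=
    continuous_finset_sum _ fun k _ =>
      ((continuous_id.sub continuous_const).pow (k + 1)).const_smul _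
  have : ProperSpace M.A := FiniteDimensional.proper ℝ _
  obtain ⟨L, hL⟩ := (isCompact_closedBall (1 : M.A)
    (Real.exp (‖LinearMap.toContinuousLinearMap M.em‖ * K))).exists_bound_of_continuousOn
    (hp.comp h2).continuousOn
  refine ⟨L, fun l hl => ?_⟩
  have h3 := BoxB_sp l (r := ‖LinearMap.toContinuousLinearMap M.em‖ * (K * ((l.length : ℝ) + 1)⁻¹))
    fun v hv => ((LinearMap.toContinuousLinearMap M.em).le_opNorm v).trans
      (mul_le_mul_of_nonneg_left (hl v hv) (norm_nonneg _))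
  have h4 := hL (ex M.F.d (M.em (sp l))) (by
    rw [mem_closedBall_iff_norm]
    refine (le_add_of_nonneg_left zero_le_one).trans (h3.trans (Real.exp_le_exp.2 ?_))
    rw [mul_left_comm]
    refine mul_le_mul_of_nonneg_left ?_ (norm_nonneg _)
    rw [mul_left_comm, ← div_eq_mul_inv]
    exact mul_le_of_le_one_right hK (div_le_one_of_le₀ (by linarith) (by positivity)))
  rwa [Function.comp_apply, lg_ex M.F (em_mem _), p_em] at h4

theorem st_Bx : ∃ C, 0 ≤ C ∧ ∀ c, ∀ u ∈ Bx x c, ∀ v ∈ Bx x c,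
    M.st u v ∈ Bx x fun i => c i + C := by
  obtain ⟨R, X, -, hX, h⟩ := BoxB_up x
  have h1 : IsCompact (Bx X (fun _ => 0) ×ˢ Bx X fun _ => 0) := isCompact_Zon.prod isCompact_Zon
  obtain ⟨K, hK⟩ := h1.exists_bound_of_continuousOn (contDiff_st (M := R)).continuous.continuousOn
  obtain ⟨C, h0, hC⟩ := BoxB_bdd X hX K
  refine ⟨C, h0, fun c u hu v hv => ?_⟩
  obtain ⟨φ, a1, a2⟩ := h c
  have e : φ '' Bx X (fun _ => 0) = Bx x c := by simpa using a1 fun _ => 0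
  rw [← e] at hu hv
  obtain ⟨u, hu, rfl⟩ := hu
  obtain ⟨v, hv, rfl⟩ := hv
  rw [← a2, ← a1 fun _ => C]
  exact ⟨_, hC _ (hK (u, v) ⟨hu, hv⟩), rfl⟩

theorem prod_Bx : ∃ C, 0 ≤ C ∧ ∀ c (l : List M.V), (∀ v ∈ l, v ∈ Bx x c) →
    sp l ∈ Bx x fun i => c i + Real.log (l.length + 1) + C := by
  obtain ⟨R, X, -, hX, h⟩ := BoxB_up x
  obtain ⟨K, k0, hK⟩ := small_of_mem X
  obtain ⟨L, hL⟩ := BoxB_spb (M := R) K k0
  obtain ⟨C, h0, hC⟩ := BoxB_bdd X hX L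
  refine ⟨C, h0, fun c l hl => ?_⟩
  obtain ⟨φ, a1, a2⟩ := h fun i => c i + Real.log (l.length + 1)
  have e : φ '' Bx X (fun _ => -Real.log (l.length + 1)) = Bx x c := by
    simpa using a1 fun _ => -Real.log (l.length + 1)
  have h1 : ∀ m : List M.V, (∀ v ∈ m, v ∈ Bx x c) → ∃ m' : List R.V, m'.length = m.length ∧
      (∀ v ∈ m', v ∈ Bx X fun _ => -Real.log (l.length + 1)) ∧ φ (sp m') = sp m := by
    intro m
    induction m with
    | nil => exact fun _ => ⟨[], rfl, by simp, map_zero φ⟩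
    | cons v m ih =>
      intro hm
      obtain ⟨m', b1, b2, b3⟩ := ih fun w hw => hm w (by simp [hw])
      have b4 := hm v (by simp)
      rw [← e] at b4
      obtain ⟨u, hu, rfl⟩ := b4
      refine ⟨u :: m', by simp [b1], fun w hw => ?_, ?_⟩
      · rcases List.mem_cons.1 hw with rfl | hw
        · exact hu
        · exact b2 w hw
      · exact (a2 u (sp m')).trans (congrArg (M.st (φ u)) b3)
  obtain ⟨m, b1, b2, b3⟩ := h1 l hl
  rw [← b3, ← a1 fun _ => C]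
  refine ⟨_, hC _ (hL m fun v hv => ?_), rfl⟩
  have b4 : (0 : ℝ) ≤ l.length := by positivity
  have b5 := hK _ (Real.log_nonneg (by linarith)) v (b2 v hv)
  rwa [Real.exp_neg, Real.exp_log (by linarith), ← b1] at b5

theorem conj_Bx : ∃ C, 0 ≤ C ∧ ∀ c β, 0 ≤ β → ∀ p ∈ Bx x c, ∀ u ∈ Bx x fun i => c i - β,
    M.st (M.st (-p) u) p ∈ Bx x fun i => c i - β / M.F.d + C := by
  obtain ⟨R, X, hd, hX, h⟩ := BoxB_up x
  obtain ⟨C, h0, hC⟩ := BoxB_two X hX _ BoxB_c1 fun p => by simp only [st_zero, neg_st]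
  refine ⟨C, h0, fun c β hβ p hp u hu => ?_⟩
  obtain ⟨φ, a1, a2⟩ := h c
  have e : φ '' Bx X (fun _ => 0) = Bx x c := by simpa using a1 fun _ => 0
  have e1 : φ '' Bx X (fun _ => -β) = Bx x fun i => c i - β := by
    simpa only [sub_eq_add_neg] using a1 fun _ => -β
  have e2 : (fun i => c i - β / M.F.d + C) = fun i => c i + (C - β / R.F.d) := by
    funext i
    rw [hd]
    ring
  rw [← e] at hp
  rw [← e1] at hu
  obtain ⟨p, hp, rfl⟩ := hp
  obtain ⟨u, hu, rfl⟩ := hu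
  rw [← map_neg, ← a2, ← a2, e2, ← a1 fun _ => C - β / R.F.d]
  exact ⟨_, hC β hβ p hp u hu, rfl⟩

theorem near_Bx : ∃ C, 0 ≤ C ∧ ∀ c β, 0 ≤ β → ∀ p ∈ Bx x c, ∀ u ∈ Bx x fun i => c i - β,
    M.st (-p) (p + u) ∈ Bx x fun i => c i - β / M.F.d + C := by
  obtain ⟨R, X, hd, hX, h⟩ := BoxB_up x
  obtain ⟨C, h0, hC⟩ := BoxB_two X hX _ BoxB_c2 fun p => by simp only [add_zero, neg_st]
  refine ⟨C, h0, fun c β hβ p hp u hu => ?_⟩
  obtain ⟨φ, a1, a2⟩ := h c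
  have e : φ '' Bx X (fun _ => 0) = Bx x c := by simpa using a1 fun _ => 0
  have e1 : φ '' Bx X (fun _ => -β) = Bx x fun i => c i - β := by
    simpa only [sub_eq_add_neg] using a1 fun _ => -β
  have e2 : (fun i => c i - β / M.F.d + C) = fun i => c i + (C - β / R.F.d) := by
    funext i
    rw [hd]
    ring
  rw [← e] at hp
  rw [← e1] at hu
  obtain ⟨p, hp, rfl⟩ := hp
  obtain ⟨u, hu, rfl⟩ := hu
  rw [← map_neg, ← map_add, ← a2, e2, ← a1 fun _ => C - β / R.F.d]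
  exact ⟨_, hC β hβ p hp u hu, rfl⟩

theorem cover_Bx (β : ℝ) : ∃ m : ℕ, ∀ c, ∀ A ⊆ Bx x c, ∃ q : Fin m → M.V,
    (∀ j, A.Nonempty → q j ∈ A) ∧ ∀ v ∈ A, ∃ j, M.st (-q j) v ∈ Bx x fun i => c i - β := by
  obtain ⟨R, X, -, hX, h⟩ := BoxB_up x
  obtain ⟨K, k0, hK⟩ := small_of_mem X
  obtain ⟨L, l0, hL⟩ := BoxB_lip _ (BoxB_c2 (M := R)) (fun p => by simp only [add_zero, neg_st])
    (K + 1)
  obtain ⟨C, c0, hC⟩ := BoxB_shr X hX L
  have h1 : ∃ δ > 0, ∀ p ∈ Bx X (fun _ => 0), ∀ v, ‖v - p‖ ≤ δ →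
      R.st (-p) v ∈ Bx X fun _ => -β := by
    refine ⟨Real.exp (-(R.F.d * (C + |β|))), Real.exp_pos _, fun p hp v hv => ?_⟩
    have a1 : ‖p‖ ≤ K := by simpa using hK 0 le_rfl p (by simpa using hp)
    have a2 : Real.exp (-(R.F.d * (C + |β|))) ≤ 1 :=
      Real.exp_le_one_iff.2 (neg_nonpos.2 (by positivity))
    have a3 := hL p (v - p) (by linarith) (by linarith)
    simp only [add_sub_cancel] at a3
    refine Zon_mono (fun i => ?_)
      (hC (C + |β|) (by positivity) _ (a3.trans (mul_le_mul_of_nonneg_left hv l0)))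
    have := le_abs_self β
    dsimp only
    linarith
  obtain ⟨δ, d0, hδ⟩ := h1
  obtain ⟨t, -, t1, t2⟩ := finite_cover_balls_of_compact
    (isCompact_Zon : IsCompact (Bx X fun _ => 0)) (half_pos d0)
  obtain ⟨m, z, hz⟩ := t1.fin_param
  refine ⟨m, fun c A hA => ?_⟩
  obtain ⟨φ, a1, a2⟩ := h c
  have e : φ '' Bx X (fun _ => 0) = Bx x c := by simpa using a1 fun _ => 0
  have e1 : φ '' Bx X (fun _ => -β) = Bx x fun i => c i - β := by
    simpa only [sub_eq_add_neg] using a1 fun _ => -β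
  have h2 : ∀ j : Fin m, ∃ q : M.V, (A.Nonempty → q ∈ A) ∧ ∀ u ∈ Bx X (fun _ => 0), φ u ∈ A →
      u ∈ Metric.ball (z j) (δ / 2) → M.st (-q) (φ u) ∈ Bx x fun i => c i - β := by
    intro j
    by_cases hj : ∃ p ∈ Bx X (fun _ => 0), φ p ∈ A ∧ p ∈ Metric.ball (z j) (δ / 2)
    · obtain ⟨p, b1, b2, b3⟩ := hj
      refine ⟨φ p, fun _ => b2, fun u _ _ hu => ?_⟩
      rw [← map_neg, ← a2, ← e1]
      refine ⟨_, hδ p b1 u ?_, rfl⟩
      rw [← dist_eq_norm]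
      have b4 := dist_triangle_right u p (z j)
      rw [Metric.mem_ball] at hu b3
      linarith
    · by_cases hA0 : A.Nonempty
      · obtain ⟨q, hq⟩ := hA0
        exact ⟨q, fun _ => hq, fun u b1 b2 b3 => absurd ⟨u, b1, b2, b3⟩ hj⟩
      · exact ⟨0, fun b => absurd b hA0, fun u b1 b2 b3 => absurd ⟨u, b1, b2, b3⟩ hj⟩
  choose q q1 q2 using h2
  refine ⟨q, q1, fun v hv => ?_⟩
  have b1 := hA hv
  rw [← e] at b1
  obtain ⟨u, hu, rfl⟩ := b1
  obtain ⟨w, hw, b2⟩ := Set.mem_iUnion₂.1 (t2 hu)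
  rw [← hz.2] at hw
  obtain ⟨j, rfl⟩ := hw
  exact ⟨j, q2 j u hu hv b2⟩

end Vale.Agent.P188.Mdl
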