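import Vale.Agent.P188.Len

/-! Words, brackets, boxes and the geometric data of a model. -/

namespace Vale.Agent.P188

open scoped InnerProductSpace

/-- words shorter than `d` -/
noncomputable def ws (ι : Type) [Finite ι] (d : ℕ) : Finset (List ι) :=
  (List.finite_length_lt ι d).toFinset

/-- the size of a word -/
def cw {ι : Type} (c : ι → ℝ) (l : List ι) : ℝ := (l.map c).sum

namespace Mdl

variable {M : Mdl} {ι : Type}

/-- iterated brackets -/
noncomputable def yw (x : ι → M.V) : List ι → M.V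
  | [] => 0
  | [i] => x i
  | i :: j :: l => M.br (x i) (yw x (j :: l))

/-- the product of a list in the nilshadow -/
noncomputable def sp (l : List M.V) : M.V := l.foldr M.st 0

variable [Finite ι]

/-- the zonotope of the words with property `P` -/
def Zon (x : ι → M.V) (P : List ι → Prop) (c : ι → ℝ) : Set M.V :=
  {v | ∃ s : List ι → ℝ, (∀ l, |s l| ≤ 1) ∧ (∀ l, ¬P l → s l = 0) ∧
    v = ∑ l ∈ ws ι M.F.d, (s l * Real.exp (cw c l)) • yw x l}

/-- boxes -/
def Bx (x : ι → M.V) (c : ι → ℝ) : Set M.V := Zon x (fun _ => True) c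

/-- the part of a box given by words with a letter outside `P` -/
def IZ (x : ι → M.V) (P : ι → Prop) (c : ι → ℝ) : Set M.V := Zon x (fun l => ∃ i ∈ l, ¬P i) c

/-- the part of a box given by words with all letters in `P` -/
def SZ (x : ι → M.V) (P : ι → Prop) (c : ι → ℝ) : Set M.V := Zon x (fun l => ∀ i ∈ l, P i) c

/-- the span of the words with a letter outside `P` -/
noncomputable def Id (x : ι → M.V) (P : ι → Prop) : Submodule ℝ M.V :=
  Submodule.span ℝ {v | ∃ l, (∃ i ∈ l, ¬P i) ∧ v = yw x l}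

/-- the volume exponent of a box -/
noncomputable def hh (x : ι → M.V) (c : ι → ℝ) : ℝ :=
  sSup {r | ∃ B ⊆ ws ι M.F.d, B.card = M.N ∧ LinearIndependent ℝ (fun l : B => yw x l.1) ∧
    r = ∑ l ∈ B, cw c l}

/-- products of letters with perturbations -/
noncomputable def pw (x : ι → M.V) {m : ℕ} (j : Fin m → ι) (e : Fin m → M.V) (c : ι → ℝ)
    (s : Fin m → ℝ) : M.V :=
  sp (List.ofFn fun r => M.st (e r) ((s r * Real.exp (c (j r))) • x (j r)))

/-- the probability that a random walk with steps in the given boxes ends in `N` -/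
noncomputable def mix (x : ι → M.V) (N : Set M.V) : List (ι → ℝ) → M.V → ENNReal
  | [], v => N.indicator 1 v
  | c :: l, v => (∫⁻ e in Bx x c, mix x N l (M.st v e)) / MeasureTheory.volume (Bx x c)

/-- chains of letters inside a set -/
inductive Ch (x : ι → M.V) (c : ι → ℝ) (Y : Set M.V) (u : M.V) : ℕ → M.V → Prop
  | refl (h : u ∈ Y) : Ch x c Y u 0 u
  | step {m : ℕ} {v : M.V} (h : Ch x c Y u m v) (i : ι) (s : ℝ) (hs : |s| ≤ Real.exp (c i))
      (hY : M.st v (s • x i) ∈ Y) : Ch x c Y u (m + 1) (M.st v (s • x i))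

end Mdl

/-- a model with a minimal system of homogeneous generators and a section of the height -/
structure Geo extends Mdl where
  /-- the number of generators -/
  n : ℕ
  /-- the generators are coordinate vectors -/
  ix : Fin n → Fin N
  span : Submodule.span ℝ (Set.range (Mdl.yw fun i => toMdl.bv (ix i))) = ⊤
  /-- the coordinates of the abelianisation -/
  τ : Fin n → toMdl.V →ₗ[ℝ] ℝ
  τ_x : ∀ i j, τ i (toMdl.bv (ix j)) = if i = j then 1 else 0
  τ_br : ∀ i u v, τ i (toMdl.br u v) = 0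
  /-- the section -/
  X : Ht k →ₗ[ℝ] toMdl.V
  ht_X : ∀ a, toMdl.ht (X a) = a
  dl_X : ∀ a b, toMdl.dl a (X b) = X b

namespace Geo

open Mdl

variable (G : Geo)

/-- the underlying group -/
abbrev V : Type := G.toMdl.V

/-- the generators -/
def x (i : Fin G.n) : G.V := G.bv (G.ix i)

/-- their weights -/
def lam (i : Fin G.n) : Ht G.k := G.w (G.ix i)

/-- the directions of the weights -/
noncomputable def nu (i : Fin G.n) : Ht G.k := ‖G.lam i‖⁻¹ • G.lam i

open Classical in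
/-- the set of directions -/
noncomputable def Nn : Finset (Ht G.k) := (Finset.univ.filter fun i => G.lam i ≠ 0).image G.nu

/-- boxes -/
def B (c : Fin G.n → ℝ) : Set G.V := Bx G.x c

/-- the volume exponent -/
noncomputable def h (c : Fin G.n → ℝ) : ℝ := hh G.x c

/-- the sizes of the unit cell at height `a` -/
noncomputable def la (a : Ht G.k) : Fin G.n → ℝ := fun i => ⟪G.lam i, a⟫_ℝ

/-- the sizes attached to a type -/
noncomputable def cs (γ : Ht G.k → ℝ) : Fin G.n → ℝ := fun i => ‖G.lam i‖ * γ (G.nu i)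

/-- the sizes of a type at scale `R` -/
noncomputable def ty (R : ℝ) (γ : Ht G.k → ℝ) (L : ℝ) : Fin G.n → ℝ :=
  fun i => R * G.cs γ i + Real.log R + L

open Classical in
/-- the sizes of a ball -/
noncomputable def sz (ρ : ℝ) : Fin G.n → ℝ := fun i => if G.lam i = 0 then Real.log ρ else ρ

/-- the exponent of a finite set of heights -/
noncomputable def hJ (J : Finset (Ht G.k)) : ℝ :=
  G.h (G.cs fun ν => sSup ((fun a => ⟪ν, a⟫_ℝ) '' J))

/-- the norm that counts diverging lines -/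
noncomputable def hp (a : Ht G.k) : ℝ := ∑ j, max (-⟪G.w j, a⟫_ℝ) 0

/-- the elements of weight zero -/
def V0 : Set G.V := {v | ∀ a, G.dl a v = v}

/-- letters of weight zero -/
def zl (i : Fin G.n) : Prop := G.lam i = 0

/-- letters of weight zero or parallel to `ν` -/
def par (ν : Ht G.k) (i : Fin G.n) : Prop := G.lam i = 0 ∨ G.nu i = ν

/-- the exponential radical -/
noncomputable def E : Submodule ℝ G.V := Id G.x G.zl

/-- the vertical projection to height `a` -/
noncomputable def pr (a : Ht G.k) (y : G.V) : G.V := G.st y (G.X (a - G.ht y))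

/-- translated boxes -/
def bx (y : G.V) (c : Fin G.n → ℝ) : Set G.V := {v | G.st (-y) v ∈ G.B c}

/-- the open polytope of a type -/
def It (γ : Ht G.k → ℝ) : Set (Ht G.k) := {a | ∀ ν ∈ G.Nn, ⟪ν, a⟫_ℝ < γ ν}

/-- the closed polytope of a type -/
def Cl (γ : Ht G.k → ℝ) : Set (Ht G.k) := {a | ∀ ν ∈ G.Nn, ⟪ν, a⟫_ℝ ≤ γ ν}

/-- types near the diagonal -/
def Adm (γ : Ht G.k → ℝ) (θ : ℝ) : Prop := ∀ ν ∈ G.Nn, |γ ν - 1| ≤ θ

open Classical in
/-- the symmetries of the exponent are isometries -/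
def Orth : Prop := ∀ σ : Ht G.k ≃ₗ[ℝ] Ht G.k,
  (∀ J : Finset (Ht G.k), J.Nonempty → G.hJ (J.image σ) = G.hJ J) → ∀ v, ‖σ v‖ = ‖v‖

open Classical in
/-- the finite group of symmetries -/
def Sig : Set (Ht G.k ≃ₗᵢ[ℝ] Ht G.k) :=
  {σ | (∀ ν ∈ G.Nn, σ ν ∈ G.Nn) ∧
    ∀ J : Finset (Ht G.k), J.Nonempty → G.hJ (J.image σ) = G.hJ J}

/-- the type of the image of a box -/
noncomputable def im (γ : Ht G.k → ℝ) (σ : Ht G.k ≃ₗᵢ[ℝ] Ht G.k) (o : Ht G.k) : Ht G.k → ℝ :=
  fun ν => γ (σ.symm ν) + ⟪ν, o⟫_ℝ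

/-- a homogeneous basis adapted to a central flag through the ideal of `ν` -/
structure Adapt (ν : Ht G.k) where
  /-- the basis -/
  z : Module.Basis (Fin G.N) ℝ G.V
  /-- its weights -/
  u : Fin G.N → Ht G.k
  dl_z : ∀ a j, G.dl a (z j) = Real.exp ⟪u j, a⟫_ℝ • z j
  flag : ∀ v v' : G.V, ∀ j, (∀ i < j, z.repr v' i = 0) → ∀ i ≤ j, z.repr (G.br v v') i = 0
  /-- the codimension of the ideal -/
  m : ℕ
  mem_iff : ∀ v, v ∈ Id G.x (G.par ν) ↔ ∀ i : Fin G.N, i.val < m → z.repr v i = 0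
  top : ∀ i : Fin G.N, i.val < m → ∃ r : ℝ, 0 ≤ r ∧ u i = r • ν
  same : ∀ φ : Ht G.k → ℝ, ∑ j, φ (u j) = ∑ j, φ (G.w j)

open Classical in
/-- the sum of the weights of the quotient by the ideal of `ν` -/
noncomputable def del (ν : Ht G.k) : ℝ :=
  if h : Nonempty (G.Adapt ν) then
    ∑ j ∈ Finset.univ.filter fun j : Fin G.N => j.val < h.some.m, ⟪h.some.u j, ν⟫_ℝ else 0

/-- the rigidity of the height under quasi-isometries -/
def Rigid : Prop := ∀ K : ℝ, ∃ (η : ℝ → ℝ) (C : ℝ), ∀ f g : G.V → G.V,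
  QIp G.len G.len K f g → Measurable f → Measurable g →
    (∃ σ ∈ G.Sig, ∀ ε > 0, ∀ x y, ‖G.ht (f y) - G.ht (f x) - σ (G.ht y - G.ht x)‖ ≤
      ε * G.len (x⁻¹ * y) + η ε) ∧
    ∀ x p r, p ∈ G.V0 → G.ht p = 0 → ‖p‖ ≤ r → 2 ≤ r →
      ‖G.ht (f (x * p)) - G.ht (f x)‖ ≤ C * Real.log r

end Geo

end Vale.Agent.P188
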