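import Vale.Agent.P188.BoxB

/-! Bounded generation of boxes by letters. -/

namespace Vale.Agent.P188.Mdl

variable {M : Mdl} {ι : Type} [Finite ι] {x : ι → M.V}

theorem boxG_cons (a : M.V) (l : List M.V) : sp (a :: l) = M.st a (sp l) := rfl

theorem boxG_append (l l' : List M.V) : sp (l ++ l') = M.st (sp l) (sp l') := by
  induction l with
  | nil => exact (zero_st _).symm
  | cons a l ih => rw [List.cons_append, boxG_cons, boxG_cons, ih, st_assoc]

theorem boxG_map {R : Mdl} (φ : R.V →ₗ[ℝ] M.V) (h : ∀ u v, φ (R.st u v) = M.st (φ u) (φ v))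
    (l : List R.V) : φ (sp l) = sp (l.map φ) := by
  induction l with
  | nil => exact map_zero φ
  | cons a l ih => rw [List.map_cons, boxG_cons, boxG_cons, h, ih]

theorem boxG_st {E : Type} [NormedAddCommGroup E] [NormedSpace ℝ E] {f g : E → M.V}
    (hf : ContDiff ℝ ⊤ f) (hg : ContDiff ℝ ⊤ g) : ContDiff ℝ ⊤ fun q => M.st (f q) (g q) := by
  have h := (contDiff_st (M := M)).comp (hf.prodMk hg)
  rwa [Function.comp_def] at h

theorem boxG_cd {E : Type} [NormedAddCommGroup E] [NormedSpace ℝ E] {m : ℕ}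
    (f : E → Fin m → M.V) (hf : ∀ r, ContDiff ℝ ⊤ fun q => f q r) :
    ContDiff ℝ ⊤ fun q => sp (List.ofFn (f q)) := by
  induction m with
  | zero =>
    simp only [List.ofFn_zero]
    exact contDiff_const
  | succ m ih =>
    simp only [List.ofFn_succ, boxG_cons]
    exact boxG_st (hf 0) (ih (fun q r => f q r.succ) fun r => hf r.succ)

omit [Finite ι] in
theorem boxG_cdpw (x : ι → M.V) {m : ℕ} (j : Fin m → ι) (c : ι → ℝ) :
    ContDiff ℝ ⊤ fun q : (Fin m → M.V) × (Fin m → ℝ) => pw x j q.1 c q.2 := by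
  refine boxG_cd (fun (q : (Fin m → M.V) × (Fin m → ℝ)) r =>
    M.st (q.1 r) ((q.2 r * Real.exp (c (j r))) • x (j r))) fun r => ?_
  refine boxG_st ?_ ?_
  · exact (contDiff_apply ℝ M.V r).comp contDiff_fst
  · exact (((contDiff_apply ℝ ℝ r).comp contDiff_snd).mul contDiff_const).smul contDiff_const

omit [Finite ι] in
theorem boxG_pw0 (x : ι → M.V) {m : ℕ} (j : Fin m → ι) (s : Fin m → ℝ) :
    pw x j 0 0 s = sp (List.ofFn fun r => s r • x (j r)) := by
  simp only [pw, Pi.zero_apply, zero_st, Real.exp_zero, mul_one]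

omit [Finite ι] in
theorem boxG_cd0 (x : ι → M.V) {m : ℕ} (j : Fin m → ι) : ContDiff ℝ ⊤ (pw x j 0 0) := by
  have h := (boxG_cdpw x j 0).comp ((contDiff_const (c := 0)).prodMk contDiff_id)
  rwa [Function.comp_def] at h

/-- the value of a word with parameters -/
noncomputable def boxGev (x : ι → M.V) (L : List (ι × ℝ)) : M.V := sp (L.map fun p => p.2 • x p.1)

/-- the inverse word -/
def boxGinv (L : List (ι × ℝ)) : List (ι × ℝ) := (L.map fun p => (p.1, -p.2)).reverse

/-- conjugation -/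
noncomputable def boxGcj (g y : M.V) : M.V := M.st (M.st g y) (-g)

omit [Finite ι] in
theorem boxG_ev_append (L L' : List (ι × ℝ)) :
    boxGev x (L ++ L') = M.st (boxGev x L) (boxGev x L') := by
  rw [boxGev, List.map_append, boxG_append]
  rfl

omit [Finite ι] in
theorem boxG_ev_cons (p : ι × ℝ) (L : List (ι × ℝ)) :
    boxGev x (p :: L) = M.st (p.2 • x p.1) (boxGev x L) := rfl

omit [Finite ι] in
theorem boxG_ev_inv (L : List (ι × ℝ)) : boxGev x (boxGinv L) = -boxGev x L := by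
  induction L with
  | nil => exact neg_zero.symm
  | cons p L ih =>
    have e : boxGinv (p :: L) = boxGinv L ++ [(p.1, -p.2)] := by simp [boxGinv]
    rw [e, boxG_ev_append, ih, boxG_ev_cons, boxG_ev_cons, neg_st_rev, neg_smul]
    exact congrArg _ (st_zero _)

theorem boxG_em_cj (g y : M.V) :
    M.em (boxGcj g y) = ex M.F.d (M.em g) * M.em y * ex M.F.d (-M.em g) := by
  rw [boxGcj, em_st, em_st, map_neg, bch_conj M.F (em_mem g) (em_mem y)]

theorem boxG_cj_smul (g y : M.V) (s : ℝ) : boxGcj g (s • y) = s • boxGcj g y := by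
  refine em_inj ?_
  rw [map_smul, boxG_em_cj, boxG_em_cj, map_smul, mul_smul_comm, smul_mul_assoc]

theorem boxG_cj_cj (a g y : M.V) : boxGcj a (boxGcj g y) = boxGcj (M.st a g) y := by
  simp only [boxGcj, neg_st_rev, st_assoc]

omit [Finite ι] in
theorem boxG_span (hx : Submodule.span ℝ (Set.range (yw x)) = ⊤) :
    Submodule.span ℝ {v | ∃ L i, v = boxGcj (boxGev x L) (x i)} = ⊤ := by
  generalize hW : Submodule.span ℝ {v | ∃ L i, v = boxGcj (boxGev x L) (x i)} = W
  have h0 : ∀ L i, boxGcj (boxGev x L) (x i) ∈ W := fun L i =>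
    hW ▸ Submodule.subset_span ⟨L, i, rfl⟩
  have h1 : ∀ i, x i ∈ W := fun i => by
    have h := h0 [] i
    have e : boxGev x [] = 0 := rfl
    rwa [e, boxGcj, zero_st, neg_zero, st_zero] at h
  have h2 : ∀ i, ∀ u ∈ W.map M.em,
      ex M.F.d (M.em (x i)) * u * ex M.F.d (-M.em (x i)) ∈ W.map M.em := by
    intro i u hu
    rw [← hW, Submodule.map_span] at hu
    induction hu using Submodule.span_induction with
    | mem u hu =>
      obtain ⟨_, ⟨L, i', rfl⟩, rfl⟩ := hu
      rw [← boxG_em_cj, boxG_cj_cj]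
      refine Submodule.mem_map_of_mem ?_
      have h := h0 ((i, 1) :: L) i'
      rwa [boxG_ev_cons, one_smul] at h
    | zero => simp
    | add u v _ _ hu hv =>
      rw [mul_add, add_mul]
      exact add_mem hu hv
    | smul r u _ hu =>
      rw [mul_smul_comm, smul_mul_assoc]
      exact Submodule.smul_mem _ _ hu
  have h3 : ∀ i, ∀ w ∈ W, M.br (x i) w ∈ W := by
    intro i w hw
    obtain ⟨z, hz, e⟩ := ad_mem_of_conj M.F (em_mem (x i)) (W.map M.em) (h2 i)
      (Submodule.mem_map_of_mem hw)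
    rw [← em_br] at e
    rwa [← em_inj e]
  have h4 : ∀ (l : List ι) (i : ι), yw x (i :: l) ∈ W := by
    intro l
    induction l with
    | nil => exact h1
    | cons j l ih => exact fun i => h3 i _ (ih j)
  rw [eq_top_iff, ← hx, Submodule.span_le]
  rintro _ ⟨l, rfl⟩
  rcases l with _ | ⟨i, l⟩
  · exact W.zero_mem
  · exact h4 l i

omit [Finite ι] in
theorem boxG_word (T : Finset M.V) (hT : ∀ v ∈ T, ∃ L i, v = boxGcj (boxGev x L) (x i)) :
    ∃ L : List (ι × ℝ), boxGev x L = 0 ∧ ∀ v ∈ T, ∃ L1 i L2, L = L1 ++ (i, 0) :: L2 ∧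
      ∀ s : ℝ, boxGev x (L1 ++ (i, s) :: L2) = s • v := by
  classical
  induction T using Finset.induction_on with
  | empty => exact ⟨[], rfl, by simp⟩
  | insert v T _ ih =>
    obtain ⟨L, h1, h2⟩ := ih fun w hw => hT w (Finset.mem_insert_of_mem hw)
    obtain ⟨G, i, rfl⟩ := hT v (Finset.mem_insert_self _ _)
    have h3 : ∀ s : ℝ, boxGev x (G ++ (i, s) :: boxGinv G) = s • boxGcj (boxGev x G) (x i) := by
      intro s
      rw [boxG_ev_append, boxG_ev_cons, boxG_ev_inv, ← boxG_cj_smul, boxGcj, st_assoc]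
    refine ⟨(G ++ (i, 0) :: boxGinv G) ++ L, ?_, fun w hw => ?_⟩
    · rw [boxG_ev_append, h3, h1, zero_smul, st_zero]
    · rcases Finset.mem_insert.1 hw with rfl | hw
      · refine ⟨G, i, boxGinv G ++ L, by simp, fun s => ?_⟩
        rw [← List.cons_append, ← List.append_assoc, boxG_ev_append, h3, h1, st_zero]
      · obtain ⟨L1, i', L2, e, h4⟩ := h2 w hw
        refine ⟨(G ++ (i, 0) :: boxGinv G) ++ L1, i', L2, by rw [e, List.append_assoc _ L1],
          fun s => ?_⟩
        rw [List.append_assoc _ L1, boxG_ev_append, h3, h4, zero_smul, zero_st]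

/-- a word whose product map is a submersion at a point over the origin -/
theorem exists_subm (hx : Submodule.span ℝ (Set.range (yw x)) = ⊤) :
    ∃ (m : ℕ) (j : Fin m → ι) (s : Fin m → ℝ), pw x j 0 0 s = 0 ∧
      Function.Surjective (fderiv ℝ (pw x j 0 0) s) := by
  obtain ⟨T, hT, hs⟩ := (Submodule.fg_span_iff_fg_span_finset_subset
    {v | ∃ L i, v = boxGcj (boxGev x L) (x i)}).1 (by
      rw [boxG_span hx]
      exact Module.Finite.fg_top)
  rw [boxG_span hx] at hs
  obtain ⟨L, h1, h2⟩ := boxG_word T fun v hv => hT hv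
  refine ⟨L.length, fun r => L[r].1, fun r => L[r].2, ?_, ?_⟩
  · rw [boxG_pw0, ← h1, boxGev]
    congr 1
    exact List.ext_getElem (by simp) fun n _ _ => by simp
  · have h3 : Submodule.span ℝ (T : Set M.V) ≤ LinearMap.range
        (fderiv ℝ (pw x (fun r : Fin L.length => L[r].1) 0 0) fun r => L[r].2).toLinearMap := by
      rw [Submodule.span_le]
      intro v hv
      obtain ⟨L1, i, L2, rfl, h4⟩ := h2 v hv
      let r0 : Fin (L1 ++ (i, (0 : ℝ)) :: L2).length := ⟨L1.length, by simp⟩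
      have e0 : Function.update (fun r : Fin (L1 ++ (i, (0 : ℝ)) :: L2).length =>
          (L1 ++ (i, (0 : ℝ)) :: L2)[r].2) r0 0 = fun r => (L1 ++ (i, (0 : ℝ)) :: L2)[r].2 := by
        rw [Function.update_eq_self_iff]
        simp [r0]
      have h5 := (((boxG_cd0 x fun r : Fin (L1 ++ (i, (0 : ℝ)) :: L2).length =>
        (L1 ++ (i, (0 : ℝ)) :: L2)[r].1).differentiable (by simp) _).hasFDerivAt).comp_hasDerivAt
        (0 : ℝ) (hasDerivAt_update (fun r : Fin (L1 ++ (i, (0 : ℝ)) :: L2).length =>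
          (L1 ++ (i, (0 : ℝ)) :: L2)[r].2) r0 0)
      rw [e0] at h5
      have e1 : (pw x (fun r : Fin (L1 ++ (i, (0 : ℝ)) :: L2).length =>
          (L1 ++ (i, (0 : ℝ)) :: L2)[r].1) 0 0) ∘ Function.update
          (fun r : Fin (L1 ++ (i, (0 : ℝ)) :: L2).length => (L1 ++ (i, (0 : ℝ)) :: L2)[r].2) r0 =
          fun s : ℝ => s • v := by
        funext s
        have e2 : L1 ++ (i, s) :: L2 = (L1 ++ (i, (0 : ℝ)) :: L2).set L1.length (i, s) := by simp
        rw [Function.comp_apply, boxG_pw0, ← h4, boxGev, e2]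
        congr 1
        refine List.ext_getElem (by rw [List.length_ofFn, List.length_map, List.length_set])
          fun n _ _ => ?_
        rw [List.getElem_ofFn, List.getElem_map, List.getElem_set]
        by_cases hn : L1.length = n
        · subst hn
          simp [r0]
        · rw [if_neg hn, Function.update_of_ne fun h => hn (congrArg Fin.val h).symm]
          rfl
      rw [e1] at h5
      have h6 := (hasDerivAt_id (0 : ℝ)).smul_const v
      rw [one_smul] at h6
      exact ⟨_, h5.unique h6⟩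
    rw [← hs, top_le_iff, LinearMap.range_eq_top] at h3
    exact h3

theorem contDiff_pw (x : ι → M.V) {m : ℕ} (j : Fin m → ι) (c : ι → ℝ) :
    ContDiff ℝ ⊤ fun q : (Fin m → M.V) × (Fin m → ℝ) => pw x j q.1 c q.2 :=
  boxG_cdpw x j c

theorem gen_Bx (x : ι → M.V) : ∃ (m : ℕ) (j : Fin m → ι) (C : ℝ), 0 ≤ C ∧ ∀ c, ∀ v ∈ Bx x c,
    ∃ (w : ℕ → M.V) (s : Fin m → ℝ), w 0 = 0 ∧ w m = v ∧ (∀ r, w r ∈ Bx x fun i => c i + C) ∧
      ∀ r : Fin m, |s r| ≤ Real.exp (c (j r) + C) ∧ w (r + 1) = M.st (w r) (s r • x (j r)) := by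
  obtain ⟨R, X, hd, hX, hu⟩ := exists_free M.F.d ι
  obtain ⟨m, j, s0, h0, hsurj⟩ := exists_subm hX
  obtain ⟨C1, hC1, hsm⟩ := small_of_mem X
  obtain ⟨C2, hC2, hpr⟩ := prod_Bx x
  have := FiniteDimensional.complete ℝ R.V
  have h1 := ((boxG_cd0 X j).contDiffAt.hasStrictFDerivAt (x := s0)
    (by simp)).map_nhds_eq_of_surj (LinearMap.range_eq_top.2 hsurj)
  rw [h0] at h1
  have h2 : pw X j 0 0 '' Metric.closedBall s0 1 ∈ nhds (0 : R.V) :=
    h1 ▸ Filter.image_mem_map (Metric.closedBall_mem_nhds s0 one_pos)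
  obtain ⟨ε, hε, h3⟩ := Metric.mem_nhds_iff.1 h2
  obtain ⟨β, hβ, hβ'⟩ : ∃ β : ℝ, 0 ≤ β ∧ C1 * Real.exp (-β) < ε := by
    refine ⟨C1 / ε, by positivity, ?_⟩
    rw [Real.exp_neg, ← div_eq_mul_inv, div_lt_iff₀ (Real.exp_pos _), mul_comm, ← div_lt_iff₀ hε]
    linarith [Real.add_one_le_exp (C1 / ε)]
  have hlog : 0 ≤ Real.log (m + 1) := Real.log_nonneg (by linarith [Nat.cast_nonneg (α := ℝ) m])
  refine ⟨m, j, β + ‖s0‖ + Real.log (m + 1) + C2, by positivity, fun c v hv => ?_⟩
  obtain ⟨φ, hφ, hbr, hst⟩ := hu M (fun i => Real.exp (c i + β) • x i) rfl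
  have h4 := map_Zon (P := fun _ => True) (c := fun i => c i + β) hd φ hφ hbr fun _ => -β
  simp only [add_neg_cancel_right] at h4
  obtain ⟨u, hu1, rfl⟩ : v ∈ φ '' Zon X (fun _ => True) fun _ => -β := h4 ▸ hv
  obtain ⟨t, ht, rfl⟩ := h3 (mem_ball_zero_iff.2 ((hsm β hβ u hu1).trans_lt hβ'))
  have hs : ∀ r, |t r * Real.exp (c (j r) + β)| ≤ Real.exp (c (j r) + β + ‖s0‖) := by
    intro r
    have h5 : ‖t‖ ≤ ‖s0‖ + 1 := by
      have h6 := norm_sub_norm_le t s0
      rw [Metric.mem_closedBall, dist_eq_norm] at ht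
      linarith
    have h6 : |t r| ≤ Real.exp ‖s0‖ :=
      ((norm_le_pi_norm t r).trans h5).trans (Real.add_one_le_exp _)
    rw [abs_mul, abs_of_pos (Real.exp_pos _), Real.exp_add _ ‖s0‖, mul_comm]
    exact mul_le_mul_of_nonneg_left h6 (Real.exp_pos _).le
  refine ⟨fun n => sp ((List.ofFn fun r => (t r * Real.exp (c (j r) + β)) • x (j r)).take n),
    fun r => t r * Real.exp (c (j r) + β), rfl, ?_, fun n => ?_, fun r => ⟨?_, ?_⟩⟩
  · rw [boxG_pw0, boxG_map φ hst, List.map_ofFn]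
    simp only
    rw [List.take_of_length_le (by simp)]
    congr 2
    funext r
    rw [Function.comp_apply, map_smul, hφ, smul_smul]
  · refine Zon_mono (fun i => ?_) (hpr (fun i => c i + β + ‖s0‖) _ fun w hw => ?_)
    · have h5 : (((List.ofFn fun r => (t r * Real.exp (c (j r) + β)) • x (j r)).take n).length :
          ℝ) ≤ m := by
        rw [List.length_take, List.length_ofFn]
        exact_mod_cast min_le_right _ _
      have h6 := Real.log_le_log (by positivity) (add_le_add_left h5 1)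
      simp only
      linarith
    · obtain ⟨r, rfl⟩ := List.mem_ofFn.1 (List.mem_of_mem_take hw)
      exact gen_mem trivial (hs r)
  · exact (hs r).trans (Real.exp_le_exp.2 (by linarith))
  · simp only
    rw [List.take_succ_eq_append_getElem (by simp), boxG_append, List.getElem_ofFn, boxG_cons]
    exact congrArg _ (st_zero _)

end Vale.Agent.P188.Mdl
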