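import Vale.Agent.P188.Size

/-! Points that are close at a given scale. -/

namespace Vale.Agent.P188.Geo

open Mdl
open scoped InnerProductSpace

variable (G : Geo)

theorem Close_ev {δ : ℝ} (hδ : 0 < δ) (a : ℝ) : ∀ᶠ R : ℝ in Filter.atTop, a ≤ δ * R :=
  (Filter.tendsto_id.const_mul_atTop hδ).eventually_ge_atTop a

theorem Close_log_le {ρ : ℝ} (h : 0 < ρ) (i : Fin G.n) : Real.log ρ ≤ G.sz ρ i := by
  unfold sz
  split_ifs
  · exact le_rfl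
  · linarith [Real.log_le_sub_one_of_pos h]

theorem Close_mono {ρ ρ' : ℝ} (h : 0 < ρ) (h' : ρ ≤ ρ') : G.sz ρ ≤ G.sz ρ' := fun i => by
  unfold sz
  split_ifs
  · exact Real.log_le_log h h'
  · exact h'

theorem Close_add {K ρ : ℝ} (hK : 0 ≤ K) (h : 1 ≤ ρ) (i : Fin G.n) :
    G.sz ρ i + K ≤ G.sz ((Real.exp K + K) * ρ) i := by
  have h1 := Real.one_le_exp hK
  have h2 : 0 ≤ K * (ρ - 1) := mul_nonneg hK (by linarith)
  unfold sz
  split_ifs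
  · have h3 := Real.log_le_log (Real.exp_pos K) (le_add_of_nonneg_right hK)
    rw [Real.log_exp] at h3
    rw [Real.log_mul (by linarith) (by linarith)]
    linarith
  · have h3 : 0 ≤ (Real.exp K - 1) * ρ := mul_nonneg (by linarith) (by linarith)
    linarith

theorem Close_X : ∃ A, 1 ≤ A ∧ ∀ (b : Ht G.k) (r : ℝ), 1 ≤ r → ‖b‖ ≤ r →
    G.X b ∈ G.B (G.sz (A * r)) := by
  obtain ⟨C, hC, h⟩ := G.X_mem
  refine ⟨Real.exp C + C, by linarith [Real.one_le_exp hC], fun b r hr hb => ?_⟩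
  refine B_mono (fun i => ?_) (h b r (by linarith) hb hr)
  have h1 := G.Close_log_le (show 0 < r by linarith) i
  have h2 := G.Close_add hC hr i
  linarith

theorem Close_Xl (C₀ : ℝ) : ∃ L, 0 ≤ L ∧ ∀ R : ℝ, 1 ≤ R → ∀ b : Ht G.k, ‖b‖ ≤ C₀ * R →
    G.X b ∈ G.B fun _ => Real.log R + L := by
  obtain ⟨C, hC, h⟩ := G.X_mem
  have h0 := abs_nonneg C₀
  have h1 : 0 ≤ Real.log (|C₀| + 1) := Real.log_nonneg (by linarith)
  refine ⟨Real.log (|C₀| + 1) + C, by linarith, fun R hR b hb => ?_⟩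
  have h2 : C₀ * R ≤ |C₀| * R := mul_le_mul_of_nonneg_right (le_abs_self _) (by linarith)
  have h3 : 0 ≤ |C₀| * R := mul_nonneg h0 (by linarith)
  refine B_mono (fun i => ?_) (h b ((|C₀| + 1) * R) (by linarith) (by linarith) (by linarith))
  rw [Real.log_mul (by linarith) (by linarith)]
  linarith

theorem Close_core (L : ℝ) {ε : ℝ} (hε : 0 < ε) : ∃ δ > 0, ∀ᶠ R : ℝ in Filter.atTop,
    ∀ p ∈ G.B fun _ => Real.log R + L, ∀ u ∈ G.B (G.sz (δ * R)),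
      G.st (G.st (-p) u) p ∈ G.B (G.sz (ε * R)) ∧ G.st (-p) (p + u) ∈ G.B (G.sz (ε * R)) := by
  classical
  rcases Nat.eq_zero_or_pos G.F.d with hd | hd
  · have h0 : ∀ v : G.V, v = 0 := fun v => br_nil [] v (by omega)
    refine ⟨1, one_pos, Filter.Eventually.of_forall fun R p _ u _ => ?_⟩
    rw [h0 (G.st (G.st (-p) u) p), h0 (G.st (-p) (p + u))]
    exact ⟨zero_mem_Zon, zero_mem_Zon⟩
  obtain ⟨C₁, h₁, hc⟩ := conj_Bx G.x
  obtain ⟨C₂, h₂, hn⟩ := near_Bx G.x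
  have hd' : (0 : ℝ) < G.F.d := by exact_mod_cast hd
  obtain ⟨γ, hγ0, hγ⟩ : ∃ γ : ℝ, 0 ≤ γ ∧ L + (C₁ + C₂) - Real.log ε ≤ γ :=
    ⟨_, abs_nonneg _, le_abs_self _⟩
  obtain ⟨β, hβ⟩ : ∃ β : ℝ, β = γ * G.F.d := ⟨_, rfl⟩
  have hβ0 : 0 ≤ β := hβ ▸ mul_nonneg hγ0 hd'.le
  have hβd : β / G.F.d = γ := by rw [hβ, mul_div_cancel_right₀ _ hd'.ne']
  obtain ⟨δ, hδ0, hδ1, hδ2⟩ : ∃ δ : ℝ, 0 < δ ∧ δ ≤ ε / 2 ∧ Real.log δ ≤ L - β := by
    refine ⟨min (ε / 2) (Real.exp (L - β)), lt_min (half_pos hε) (Real.exp_pos _),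
      min_le_left _ _, ?_⟩
    rw [Real.log_le_iff_le_exp (lt_min (half_pos hε) (Real.exp_pos _))]
    exact min_le_right _ _
  refine ⟨δ, hδ0, ?_⟩
  filter_upwards [Filter.eventually_gt_atTop 0, Close_ev (half_pos hδ0) (L - Real.log (δ / 2)),
    Close_ev (half_pos hε) (β + (C₁ + C₂))] with R hR a1 a2 p hp u hu
  have a3 := Real.log_le_sub_one_of_pos (mul_pos (half_pos hδ0) hR)
  rw [Real.log_mul (half_pos hδ0).ne' hR.ne'] at a3
  have a4 := mul_le_mul_of_nonneg_right hδ1 hR.le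
  let c : Fin G.n → ℝ := fun i => if G.lam i = 0 then Real.log R + L else δ * R + β
  have b1 : p ∈ G.B c := B_mono (fun i => by
    simp only [c]
    split_ifs
    · exact le_rfl
    · linarith) hp
  have b2 : u ∈ G.B fun i => c i - β := B_mono (fun i => by
    simp only [c, sz]
    split_ifs
    · rw [Real.log_mul hδ0.ne' hR.ne']
      linarith
    · linarith) hu
  have b3 : ∀ C, C ≤ C₁ + C₂ → (fun i => c i - β / G.F.d + C) ≤ G.sz (ε * R) := fun C hC i => by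
    simp only [c, sz, hβd]
    split_ifs
    · rw [Real.log_mul hε.ne' hR.ne']
      linarith
    · linarith
  exact ⟨B_mono (b3 C₁ (by linarith)) (hc c β hβ0 p b1 u b2),
    B_mono (b3 C₂ (by linarith)) (hn c β hβ0 p b1 u b2)⟩

theorem len_small {ε : ℝ} (hε : 0 < ε) : ∃ β R₀ : ℝ, ∀ R ≥ R₀,
    ∀ v ∈ G.B fun _ => Real.log R - β, G.len v ≤ ε * R := by
  obtain ⟨C, hC, h⟩ := G.len_of_mem
  have h0 : 0 < ε / C := div_pos hε (by linarith)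
  obtain ⟨R₀, hR₀⟩ := Filter.eventually_atTop.1
    ((Close_ev h0 1).and (Filter.eventually_gt_atTop 0))
  refine ⟨-Real.log (ε / C), R₀, fun R hR v hv => ?_⟩
  obtain ⟨h1, h2⟩ := hR₀ R hR
  have h3 := h _ h1 v (B_mono (fun i => by
    have h4 := G.Close_log_le (mul_pos h0 h2) i
    rw [Real.log_mul h0.ne' h2.ne'] at h4
    linarith) hv)
  rwa [← mul_assoc, mul_div_cancel₀ _ (by linarith)] at h3

theorem len_box (C₀ : ℝ) : ∃ C R₀ : ℝ, 0 < C ∧ ∀ R ≥ R₀, ∀ (y : G.V) (c : Fin G.n → ℝ),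
    ‖G.ht y‖ ≤ C₀ * R → (∀ i, c i ≤ C₀ * R) → (∀ i, G.lam i = 0 → c i ≤ Real.log R + C₀) →
      ∀ v ∈ G.bx y c, G.len (y⁻¹ * v) ≤ C * R := by
  obtain ⟨C, hC, h⟩ := G.len_of_mem
  obtain ⟨l, Λ, -, hΛ, hl⟩ := G.lam_bd
  have h0 := abs_nonneg C₀
  have h1 := Real.exp_pos C₀
  have h2 := mul_nonneg hΛ.le h0
  obtain ⟨A, hA⟩ : ∃ A, A = Real.exp C₀ + |C₀| + Λ * |C₀| + 1 := ⟨_, rfl⟩
  have hA1 : 1 ≤ A := by linarith
  refine ⟨C * A, 1, by positivity, fun R hR y c hy hc hc0 v hv => ?_⟩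
  have hR0 : 0 < R := by linarith
  rw [inv_mul_eq, mul_assoc]
  refine h _ (one_le_mul_of_one_le_of_one_le hA1 hR) _
    (B_mono (fun i => ?_) ((dl_mem_B (-G.ht y)).2 hv))
  unfold sz la
  split_ifs with hi
  · have a1 := Real.log_le_log h1 (show Real.exp C₀ ≤ A by linarith)
    have a2 := hc0 i hi
    rw [Real.log_exp] at a1
    rw [hi, inner_zero_left, Real.log_mul (by linarith) hR0.ne']
    linarith
  · have a1 := real_inner_le_norm (G.lam i) (-G.ht y)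
    have a2 : C₀ * R ≤ |C₀| * R := mul_le_mul_of_nonneg_right (le_abs_self _) hR0.le
    have a3 := mul_le_mul (hl i).1 (hy.trans a2) (norm_nonneg _) hΛ.le
    have a4 := hc i
    have a5 := mul_pos h1 hR0
    rw [norm_neg] at a1
    rw [hA]
    linarith

theorem close_cell (C₀ : ℝ) {ε : ℝ} (hε : 0 < ε) : ∃ δ > 0, ∃ R₀ : ℝ, ∀ R ≥ R₀,
    ∀ (x : G.V) (H : Ht G.k), ‖H - G.ht x‖ ≤ C₀ * R →
      ∀ v ∈ G.B fun i => G.la H i + G.sz (δ * R) i,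
        G.len ((G.pr H x)⁻¹ * G.pr H (G.st x v)) ≤ ε * R := by
  obtain ⟨C, hC, h⟩ := G.len_of_mem
  obtain ⟨K, hK, hs⟩ := st_Bx G.x
  obtain ⟨L, -, hL⟩ := G.Close_Xl C₀
  obtain ⟨A, hA, hX⟩ := G.Close_X
  obtain ⟨D, hD, hh⟩ := G.ht_of_mem
  have hE : 1 ≤ Real.exp K + K := by linarith [Real.one_le_exp hK]
  have hCE : 0 < C * (Real.exp K + K) := by positivity
  have hε' := div_pos hε hCE
  obtain ⟨δ, hδ, hc⟩ := G.Close_core L hε'
  have hAD : 1 ≤ A * (D + 1) := one_le_mul_of_one_le_of_one_le hA (by linarith)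
  have hδ' : 0 < δ / (A * (D + 1)) := div_pos hδ (by linarith)
  obtain ⟨R₀, hR₀⟩ := Filter.eventually_atTop.1 (hc.and ((Close_ev hδ' 1).and
    ((Close_ev hε' 1).and (Filter.eventually_ge_atTop 1))))
  refine ⟨_, hδ', R₀, fun R hR x H hH v hv => ?_⟩
  obtain ⟨h1, h2, h3, h4⟩ := hR₀ R hR
  obtain ⟨r, hr⟩ : ∃ r, r = δ / (A * (D + 1)) * R := ⟨_, rfl⟩
  have e0 : A * ((D + 1) * r) = δ * R := by
    rw [hr]
    field_simp
  rw [← hr] at h2 hv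
  have a1 : G.dl (-H) v ∈ G.B (G.sz r) := by
    refine B_mono (fun i => ?_) ((dl_mem_B (-H)).2 hv)
    simp only [la, inner_neg_right]
    linarith
  have a2 := hh _ (Real.log r) (fun i hi => by simp only [sz, if_pos hi, le_refl]) _ a1
  rw [ht_dl, Real.exp_log (by linarith)] at a2
  have a3 := hX (-G.ht v) ((D + 1) * r) (one_le_mul_of_one_le_of_one_le (by linarith) h2)
    (by rw [norm_neg]; linarith)
  rw [e0] at a3
  have a4 : r ≤ δ * R := by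
    rw [← e0, ← mul_assoc]
    exact le_mul_of_one_le_left (by linarith) hAD
  have a5 := hL R h4 _ hH
  have a6 := hs _ _ (h1 _ a5 _ (B_mono (G.Close_mono (by linarith) a4) a1)).1 _ (h1 _ a5 _ a3).2
  have a7 := h _ (one_le_mul_of_one_le_of_one_le hE h3) _
    (B_mono (fun i => G.Close_add hK h3 i) a6)
  have e1 : (G.pr H x)⁻¹ * G.pr H (G.st x v) =
      G.st (G.st (G.st (-G.X (H - G.ht x)) (G.dl (-H) v)) (G.X (H - G.ht x)))
        (G.st (-G.X (H - G.ht x)) (G.X (H - G.ht x) + G.X (-G.ht v))) := by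
    rw [inv_mul_eq, ht_pr, pr, pr, st_assoc x, st_neg_st, dl_st, dl_st, map_neg, G.dl_X, G.dl_X,
      ht_st, st_assoc, st_assoc, ← st_assoc (G.X (H - G.ht x)), st_neg, zero_st, ← map_add G.X,
      ← sub_sub, sub_eq_add_neg (H - G.ht x)]
  rw [e1]
  refine a7.trans (le_of_eq ?_)
  field_simp

theorem close_line (C₀ : ℝ) {ε : ℝ} (hε : 0 < ε) : ∃ δ > 0, ∃ R₀ : ℝ, ∀ R ≥ R₀,
    ∀ (x : G.V) (b b' : Ht G.k), ‖b‖ ≤ C₀ * R → ‖b' - b‖ ≤ δ * R →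
      G.len ((G.st x (G.X b))⁻¹ * G.st x (G.X b')) ≤ ε * R := by
  obtain ⟨C, hC, h⟩ := G.len_of_mem
  obtain ⟨L, -, hL⟩ := G.Close_Xl C₀
  obtain ⟨A, hA, hX⟩ := G.Close_X
  have hε' := div_pos hε (show 0 < C by linarith)
  obtain ⟨δ, hδ, hc⟩ := G.Close_core L hε'
  have hδ' : 0 < δ / A := div_pos hδ (by linarith)
  obtain ⟨R₀, hR₀⟩ := Filter.eventually_atTop.1 (hc.and ((Close_ev hδ' 1).and
    ((Close_ev hε' 1).and (Filter.eventually_ge_atTop 1))))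
  refine ⟨_, hδ', R₀, fun R hR x b b' hb hb' => ?_⟩
  obtain ⟨h1, h2, h3, h4⟩ := hR₀ R hR
  have a1 := hX _ _ h2 hb'
  rw [← mul_assoc, mul_div_cancel₀ _ (by linarith)] at a1
  have a2 := h _ h3 _ (h1 _ (hL R h4 b hb) _ a1).2
  rw [← map_add, add_sub_cancel, ← mul_assoc, mul_div_cancel₀ _ (by linarith)] at a2
  rwa [inv_mul_eq, st_neg_st, st_V0 (neg_V0 (X_V0 b)) (X_V0 b')]

theorem close_conj (L : ℝ) {ε : ℝ} (hε : 0 < ε) : ∃ δ > 0, ∃ R₀ : ℝ, ∀ R ≥ R₀,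
    ∀ p ∈ G.V0, G.ht p = 0 → (p ∈ G.B fun _ => Real.log R + L) → ∀ u : G.V, G.len u ≤ δ * R →
      G.len (p⁻¹ * u * p) ≤ ε * R := by
  obtain ⟨C, hC, h⟩ := G.len_of_mem
  obtain ⟨A, hA, hm⟩ := G.mem_of_len
  have hε' := div_pos hε (show 0 < C by linarith)
  obtain ⟨δ, hδ, hc⟩ := G.Close_core L hε'
  have hδ' : 0 < δ / A := div_pos hδ (by linarith)
  obtain ⟨R₀, hR₀⟩ := Filter.eventually_atTop.1 (hc.and ((Close_ev hδ' 1).and (Close_ev hε' 1)))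
  refine ⟨_, hδ', R₀, fun R hR p hp h0 hb u hu => ?_⟩
  obtain ⟨h1, h2, h3⟩ := hR₀ R hR
  have a1 := hm u _ h2 hu
  rw [← mul_assoc, mul_div_cancel₀ _ (by linarith)] at a1
  have a2 := h _ h3 _ (h1 p hb u a1).1
  rw [← mul_assoc, mul_div_cancel₀ _ (by linarith)] at a2
  rwa [mul_V0 _ hp, inv_V0 hp, mul_def, map_neg, h0, neg_zero, dl_zero]

theorem fiber (C₀ D : ℝ) : ∃ C, 0 ≤ C ∧ ∀ R ≥ (1 : ℝ), ∀ (H : Ht G.k) (x x' : G.V),
    ‖H - G.ht x‖ ≤ C₀ * R → ‖H - G.ht x'‖ ≤ C₀ * R → G.len ((G.pr H x)⁻¹ * G.pr H x') ≤ D →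
      G.st (-x) x' ∈ G.B fun i => G.la H i + Real.log R + C := by
  obtain ⟨K, hK, hs⟩ := st_Bx G.x
  obtain ⟨L, hL0, hL⟩ := G.Close_Xl C₀
  obtain ⟨A, hA⟩ := bdd_of_len (M := G.toMdl) D
  obtain ⟨N, hN, hn⟩ := BoxB_bdd G.x span_x A
  refine ⟨L + N + K + K, by linarith, fun R hR H x x' hx hx' hl => ?_⟩
  have h0 := Real.log_nonneg hR
  have a1 : G.X (H - G.ht x) ∈ G.B fun _ => Real.log R + L + N :=
    B_mono (fun i => by linarith) (hL R hR _ hx)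
  have a2 : -G.X (H - G.ht x') ∈ G.B fun _ => Real.log R + L + N + K :=
    neg_mem_Zon (B_mono (fun i => by linarith) (hL R hR _ hx'))
  have a3 : (G.pr H x)⁻¹ * G.pr H x' ∈ G.B fun _ => Real.log R + L + N :=
    B_mono (fun i => by linarith) (hn _ (hA _ hl))
  have a4 := (dl_mem_B H).2 (hs _ _ (hs _ _ a1 _ a3) _ a2)
  rw [inv_mul_eq, ht_pr, dl_st, dl_st, dl_dl, add_neg_cancel, dl_zero, map_neg, G.dl_X, G.dl_X,
    pr, pr, neg_st_rev, st_assoc, st_assoc, st_assoc, st_assoc, st_neg, st_zero, ← st_assoc,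
    st_neg, zero_st] at a4
  exact B_mono (fun i => by linarith) a4

end Vale.Agent.P188.Geo
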