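import Vale.Agent.P188.Len

/-! Invariance of the volume. -/

namespace Vale.Agent.P188.Mdl

open MeasureTheory

variable {M : Mdl}

theorem Meas_det {E : Type*} [NormedAddCommGroup E] [NormedSpace ℝ E] [FiniteDimensional ℝ E]
    {f : E → E} {L : E →L[ℝ] E} {v : E} (hf : HasFDerivAt f L v) (P : ℕ → Submodule ℝ E) (d : ℕ)
    (h0 : P 0 = ⊤) (hd : P d = ⊥) (hP : ∀ k, ∀ h ∈ P k, f (v + h) - f v - h ∈ P (k + 1)) :
    L.det = 1 := by
  have h1 : ∀ k, ∀ h ∈ P k, h - L h ∈ P (k + 1) := by
    intro k h hh
    have a1 : HasDerivAt (fun t : ℝ => v + t • h) h 0 := by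
      simpa using ((hasDerivAt_id (0 : ℝ)).smul_const h).const_add v
    have a2 : HasFDerivAt f L (v + (0 : ℝ) • h) := by rwa [zero_smul, add_zero]
    have a3 : HasDerivAt (fun t : ℝ => f (v + t • h) - f v - t • h) (L h - h) 0 := by
      have a4 := ((a2.comp_hasDerivAt 0 a1).sub_const (f v)).sub
        ((hasDerivAt_id (0 : ℝ)).smul_const h)
      rw [one_smul] at a4
      exact a4
    have a5 := (P (k + 1)).closed_of_finiteDimensional.mem_of_tendsto a3.tendsto_slope_zero
      (Filter.Eventually.of_forall fun t => by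
        refine (P (k + 1)).smul_mem _ ?_
        rw [zero_add, zero_smul, add_zero, sub_self, sub_zero, sub_zero]
        exact hP k _ ((P k).smul_mem t hh))
    rw [← neg_sub]
    exact (P (k + 1)).neg_mem a5
  have h2 : ∀ k h, ((1 - (L : Module.End ℝ E)) ^ k) h ∈ P k := by
    intro k h
    induction k with
    | zero => rw [h0]; trivial
    | succ k ih =>
      rw [pow_succ', Module.End.mul_apply]
      exact h1 k _ ih
  have h3 : IsNilpotent (1 - (L : Module.End ℝ E)) :=
    ⟨d, LinearMap.ext fun h => by have := h2 d h; rwa [hd] at this⟩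
  have h4 := LinearMap.eval_charpoly (1 - (L : Module.End ℝ E)) 1
  rw [h3.charpoly_eq_X_pow_finrank, map_one, sub_sub_cancel] at h4
  simpa using h4.symm

theorem Meas_mp {f : M.V → M.V} (hf : Differentiable ℝ f) (hb : Function.Bijective f)
    (P : ℕ → Submodule ℝ M.V) (d : ℕ) (h0 : P 0 = ⊤) (hd : P d = ⊥)
    (hP : ∀ v k, ∀ h ∈ P k, f (v + h) - f v - h ∈ P (k + 1)) :
    MeasurePreserving f volume volume := by
  have hm := hf.continuous.measurable
  refine ⟨hm, Measure.ext fun A hA => ?_⟩
  have h1 := lintegral_abs_det_fderiv_eq_addHaar_image (volume : Measure M.V) (hm hA)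
    (f' := fun v => fderiv ℝ f v) (fun v _ => (hf v).hasFDerivAt.hasFDerivWithinAt)
    hb.1.injOn
  simp only [fun v => Meas_det (hf v).hasFDerivAt P d h0 hd (hP v)] at h1
  rw [Measure.map_apply hm hA, ← Set.image_preimage_eq A hb.2, ← h1,
    Set.image_preimage_eq A hb.2]
  simp

variable (M) in
/-- the filtration of the Lie algebra -/
noncomputable def Meas_P (k : ℕ) : Submodule ℝ M.V := (M.F.J (k + 1)).comap M.em

theorem Meas_P0 : M.Meas_P 0 = ⊤ := eq_top_iff.2 fun x _ => em_mem x

theorem Meas_Pd : M.Meas_P M.F.d = ⊥ := eq_bot_iff.2 fun x hx => by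
  have h1 := M.F.anti _ hx
  rw [M.F.bot] at h1
  exact em_inj (((Submodule.mem_bot ℝ).1 h1).trans (map_zero _).symm)

theorem Meas_br (k : ℕ) (u : M.V) {v : M.V} (hv : v ∈ M.Meas_P k) :
    M.br u v ∈ M.Meas_P (k + 1) := by
  change M.em (M.br u v) ∈ M.F.J (k + 1 + 1)
  have h2 := M.F.mul _ _ _ _ (em_mem u) hv
  rw [add_comm] at h2
  rw [em_br]
  exact Submodule.sub_mem _ h2 (M.F.mul _ _ _ _ hv (em_mem u))

theorem Meas_sub (k : ℕ) {x y : M.V} (h : M.br x y ∈ M.Meas_P (k + 1)) :
    M.st x y - x - y ∈ M.Meas_P (k + 1) :=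
  st_sub_mem _ (fun u _ hv => M.F.anti _ (Meas_br _ u hv)) h

theorem Meas_left (a v : M.V) (k : ℕ) (h : M.V) (hh : h ∈ M.Meas_P k) :
    M.st a (v + h) - M.st a v - h ∈ M.Meas_P (k + 1) := by
  have h0 : M.br (-v) v = 0 := by
    have h1 := Nil_smul (-1) 1 v
    rwa [one_smul, neg_one_smul] at h1
  have h1 := Meas_sub k (x := -v) (y := v + h) (by rw [br_add, h0, zero_add]; exact Meas_br k _ hh)
  obtain ⟨n, hn⟩ : ∃ n, n = M.st (-v) (v + h) := ⟨_, rfl⟩
  have h2 : v + h = M.st v n := by rw [hn, ← st_assoc, st_neg, zero_st]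
  rw [← hn, show n - -v - (v + h) = n - h by abel] at h1
  have h3 : n ∈ M.Meas_P k := by
    rw [← sub_add_cancel n h]
    exact Submodule.add_mem _ (M.F.anti _ h1) hh
  have h4 := Meas_sub k (Meas_br k (M.st a v) h3)
  rw [st_assoc, ← h2] at h4
  rw [show M.st a (v + h) - M.st a v - h = (M.st a (v + h) - M.st a v - n) + (n - h) by abel]
  exact Submodule.add_mem _ h4 h1

theorem Meas_right (a v : M.V) (k : ℕ) (h : M.V) (hh : h ∈ M.Meas_P k) :
    M.st (v + h) a - M.st v a - h ∈ M.Meas_P (k + 1) := by
  have h1 := Submodule.neg_mem _ (Meas_left (-a) (-v) k (-h) (Submodule.neg_mem _ hh))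
  rw [← neg_add, ← neg_st_rev, ← neg_st_rev] at h1
  rwa [show M.st (v + h) a - M.st v a - h = -(-M.st (v + h) a - -M.st v a - -h) by abel]

theorem Meas_diff {f g : M.V → M.V} (hf : Differentiable ℝ f) (hg : Differentiable ℝ g) :
    Differentiable ℝ fun v => M.st (f v) (g v) := by
  have h1 : Differentiable ℝ fun q : M.V × M.V => M.st q.1 q.2 :=
    contDiff_st.differentiable (by simp)
  have h2 := h1.comp (hf.prodMk hg)
  exact h2

theorem Meas_bl (a : M.V) : Function.Bijective fun v => M.st a v :=
  Function.bijective_iff_has_inverse.2 ⟨fun v => M.st (-a) v,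
    fun v => by simp only [← st_assoc, neg_st, zero_st],
    fun v => by simp only [← st_assoc, st_neg, zero_st]⟩

theorem Meas_brt (a : M.V) : Function.Bijective fun v => M.st v a :=
  Function.bijective_iff_has_inverse.2 ⟨fun v => M.st v (-a),
    fun v => by simp only [st_assoc, st_neg, st_zero],
    fun v => by simp only [st_assoc, neg_st, st_zero]⟩

theorem Meas_dleft (a : M.V) : Differentiable ℝ fun v => M.st a v :=
  Meas_diff (differentiable_const a) differentiable_fun_id

theorem Meas_dright (a : M.V) : Differentiable ℝ fun v => M.st v a :=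
  Meas_diff differentiable_fun_id (differentiable_const a)

theorem mp_st_left (a : M.V) : MeasurePreserving (fun v => M.st a v) volume volume :=
  Meas_mp (Meas_dleft a) (Meas_bl a) _ _ Meas_P0 Meas_Pd (Meas_left a)

theorem mp_st_right (a : M.V) : MeasurePreserving (fun v => M.st v a) volume volume :=
  Meas_mp (Meas_dright a) (Meas_brt a) _ _ Meas_P0 Meas_Pd (Meas_right a)

theorem Meas_det_dl (a : Ht M.k) : LinearMap.det (M.dl a) = 1 := by
  have h1 : LinearMap.det (M.dl a) = LinearMap.det (Matrix.toLin'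
      (Matrix.diagonal fun i => Real.exp (inner ℝ (M.w i) a))) := by
    congr 1
    refine LinearMap.ext fun v => funext fun i => ?_
    exact (Matrix.mulVec_diagonal (fun i => Real.exp (inner ℝ (M.w i) a)) v i).symm
  rw [h1, LinearMap.det_toLin', Matrix.det_diagonal, ← Real.exp_sum, ← sum_inner, M.uni,
    inner_zero_left, Real.exp_zero]

theorem mp_dl (a : Ht M.k) : MeasurePreserving (M.dl a) volume volume := by
  refine ⟨(M.dl a).continuous_of_finiteDimensional.measurable, ?_⟩
  rw [Measure.map_linearMap_addHaar_eq_smul_addHaar _ (by rw [Meas_det_dl]; exact one_ne_zero),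
    Meas_det_dl]
  simp

theorem mp_mul_left (a : M.V) : MeasurePreserving (fun v : M.V => a * v) volume volume :=
  (mp_st_left a).comp (mp_dl (M.ht a))

theorem mp_mul_right (a : M.V) : MeasurePreserving (fun v : M.V => v * a) volume volume := by
  have h1 : Differentiable ℝ fun v : M.V => M.dl (M.ht v) a := by
    have h2 : Differentiable ℝ M.ht := (LinearMap.toContinuousLinearMap M.ht).differentiable
    have h3 : Differentiable ℝ fun v : M.V =>
        fun i : Fin M.N => Real.exp (inner ℝ (M.w i) (M.ht v)) * a i :=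
      differentiable_pi.2 fun i => ((differentiable_const _).inner ℝ h2).exp.mul_const _
    exact h3
  refine Meas_mp (Meas_diff differentiable_fun_id h1) (Group.mulRight_bijective a)
    (fun k => Nat.casesOn k ⊤ fun k => LinearMap.ker M.ht ⊓ M.Meas_P k) (M.F.d + 1) rfl
    (by simp only [Meas_Pd, inf_bot_eq]) fun v k h hh => ?_
  have h2 : (v + h) * a - v * a - h ∈ LinearMap.ker M.ht := by
    rw [LinearMap.mem_ker, map_sub, map_sub, ht_mul, ht_mul, map_add]
    abel
  cases k with
  | zero => exact ⟨h2, by rw [Meas_P0]; trivial⟩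
  | succ k =>
    refine ⟨h2, ?_⟩
    have h3 : M.ht h = 0 := hh.1
    rw [mul_def, mul_def, map_add, h3, add_zero]
    exact Meas_right _ v k h hh.2

theorem mp_inv : MeasurePreserving (fun v : M.V => v⁻¹) volume volume := by
  have := FiniteDimensional.proper_real M.V
  have : (volume : Measure M.V).IsMulLeftInvariant := ⟨fun a => (mp_mul_left a).map_eq⟩
  have : (volume : Measure M.V).IsMulRightInvariant := ⟨fun a => (mp_mul_right a).map_eq⟩
  have : (volume : Measure M.V).IsHaarMeasure := {}
  have hm : Measurable fun v : M.V => v⁻¹ := continuous_inv.measurable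
  obtain ⟨c, hc⟩ : ∃ c : NNReal, (volume : Measure M.V).map (fun v : M.V => v⁻¹) = c • volume :=
    ⟨_, Measure.isMulLeftInvariant_eq_smul (volume : Measure M.V).inv volume⟩
  have h1 := congrArg (Measure.map fun v : M.V => v⁻¹) hc
  rw [Measure.map_map hm hm, Measure.map_smul, hc, smul_smul,
    show ((fun v : M.V => v⁻¹) ∘ fun v : M.V => v⁻¹) = id from funext fun v => inv_inv v,
    Measure.map_id] at h1
  have h2 := congrArg (fun μ : Measure M.V => μ (Metric.ball 0 1)) h1
  simp only [Measure.smul_apply, ENNReal.smul_def, smul_eq_mul] at h2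
  have h3 : ((c * c : NNReal) : ENNReal) = 1 :=
    (ENNReal.mul_left_inj (Metric.measure_ball_pos volume (0 : M.V) one_pos).ne'
      measure_ball_lt_top.ne).1 (h2.symm.trans (one_mul _).symm)
  have h4 : c = 1 := by
    rw [ENNReal.coe_eq_one] at h3
    exact (pow_eq_one_iff_of_nonneg zero_le two_ne_zero).1 ((sq c).trans h3)
  exact ⟨hm, by rw [hc, h4, one_smul]⟩

theorem Meas_vol {f : M.V → M.V} (h : MeasurePreserving f volume volume) (hc : Continuous f)
    (hi : Function.Injective f) (A : Set M.V) : volume {v | f v ∈ A} = volume A := by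
  have := FiniteDimensional.proper_real M.V
  exact h.measure_preimage_emb (hc.measurableEmbedding hi) A

theorem vol_st_left (a : M.V) (A : Set M.V) : volume {v | M.st a v ∈ A} = volume A :=
  Meas_vol (mp_st_left a) (Meas_dleft a).continuous (Meas_bl a).1 A

theorem vol_st_right (a : M.V) (A : Set M.V) : volume {v | M.st v a ∈ A} = volume A :=
  Meas_vol (mp_st_right a) (Meas_dright a).continuous (Meas_brt a).1 A

theorem vol_dl (a : Ht M.k) (A : Set M.V) : volume {v | M.dl a v ∈ A} = volume A :=
  Meas_vol (mp_dl a) (M.dl a).continuous_of_finiteDimensional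
    (Function.LeftInverse.injective (g := M.dl (-a)) fun v => by
      rw [dl_dl, neg_add_cancel, dl_zero]) A

theorem vol_mul_left (a : M.V) (A : Set M.V) : volume {v : M.V | a * v ∈ A} = volume A :=
  Meas_vol (mp_mul_left a) (continuous_const_mul a) (mul_right_injective a) A

theorem vol_mul_right (a : M.V) (A : Set M.V) : volume {v : M.V | v * a ∈ A} = volume A :=
  Meas_vol (mp_mul_right a) (continuous_mul_const a) (mul_left_injective a) A

theorem continuous_st : Continuous fun q : M.V × M.V => M.st q.1 q.2 := contDiff_st.continuous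

end Vale.Agent.P188.Mdl
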