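import Vale.Agent.P188.Hh
import Vale.Agent.P188.Meas

/-! Slabs of boxes. -/

namespace Vale.Agent.P188.Geo

open MeasureTheory Mdl

theorem vol_bx (G : Geo) (y : G.V) (c : Fin G.n → ℝ) : volume (G.bx y c) = volume (G.B c) :=
  Mdl.vol_st_left (-y) (G.B c)

theorem Cut_mem_ws (G : Geo) (i : Fin G.n) : [i] ∈ ws (Fin G.n) G.F.d := by
  rw [ws, Set.Finite.mem_toFinset]
  by_contra h
  have h1 : yw G.x [i] = 0 := yw_long G.x (not_lt.1 h)
  have h2 := τ_self (G := G) i
  rw [show G.x i = yw G.x [i] from rfl, h1, map_zero] at h2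
  exact zero_ne_one h2

/-- the coordinate of a letter can be replaced -/
theorem Cut_replace {G : Geo} {c : Fin G.n → ℝ} {w : G.V} (hw : w ∈ G.B c) (i : Fin G.n) {a : ℝ}
    (ha : |a| ≤ Real.exp (c i)) : w + (a - G.τ i w) • G.x i ∈ G.B c := by
  classical
  obtain ⟨s, h1, -, rfl⟩ := hw
  have hc : cw c [i] = c i := by simp [cw]
  have he := Real.exp_pos (c i)
  refine ⟨Function.update s [i] (a / Real.exp (c i)), fun l => ?_, fun l h => (h trivial).elim, ?_⟩
  · by_cases h : l = [i]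
    · rw [h, Function.update_self, abs_div, abs_of_pos he]
      exact (div_le_one he).2 ha
    · rw [Function.update_of_ne h]
      exact h1 l
  · have e : G.τ i (∑ l ∈ ws (Fin G.n) G.F.d, (s l * Real.exp (cw c l)) • yw G.x l) =
        s [i] * Real.exp (c i) := by
      rw [map_sum, Finset.sum_eq_single_of_mem [i] (G.Cut_mem_ws i)]
      · rw [map_smul, hc, show yw G.x [i] = G.x i from rfl, τ_self, smul_eq_mul, mul_one]
      · intro l _ h
        rw [map_smul, τ_yw i h, smul_zero]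
    have e2 : ∑ l ∈ (ws (Fin G.n) G.F.d).erase [i],
        (Function.update s [i] (a / Real.exp (c i)) l * Real.exp (cw c l)) • yw G.x l =
        ∑ l ∈ (ws (Fin G.n) G.F.d).erase [i], (s l * Real.exp (cw c l)) • yw G.x l :=
      Finset.sum_congr rfl fun l hl => by rw [Function.update_of_ne (Finset.ne_of_mem_erase hl)]
    rw [e, ← Finset.add_sum_erase _ _ (G.Cut_mem_ws i), ← Finset.add_sum_erase _ _ (G.Cut_mem_ws i),
      Function.update_self, hc, div_mul_cancel₀ _ he.ne', show yw G.x [i] = G.x i from rfl, e2]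
    module

theorem Cut_slab (G : Geo) (c : Fin G.n → ℝ) (i : Fin G.n) (t r : ℝ) :
    volume {w ∈ G.B c | |G.τ i w - t| ≤ Real.exp r} ≤
      ENNReal.ofReal (Real.exp (r - c i)) * volume (G.B c) := by
  set κ := Real.exp (c i - r) with hκ
  have hk : 0 < κ := Real.exp_pos _
  set L := LinearMap.transvection (G.τ i) ((κ - 1) • G.x i) with hL
  have hd : LinearMap.det L = κ := by
    rw [hL, LinearMap.transvection.det, map_smul, τ_self]
    simp
  have hs : {w ∈ G.B c | |G.τ i w - t| ≤ Real.exp r} ⊆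
      L ⁻¹' ((fun v => v + -((κ * t) • G.x i)) ⁻¹' G.B c) := by
    rintro w ⟨h1, h2⟩
    have h3 : |κ * (G.τ i w - t)| ≤ Real.exp (c i) := by
      rw [abs_mul, abs_of_pos hk, show c i = (c i - r) + r by ring, Real.exp_add]
      exact mul_le_mul_of_nonneg_left h2 hk.le
    have e : L w + -((κ * t) • G.x i) = w + (κ * (G.τ i w - t) - G.τ i w) • G.x i := by
      rw [hL, LinearMap.transvection.apply]
      module
    change L w + -((κ * t) • G.x i) ∈ G.B c
    rw [e]
    exact Cut_replace h1 i h3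
  refine (measure_mono hs).trans (le_of_eq ?_)
  rw [Measure.addHaar_preimage_linearMap _ (hd ▸ hk.ne'), measure_preimage_add_right, hd,
    abs_of_pos (inv_pos.2 hk), hκ, ← Real.exp_neg, neg_sub]

theorem vol_cut (G : Geo) : ∃ C, 0 ≤ C ∧ ∀ (y : G.V) (c : Fin G.n → ℝ) (i : Fin G.n) (t r : ℝ),
    volume {v ∈ G.bx y c | |G.τ i v - t| ≤ Real.exp r} ≤
      ENNReal.ofReal (Real.exp (G.h c - (c i - r) + C)) := by
  obtain ⟨C, hC, h⟩ := G.vol_B
  refine ⟨C, hC, fun y c i t r => ?_⟩
  have e : {v ∈ G.bx y c | |G.τ i v - t| ≤ Real.exp r} =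
      {v | G.st (-y) v ∈ {w ∈ G.B c | |G.τ i w - (t - G.τ i y)| ≤ Real.exp r}} := by
    ext v
    simp only [bx, Set.mem_ofPred_eq, τ_st, map_neg]
    rw [show -G.τ i y + G.τ i v - (t - G.τ i y) = G.τ i v - t by ring]
  rw [e, vol_st_left]
  refine (G.Cut_slab c i _ r).trans ((mul_le_mul_right (h c).2 _).trans (le_of_eq ?_))
  rw [← ENNReal.ofReal_mul (Real.exp_pos _).le, ← Real.exp_add]
  congr 2
  ring

end Vale.Agent.P188.Geo
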