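import Vale.Agent.P188.Meas

/-! Coarse measure theory on the model. -/

namespace Vale.Agent.P188.Mdl

open MeasureTheory

variable {M : Mdl}

instance Coarse_sc : SecondCountableTopology M.V :=
  (inferInstance : SecondCountableTopology (Fin M.N → ℝ))

instance Coarse_sf : SigmaFinite (volume : Measure M.V) :=
  (inferInstance : SigmaFinite (volume : Measure (Fin M.N → ℝ)))

theorem Coarse_tri (x y z : M.V) : M.len (x⁻¹ * z) ≤ M.len (x⁻¹ * y) + M.len (y⁻¹ * z) := by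
  simpa [mul_assoc] using isLen_len.mul (x⁻¹ * y) (y⁻¹ * z)

theorem Coarse_sym (x y : M.V) : M.len (x⁻¹ * y) = M.len (y⁻¹ * x) := by
  rw [← isLen_len.inv, mul_inv_rev, inv_inv]

open Pointwise in
theorem Coarse_U (x : M.V) : M.len x ≤ 1 ↔ x ∈ M.U := by
  have h := len_le_iff x 1
  rwa [Nat.cast_one, pow_one] at h

/-- maximal separated subsets -/
theorem Coarse_net {X : Type*} (A : Set X) (d : X → X → ℝ) (hs : ∀ a b, d a b = d b a)
    (h0 : ∀ a, d a a = 0) {r : ℝ} (hr : 0 ≤ r) :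
    ∃ S ⊆ A, (S.Pairwise fun a b => r < d a b) ∧ ∀ a ∈ A, ∃ s ∈ S, d s a ≤ r := by
  obtain ⟨S, hS⟩ := zorn_subset {T | T ⊆ A ∧ T.Pairwise fun a b => r < d a b}
    (fun c hc hch => ⟨⋃₀ c, ⟨Set.sUnion_subset fun t ht => (hc ht).1,
      hch.pairwise_sUnion.2 fun t ht => (hc ht).2⟩, fun _ => Set.subset_sUnion_of_mem⟩)
  refine ⟨S, hS.prop.1, hS.prop.2, fun a ha => ?_⟩
  by_contra! h
  have h1 : insert a S ⊆ S := hS.le_of_ge ⟨Set.insert_subset ha hS.prop.1,
    hS.prop.2.insert fun b hb _ => ⟨hs a b ▸ h b hb, h b hb⟩⟩ (Set.subset_insert _ _)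
  have h2 := h a (h1 (Set.mem_insert _ _))
  rw [h0] at h2
  exact absurd hr (not_le.2 h2)

theorem vol_ball_lt (r : ℝ) : volume {v : M.V | M.len v ≤ r} < ⊤ := by
  have := FiniteDimensional.proper_real M.V
  obtain ⟨C, hC⟩ := bdd_of_len (M := M) r
  exact (measure_mono fun v hv => mem_closedBall_zero_iff.2 (hC v hv)).trans_lt
    (isCompact_closedBall (0 : M.V) C).measure_lt_top

theorem vol_U_pos : 0 < volume M.U := isOpen_U.measure_pos _ ⟨1, Len_one⟩

theorem vol_U_lt : volume M.U < ⊤ :=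
  (measure_mono fun v hv => (Coarse_U v).2 hv).trans_lt (vol_ball_lt 1)

theorem sub_nb (A : Set M.V) {r : ℝ} (hr : 0 ≤ r) : A ⊆ M.nb A r :=
  fun x hx => ⟨x, hx, by rwa [inv_mul_cancel, isLen_len.one]⟩

theorem nb_mono {A B : Set M.V} (h : A ⊆ B) {r s : ℝ} (hr : r ≤ s) : M.nb A r ⊆ M.nb B s :=
  fun _ ⟨x, hx, h1⟩ => ⟨x, h hx, h1.trans hr⟩

theorem nb_nb (A : Set M.V) (r s : ℝ) : M.nb (M.nb A r) s ⊆ M.nb A (r + s) :=
  fun z ⟨y, ⟨x, hx, h1⟩, h2⟩ => ⟨x, hx, (Coarse_tri x y z).trans (add_le_add h1 h2)⟩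

/-- counting unit cells -/
theorem pack : ∃ C > 0, ∀ {α : Type} [MeasurableSpace α] (μ : Measure α) (Θ : Set α)
    (F : α → M.V) (m : ENNReal), (∀ y, μ {x ∈ Θ | M.len (y⁻¹ * F x) ≤ 2} ≤ m) →
      μ Θ ≤ ENNReal.ofReal C * m * volume (M.nb (F '' Θ) 1) := by
  have hv : 0 < (volume M.U).toReal := ENNReal.toReal_pos vol_U_pos.ne' vol_U_lt.ne
  refine ⟨(volume M.U).toReal⁻¹, inv_pos.2 hv, fun μ Θ F m hm => ?_⟩
  obtain ⟨S, hS, hp, hc⟩ := Coarse_net (F '' Θ) (fun a b => M.len (a⁻¹ * b)) Coarse_sym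
    (fun a => by rw [inv_mul_cancel, isLen_len.one]) zero_le_two
  let W : M.V → Set M.V := fun y => {v | y⁻¹ * v ∈ M.U}
  have hWo : ∀ y, IsOpen (W y) := fun y =>
    isOpen_U.preimage (continuous_const.mul continuous_id)
  have hd : S.PairwiseDisjoint W := fun a ha b hb hab => Set.disjoint_left.2 fun v h1 h2 => by
    have k1 := hp ha hb hab
    have k2 := Coarse_tri a v b
    have k3 := (Coarse_U _).2 h1
    have k4 := (Coarse_U _).2 h2
    rw [Coarse_sym] at k4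
    simp only at k1
    linarith
  have hcount : S.Countable := hd.countable_of_isOpen (fun y _ => hWo y)
    fun y _ => ⟨y, by simpa [W] using Len_one⟩
  have h1 : μ Θ ≤ ∑' _ : S, m := by
    refine (measure_mono fun x hx => ?_).trans
      ((measure_biUnion_le μ hcount fun y => {x ∈ Θ | M.len (y⁻¹ * F x) ≤ 2}).trans
        (ENNReal.tsum_le_tsum fun y => hm y))
    obtain ⟨s, hs, h⟩ := hc (F x) ⟨x, hx, rfl⟩
    exact Set.mem_biUnion hs ⟨hx, h⟩
  have h2 : ∑' _ : S, volume M.U ≤ volume (M.nb (F '' Θ) 1) := by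
    have e : ∀ y : S, volume M.U = volume (W y) := fun y => (vol_mul_left _ _).symm
    rw [tsum_congr e, ← measure_biUnion hcount hd fun y _ => (hWo y).measurableSet]
    exact measure_mono (Set.iUnion₂_subset fun y hy v hv => ⟨y, hS hy, (Coarse_U _).2 hv⟩)
  refine h1.trans (le_trans (le_of_eq ?_) (mul_le_mul_right h2 _))
  rw [← ENNReal.tsum_mul_left, ENNReal.ofReal_inv_of_pos hv, ENNReal.ofReal_toReal vol_U_lt.ne,
    mul_right_comm, ENNReal.inv_mul_cancel vol_U_pos.ne' vol_U_lt.ne, one_mul]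

theorem Coarse_fib {K : ℝ} {f g : M.V → M.V} (h : QIp M.len M.len K f g) (y : M.V) {S : Set M.V}
    (hS : ∀ x ∈ S, M.len (y⁻¹ * f x) ≤ 2) :
    volume S ≤ ENNReal.ofReal ((volume {v : M.V | M.len v ≤ 4 * K}).toReal + 1) := by
  rw [ENNReal.ofReal_add ENNReal.toReal_nonneg zero_le_one,
    ENNReal.ofReal_toReal (vol_ball_lt _).ne, 
    ← vol_mul_left (g y)⁻¹ {v : M.V | M.len v ≤ 4 * K}]
  refine (measure_mono fun x hx => ?_).trans le_self_add
  have k1 := Coarse_tri (g y) (g (f x)) x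
  have k2 := h.lg y (f x)
  have k3 := h.gf x
  have k4 := mul_le_mul_of_nonneg_left (hS x hx) (zero_le_one.trans h.one_le)
  show M.len ((g y)⁻¹ * x) ≤ 4 * K
  linarith

/-- quasi-isometries distort the volume of thick sets by a bounded factor -/
theorem cm (K : ℝ) : ∃ C > 0, ∀ f g : M.V → M.V, QIp M.len M.len K f g → ∀ A : Set M.V,
    volume (f ⁻¹' A) ≤ ENNReal.ofReal C * volume (M.nb A 1) := by
  obtain ⟨C, hC, h⟩ := pack (M := M)
  refine ⟨C * ((volume {v : M.V | M.len v ≤ 4 * K}).toReal + 1), by positivity,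
    fun f g hq A => ?_⟩
  rw [ENNReal.ofReal_mul hC.le]
  exact (h volume (f ⁻¹' A) f _ fun y => Coarse_fib hq y fun x hx => hx.2).trans
    (mul_le_mul_right (measure_mono (nb_mono (Set.image_preimage_subset f A) le_rfl)) _)

theorem cm_nb (K : ℝ) : ∃ C > 0, ∀ f g : M.V → M.V, QIp M.len M.len K f g → ∀ (A : Set M.V) ρ,
    0 ≤ ρ → volume (M.nb (f '' A) ρ) ≤ ENNReal.ofReal C * volume (M.nb A (K * ρ + 3 * K + 1)) := by
  obtain ⟨C, hC, h⟩ := cm (M := M) K
  refine ⟨C, hC, fun f g hq A ρ _ => ?_⟩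
  have hK := hq.one_le
  refine (measure_mono ?_).trans ((h g f ⟨hK, hq.lg, hq.lf, hq.fg, hq.gf⟩
    (M.nb A (K * ρ + 3 * K))).trans (mul_le_mul_right (measure_mono (nb_nb _ _ _)) _))
  rintro y ⟨_, ⟨a, ha, rfl⟩, h1⟩
  refine ⟨a, ha, ?_⟩
  have k1 := Coarse_tri a (g (f a)) (g y)
  have k2 := hq.lg (f a) y
  have k3 := hq.gf a
  have k4 := mul_le_mul_of_nonneg_left h1 (zero_le_one.trans hK)
  rw [Coarse_sym] at k3
  linarith

/-- the averaged form for the map that sends `x, u` to `f x * u` -/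
theorem cm_avg (K : ℝ) : ∃ C > 0, ∀ f g : M.V → M.V, QIp M.len M.len K f g → Measurable f →
    ∀ N : Set M.V, MeasurableSet N →
      (volume.prod volume) {q : M.V × M.V | q.2 ∈ M.U ∧ f q.1 * q.2 ∈ N} ≤
        ENNReal.ofReal C * volume N * volume M.U := by
  have hv : 0 < (volume M.U).toReal := ENNReal.toReal_pos vol_U_pos.ne' vol_U_lt.ne
  refine ⟨((volume {v : M.V | M.len v ≤ 4 * K}).toReal + 1) * (volume M.U).toReal⁻¹,
    by positivity, fun f g hq hf N hN => ?_⟩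
  have hU := (isOpen_U (M := M)).measurableSet
  have m1 : MeasurableSet {q : M.V × M.V | q.2 ∈ M.U ∧ f q.1 * q.2 ∈ N} :=
    (measurable_snd hU).inter (((hf.comp measurable_fst).mul measurable_snd) hN)
  have m2 : MeasurableSet {q : M.V × M.V | (f q.1)⁻¹ * q.2 ∈ M.U ∧ q.2 ∈ N} :=
    (((hf.comp measurable_fst).inv.mul measurable_snd) hU).inter (measurable_snd hN)
  have e : (volume.prod volume) {q : M.V × M.V | q.2 ∈ M.U ∧ f q.1 * q.2 ∈ N} =
      (volume.prod volume) {q : M.V × M.V | (f q.1)⁻¹ * q.2 ∈ M.U ∧ q.2 ∈ N} := by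
    rw [Measure.prod_apply m1, Measure.prod_apply m2]
    refine lintegral_congr fun x => ?_
    rw [← vol_mul_left (f x) (Prod.mk x ⁻¹' {q : M.V × M.V | (f q.1)⁻¹ * q.2 ∈ M.U ∧ q.2 ∈ N})]
    congr 1
    ext v
    simp
  rw [e, Measure.prod_apply_symm m2, ENNReal.ofReal_mul (by positivity),
    ENNReal.ofReal_inv_of_pos hv, ENNReal.ofReal_toReal vol_U_lt.ne, mul_right_comm,
    mul_assoc _ _ (volume M.U), ENNReal.inv_mul_cancel vol_U_pos.ne' vol_U_lt.ne, mul_one]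
  refine (lintegral_mono fun n => ?_).trans (lintegral_indicator_const_le N _)
  by_cases hn : n ∈ N
  · rw [Set.indicator_of_mem hn]
    refine Coarse_fib hq n fun x hx => ?_
    rw [Coarse_sym]
    exact ((Coarse_U _).2 hx.1).trans one_le_two
  · rw [Set.indicator_of_notMem hn]
    exact (measure_mono fun x hx => absurd hx.2 hn).trans (measure_empty (μ := volume)).le

theorem Coarse_mst (q : M.V) : Measurable fun p : M.V × ℝ => M.st p.1 (p.2 • q) :=
  (continuous_st.comp (continuous_fst.prodMk (continuous_snd.smul continuous_const))).measurable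

theorem Coarse_ret (q : M.V) {Z : Set M.V} (hZ : MeasurableSet Z) :
    Measurable fun z => volume {s : ℝ | |s| ≤ 1 ∧ M.st z (s • q) ∈ Z} :=
  measurable_measure_prodMk_left (s := {p : M.V × ℝ | |p.2| ≤ 1 ∧ M.st p.1 (p.2 • q) ∈ Z})
    ((measurableSet_le measurable_snd.abs measurable_const).inter (Coarse_mst q hZ))

/-- recurrence along a flow -/
theorem recur (q : M.V) {Z Ω : Set M.V} (hZ : MeasurableSet Z)
    (hΩ : ∀ z ∈ Z, ∀ s : ℝ, |s| ≤ 1 → M.st z (s • q) ∈ Ω) (η : ENNReal) :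
    volume {z ∈ Z | volume {s : ℝ | |s| ≤ 1 ∧ M.st z (s • q) ∈ Z} ≤ η} ≤ η * volume Ω := by
  have hZ' : MeasurableSet {z ∈ Z | volume {s : ℝ | |s| ≤ 1 ∧ M.st z (s • q) ∈ Z} ≤ η} :=
    hZ.inter (measurableSet_le (Coarse_ret q hZ) measurable_const)
  have hsub : ∀ z ∈ {z ∈ Z | volume {s : ℝ | |s| ≤ 1 ∧ M.st z (s • q) ∈ Z} ≤ η}, z ∈ Z ∧
    volume {s : ℝ | |s| ≤ 1 ∧ M.st z (s • q) ∈ Z} ≤ η := fun _ h => h
  generalize {z ∈ Z | volume {s : ℝ | |s| ≤ 1 ∧ M.st z (s • q) ∈ Z} ≤ η} = Z' at hZ' hsub ⊢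
  have m1 : MeasurableSet {p : M.V × ℝ | p.2 ∈ Set.Icc (0 : ℝ) 1 ∧ M.st p.1 (p.2 • q) ∈ Z'} :=
    (measurable_snd measurableSet_Icc).inter (Coarse_mst q hZ')
  have e : volume Z' = (volume.prod volume)
      {p : M.V × ℝ | p.2 ∈ Set.Icc (0 : ℝ) 1 ∧ M.st p.1 (p.2 • q) ∈ Z'} := by
    have e1 : volume (Set.Icc (0 : ℝ) 1) = 1 := by simp
    rw [Measure.prod_apply_symm m1, ← mul_one (volume Z'), ← e1,
      ← lintegral_indicator_const measurableSet_Icc]
    refine lintegral_congr fun s => ?_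
    by_cases hs : s ∈ Set.Icc (0 : ℝ) 1
    · rw [Set.indicator_of_mem hs, ← vol_st_right (s • q) Z']
      congr 1
      ext v
      exact (and_iff_right hs).symm
    · rw [Set.indicator_of_notMem hs]
      exact (measure_mono_null (fun v hv => absurd hv.1 hs) measure_empty).symm
  rw [e, Measure.prod_apply m1]
  refine (lintegral_mono fun x => ?_).trans (lintegral_indicator_const_le Ω η)
  rcases Set.eq_empty_or_nonempty (Prod.mk x ⁻¹'
    {p : M.V × ℝ | p.2 ∈ Set.Icc (0 : ℝ) 1 ∧ M.st p.1 (p.2 • q) ∈ Z'}) with h | ⟨s, hs, h⟩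
  · rw [h, measure_empty]
    exact zero_le
  obtain ⟨h1, h2⟩ := hsub (M.st x (s • q)) h
  have hs' : s ∈ Set.Icc (0 : ℝ) 1 := hs
  have h3 := hΩ _ h1 (-s) (by rw [abs_neg, abs_of_nonneg hs'.1]; exact hs'.2)
  rw [st_assoc, st_smul, add_neg_cancel, zero_smul, st_zero] at h3
  rw [Set.indicator_of_mem h3]
  refine le_trans (measure_mono fun t ht => ?_)
    ((measure_preimage_add_right volume (-s) _).trans_le h2)
  refine ⟨?_, ?_⟩
  · have ht' : t ∈ Set.Icc (0 : ℝ) 1 := ht.1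
    rw [abs_le]
    constructor <;> linarith [ht'.1, ht'.2, hs'.1, hs'.2]
  · show M.st (M.st x (s • q)) ((t + -s) • q) ∈ Z
    rw [st_assoc, st_smul, add_comm t, add_neg_cancel_left]
    exact (hsub _ ht.2).1

/-- bounded overlap of a separated set -/
theorem Coarse_over {E : Type} [NormedAddCommGroup E] [NormedSpace ℝ E] [FiniteDimensional ℝ E]
    [MeasurableSpace E] [BorelSpace E] {a r : ℝ} (ha : 0 < a) (hr : 0 < r) {S : Set E}
    (hp : S.Pairwise fun x y => 2 * r < ‖x - y‖) :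
    S.Countable ∧ ∀ z : E, ∑' H : S, {w : E | ‖w - H‖ ≤ a * r}.indicator (fun _ => (1 : ENNReal)) z ≤
      ENNReal.ofReal ((a + 1) ^ Module.finrank ℝ E) := by
  have hd : S.PairwiseDisjoint fun H => Metric.ball H r := fun x hx y hy hxy =>
    Metric.ball_disjoint_ball (by rw [dist_eq_norm]; linarith [hp hx hy hxy])
  refine ⟨hd.countable_of_isOpen (fun _ _ => Metric.isOpen_ball)
    fun x _ => ⟨x, Metric.mem_ball_self hr⟩, fun z => ?_⟩
  let μ : Measure E := Measure.addHaar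
  have h0 : μ (Metric.ball 0 r) ≠ 0 := (Metric.measure_ball_pos μ 0 hr).ne'
  have h1 : μ (Metric.ball 0 r) ≠ ⊤ := measure_ball_lt_top.ne
  rw [← ENNReal.mul_le_mul_iff_left h0 h1, ← Measure.addHaar_ball_mul_of_pos μ z (by positivity),
    ← ENNReal.tsum_mul_right]
  let B : S → Set E := fun H => {w | ‖z - H‖ ≤ a * r ∧ w ∈ Metric.ball (H : E) r}
  have hB : ∀ H : S, {w : E | ‖w - H‖ ≤ a * r}.indicator (fun _ => (1 : ENNReal)) z *
      μ (Metric.ball 0 r) = μ (B H) := fun H => by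
    by_cases h : ‖z - H‖ ≤ a * r
    · rw [Set.indicator_of_mem (show z ∈ {w : E | ‖w - H‖ ≤ a * r} from h), one_mul,
        ← Measure.addHaar_ball_center μ (H : E)]
      simp [B, h]
      rfl
    · rw [Set.indicator_of_notMem (show z ∉ {w : E | ‖w - H‖ ≤ a * r} from h), zero_mul]
      simp [B, h]
  rw [tsum_congr hB]
  refine (tsum_meas_le_meas_iUnion_of_disjoint μ (fun H => ?_) fun x y hxy => ?_).trans
    (measure_mono (Set.iUnion_subset fun H w hw => ?_))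
  · exact (MeasurableSet.const _).inter measurableSet_ball
  · exact (hd x.2 y.2 (Subtype.coe_ne_coe.2 hxy)).mono (fun _ h => h.2) fun _ h => h.2
  · have k1 := dist_triangle_right w z H
    have k2 : dist w H < r := hw.2
    have k3 := hw.1
    rw [← dist_eq_norm] at k3
    rw [Metric.mem_ball]
    linarith

/-- localisation of a set with small boundary to a cell of a coarsely Lipschitz map -/
theorem cell {E : Type} [NormedAddCommGroup E] [NormedSpace ℝ E] [FiniteDimensional ℝ E]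
    [MeasurableSpace E] [BorelSpace E] {L δ C : ℝ} (hL : 0 < L) (hδ : 0 < δ) (hC : 0 < C) :
    ∃ C' > 0, ∀ (φ : M.V → E) (Y : Set M.V) (ρ : ℝ), 1 ≤ ρ → Measurable φ →
      (∀ x y, ‖φ x - φ y‖ ≤ L * M.len (x⁻¹ * y) + L) → MeasurableSet Y → 0 < volume Y →
        volume Y < ⊤ → volume (M.nb Y ρ) ≤ ENNReal.ofReal C * volume Y → ∃ H : E,
          0 < volume {x ∈ Y | ‖φ x - H‖ ≤ δ * ρ} ∧ volume (M.nb {x ∈ Y | ‖φ x - H‖ ≤ δ * ρ} ρ) ≤
            ENNReal.ofReal C' * volume {x ∈ Y | ‖φ x - H‖ ≤ δ * ρ} := by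
  have ha : 0 < 2 * (δ + 2 * L) / δ := by positivity
  refine ⟨(2 * (δ + 2 * L) / δ + 1) ^ Module.finrank ℝ E * C + 1, by positivity,
    fun φ Y ρ hρ hφ hl hY h0 h1 hnb => ?_⟩
  have hρ0 : 0 < ρ := one_pos.trans_le hρ
  obtain ⟨S, -, hp, hc⟩ := Coarse_net (Set.univ : Set E) (fun a b => ‖a - b‖) norm_sub_rev
    (fun a => by simp) (r := δ * ρ) (by positivity)
  obtain ⟨hcount, hov⟩ := Coarse_over (S := S) ha (r := δ * ρ / 2) (by positivity)
    (by rwa [mul_div_cancel₀ _ two_ne_zero])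
  have hcnt := hcount.to_subtype
  have e : 2 * (δ + 2 * L) / δ * (δ * ρ / 2) = (δ + 2 * L) * ρ := by field_simp
  rw [e] at hov
  generalize hN : (2 * (δ + 2 * L) / δ + 1) ^ Module.finrank ℝ E = N at hov
  have hN0 : 0 ≤ N := by rw [← hN]; positivity
  by_contra! hcon
  have k1 : ∀ H : E, ENNReal.ofReal (N * C + 1) * volume {x ∈ Y | ‖φ x - H‖ ≤ δ * ρ} ≤
      volume (M.nb {x ∈ Y | ‖φ x - H‖ ≤ δ * ρ} ρ) := fun H => by
    rcases eq_zero_or_pos (volume {x ∈ Y | ‖φ x - H‖ ≤ δ * ρ}) with h | h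
    · rw [h, mul_zero]
      exact zero_le
    · exact (hcon H h).le
  have k2 : volume Y ≤ ∑' H : S, volume {x ∈ Y | ‖φ x - H‖ ≤ δ * ρ} := by
    refine (measure_mono fun x hx => ?_).trans (measure_iUnion_le _)
    obtain ⟨s, hs, h⟩ := hc (φ x) trivial
    exact Set.mem_iUnion.2 ⟨⟨s, hs⟩, hx, by rwa [norm_sub_rev]⟩
  have mB : ∀ H : E, MeasurableSet {w : E | ‖w - H‖ ≤ (δ + 2 * L) * ρ} := fun H =>
    (isClosed_le (by fun_prop) continuous_const).measurableSet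
  have k3 : ∀ H : E, volume (M.nb {x ∈ Y | ‖φ x - H‖ ≤ δ * ρ} ρ) ≤ ∫⁻ x in M.nb Y ρ,
      {w : E | ‖w - H‖ ≤ (δ + 2 * L) * ρ}.indicator (fun _ => (1 : ENNReal)) (φ x) := fun H => by
    have e2 : (fun x => {w : E | ‖w - H‖ ≤ (δ + 2 * L) * ρ}.indicator (fun _ => (1 : ENNReal))
        (φ x)) = (φ ⁻¹' {w : E | ‖w - H‖ ≤ (δ + 2 * L) * ρ}).indicator 1 := rfl
    rw [e2, lintegral_indicator_one (hφ (mB H)), Measure.restrict_apply (hφ (mB H))]
    refine measure_mono ?_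
    rintro x ⟨y, ⟨hy, h2⟩, h3⟩
    refine ⟨?_, y, hy, h3⟩
    have l1 := hl y x
    have l2 := norm_sub_le_norm_sub_add_norm_sub (φ x) (φ y) H
    have l3 := mul_le_mul_of_nonneg_left h3 hL.le
    have l4 := mul_le_mul_of_nonneg_left hρ hL.le
    rw [norm_sub_rev] at l1
    show ‖φ x - H‖ ≤ (δ + 2 * L) * ρ
    linarith
  have k4 : ENNReal.ofReal (N * C + 1) * volume Y ≤ ENNReal.ofReal (N * C) * volume Y := by
    refine (mul_le_mul_right k2 _).trans ?_
    rw [← ENNReal.tsum_mul_left]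
    refine (ENNReal.tsum_le_tsum fun H : S => (k1 H).trans (k3 H)).trans ?_
    refine (lintegral_tsum fun H : S =>
      ((measurable_const.indicator (mB H)).comp hφ).aemeasurable).ge.trans ?_
    refine (lintegral_mono fun x => hov (φ x)).trans ?_
    rw [setLIntegral_const, ENNReal.ofReal_mul hN0, mul_assoc]
    exact mul_le_mul_right hnb _
  rw [ENNReal.mul_le_mul_iff_left h0.ne' h1.ne,
    ENNReal.ofReal_le_ofReal_iff (mul_nonneg hN0 hC.le)] at k4
  linarith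

end Vale.Agent.P188.Mdl
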