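import Vale.Agent.P188.BoxAC
import Vale.Agent.P188.Coarse

/-! Chains inside a set of positive density reach a positive part of a box. -/

namespace Vale.Agent.P188.Mdl

open MeasureTheory

variable {M : Mdl} {ι : Type} [Finite ι] {x : ι → M.V}

omit [Finite ι] in
theorem PC_pw (x : ι → M.V) (c : ι → ℝ) {m : ℕ} (j : Fin (m + 1) → ι) (s : Fin (m + 1) → ℝ) :
    pw x j (fun _ => 0) c s = M.st (s 0 • Real.exp (c (j 0)) • x (j 0))
      (pw x (fun r => j r.succ) (fun _ => 0) c fun r => s r.succ) := by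
  rw [pw, List.ofFn_succ, zero_st, smul_smul]
  rfl

omit [Finite ι] in
theorem PC_ind (x : ι → M.V) (c : ι → ℝ) {Y Ω : Set M.V} (hY : MeasurableSet Y)
    (hΩ : ∀ z ∈ Y, ∀ i, ∀ s : ℝ, |s| ≤ Real.exp (c i) → M.st z (s • x i) ∈ Ω) (η : ENNReal)
    (m : ℕ) : ∀ j : Fin m → ι, ∃ (G : Set M.V) (T : Set (M.V × (Fin m → ℝ))),
      MeasurableSet G ∧ G ⊆ Y ∧ MeasurableSet T ∧ volume Y ≤ volume G + m * (η * volume Ω) ∧
        (∀ u ∈ G, η ^ m ≤ volume (Prod.mk u ⁻¹' T)) ∧
          ∀ u s, (u, s) ∈ T → u ∈ Y ∧ (∀ r, |s r| ≤ 1) ∧ ∀ u₀ k, Ch x c Y u₀ k u →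
            Ch x c Y u₀ (k + m) (M.st u (pw x j (fun _ => 0) c s)) := by
  induction m with
  | zero =>
    refine fun j => ⟨Y, Prod.fst ⁻¹' Y, hY, subset_rfl, measurable_fst hY, by simp,
      fun u hu => ?_, fun u s h => ⟨h, fun r => r.elim0, fun u₀ k hk => ?_⟩⟩
    · have e : Prod.mk u ⁻¹' (Prod.fst ⁻¹' Y : Set (M.V × (Fin 0 → ℝ))) = Set.univ :=
        Set.eq_univ_of_forall fun _ => hu
      rw [e, pow_zero, volume_pi, Measure.pi_univ]
      simp
    · have e : pw x j (fun _ => 0) c s = 0 := by simp [pw, sp]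
      rwa [e, st_zero]
  | succ m ih =>
    intro j
    obtain ⟨G, T, hG, hGY, hT, h1, h2, h3⟩ := ih fun r => j r.succ
    generalize hq : Real.exp (c (j 0)) • x (j 0) = q
    have hs : ∀ s : ℝ, |s| ≤ 1 → |s * Real.exp (c (j 0))| ≤ Real.exp (c (j 0)) := fun s h => by
      rw [abs_mul, abs_of_pos (Real.exp_pos _)]
      exact mul_le_of_le_one_left (Real.exp_pos _).le h
    have hr := recur q hG (Ω := Ω) (fun z hz s h => by
      rw [← hq, smul_smul]
      exact hΩ z (hGY hz) _ _ (hs s h)) η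
    have m0 : Measurable fun p : M.V × (Fin (m + 1) → ℝ) => p.2 0 :=
      (measurable_pi_apply 0).comp measurable_snd
    refine ⟨{z ∈ G | η < volume {s : ℝ | |s| ≤ 1 ∧ M.st z (s • q) ∈ G}},
      {p | p.1 ∈ Y ∧ |p.2 0| ≤ 1 ∧ (M.st p.1 (p.2 0 • q), fun r : Fin m => p.2 r.succ) ∈ T},
      hG.inter (measurableSet_lt measurable_const (Coarse_ret q hG)), fun z hz => hGY hz.1,
      (measurable_fst hY).inter ((measurableSet_le m0.abs measurable_const).inter
        ((((Coarse_mst q).comp (measurable_fst.prodMk m0)).prodMk (measurable_pi_lambda _ fun r =>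
          (measurable_pi_apply _).comp measurable_snd)) hT)), ?_, fun u hu => ?_, ?_⟩
    · refine h1.trans ?_
      rw [Nat.cast_succ, add_mul, one_mul, add_comm _ (η * volume Ω), ← add_assoc]
      refine add_le_add_left ((measure_mono fun z hz => ?_).trans ((measure_union_le _ _).trans
        (add_le_add_right hr _))) _
      rcases lt_or_ge η (volume {s : ℝ | |s| ≤ 1 ∧ M.st z (s • q) ∈ G}) with h | h
      exacts [Or.inl ⟨hz, h⟩, Or.inr ⟨hz, h⟩]
    · have mW : MeasurableSet {p : ℝ × (Fin m → ℝ) | |p.1| ≤ 1 ∧ (M.st u (p.1 • q), p.2) ∈ T} :=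
        (measurableSet_le measurable_fst.abs measurable_const).inter
          ((((Coarse_mst q).comp (measurable_const.prodMk measurable_fst)).prodMk
            measurable_snd) hT)
      have mI : MeasurableSet {s : ℝ | |s| ≤ 1 ∧ M.st u (s • q) ∈ G} :=
        (measurableSet_le measurable_abs measurable_const).inter
          (((Coarse_mst q).comp (measurable_const.prodMk measurable_id)) hG)
      refine le_trans ?_ (((volume_preserving_piFinSuccAbove (fun _ : Fin (m + 1) => ℝ)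
        0).measure_preimage mW.nullMeasurableSet).ge.trans
          (measure_mono fun s h => ⟨hGY hu.1, h.1, h.2⟩))
      rw [Measure.volume_eq_prod, Measure.prod_apply mW, pow_succ]
      refine (mul_le_mul_right hu.2.le _).trans ?_
      rw [← lintegral_indicator_const mI]
      refine lintegral_mono fun s => ?_
      by_cases h : s ∈ {s : ℝ | |s| ≤ 1 ∧ M.st u (s • q) ∈ G}
      · rw [Set.indicator_of_mem h]
        exact (h2 _ h.2).trans (measure_mono fun t ht => ⟨h.1, ht⟩)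
      · rw [Set.indicator_of_notMem h]
        exact zero_le
    · rintro u s ⟨k1, k2, k3⟩
      obtain ⟨l1, l2, l3⟩ := h3 _ _ k3
      refine ⟨k1, fun r => Fin.cases k2 l2 r, fun u₀ k hk => ?_⟩
      rw [PC_pw, hq, ← st_assoc, show k + (m + 1) = k + 1 + m by omega]
      refine l3 u₀ (k + 1) ?_
      rw [← hq, smul_smul] at l1 ⊢
      exact hk.step _ _ (hs _ k2) l1

theorem pc (hx : Submodule.span ℝ (Set.range (yw x)) = ⊤) : ∃ m : ℕ, ∀ C > 0, ∃ κ > 0,
    ∀ (c : ι → ℝ) (Y Ω : Set M.V), MeasurableSet Y → 0 < volume Y → volume Y < ⊤ →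
      volume Ω ≤ ENNReal.ofReal C * volume Y →
      (∀ z ∈ Y, ∀ i, ∀ s : ℝ, |s| ≤ Real.exp (c i) → M.st z (s • x i) ∈ Ω) →
        ∃ u ∈ Y, ENNReal.ofReal κ * volume (Bx x c) ≤ volume {v | Ch x c Y u m v} := by
  obtain ⟨m, j, β, -, h⟩ := ac_Bx hx
  refine ⟨m, fun C hC => ?_⟩
  have hη : 0 < (m * C + 1)⁻¹ := by positivity
  obtain ⟨κ, hκ, h⟩ := h ((m * C + 1)⁻¹ ^ m) (pow_pos hη m)
  refine ⟨κ, hκ, fun c Y Ω hY h0 h1 hv hΩ => ?_⟩
  obtain ⟨G, T, -, hGY, hT, k1, k2, k3⟩ := PC_ind x c hY hΩ (ENNReal.ofReal (m * C + 1)⁻¹) m j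
  obtain ⟨u, hu⟩ : G.Nonempty := by
    by_contra hG
    rw [Set.not_nonempty_iff_eq_empty.1 hG, measure_empty, zero_add] at k1
    have k4 := k1.trans (mul_le_mul_right (mul_le_mul_right hv _) _)
    rw [← mul_assoc (ENNReal.ofReal _), ← mul_assoc, ← ENNReal.ofReal_mul hη.le,
      ← ENNReal.ofReal_natCast, ← ENNReal.ofReal_mul (Nat.cast_nonneg m)] at k4
    refine absurd k4 (not_le.2 ?_)
    nth_rw 2 [← one_mul (volume Y)]
    refine ENNReal.mul_lt_mul_left h0.ne' h1.ne (ENNReal.ofReal_lt_one.2 ?_)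
    rw [mul_left_comm, inv_mul_lt_one₀ (by positivity)]
    exact lt_add_one _
  refine ⟨u, hGY hu, (h c (fun _ => 0) (fun _ => zero_mem_Zon) (Prod.mk u ⁻¹' T)
    (fun s hs => ⟨fun r => (abs_le.1 ((k3 u s hs).2.1 r)).1,
      fun r => (abs_le.1 ((k3 u s hs).2.1 r)).2⟩) (measurable_prodMk_left hT)
        (by rw [ENNReal.ofReal_pow hη.le]; exact k2 u hu)).trans ?_⟩
  rw [← vol_st_left u {v | Ch x c Y u m v}]
  refine measure_mono ?_
  rintro _ ⟨s, hs, rfl⟩
  have k5 := (k3 u s hs).2.2 u 0 (Ch.refl (hGY hu))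
  rwa [zero_add] at k5

end Vale.Agent.P188.Mdl
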