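import Vale.Agent.P188.Hh

/-! The finite group of symmetries. -/

namespace Vale.Agent.P188.Geo

open Classical
open scoped InnerProductSpace

variable {G : Geo} {σ σ' : Ht G.k ≃ₗᵢ[ℝ] Ht G.k} {J : Finset (Ht G.k)}

theorem Sig_small {α : Type} {S : Set α} (hS : S.Finite) {P : α → ℝ → Prop}
    (h : ∀ s ∈ S, ∃ g > 0, ∀ g', 0 < g' → g' ≤ g → P s g') : ∃ g > 0, ∀ s ∈ S, P s g := by
  have key : ∃ g > 0, ∀ s ∈ S, ∀ g', 0 < g' → g' ≤ g → P s g' := by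
    induction S, hS using Set.Finite.induction_on with
    | empty => exact ⟨1, one_pos, fun s hs => hs.elim⟩
    | @insert a S _ _ ih =>
      obtain ⟨g, hg, h1⟩ := ih fun s hs => h s (Set.mem_insert_of_mem _ hs)
      obtain ⟨g', hg', h2⟩ := h a (Set.mem_insert _ _)
      refine ⟨min g g', lt_min hg hg', fun s hs r h0 hr => ?_⟩
      rcases hs with rfl | hs
      · exact h2 r h0 (hr.trans (min_le_right _ _))
      · exact h1 s hs r h0 (hr.trans (min_le_left _ _))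
  obtain ⟨g, hg, h1⟩ := key
  exact ⟨g, hg, fun s hs => h1 s hs g hg le_rfl⟩

theorem Sig_mul (x : ℝ) {y : ℝ} (hy : 0 < y) : ∃ g > 0, ∀ g', 0 < g' → g' ≤ g → g' * x < y := by
  refine ⟨y / (|x| + 1), by positivity, fun g' h0 h1 => ?_⟩
  have h2 : g' * (|x| + 1) ≤ y := (le_div_iff₀ (by positivity)).1 h1
  have h3 := mul_le_mul_of_nonneg_left (le_abs_self x) h0.le
  linarith

theorem Sig_bdd {α : Type} {S : Set α} (hS : S.Finite) (l : α → ℝ) :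
    ∃ C, 1 ≤ C ∧ ∀ s ∈ S, l s ≤ C := by
  obtain ⟨C, hC⟩ := (hS.image l).bddAbove
  exact ⟨max 1 C, le_max_left _ _, fun s hs => (hC ⟨s, hs, rfl⟩).trans (le_max_right _ _)⟩

theorem Sig_iter {f : ℕ → ℝ} {m : ℕ} (hm : 0 < m) (h : ∀ n, f n ≤ f (n + 1)) (h0 : f m = f 0) :
    f 1 = f 0 :=
  le_antisymm (h0 ▸ monotone_nat_of_le_succ h hm) (h 0)

theorem Sig_ext {F : Type} [NormedAddCommGroup F] [NormedSpace ℝ F] {A B : Ht G.k →ₗ[ℝ] F}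
    (h : ∀ ν ∈ G.Nn, A ν = B ν) : A = B := by
  obtain ⟨C, -, hC⟩ := G.pos_span
  ext1 a
  obtain ⟨s, -, h1, -⟩ := hC a
  rw [h1, map_sum, map_sum]
  exact Finset.sum_congr rfl fun ν hν => by rw [map_smul, map_smul, h ν hν]

theorem Sig_pow (h : ∀ ν ∈ G.Nn, σ ν ∈ G.Nn) (n : ℕ) : ∀ ν ∈ G.Nn, (σ ^ n) ν ∈ G.Nn := by
  induction n with
  | zero => exact fun ν hν => hν
  | succ n ih => exact fun ν hν => by rw [pow_succ']; exact h _ (ih ν hν)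

theorem Sig_cs_add (b : Ht G.k → ℝ) (a : Ht G.k) :
    G.cs (fun ν => b ν + ⟪ν, a⟫_ℝ) = fun i => G.cs b i + G.la a i := by
  funext i
  rw [← cs_inner a]
  exact mul_add _ _ _

theorem Sig_bd (J : Finset (Ht G.k)) (ν : Ht G.k) : BddAbove ((fun a => ⟪ν, a⟫_ℝ) '' J) :=
  (J.finite_toSet.image _).bddAbove

theorem hJ_le (hJ : J.Nonempty) {b : Ht G.k → ℝ} (h : ∀ ν ∈ G.Nn, ∀ a ∈ J, ⟪ν, a⟫_ℝ ≤ b ν) :
    G.hJ J ≤ G.h (G.cs b) :=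
  h_mono (cs_mono fun ν hν => csSup_le (hJ.to_set.image _) (by
    rintro _ ⟨a, ha, rfl⟩
    exact h ν hν a ha))

theorem le_hJ {b : Ht G.k → ℝ} (h : ∀ ν ∈ G.Nn, ∃ a ∈ J, b ν ≤ ⟪ν, a⟫_ℝ) :
    G.h (G.cs b) ≤ G.hJ J :=
  h_mono (cs_mono fun ν hν => by
    obtain ⟨a, ha, h1⟩ := h ν hν
    exact le_csSup_of_le (Sig_bd J ν) ⟨a, ha, rfl⟩ h1)

theorem hJ_shift (hJ : J.Nonempty) (a : Ht G.k) : G.hJ (J.image (· + a)) = G.hJ J := by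
  have key : ∀ ν : Ht G.k, ∃ b ∈ J, sSup ((fun a => ⟪ν, a⟫_ℝ) '' J) = ⟪ν, b⟫_ℝ := fun ν => by
    obtain ⟨b, hb, h1⟩ := (hJ.to_set.image fun a => ⟪ν, a⟫_ℝ).csSup_mem (J.finite_toSet.image _)
    exact ⟨b, hb, h1.symm⟩
  rw [Geo.hJ.eq_1 G J, ← h_shift _ a, ← Sig_cs_add]
  refine le_antisymm (hJ_le (hJ.image _) fun ν _ b hb => ?_) (le_hJ fun ν _ => ?_)
  · obtain ⟨b, hb', rfl⟩ := Finset.mem_image.1 hb
    rw [inner_add_right]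
    exact add_le_add (le_csSup (Sig_bd J ν) ⟨b, hb', rfl⟩) le_rfl
  · obtain ⟨b, hb, h1⟩ := key ν
    exact ⟨b + a, Finset.mem_image_of_mem _ hb, by rw [inner_add_right, h1]⟩

open Pointwise in
theorem hJ_smul (J : Finset (Ht G.k)) {r : ℝ} (hr : 0 ≤ r) :
    G.hJ (J.image (r • ·)) = r * G.hJ J := by
  rw [Geo.hJ, Geo.hJ, ← h_smul _ hr]
  congr 1
  funext i
  have h1 : (fun a => ⟪G.nu i, a⟫_ℝ) '' (J.image (r • ·) : Finset (Ht G.k)) =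
      r • ((fun a => ⟪G.nu i, a⟫_ℝ) '' J) := by
    rw [Finset.coe_image, Set.image_image, ← Set.image_smul, Set.image_image]
    exact Set.image_congr fun a _ => by rw [inner_smul_right, smul_eq_mul]
  rw [cs, cs, h1, Real.sSup_smul_of_nonneg hr, smul_eq_mul, mul_left_comm]

theorem perm_finite (G : Geo) :
    {σ : Ht G.k ≃ₗᵢ[ℝ] Ht G.k | ∀ ν ∈ G.Nn, σ ν ∈ G.Nn}.Finite := by
  refine Set.Finite.of_finite_image (f := fun σ => fun ν : G.Nn => σ ν)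
    ((Set.Finite.pi' fun _ : G.Nn => G.Nn.finite_toSet).subset ?_) fun σ _ σ' _ h => ?_
  · rintro _ ⟨σ, hσ, rfl⟩
    exact fun ν => hσ ν ν.2
  · have h1 : σ.toLinearEquiv.toLinearMap = σ'.toLinearEquiv.toLinearMap :=
      Sig_ext fun ν hν => congrFun h ⟨ν, hν⟩
    exact LinearIsometryEquiv.ext fun v => LinearMap.congr_fun h1 v

theorem sig_finite (G : Geo) : G.Sig.Finite := G.perm_finite.subset fun _ h => h.1

theorem perm_order (h : ∀ ν ∈ G.Nn, σ ν ∈ G.Nn) : ∃ m : ℕ, 0 < m ∧ σ ^ m = 1 := by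
  refine isOfFinOrder_iff_pow_eq_one.1 (finite_powers.1 (G.perm_finite.subset ?_))
  rintro _ ⟨n, rfl⟩
  exact Sig_pow h n

theorem symm_mem (h : σ ∈ G.Sig) {ν : Ht G.k} (hν : ν ∈ G.Nn) : σ.symm ν ∈ G.Nn := by
  obtain ⟨m, hm, h1⟩ := perm_order h.1
  obtain ⟨n, rfl⟩ := Nat.exists_eq_succ_of_ne_zero hm.ne'
  have h2 : σ ((σ ^ n) ν) = ν := by
    rw [pow_succ'] at h1
    exact LinearIsometryEquiv.congr_fun h1 ν
  rw [← h2, σ.symm_apply_apply]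
  exact Sig_pow h.1 n ν hν

theorem sig_gap (G : Geo) : ∃ g > 0, ∀ σ ∈ G.Sig, ∀ σ' ∈ G.Sig,
    (∀ j, ‖σ (EuclideanSpace.single j 1) - σ' (EuclideanSpace.single j 1)‖ ≤ g) → σ = σ' := by
  obtain ⟨g, hg, h⟩ := Sig_small (G.sig_finite.prod G.sig_finite) (P := fun p g =>
      (∀ j, ‖p.1 (EuclideanSpace.single j 1) - p.2 (EuclideanSpace.single j 1)‖ ≤ g) → p.1 = p.2)
    (fun p _ => by
      by_cases hp : ∀ j, p.1 (EuclideanSpace.single j 1) = p.2 (EuclideanSpace.single j 1)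
      · refine ⟨1, one_pos, fun _ _ _ _ => ?_⟩
        have h1 : p.1.toLinearEquiv.toLinearMap = p.2.toLinearEquiv.toLinearMap :=
          (EuclideanSpace.basisFun (Fin G.k) ℝ).toBasis.ext fun j => by simpa using hp j
        exact LinearIsometryEquiv.ext fun v => LinearMap.congr_fun h1 v
      · obtain ⟨j, hj⟩ := not_forall.1 hp
        have h1 := norm_pos_iff.2 (sub_ne_zero.2 hj)
        exact ⟨_, half_pos h1, fun g _ h2 h3 => absurd (h3 j) (by linarith)⟩)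
  exact ⟨g, hg, fun σ hσ σ' hσ' => h (σ, σ') ⟨hσ, hσ'⟩⟩

theorem Sig_perp {ν : Ht G.k} (hν : ‖ν‖ = 1) (h : ∀ v, ⟪ν, v⟫_ℝ = 0 → ‖v‖ = 1 → σ v = σ' v) :
    σ' = σ ∨ σ' ν = -σ ν := by
  have h1 : ∀ v, ⟪ν, v⟫_ℝ = 0 → σ v = σ' v := fun v hv => by
    by_cases h0 : v = 0
    · rw [h0, map_zero, map_zero]
    have h2 := h (‖v‖⁻¹ • v) (by rw [inner_smul_right, hv, mul_zero]) (norm_smul_inv_norm h0)
    rw [map_smul, map_smul] at h2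
    exact smul_right_injective _ (inv_ne_zero (norm_ne_zero_iff.2 h0)) h2
  have h2 : ∀ v, ⟪ν, v - ⟪ν, v⟫_ℝ • ν⟫_ℝ = 0 := fun v => by
    rw [inner_sub_right, inner_smul_right, real_inner_self_eq_norm_sq, hν]
    ring
  obtain ⟨y, hy⟩ := σ.surjective (σ' ν)
  have h3 : ⟪y - ⟪ν, y⟫_ℝ • ν, y⟫_ℝ = 0 := by
    rw [← σ.inner_map_map, hy, h1 _ (h2 y), σ'.inner_map_map, real_inner_comm, h2]
  have h4 : y - ⟪ν, y⟫_ℝ • ν = 0 := by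
    rw [← inner_self_eq_zero (𝕜 := ℝ), inner_sub_right, h3, inner_smul_right,
      real_inner_comm ν (y - _), h2]
    ring
  generalize ⟪ν, y⟫_ℝ = c at h4
  have h5 : σ' ν = c • σ ν := by rw [← hy, sub_eq_zero.1 h4, map_smul]
  have h6 : |c| = 1 := by
    have h7 := congrArg norm h5
    rw [norm_smul, σ.norm_map, σ'.norm_map, hν, Real.norm_eq_abs] at h7
    linarith
  rcases (abs_eq zero_le_one).1 h6 with rfl | rfl
  · refine Or.inl (LinearIsometryEquiv.ext fun v => ?_)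
    have h7 := h1 _ (h2 v)
    rw [map_sub, map_sub, map_smul, map_smul, h5, one_smul] at h7
    exact (sub_left_inj.1 h7).symm
  · exact Or.inr (by rw [h5, neg_one_smul])

theorem sig_perp (G : Geo) : ∃ g > 0, ∀ σ ∈ G.Sig, ∀ σ' ∈ G.Sig, ∀ ν ∈ G.Nn,
    (∀ v, ⟪ν, v⟫_ℝ = 0 → ‖v‖ = 1 → ‖σ v - σ' v‖ ≤ g) → σ' = σ ∨ σ' ν = -σ ν := by
  obtain ⟨g, hg, h⟩ := Sig_small ((G.sig_finite.prod G.sig_finite).prod G.Nn.finite_toSet)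
    (P := fun p g => (∀ v, ⟪p.2, v⟫_ℝ = 0 → ‖v‖ = 1 → ‖p.1.1 v - p.1.2 v‖ ≤ g) →
      p.1.2 = p.1.1 ∨ p.1.2 p.2 = -p.1.1 p.2) (fun p hp => by
      by_cases h1 : ∀ v, ⟪p.2, v⟫_ℝ = 0 → ‖v‖ = 1 → p.1.1 v = p.1.2 v
      · exact ⟨1, one_pos, fun _ _ _ _ => Sig_perp (norm_Nn hp.2) h1⟩
      · push Not at h1
        obtain ⟨v, h2, h3, h4⟩ := h1
        have h1 := norm_pos_iff.2 (sub_ne_zero.2 h4)
        exact ⟨_, half_pos h1, fun g _ h5 h6 => absurd (h6 v h2 h3) (by linarith)⟩)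
  exact ⟨g, hg, fun σ hσ σ' hσ' ν hν => h ((σ, σ'), ν) ⟨⟨hσ, hσ'⟩, hν⟩⟩

theorem Sig_low (A : Ht G.k →ₗ[ℝ] Ht G.k) {r : ℝ} (hr : 0 < r)
    (h' : ∀ J : Finset (Ht G.k), (∀ v ∈ J, ‖v‖ ≤ r) →
      G.hJ (insert 0 J) ≤ G.hJ ((insert 0 J).image A)) (hJ : J.Nonempty) :
    G.hJ J ≤ G.hJ (J.image A) := by
  obtain ⟨a, ha⟩ := id hJ
  obtain ⟨t, ht, h1⟩ := Sig_small J.finite_toSet (P := fun v t => t * ‖v + -a‖ < r)
    fun v _ => Sig_mul _ hr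
  have h2 := h' ((J.image (· + -a)).image (t • ·)) fun v hv => by
    obtain ⟨v', hv', rfl⟩ := Finset.mem_image.1 hv
    obtain ⟨w, hw, rfl⟩ := Finset.mem_image.1 hv'
    rw [norm_smul, Real.norm_of_nonneg ht.le]
    exact (h1 w hw).le
  have h3 : ((J.image (· + -a)).image (t • ·)).image A =
      ((J.image A).image (· + -A a)).image (t • ·) := by
    simp only [Finset.image_image]
    exact Finset.image_congr fun v _ => by simp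
  rw [Finset.insert_eq_of_mem (Finset.mem_image.2 ⟨_, Finset.mem_image_of_mem _ ha, by simp⟩), h3,
    hJ_smul _ ht.le, hJ_smul _ ht.le, hJ_shift hJ, hJ_shift (hJ.image _)] at h2
  exact le_of_mul_le_mul_left h2 ht

theorem mem_Sig (h : ∀ ν ∈ G.Nn, σ ν ∈ G.Nn) {r : ℝ} (hr : 0 < r)
    (h' : ∀ J : Finset (Ht G.k), (∀ v ∈ J, ‖v‖ ≤ r) →
      G.hJ (insert 0 J) ≤ G.hJ ((insert 0 J).image σ)) : σ ∈ G.Sig := by
  refine ⟨h, fun J hJ => ?_⟩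
  obtain ⟨m, hm, h1⟩ := perm_order h
  have h2 := Sig_iter (f := fun n => G.hJ (J.image (σ ^ n : Ht G.k ≃ₗᵢ[ℝ] Ht G.k))) hm
    (fun n => by
      have h3 := Sig_low σ.toLinearEquiv.toLinearMap hr h'
        (hJ.image (σ ^ n : Ht G.k ≃ₗᵢ[ℝ] Ht G.k))
      rw [Finset.image_image] at h3
      rw [pow_succ']
      exact h3) (by rw [h1, pow_zero])
  rw [pow_one, pow_zero] at h2
  exact h2.trans (congrArg G.hJ (Finset.image_id (s := J)))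

theorem iso_of_low (hO : G.Orth) {A A' : Ht G.k →ₗ[ℝ] Ht G.k} (h : ∀ v, A' (A v) = v)
    (hA : ∀ J : Finset (Ht G.k), G.hJ (insert 0 J) ≤ G.hJ ((insert 0 J).image A))
    (hA' : ∀ J : Finset (Ht G.k), G.hJ (insert 0 J) ≤ G.hJ ((insert 0 J).image A')) (v : Ht G.k) :
    ‖A v‖ = ‖v‖ := by
  refine hO (LinearEquiv.ofInjectiveEndo A (Function.LeftInverse.injective h)) (fun J hJ => ?_) v
  refine le_antisymm ?_ (Sig_low A one_pos (fun J _ => hA J) hJ)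
  have h1 := Sig_low A' one_pos (fun J _ => hA' J) (hJ.image A)
  rw [Finset.image_image, show A' ∘ A = id from funext h, Finset.image_id] at h1
  exact h1

/-- the constant that measures how close to the diagonal the types are taken -/
theorem exists_theta (G : Geo) : ∃ θ μ : ℝ, 0 < θ ∧ θ ≤ 1 / 4 ∧ 0 < μ ∧ μ ≤ 1 / 4 ∧
    ∀ γ, G.Adm γ θ → ∀ ν ∈ G.Nn, ∀ ν' ∈ G.Nn, ν' ≠ ν → ⟪ν', γ ν • ν⟫_ℝ + 2 * μ ≤ γ ν' := by
  obtain ⟨g, hg, h⟩ := G.gap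
  have h1 : 0 < min g 1 := lt_min hg one_pos
  have h2 : min g 1 ≤ 1 := min_le_right _ _
  have h3 : min g 1 ≤ g := min_le_left _ _
  generalize min g 1 = e at h1 h2 h3
  refine ⟨e / 4, e / 4, by linarith, by linarith, by linarith, by linarith,
    fun γ hγ ν hν ν' hν' hne => ?_⟩
  have h4 := abs_le.1 (hγ ν hν)
  have h5 := abs_le.1 (hγ ν' hν')
  have h6 : ⟪ν', ν⟫_ℝ ≤ 1 - e := (h ν' hν' ν hν hne).trans (by linarith)
  have h7 := mul_le_mul_of_nonneg_left h6 (show 0 ≤ γ ν by linarith)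
  have h8 := mul_le_mul_of_nonneg_right (show γ ν ≤ 1 + e / 4 by linarith)
    (show 0 ≤ 1 - e by linarith)
  rw [inner_smul_right]
  nlinarith

theorem Sig_inner (σ : Ht G.k ≃ₗᵢ[ℝ] Ht G.k) (ν a : Ht G.k) : ⟪ν, σ a⟫_ℝ = ⟪σ.symm ν, a⟫_ℝ := by
  rw [← σ.inner_map_map (σ.symm ν), σ.apply_symm_apply]

theorem Sig_self {ν : Ht G.k} (hν : ν ∈ G.Nn) (s : ℝ) : ⟪ν, s • ν⟫_ℝ = s := by
  rw [inner_smul_right, real_inner_self_eq_norm_sq, norm_Nn hν]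
  ring

theorem h_im {γ : Ht G.k → ℝ} (hγ : ∀ ν ∈ G.Nn, γ ν • ν ∈ G.Cl γ) (h : σ ∈ G.Sig) (o : Ht G.k) :
    G.h (G.cs (G.im γ σ o)) = G.h (G.cs γ) := by
  rw [show G.im γ σ o = fun ν => γ (σ.symm ν) + ⟪ν, o⟫_ℝ from rfl, Sig_cs_add, h_shift]
  rcases G.Nn.eq_empty_or_nonempty with h0 | h0
  · exact le_antisymm (h_mono (cs_mono fun ν hν => by simp [h0] at hν))
      (h_mono (cs_mono fun ν hν => by simp [h0] at hν))
  have hJ : (G.Nn.image fun ν => γ ν • ν).Nonempty := h0.image _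
  have h1 : G.hJ (G.Nn.image fun ν => γ ν • ν) = G.h (G.cs γ) := by
    refine le_antisymm (hJ_le hJ fun ν hν a ha => ?_) (le_hJ fun ν hν => ?_)
    · obtain ⟨μ, hμ, rfl⟩ := Finset.mem_image.1 ha
      exact hγ μ hμ ν hν
    · exact ⟨_, Finset.mem_image_of_mem _ hν, (Sig_self hν _).ge⟩
  rw [← h1, ← h.2 _ hJ]
  refine le_antisymm (le_hJ fun ν hν => ?_) (hJ_le (hJ.image _) fun ν hν a ha => ?_)
  · refine ⟨_, Finset.mem_image_of_mem _ (Finset.mem_image_of_mem _ (symm_mem h hν)), ?_⟩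
    rw [Sig_inner, Sig_self (symm_mem h hν)]
  · obtain ⟨b, hb, rfl⟩ := Finset.mem_image.1 ha
    obtain ⟨μ, hμ, rfl⟩ := Finset.mem_image.1 hb
    rw [Sig_inner]
    exact hγ μ hμ _ (symm_mem h hν)

theorem cs_im (γ : Ht G.k → ℝ) (σ : Ht G.k ≃ₗᵢ[ℝ] Ht G.k) (o : Ht G.k) (i : Fin G.n) :
    G.cs (G.im γ σ o) i = ‖G.lam i‖ * γ (σ.symm (G.nu i)) + G.la o i :=
  congrFun (Sig_cs_add (fun ν => γ (σ.symm ν)) o) i

theorem mem_Cl_im {γ : Ht G.k → ℝ} (h : σ ∈ G.Sig) (o : Ht G.k) {a : Ht G.k} (ha : a ∈ G.Cl γ) :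
    σ a + o ∈ G.Cl (G.im γ σ o) := fun ν hν => by
  rw [inner_add_right, Sig_inner]
  exact add_le_add (ha _ (symm_mem h hν)) le_rfl

theorem eq_of_Cl {γ : Ht G.k → ℝ} (hγ : ∀ ν ∈ G.Nn, 0 < γ ν) {o o' : Ht G.k}
    (h : ∀ a ∈ G.Cl γ, σ a + o = σ' a + o') : σ = σ' ∧ o = o' := by
  have h0 : o = o' := by simpa using h 0 fun ν hν => by simpa using (hγ ν hν).le
  refine ⟨LinearIsometryEquiv.ext fun v => ?_, h0⟩
  obtain ⟨t, ht, h1⟩ := Sig_small G.Nn.finite_toSet (P := fun ν t => t * ⟪ν, v⟫_ℝ < γ ν)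
    fun ν hν => Sig_mul _ (hγ ν hν)
  have h2 := h (t • v) fun ν hν => by
    rw [inner_smul_right]
    exact (h1 ν hν).le
  rw [h0, add_left_inj, map_smul, map_smul] at h2
  exact smul_right_injective _ ht.ne' h2

theorem Sig_hp (S : Finset (Fin G.N)) (a : Ht G.k) : ∑ j ∈ S, -⟪G.w j, a⟫_ℝ ≤ G.hp a :=
  (Finset.sum_le_sum fun _ _ => le_max_left _ 0).trans
    (Finset.sum_le_sum_of_subset_of_nonneg (Finset.subset_univ S) fun _ _ _ => le_max_right _ _)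

theorem Sig_hp_eq {S : Finset (Fin G.N)} {a : Ht G.k} (h : ∀ j, j ∈ S ↔ ⟪G.w j, a⟫_ℝ < 0) :
    G.hp a = ∑ j ∈ S, -⟪G.w j, a⟫_ℝ := by
  rw [hp, ← Finset.sum_subset (Finset.subset_univ S) fun j _ hj =>
    max_eq_right (neg_nonpos.2 (not_lt.1 fun h1 => hj ((h j).2 h1)))]
  exact Finset.sum_congr rfl fun j hj => max_eq_left (neg_nonneg.2 ((h j).1 hj).le)

theorem Sig_sign {ν : Ht G.k} (hν : ν ∈ G.Nn) {u : Ht G.k} (hu : 0 ≤ ⟪ν, u⟫_ℝ) :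
    ∃ w, ⟪ν, w⟫_ℝ = 1 ∧ ∀ j, (⟪G.w j, u⟫_ℝ < 0 → ⟪G.w j, w⟫_ℝ < 0) ∧
      (⟪G.w j, w⟫_ℝ < 0 → ⟪G.w j, u⟫_ℝ ≤ 0) := by
  obtain ⟨t, ht, h1⟩ := Sig_small (Set.finite_univ (α := Fin G.N))
    (P := fun j t => ⟪G.w j, u⟫_ℝ ≠ 0 → t * |⟪G.w j, ν⟫_ℝ| < |⟪G.w j, u⟫_ℝ|) fun j _ => by
      by_cases h0 : ⟪G.w j, u⟫_ℝ = 0
      · exact ⟨1, one_pos, fun _ _ _ h => absurd h0 h⟩
      · obtain ⟨g, hg, h2⟩ := Sig_mul |⟪G.w j, ν⟫_ℝ| (abs_pos.2 h0)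
        exact ⟨g, hg, fun g' h3 h4 _ => h2 g' h3 h4⟩
  have h2 : 0 < t + ⟪ν, u⟫_ℝ := by linarith
  refine ⟨(t + ⟪ν, u⟫_ℝ)⁻¹ • (t • ν + u), ?_, fun j => ?_⟩
  · rw [inner_smul_right, inner_add_right, Sig_self hν, inv_mul_cancel₀ h2.ne']
  rw [inner_smul_right, inner_add_right, inner_smul_right]
  have h3 := mul_le_mul_of_nonneg_left (le_abs_self ⟪G.w j, ν⟫_ℝ) ht.le
  have h4 := mul_le_mul_of_nonneg_left (neg_abs_le ⟪G.w j, ν⟫_ℝ) ht.le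
  refine ⟨fun h5 => mul_neg_of_pos_of_neg (inv_pos.2 h2) ?_, fun h5 => not_lt.1 fun h6 => ?_⟩
  · have h6 := h1 j trivial h5.ne
    rw [abs_of_neg h5] at h6
    linarith
  · have h7 := h1 j trivial h6.ne'
    rw [abs_of_pos h6] at h7
    exact absurd h5 (not_lt.2 (mul_nonneg (inv_pos.2 h2).le (by linarith)))

theorem shear (G : Geo) : ∃ C, 1 ≤ C ∧ ∀ ν ∈ G.Nn, ∀ (u : Ht G.k) (τ : ℝ), 0 ≤ τ → 0 ≤ ⟪ν, u⟫_ℝ →
    (∀ w, ⟪ν, w⟫_ℝ = 1 → ‖w‖ ≤ C → G.hp (τ • w + u) ≤ τ * G.hp w) → u = 0 := by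
  have hex : ∀ p : Ht G.k × Finset (Fin G.N), ∃ w : Ht G.k,
      (∃ w', ⟪p.1, w'⟫_ℝ = 1 ∧ ∀ j, j ∈ p.2 ↔ ⟪G.w j, w'⟫_ℝ < 0) →
        ⟪p.1, w⟫_ℝ = 1 ∧ ∀ j, j ∈ p.2 ↔ ⟪G.w j, w⟫_ℝ < 0 := fun p => by
    by_cases h : ∃ w', ⟪p.1, w'⟫_ℝ = 1 ∧ ∀ j, j ∈ p.2 ↔ ⟪G.w j, w'⟫_ℝ < 0
    · exact ⟨h.choose, fun _ => h.choose_spec⟩
    · exact ⟨0, fun h' => absurd h' h⟩
  choose rep hrep using hex
  obtain ⟨C, hC, hb⟩ := Sig_bdd (G.Nn.finite_toSet.prod (Set.finite_univ (α := Finset (Fin G.N))))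
    fun p => ‖rep p‖
  refine ⟨C, hC, fun ν hν u τ hτ hu h => ?_⟩
  obtain ⟨w, hw, hs⟩ := Sig_sign hν hu
  generalize hS : (Finset.univ.filter fun j => ⟪G.w j, w⟫_ℝ < 0) = S
  have hS' : ∀ j, j ∈ S ↔ ⟪G.w j, w⟫_ℝ < 0 := fun j => by simp [← hS]
  obtain ⟨h1, h2⟩ := hrep (ν, S) ⟨w, hw, hS'⟩
  have h3 := (Sig_hp S _).trans (h _ h1 (hb (ν, S) ⟨hν, trivial⟩))
  simp only [Sig_hp_eq h2, inner_add_right, inner_smul_right, neg_add, Finset.sum_add_distrib,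
    Finset.mul_sum, mul_neg] at h3
  have h4 : ∀ j ∈ S, 0 ≤ -⟪G.w j, u⟫_ℝ := fun j hj => neg_nonneg.2 ((hs j).2 ((hS' j).1 hj))
  have h5 := (Finset.sum_eq_zero_iff_of_nonneg h4).1
    (le_antisymm (by linarith) (Finset.sum_nonneg h4))
  have h6 : ∀ j ∈ Finset.univ, 0 ≤ ⟪G.w j, u⟫_ℝ := fun j _ => not_lt.1 fun h7 =>
    h7.ne (neg_eq_zero.1 (h5 j ((hS' j).2 ((hs j).1 h7))))
  have h7 : ∑ j, ⟪G.w j, u⟫_ℝ = 0 := by rw [← sum_inner, G.uni, inner_zero_left]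
  exact G.eff u fun j => (Finset.sum_eq_zero_iff_of_nonneg h6).1 h7 j (Finset.mem_univ j)

theorem hp_smul (a : Ht G.k) {r : ℝ} (hr : 0 ≤ r) : G.hp (r • a) = r * G.hp a := by
  rw [hp, hp, Finset.mul_sum]
  exact Finset.sum_congr rfl fun j _ => by
    rw [inner_smul_right, mul_max_of_nonneg _ _ hr, mul_neg, mul_zero]

theorem del_eq (h : σ ∈ G.Sig) (h' : ∀ ν ∈ G.Nn, G.del ν ≤ G.del (σ ν)) :
    ∀ ν ∈ G.Nn, G.del (σ ν) = G.del ν := by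
  intro ν hν
  obtain ⟨m, hm, h1⟩ := perm_order h.1
  have h2 := Sig_iter (f := fun n => G.del ((σ ^ n) ν)) hm
    (fun n => by rw [pow_succ']; exact h' _ (Sig_pow h.1 n ν hν)) (by rw [h1, pow_zero])
  rwa [pow_one, pow_zero] at h2

theorem hp_eq (h : σ ∈ G.Sig) {C : ℝ}
    (h' : ∀ ν ∈ G.Nn, ∀ w, ⟪ν, w⟫_ℝ = 1 → ‖w‖ ≤ C → G.hp (σ w) ≤ G.hp w) :
    ∀ ν ∈ G.Nn, ∀ w, ⟪ν, w⟫_ℝ = 1 → ‖w‖ ≤ C → G.hp (σ w) = G.hp w := by
  intro ν hν w hw hC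
  obtain ⟨m, hm, h1⟩ := perm_order h.1
  have h2 := Sig_iter (f := fun n => -G.hp ((σ ^ n) w)) hm
    (fun n => by
      rw [pow_succ']
      exact neg_le_neg (h' _ (Sig_pow h.1 n ν hν) ((σ ^ n) w)
        (((σ ^ n).inner_map_map ν w).trans hw) (((σ ^ n).norm_map w).trans_le hC)))
    (by rw [h1, pow_zero])
  rw [pow_one, pow_zero] at h2
  exact neg_injective h2

end Vale.Agent.P188.Geo
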