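import Vale.Agent.P188.Close
import Vale.Agent.P188.PC
import Vale.Agent.P188.Sig
import Vale.Agent.P188.Cut

/-! The counting bound for stars. -/

namespace Vale.Agent.P188.Geo

open MeasureTheory Mdl Classical
open scoped InnerProductSpace

section aux

variable {G : Geo} {a b : G.V} {c c' : Fin G.n → ℝ}

theorem CntC_refl (a : G.V) (c : Fin G.n → ℝ) : a ∈ G.bx a c := by
  change G.st (-a) a ∈ G.B c
  rw [neg_st]
  exact zero_mem_Zon

theorem CntC_symm (h : b ∈ G.bx a c) : a ∈ G.bx b c := by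
  have : -G.st (-a) b ∈ G.B c := neg_mem_Zon h
  rw [neg_st_rev, neg_neg] at this
  exact this

theorem CntC_mono (h : b ∈ G.bx a c) (hc : c ≤ c') : b ∈ G.bx a c' := B_mono hc h

theorem CntC_tr (G : Geo) : ∃ C, 0 ≤ C ∧ ∀ (c : Fin G.n → ℝ) (k l : ℝ) (a b d : G.V), 0 ≤ k →
    0 ≤ l → (b ∈ G.bx a fun i => c i + k) → (d ∈ G.bx b fun i => c i + l) →
      d ∈ G.bx a fun i => c i + (k + l + C) := by
  obtain ⟨C, hC, h⟩ := st_Bx G.x
  refine ⟨C, hC, fun c k l a b d hk hl h1 h2 => ?_⟩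
  have := h (fun i => c i + (k + l)) _ (CntC_mono h1 fun i => by linarith) _
    (CntC_mono h2 fun i => by linarith)
  rw [st_assoc, ← st_assoc b, st_neg, zero_st] at this
  exact B_mono (fun i => (add_assoc _ _ _).le) this

theorem CntC_la {Λ R δ r : ℝ} (hΛ : ∀ i, ‖G.lam i‖ ≤ Λ) (h0 : 0 ≤ δ * R) {T a H : Ht G.k}
    {β : Ht G.k → ℝ} (h1 : ‖a - H‖ ≤ r) (h2 : ∀ ν ∈ G.Nn, ⟪ν, T - a⟫_ℝ ≤ R * (β ν + δ))
    (i : Fin G.n) : G.la T i ≤ R * G.cs β i + G.la H i + Λ * (δ * R + r) := by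
  have e : G.la T i = ⟪G.lam i, T - a⟫_ℝ + ⟪G.lam i, a - H⟫_ℝ + G.la H i := by
    simp only [la, inner_sub_right]
    ring
  have h3 : ⟪G.lam i, a - H⟫_ℝ ≤ Λ * r := (real_inner_le_norm _ _).trans
    (mul_le_mul (hΛ i) h1 (norm_nonneg _) ((norm_nonneg _).trans (hΛ i)))
  have h4 : ⟪G.lam i, T - a⟫_ℝ ≤ ‖G.lam i‖ * (R * (β (G.nu i) + δ)) := by
    by_cases hi : G.lam i = 0
    · simp [hi]
    · have h5 := mul_le_mul_of_nonneg_left (h2 _ (nu_mem hi)) (norm_nonneg (G.lam i))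
      rwa [← real_inner_smul_left, ← lam_eq] at h5
  have h6 := mul_le_mul_of_nonneg_right (hΛ i) h0
  rw [e, cs]
  linarith

theorem CntC_sz {ρ : ℝ} (h : 0 ≤ ρ) (i : Fin G.n) : G.sz ρ i ≤ ρ := by
  rw [sz]
  split_ifs
  · exact Real.log_le_self h
  · exact le_rfl

theorem CntC_norm_x (i : Fin G.n) : ‖G.x i‖ ≤ 1 :=
  (pi_norm_le_iff_of_nonneg zero_le_one).2 fun j => by
    change ‖(Pi.single (G.ix i) (1 : ℝ) : Fin G.N → ℝ) j‖ ≤ 1
    by_cases h : j = G.ix i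
    · simp [h]
    · simp [h]

theorem CntC_small (a : ℝ) {b : ℝ} (hb : 0 < b) : ∀ᶠ t in nhdsWithin (0 : ℝ) (Set.Ioi 0),
    a * t ≤ b := by
  have : Filter.Tendsto (fun t : ℝ => a * t) (nhds 0) (nhds (a * 0)) :=
    (continuous_const.mul continuous_id).tendsto 0
  rw [mul_zero] at this
  exact mem_nhdsWithin_of_mem_nhds (this.eventually (Iic_mem_nhds hb))

theorem CntC_lip (G : Geo) {K : ℝ} (hK : 1 ≤ K) : ∃ L > 0, ∀ f g : G.V → G.V,
    QIp G.len G.len K f g → ∀ x y, ‖(G.ht x, G.ht (f x)) - (G.ht y, G.ht (f y))‖ ≤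
      L * G.len (x⁻¹ * y) + L := by
  obtain ⟨C, hC, h⟩ := ht_le (M := G.toMdl)
  have e : ∀ x y : G.V, ‖G.ht x - G.ht y‖ ≤ C * G.len (x⁻¹ * y) := fun x y => by
    have := h (x⁻¹ * y)
    rwa [ht_mul, ht_inv, neg_add_eq_sub, norm_sub_rev] at this
  refine ⟨(C + 1) * K, by positivity, fun f g hq x y => ?_⟩
  have h0 := isLen_len.nonneg (x⁻¹ * y)
  have h1 := e x y
  have h2 := (e (f x) (f y)).trans (mul_le_mul_of_nonneg_left (hq.lf x y) hC)
  have h3 := mul_le_mul_of_nonneg_right hK (mul_nonneg hC h0)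
  have h4 : 0 ≤ K * G.len (x⁻¹ * y) := by positivity
  have h5 : 0 ≤ C * K := by positivity
  refine norm_prod_le_iff.2 ⟨?_, ?_⟩
  · change ‖G.ht x - G.ht y‖ ≤ _
    linarith
  · change ‖G.ht (f x) - G.ht (f y)‖ ≤ _
    linarith

theorem CntC_fin {κ Cm x y : ℝ} (hκ : 0 < κ) (hC : 0 < Cm)
    (h : ENNReal.ofReal κ * ENNReal.ofReal (Real.exp x) ≤
      ENNReal.ofReal Cm * ENNReal.ofReal (Real.exp y)) : x ≤ y + Real.log (Cm / κ) := by
  rw [← ENNReal.ofReal_mul hκ.le, ← ENNReal.ofReal_mul hC.le,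
    ENNReal.ofReal_le_ofReal_iff (by positivity)] at h
  rw [← Real.exp_le_exp, Real.exp_add, Real.exp_log (by positivity), ← mul_div_assoc,
    le_div_iff₀ hκ]
  linarith

/-- the image of a chain and of its neighbourhood -/
theorem CntC_chain (G : Geo) : ∃ C, 0 ≤ C ∧ ∀ (m : ℕ) (f : G.V → G.V) (Y : Set G.V)
    (c d : Fin G.n → ℝ) (u : G.V),
    (∀ v ∈ Y, ∀ i, ∀ s : ℝ, |s| ≤ Real.exp (c i) → G.st v (s • G.x i) ∈ Y →
      ∃ p q : ℕ → G.V, p 0 = v ∧ q 0 = G.st v (s • G.x i) ∧ f (q m) ∈ G.bx (f (p m)) d ∧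
        ∀ j < m, f (p (j + 1)) ∈ G.bx (f (p j)) d ∧ f (q (j + 1)) ∈ G.bx (f (q j)) d) →
    (∀ v ∈ Y, ∀ y, G.len ((f v)⁻¹ * y) ≤ 1 → y ∈ G.bx (f v) d) → ∀ r : ℕ,
      G.nb (f '' {v | Ch G.x c Y u r v}) 1 ⊆
        G.bx (f u) fun i => d i + (r * (2 * m + 3) + 1) * C := by
  obtain ⟨C, hC, tr⟩ := CntC_tr G
  refine ⟨C, hC, fun m f Y c d u hl hs => ?_⟩
  have z : ∀ {a b : G.V}, b ∈ G.bx a d → b ∈ G.bx a fun i => d i + 0 := fun h =>
    CntC_mono h fun i => (add_zero _).ge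
  have path : ∀ (p : ℕ → G.V) (n : ℕ), (∀ j < n, p (j + 1) ∈ G.bx (p j) d) →
      p n ∈ G.bx (p 0) fun i => d i + n * C := by
    intro p n
    induction n with
    | zero => exact fun _ => CntC_refl _ _
    | succ n ih =>
      intro h
      refine CntC_mono (tr d _ 0 _ _ _ (by positivity) le_rfl
        (ih fun j hj => h j (by omega)) (z (h n (by omega)))) fun i => le_of_eq ?_
      push_cast
      ring
  have ch : ∀ r v, Ch G.x c Y u r v → v ∈ Y ∧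
      f v ∈ G.bx (f u) fun i => d i + r * (2 * m + 3) * C := by
    intro r v h
    induction h with
    | refl h => exact ⟨h, CntC_refl _ _⟩
    | step h i s hs hY ih =>
      obtain ⟨p, q, p0, q0, h1, h2⟩ := hl _ ih.1 i s hs hY
      have a1 := path (fun j => f (p j)) m fun j hj => (h2 j hj).1
      have a2 := CntC_symm (path (fun j => f (q j)) m fun j hj => (h2 j hj).2)
      simp only [p0, q0] at a1 a2
      refine ⟨hY, CntC_mono (tr d _ _ _ _ _ (by positivity) (by positivity) ih.2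
        (tr d _ _ _ _ _ (by positivity) (by positivity)
          (tr d _ 0 _ _ _ (by positivity) le_rfl a1 (z h1)) a2)) fun i => le_of_eq ?_⟩
      push_cast
      ring
  rintro r y ⟨_, ⟨v, hv, rfl⟩, hy⟩
  obtain ⟨h1, h2⟩ := ch r v hv
  exact CntC_mono (tr d _ 0 _ _ _ (by positivity) le_rfl h2 (z (hs v h1 y hy)))
    fun i => le_of_eq (by ring)

end aux

theorem cnt_core (G : Geo) : ∃ C₀ > 0, ∀ (K : ℝ) (c : ℝ), 0 < c → ∀ ε > 0, ∃ δ > 0, ∃ m : ℕ,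
    0 < m ∧ ∀ C > 0, ∃ R₀ : ℝ, ∀ R ≥ R₀, ∀ f g : G.V → G.V, QIp G.len G.len K f g → Measurable f →
      ∀ (J : Finset (Ht G.k)) (β : Ht G.k → ℝ), (∀ v ∈ J, ‖v‖ ≤ c / C₀) → ∀ Y : Set G.V,
      MeasurableSet Y → 0 < volume Y → volume Y < ⊤ →
      volume (G.nb Y (c * R)) ≤ ENNReal.ofReal C * volume Y →
      (∀ x ∈ Y, ∀ v ∈ insert 0 J, ∀ j ≤ m, ∀ ν ∈ G.Nn,
        ⟪ν, G.ht (f (G.st x (G.X ((R * ((j : ℝ) / m)) • v)))) - G.ht (f x)⟫_ℝ ≤ R * (β ν + δ)) →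
      G.hJ (insert 0 J) ≤ G.h (G.cs β) + ε := by
  obtain ⟨l₀, Λ, -, hΛ, hlam⟩ := G.lam_bd
  have hΛ' : ∀ i, ‖G.lam i‖ ≤ Λ := fun i => (hlam i).1
  obtain ⟨Cb, hCb, lbv⟩ := G.len_bv
  obtain ⟨Cs, hCs, stp⟩ := G.step_mem
  obtain ⟨Cl, hCl, lln⟩ := G.len_line
  obtain ⟨Cv, hCv, lV0⟩ := G.len_V0
  obtain ⟨CB, hCB, volB⟩ := G.vol_B
  obtain ⟨Ct, hCt, chn⟩ := CntC_chain G
  obtain ⟨r, hpc⟩ := pc (span_x (G := G))
  refine ⟨2 * Cb * Λ, by positivity, fun K c hc ε hε => ?_⟩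
  by_cases hK : ¬1 ≤ K
  · exact ⟨1, one_pos, 1, one_pos, fun C _ => ⟨0, fun R _ f g hq => absurd hq.one_le hK⟩⟩
  rw [not_not] at hK
  obtain ⟨L, hL, lip⟩ := CntC_lip G hK
  obtain ⟨Cm, hCm, hcm⟩ := cm (M := G.toMdl) K
  have pos : ∀ᶠ t in nhdsWithin (0 : ℝ) (Set.Ioi 0), 0 < t := self_mem_nhdsWithin
  obtain ⟨η, η1, η0⟩ := ((CntC_small (6 * (G.N * G.F.d)) hε).and pos).exists
  obtain ⟨e, ⟨e1, e2⟩, e0⟩ :=
    (((CntC_small 1 hc).and (CntC_small (Cs * (2 * K)) η0)).and pos).exists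
  obtain ⟨δ, δ1, δ0⟩ := ((CntC_small Λ η0).and pos).exists
  obtain ⟨δ₃, d3, R₃, cc⟩ := G.close_cell (c / (2 * Cb * Λ)) e0
  obtain ⟨δ₂, ⟨⟨d21, d22⟩, d23⟩, d2⟩ := ((((CntC_small (2 * Cb * Λ) one_pos).and
    (CntC_small (Λ * c) d3)).and (CntC_small (Λ * c) η0)).and pos).exists
  obtain ⟨δ₁, d11, d1⟩ := ((CntC_small (2 * Cv) e0).and pos).exists
  obtain ⟨m, hm⟩ := exists_nat_gt (2 * Cl * (c / (2 * Cb * Λ)) / e)
  have hm0 : (0 : ℝ) < m := lt_of_le_of_lt (by positivity) hm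
  refine ⟨δ, δ0, m, by exact_mod_cast hm0, fun C hC => ?_⟩
  obtain ⟨C', hC', hcell⟩ := cell (M := G.toMdl) (E := Ht G.k × Ht G.k) hL d2 hC
  obtain ⟨κ, hκ, hpc⟩ := hpc C' hC'
  obtain ⟨R₀, hR₀⟩ := Filter.eventually_atTop.1 (((((((Filter.eventually_ge_atTop R₃).and
    (Close_ev hc 1)).and (Close_ev hc Cb)).and (Close_ev d1 1)).and (Close_ev e0 1)).and
    ((Close_ev e0 (2 * Cl)).and (Close_ev e0 (2 * Cv)))).and (Close_ev (half_pos hε)
      (2 * CB + G.N * G.F.d * ((r * (2 * m + 3) + 1) * Ct) + Real.log (Cm / κ))))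
  refine ⟨R₀, fun R hR f g hq hf J β hJ Y hY Y0 Y1 hnb hyp => ?_⟩
  obtain ⟨⟨⟨⟨⟨⟨r1, r2⟩, r3⟩, r4⟩, r5⟩, r6, r7⟩, r8⟩ := hR₀ R hR
  have R0 : 0 < R := (mul_pos_iff_of_pos_left hc).1 (one_pos.trans_le r2)
  have hφ : Measurable fun x : G.V => (G.ht x, G.ht (f x)) :=
    Len_ht.measurable.prodMk (Len_ht.measurable.comp hf)
  obtain ⟨⟨H, H1⟩, Z0, Z1⟩ := hcell _ Y (c * R) r2 hφ (lip f g hq) hY Y0 Y1 hnb
  obtain ⟨Z, hZ⟩ : ∃ Z, Z = {x ∈ Y | ‖(G.ht x, G.ht (f x)) - (H, H1)‖ ≤ δ₂ * (c * R)} := ⟨_, rfl⟩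
  rw [← hZ] at Z0 Z1
  have mZ : MeasurableSet Z :=
    hZ ▸ hY.inter (measurableSet_le (hφ.sub_const _).norm measurable_const)
  have hZ' : ∀ x ∈ Z, x ∈ Y ∧ ‖G.ht x - H‖ ≤ δ₂ * (c * R) ∧ ‖G.ht (f x) - H1‖ ≤ δ₂ * (c * R) :=
    fun x hx => by
      rw [hZ] at hx
      exact ⟨hx.1, norm_prod_le_iff.1 hx.2⟩
  have hJ' : ∀ v ∈ insert (0 : Ht G.k) J, ‖v‖ ≤ c / (2 * Cb * Λ) := fun v hv => by
    rcases Finset.mem_insert.1 hv with rfl | hv
    · rw [norm_zero]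
      positivity
    · exact hJ v hv
  obtain ⟨s, hs⟩ : ∃ s : Fin G.n → ℝ, ∀ i, s i = R * G.cs (fun ν => sSup ((fun a => ⟪ν, a⟫_ℝ) ''
      (insert 0 J : Finset (Ht G.k)))) i + G.la H i +
        if G.lam i = 0 then Real.log (δ₁ * R) else 0 := ⟨_, fun _ => rfl⟩
  have s0 : ∀ i, G.lam i = 0 → ∀ (v : G.V) (t : ℝ), |t| ≤ Real.exp (s i) →
      G.len (v⁻¹ * G.st v (t • G.x i)) ≤ e * R := by
    intro i hi v t ht
    have hv := smul_V0 t (x_V0 hi)
    rw [← mul_V0 v hv, inv_mul_cancel_left]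
    rw [hs, if_pos hi, cs, la, hi, norm_zero, inner_zero_left, zero_mul, mul_zero, zero_add,
      zero_add, Real.exp_log (by positivity)] at ht
    have h1 : ‖t • G.x i‖ ≤ δ₁ * R := by
      rw [norm_smul, Real.norm_eq_abs]
      exact (mul_le_of_le_one_right (abs_nonneg _) (CntC_norm_x i)).trans ht
    have h2 := mul_le_mul_of_nonneg_left h1 hCv.le
    have h3 := mul_le_mul_of_nonneg_right d11 R0.le
    linarith [lV0 _ hv]
  have s1 : ∀ i, G.lam i ≠ 0 → ∃ v₀ ∈ insert (0 : Ht G.k) J, ∀ v ∈ Z,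
      s i ≤ G.la (G.ht v + R • v₀) i + Λ * (δ₂ * (c * R)) := by
    intro i hi
    obtain ⟨v₀, h1, h2⟩ := ((Finset.insert_nonempty (0 : Ht G.k) J).to_set.image
      fun a => ⟪G.nu i, a⟫_ℝ).csSup_mem ((Finset.finite_toSet _).image _)
    refine ⟨v₀, h1, fun v hv => ?_⟩
    have h3 : ⟪G.lam i, H - G.ht v⟫_ℝ ≤ Λ * (δ₂ * (c * R)) := (real_inner_le_norm _ _).trans
      (mul_le_mul (hΛ' i) (by rw [norm_sub_rev]; exact (hZ' v hv).2.1) (norm_nonneg _) hΛ.le)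
    have h4 : ⟪G.lam i, v₀⟫_ℝ = ‖G.lam i‖ * ⟪G.nu i, v₀⟫_ℝ := by
      rw [← real_inner_smul_left, ← lam_eq]
    rw [inner_sub_right] at h3
    rw [hs, if_neg hi, cs, ← h2, la, la, inner_add_right, real_inner_smul_right, h4]
    linarith
  obtain ⟨u, -, hu⟩ := hpc s Z (G.nb Z (c * R)) mZ Z0
    ((measure_mono fun x hx => (hZ' x hx).1).trans_lt Y1) Z1 fun z hz i t ht => ⟨z, hz, by
      by_cases hi : G.lam i = 0
      · exact (s0 i hi z t ht).trans (mul_le_mul_of_nonneg_right (by linarith) R0.le)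
      · obtain ⟨v₀, h1, h2⟩ := s1 i hi
        rw [st_eq_mul, inv_mul_cancel_left, map_smul, dl_x, smul_smul]
        refine (lbv _ hi _ (c * R / Cb) ((one_le_div hCb).2 r3) ?_).trans
          (le_of_eq (mul_div_cancel₀ _ hCb.ne'))
        rw [abs_mul, abs_of_pos (Real.exp_pos _)]
        refine (mul_le_mul_of_nonneg_right ht (Real.exp_pos _).le).trans ?_
        rw [← Real.exp_add, Real.exp_le_exp, le_div_iff₀ hCb, inner_neg_right]
        have h3 := h2 z hz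
        rw [la, inner_add_right, real_inner_smul_right] at h3
        have h4 : ⟪G.lam i, v₀⟫_ℝ ≤ Λ * (c / (2 * Cb * Λ)) := (real_inner_le_norm _ _).trans
          (mul_le_mul (hΛ' i) (hJ' _ h1) (norm_nonneg _) hΛ.le)
        have h5 : Λ * (c / (2 * Cb * Λ)) * Cb = c / 2 := by field_simp
        have h6 := mul_le_mul_of_nonneg_left (mul_le_mul_of_nonneg_right h4 hCb.le) R0.le
        have h7 := mul_le_mul_of_nonneg_right h3 hCb.le
        have h8 := mul_le_mul_of_nonneg_right d21 (mul_pos hc R0).le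
        rw [h5] at h6
        linarith⟩
  have one : ∀ x ∈ Z, ∀ v ∈ insert (0 : Ht G.k) J, ∀ j ≤ m, ∀ y,
      G.len ((f (G.st x (G.X ((R * ((j : ℝ) / m)) • v))))⁻¹ * y) ≤ 2 * K * (e * R) →
      y ∈ G.bx (f (G.st x (G.X ((R * ((j : ℝ) / m)) • v))))
        fun i => R * G.cs β i + G.la H1 i + 3 * η * R := by
    intro x hx v hv j hj y hy
    have h0 : 1 ≤ 2 * K * (e * R) := by nlinarith
    refine B_mono (fun i => ?_) (stp _ y _ h0 hy)
    have h1 := CntC_la hΛ' (mul_pos δ0 R0).le (hZ' x hx).2.2 (hyp x (hZ' x hx).1 v hv j hj) i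
    have h2 := CntC_sz (G := G) (ρ := Cs * (2 * K * (e * R))) (by positivity) i
    have h3 := mul_le_mul_of_nonneg_right e2 R0.le
    have h4 := mul_le_mul_of_nonneg_right δ1 R0.le
    have h5 := mul_le_mul_of_nonneg_right d23 R0.le
    linarith
  have two : ∀ x ∈ Z, ∀ v ∈ insert (0 : Ht G.k) J, ∀ j ≤ m, ∀ y,
      G.len ((G.st x (G.X ((R * ((j : ℝ) / m)) • v)))⁻¹ * y) ≤ e * R →
      f y ∈ G.bx (f (G.st x (G.X ((R * ((j : ℝ) / m)) • v))))
        fun i => R * G.cs β i + G.la H1 i + 3 * η * R := by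
    intro x hx v hv j hj y hy
    refine one x hx v hv j hj _ ((hq.lf _ _).trans ?_)
    have h1 := mul_le_mul_of_nonneg_left hy (zero_le_one.trans hK)
    have h2 := mul_le_mul_of_nonneg_left r5 (zero_le_one.trans hK)
    linarith
  have z0 : ∀ (x : G.V) (v : Ht G.k), G.st x (G.X ((R * (((0 : ℕ) : ℝ) / m)) • v)) = x :=
    fun x v => by rw [Nat.cast_zero, zero_div, mul_zero, zero_smul, map_zero, st_zero]
  have three : ∀ x ∈ Z, ∀ v ∈ insert (0 : Ht G.k) J, ∀ j < m,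
      f (G.st x (G.X ((R * (((j + 1 : ℕ) : ℝ) / m)) • v))) ∈
        G.bx (f (G.st x (G.X ((R * ((j : ℝ) / m)) • v))))
          fun i => R * G.cs β i + G.la H1 i + 3 * η * R := by
    intro x hx v hv j hj
    refine two x hx v hv j hj.le _ ((lln x v _ _).trans ?_)
    have h1 : R * (((j + 1 : ℕ) : ℝ) / m) - R * ((j : ℝ) / m) = R / m := by
      push_cast
      ring
    have h2 : 2 * Cl * (c / (2 * Cb * Λ)) / m ≤ e := by
      rw [div_lt_iff₀ e0] at hm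
      rw [div_le_iff₀ hm0]
      linarith
    have h3 := mul_le_mul_of_nonneg_left (hJ' v hv) (by positivity : 0 ≤ 2 * Cl * (R / m))
    have h4 := mul_le_mul_of_nonneg_right h2 R0.le
    have h5 : 2 * Cl * (R / m) * (c / (2 * Cb * Λ)) = 2 * Cl * (c / (2 * Cb * Λ)) / m * R := by
      ring
    rw [h1, abs_of_pos (div_pos R0 hm0)]
    linarith
  have sub := chn m f Z s (fun i => R * G.cs β i + G.la H1 i + 3 * η * R) u ?_ ?_ r
  · have v1 := (hcm f g hq _).trans (mul_le_mul_right ((measure_mono sub).trans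
      ((vol_bx G _ _).le.trans (volB _).2)) _)
    have v2 := ((mul_le_mul_right (volB s).1 _).trans hu).trans
      ((measure_mono (Set.subset_preimage_image f _)).trans v1)
    have v3 := CntC_fin hκ hCm v2
    have v4 : R * G.hJ (insert 0 J) ≤ G.h s := by
      rw [Geo.hJ, ← h_smul _ R0.le, ← h_shift _ H]
      refine h_mono fun i => ?_
      rw [hs]
      split_ifs
      · exact le_add_of_nonneg_right (Real.log_nonneg r4)
      · exact (add_zero _).ge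
    have v5 := h_add (fun i => R * G.cs β i + G.la H1 i)
      (β := 3 * η * R + (r * (2 * m + 3) + 1) * Ct) (by positivity)
    rw [h_shift, h_smul _ R0.le] at v5
    simp only [add_assoc] at v3 v5
    have v6 := mul_le_mul_of_nonneg_right η1 R0.le
    refine le_of_mul_le_mul_left ?_ R0
    linarith
  · intro v hv i t ht hv'
    by_cases hi : G.lam i = 0
    · refine ⟨fun _ => v, fun _ => G.st v (t • G.x i), rfl, rfl, ?_,
        fun j _ => ⟨CntC_refl _ _, CntC_refl _ _⟩⟩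
      have := two v hv 0 (Finset.mem_insert_self _ _) 0 (Nat.zero_le _) (G.st v (t • G.x i))
      rw [z0] at this
      exact this (s0 i hi v t ht)
    · obtain ⟨v₀, h1, h2⟩ := s1 i hi
      refine ⟨fun j => G.st v (G.X ((R * ((j : ℝ) / m)) • v₀)),
        fun j => G.st (G.st v (t • G.x i)) (G.X ((R * ((j : ℝ) / m)) • v₀)), z0 _ _, z0 _ _,
        two v hv v₀ h1 m le_rfl _ ?_, fun j hj => ⟨three v hv v₀ h1 j hj, three _ hv' v₀ h1 j hj⟩⟩
      have h3 := cc R r1 v (G.ht v + R • v₀) (by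
        rw [add_sub_cancel_left, norm_smul, Real.norm_of_nonneg R0.le, mul_comm]
        exact mul_le_mul_of_nonneg_right (hJ' _ h1) R0.le) (t • G.x i) (x_mem (ht.trans (by
          rw [Real.exp_le_exp, sz, if_neg hi]
          have := mul_le_mul_of_nonneg_right d22 R0.le
          linarith [h2 v hv])))
      rw [pr, pr, ht_st, map_smul, ht_x hi, smul_zero, add_zero, add_sub_cancel_left] at h3
      simp only [div_self hm0.ne', mul_one]
      exact h3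
  · intro v hv y hy
    have := one v hv 0 (Finset.mem_insert_self _ _) 0 (Nat.zero_le _) y
    rw [z0] at this
    exact this (hy.trans (by nlinarith))

end Vale.Agent.P188.Geo
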