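import Vale.Agent.P188.BoxD

/-! Notions for the volume bounds near a facet. -/

namespace Vale.Agent.P188.Geo

open scoped InnerProductSpace

variable (G : Geo)

/-- the height `w` lies on the facet `ν` of the box `c`, at distance `μ` from the others -/
def Top (ν : Ht G.k) (c : Fin G.n → ℝ) (w : Ht G.k) (μ : ℝ) : Prop :=
  (∀ i, G.par ν i → c i = ⟪G.lam i, w⟫_ℝ) ∧ ∀ i, ¬G.par ν i → ⟪G.lam i, w⟫_ℝ + μ ≤ c i

/-- products of two boxes -/
def bb (y : G.V) (c c' : Fin G.n → ℝ) : Set G.V :=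
  {v | ∃ b ∈ G.B c, ∃ g ∈ G.B c', v = G.st (G.st y b) g}

end Vale.Agent.P188.Geo
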