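import Vale.Agent.P188.SysB
import Vale.Agent.P188.CntC

/-! The counting bound at generic points. -/

namespace Vale.Agent.P188.Sys

open MeasureTheory Filter Mdl Classical
open scoped InnerProductSpace ENNReal

theorem CntG_reg {G : Geo} {S : Sys G} {W : S.I → ℝ≥0∞} {A P : S.I → Set G.V} {c : ℝ} {E : S.Ext}
    {z : E.J → G.V} (hA : S.Rg W A c) (hz : E.Gn W z) (hm : ∀ᶠ n in E.U, z n ∈ A (E.π n))
    (hP : ∀ᶠ n in E.U, z n ∈ P (E.π n)) (hPm : ∀ n, MeasurableSet (P n)) :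
    ∃ C > 0, ∀ᶠ n in S.U, ∃ Y ⊆ P n, MeasurableSet Y ∧ 0 < volume Y ∧ volume Y < ⊤ ∧
      volume (G.nb Y (c / 2 * S.R n)) ≤ ENNReal.ofReal C * volume Y := by
  obtain ⟨hc, C, hC⟩ := hA
  obtain ⟨κ, hκ, h1⟩ := not_nul_iff.1 (Gen.not_nul (A := fun n => G.nb (A n) 1 ∩ P n) hz
    ((hm.and hP).mono fun n hn => ⟨sub_nb _ zero_le_one hn.1, hn.2⟩))
  refine ⟨(|C| + 1) / κ, by positivity, ?_⟩
  filter_upwards [hC, h1, S.ev_R (2 / c)] with n h2 h3 h4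
  rw [div_le_iff₀ hc] at h4
  have h5 : W n ≠ ⊤ := fun h => by
    rw [h, ENNReal.mul_top (ENNReal.ofReal_pos.2 hκ).ne'] at h3
    exact not_top_lt h3
  have h6 := (measure_mono ((nb_mono Set.inter_subset_left le_rfl).trans
    ((nb_nb (A n) 1 (c / 2 * S.R n)).trans (nb_mono subset_rfl (by linarith))) :
      G.nb (G.nb (A n) 1 ∩ P n) (c / 2 * S.R n) ⊆ G.nb (A n) (c * S.R n))).trans h2
  refine ⟨_, Set.inter_subset_right, (isOpen_nb _ le_rfl).measurableSet.inter (hPm n),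
    zero_le.trans_lt h3, (measure_mono (sub_nb _ (by linarith))).trans_lt
      (h6.trans_lt (ENNReal.mul_lt_top ENNReal.ofReal_lt_top h5.lt_top)),
    h6.trans (le_trans ?_ (mul_le_mul' le_rfl h3.le))⟩
  rw [← mul_assoc, ← ENNReal.ofReal_mul (by positivity), div_mul_cancel₀ _ hκ.ne']
  exact mul_le_mul' (ENNReal.ofReal_le_ofReal ((le_abs_self C).trans (by linarith))) le_rfl

theorem cnt_gen (G : Geo) : ∃ C₀ > 0, ∀ (S : Sys G) (W : S.I → ℝ≥0∞) (A : S.I → Set G.V) (c : ℝ)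
    (E : S.Ext) (z : E.J → G.V), S.Rg W A c → E.Gn W z → (∀ᶠ n in E.U, z n ∈ A (E.π n)) →
    ∀ (J : Finset (Ht G.k)) (β : Ht G.k → ℝ), (∀ v ∈ J, ‖v‖ ≤ c / C₀) →
    (∀ v ∈ insert 0 J, ∀ s ∈ Set.Icc (0 : ℝ) 1, ∀ ν ∈ G.Nn, ∀ ε > 0, ∀ᶠ n in E.U,
      ⟪ν, E.sys.T n (G.st (z n) (G.X ((E.sys.R n * s) • v))) - E.sys.T n (z n)⟫_ℝ ≤
        E.sys.R n * (β ν + ε)) → G.hJ (insert 0 J) ≤ G.h (G.cs β) := by
  obtain ⟨C₀, hC₀, h⟩ := G.cnt_core
  refine ⟨2 * C₀, by positivity, fun S W A c E z hA hz hm J β hJ hβ =>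
    le_of_forall_pos_le_add fun ε hε => ?_⟩
  obtain ⟨δ, hδ, m, hm0, h⟩ := h S.K (c / 2) (half_pos hA.1) ε hε
  have hm1 : (0 : ℝ) < m := Nat.cast_pos.2 hm0
  obtain ⟨C, hC, h1⟩ := CntG_reg (P := fun n =>
    ⋂ t : (insert 0 J : Finset (Ht G.k)) × Fin (m + 1) × G.Nn,
      {x | ⟪t.2.2.1, S.T n (G.st x (G.X ((S.R n * ((t.2.1 : ℕ) / m : ℝ)) • t.1.1))) - S.T n x⟫_ℝ ≤
        S.R n * (β t.2.2.1 + δ)}) hA hz hm
    ((eventually_all.2 fun t : (insert 0 J : Finset (Ht G.k)) × Fin (m + 1) × G.Nn =>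
      hβ _ t.1.2 ((t.2.1 : ℕ) / m : ℝ) ⟨by positivity, (div_le_one hm1).2
        (Nat.cast_le.2 (Nat.lt_succ_iff.1 t.2.1.2))⟩ _ t.2.2.2 δ hδ).mono
      fun n hn => Set.mem_iInter.2 hn)
    fun n => MeasurableSet.iInter fun t => measurableSet_le (measurable_const.inner
      (((S.measurable_T n).comp (mp_st_right _).measurable).sub (S.measurable_T n)))
      measurable_const
  obtain ⟨R₀, h⟩ := h C hC
  obtain ⟨n, ⟨Y, h2, h3, h4, h5, h6⟩, h7⟩ := (h1.and (S.ev_R R₀)).exists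
  exact h _ h7 _ _ (S.q n) (S.mf n) J β (fun v hv => (hJ v hv).trans (div_div _ _ _).ge) Y h3 h4
    h5 h6 fun x hx v hv j hj ν hν =>
      Set.mem_iInter.1 (h2 hx) (⟨v, hv⟩, ⟨j, Nat.lt_succ_iff.2 hj⟩, ⟨ν, hν⟩)

/-- the abstract counting inequality -/
theorem count {G : Geo} (S : Sys G) {D : S.I → Set G.V} {F : S.I → G.V → G.V} {η φ ζ : ℝ}
    (h1 : S.Big D η)
    (h2 : ∀ ε > 0, ∀ᶠ n in S.U, ∀ y, volume {k ∈ D n | G.len (y⁻¹ * F n k) ≤ 2} ≤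
      ENNReal.ofReal (Real.exp (S.R n * (φ + ε))))
    (h3 : ∀ ε > 0, ∃ Z : S.I → Set G.V,
      (∀ᶠ n in S.U, volume (Z n) ≤ ENNReal.ofReal (Real.exp (S.R n * (ζ + ε)))) ∧
      Nul S.U (fun n => volume (D n)) fun n => {k ∈ D n | ¬G.nb {F n k} 1 ⊆ Z n}) :
    η ≤ φ + ζ := by
  obtain ⟨C, hC, hp⟩ := pack (M := G.toMdl)
  refine le_of_forall_pos_le_add fun ε hε => ?_
  have hε' : 0 < ε / 4 := by positivity
  obtain ⟨Z, hZ, hN⟩ := h3 _ hε'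
  obtain ⟨n, h4, h5, h6, h7, h8, h9⟩ := ((h1 _ hε').and ((h2 _ hε').and (hZ.and
    ((hN _ one_half_pos).and ((S.ev_R 1).and (S.ev_R (2 * C / (ε / 4)))))))).exists
  have h10 := hp volume {k ∈ D n | G.nb {F n k} 1 ⊆ Z n} (F n) _ fun y =>
    (measure_mono fun k hk => And.intro hk.1.1 hk.2).trans (h5 y)
  have h11 : G.nb (F n '' {k ∈ D n | G.nb {F n k} 1 ⊆ Z n}) 1 ⊆ Z n := by
    rintro y ⟨_, ⟨k, hk, rfl⟩, hy⟩
    exact hk.2 ⟨_, rfl, hy⟩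
  have h12 : ENNReal.ofReal (1 / 2) * volume (D n) ≤
      volume {k ∈ D n | G.nb {F n k} 1 ⊆ Z n} := by
    refine ENNReal.le_of_add_le_add_right (ENNReal.mul_ne_top ENNReal.ofReal_ne_top h4.2)
      (le_trans ?_ (add_le_add le_rfl h7))
    rw [← add_mul, ← ENNReal.ofReal_add one_half_pos.le one_half_pos.le, add_halves,
      ENNReal.ofReal_one, one_mul]
    refine (measure_mono fun k hk => ?_).trans (measure_union_le _ _)
    by_cases h : G.nb {F n k} 1 ⊆ Z n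
    · exact Or.inl ⟨hk, h⟩
    · exact Or.inr ⟨hk, h⟩
  have h13 := ((mul_le_mul' le_rfl h4.1).trans h12).trans
    (h10.trans (mul_le_mul' le_rfl ((measure_mono h11).trans h6)))
  rw [← ENNReal.ofReal_mul one_half_pos.le, ← ENNReal.ofReal_mul hC.le,
    ← ENNReal.ofReal_mul (by positivity), ENNReal.ofReal_le_ofReal_iff (by positivity),
    mul_assoc, ← Real.exp_add] at h13
  rw [div_le_iff₀ hε'] at h9
  have h14 := mul_le_mul_of_nonneg_right (h9.trans ((le_add_of_nonneg_right zero_le_one).trans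
    (Real.add_one_le_exp _))) (Real.exp_pos (S.R n * (φ + ε / 4) + S.R n * (ζ + ε / 4))).le
  rw [← Real.exp_add] at h14
  have h15 := Real.exp_le_exp.1 (le_trans (by linarith : Real.exp (S.R n * (η - ε / 4)) ≤ _) h14)
  refine le_of_mul_le_mul_left ?_ (one_pos.trans_le h8)
  linarith

end Vale.Agent.P188.Sys
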