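import Vale.Agent.P188.Stmt

/-! Volumes and widths along a flag. -/

namespace Vale.Agent.P188

open MeasureTheory

variable {E : Type} [NormedAddCommGroup E] [NormedSpace ℝ E] {N : ℕ}

/-- the width of a set along the flag of a basis -/
noncomputable def wid (b : Module.Basis (Fin N) ℝ E) (S : Set E) (j : Fin N) : ℝ :=
  sSup {r | ∃ v ∈ S, (∀ i < j, b.repr v i = 0) ∧ r = |b.repr v j|}

theorem wid_nonneg (b : Module.Basis (Fin N) ℝ E) (S : Set E) (j : Fin N) : 0 ≤ wid b S j :=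
  Real.sSup_nonneg (by rintro _ ⟨v, _, _, rfl⟩; exact abs_nonneg _)

theorem Flag_cont (b : Module.Basis (Fin N) ℝ E) (j : Fin N) : Continuous fun v => b.repr v j := by
  have := b.finiteDimensional_of_finite
  exact (b.coord j).continuous_of_finiteDimensional

theorem le_wid (b : Module.Basis (Fin N) ℝ E) {S : Set E} (hS : IsCompact S) {j : Fin N} {v : E}
    (hv : v ∈ S) (h : ∀ i < j, b.repr v i = 0) : |b.repr v j| ≤ wid b S j := by
  refine le_csSup ((hS.image (Flag_cont b j).abs).bddAbove.mono ?_) ⟨v, hv, h, rfl⟩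
  rintro _ ⟨w, hw, _, rfl⟩
  exact ⟨w, hw, rfl⟩

theorem wid_le (b : Module.Basis (Fin N) ℝ E) {S : Set E} {j : Fin N} {a : ℝ} (ha : 0 ≤ a)
    (h : ∀ v ∈ S, (∀ i < j, b.repr v i = 0) → |b.repr v j| ≤ a) : wid b S j ≤ a :=
  Real.sSup_le (by rintro _ ⟨v, hv, h1, rfl⟩; exact h v hv h1) ha

theorem Flag_attain (b : Module.Basis (Fin N) ℝ E) {S : Set E} (hS : IsCompact S) (h0 : (0 : E) ∈ S)
    (j : Fin N) : ∃ v ∈ S, (∀ i < j, b.repr v i = 0) ∧ |b.repr v j| = wid b S j := by
  have hc : IsClosed {v : E | ∀ i < j, b.repr v i = 0} := by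
    simp only [Set.ofPred_forall]
    exact isClosed_iInter fun i => isClosed_iInter fun _ =>
      isClosed_eq (Flag_cont b i) continuous_const
  obtain ⟨v, hv, hm⟩ := (hS.inter_right hc).exists_isMaxOn ⟨0, h0, by simp⟩
    (Flag_cont b j).abs.continuousOn
  exact ⟨v, hv.1, hv.2, le_antisymm (le_wid b hS hv.1 hv.2)
    (wid_le b (abs_nonneg _) fun w hw h => hm ⟨hw, h⟩)⟩

theorem Flag_pi (n : ℕ) : ∀ (S : Set (Fin n → ℝ)) (a : Fin n → ℝ), MeasurableSet S →
    (∀ j, 0 ≤ a j) →
    (∀ v ∈ S, ∀ v' ∈ S, ∀ j, (∀ i < j, v' i - v i = 0) → |v' j - v j| ≤ a j) →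
      volume S ≤ ENNReal.ofReal (2 ^ n * ∏ j, a j) := by
  induction n with
  | zero =>
    intro S a _ _ _
    refine (measure_mono (Set.subset_univ S)).trans ?_
    simp [volume_pi]
  | succ n ih =>
    intro S a hS ha h
    rcases S.eq_empty_or_nonempty with rfl | ⟨u, hu⟩
    · simp
    have hc : Measurable fun p : ℝ × (Fin n → ℝ) => (Fin.cons p.1 p.2 : Fin (n + 1) → ℝ) := by
      refine measurable_pi_iff.2 fun i => ?_
      refine Fin.cases ?_ (fun j => ?_) i
      · simpa using measurable_fst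
      · simp only [Fin.cons_succ]
        exact (measurable_pi_apply j).comp measurable_snd
    have hm : MeasurableSet {p : ℝ × (Fin n → ℝ) | (Fin.cons p.1 p.2 : Fin (n + 1) → ℝ) ∈ S} :=
      hc hS
    have h4 := (volume_preserving_piFinSuccAbove (fun _ : Fin (n + 1) => ℝ) 0).measure_preimage
      hm.nullMeasurableSet
    have h5 : (MeasurableEquiv.piFinSuccAbove (fun _ : Fin (n + 1) => ℝ) 0) ⁻¹'
        {p : ℝ × (Fin n → ℝ) | (Fin.cons p.1 p.2 : Fin (n + 1) → ℝ) ∈ S} = S := by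
      ext t
      simp [MeasurableEquiv.piFinSuccAbove]
    rw [h5] at h4
    rw [h4, Measure.volume_eq_prod, Measure.prod_apply hm]
    have h6 : ∀ t : ℝ, volume (Prod.mk t ⁻¹'
        {p : ℝ × (Fin n → ℝ) | (Fin.cons p.1 p.2 : Fin (n + 1) → ℝ) ∈ S}) ≤
        (Set.Icc (u 0 - a 0) (u 0 + a 0)).indicator
          (fun _ => ENNReal.ofReal (2 ^ n * ∏ j : Fin n, a j.succ)) t := by
      intro t
      by_cases ht : t ∈ Set.Icc (u 0 - a 0) (u 0 + a 0)
      · rw [Set.indicator_of_mem ht]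
        refine ih _ _ (measurable_prodMk_left hm) (fun j => ha _) fun v hv v' hv' j hj => ?_
        have h7 := h _ hv _ hv' j.succ fun i hi => ?_
        · simpa using h7
        · revert hi
          refine Fin.cases (fun _ => by simp) (fun k hk => ?_) i
          simpa using hj k (Fin.succ_lt_succ_iff.1 hk)
      · have h7 : Prod.mk t ⁻¹'
            {p : ℝ × (Fin n → ℝ) | (Fin.cons p.1 p.2 : Fin (n + 1) → ℝ) ∈ S} = ∅ := by
          refine Set.eq_empty_of_forall_notMem fun y hy => ht ?_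
          have h8 := h _ hu _ hy 0 fun i hi => (Fin.not_lt_zero i hi).elim
          simp only [Fin.cons_zero] at h8
          rw [abs_le] at h8
          constructor <;> linarith [h8.1, h8.2]
        rw [h7, measure_empty]
        exact zero_le
    refine (lintegral_mono h6).trans ?_
    rw [lintegral_indicator_const measurableSet_Icc, Real.volume_Icc, ← ENNReal.ofReal_mul
      (mul_nonneg (by positivity) (Finset.prod_nonneg fun j _ => ha _)), Fin.prod_univ_succ]
    refine le_of_eq ?_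
    congr 1
    ring

variable [MeasurableSpace E] [BorelSpace E] (μ : Measure E) [μ.IsAddHaarMeasure]

theorem flag_up (b : Module.Basis (Fin N) ℝ E) : ∃ C > 0, ∀ (S : Set E) (a : Fin N → ℝ),
    MeasurableSet S → (∀ j, 0 ≤ a j) →
    (∀ v ∈ S, ∀ v' ∈ S, ∀ j, (∀ i < j, b.repr (v' - v) i = 0) → |b.repr (v' - v) j| ≤ a j) →
      μ S ≤ ENNReal.ofReal (C * ∏ j, a j) := by
  obtain ⟨T, hT⟩ : ∃ T : E ≃L[ℝ] (Fin N → ℝ), ∀ v i, T v i = b.repr v i :=
    ⟨b.equivFunL, fun _ _ => rfl⟩
  obtain ⟨c, hc⟩ : ∃ c : NNReal, μ.map T = c • (volume : Measure (Fin N → ℝ)) :=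
    ⟨_, Measure.isAddLeftInvariant_eq_smul _ _⟩
  refine ⟨(c + 1) * 2 ^ N, by positivity, fun S a hS ha h => ?_⟩
  have hm : MeasurableSet (T.symm ⁻¹' S) := T.symm.continuous.measurable hS
  have h1 : μ S = c * volume (T.symm ⁻¹' S) := by
    have h2 : μ.map T (T.symm ⁻¹' S) = μ S := by
      rw [Measure.map_apply T.continuous.measurable hm]
      congr 1
      ext v
      simp
    rw [← h2, hc, Measure.smul_apply, ENNReal.smul_def, smul_eq_mul]
  have h3 := Flag_pi N _ a hm ha fun v hv v' hv' j hj => by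
    have h4 : ∀ i, b.repr (T.symm v' - T.symm v) i = v' i - v i := fun i => by
      rw [← hT, map_sub, T.apply_symm_apply, T.apply_symm_apply, Pi.sub_apply]
    rw [← h4]
    exact h _ hv _ hv' j fun i hi => by rw [h4]; exact hj i hi
  have h5 : (c : ENNReal) ≤ ENNReal.ofReal (c + 1) := by
    rw [← ENNReal.ofReal_coe_nnreal]
    exact ENNReal.ofReal_le_ofReal (by linarith)
  rw [h1, mul_assoc, ENNReal.ofReal_mul (by positivity)]
  gcongr

theorem flag_low (b : Module.Basis (Fin N) ℝ E) : ∃ C > 0, ∀ S : Set E, IsCompact S →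
    Convex ℝ S → (0 : E) ∈ S → (∀ v ∈ S, -v ∈ S) → ENNReal.ofReal (C * ∏ j, wid b S j) ≤ μ S := by
  have := b.finiteDimensional_of_finite
  obtain ⟨Q, hQ⟩ : ∃ Q : Set E, Q = ⋂ j, {x | |b.repr x j| < 1 / (N + 1)} := ⟨_, rfl⟩
  have hQo : IsOpen Q := by
    rw [hQ]
    exact isOpen_iInter_of_finite fun j => isOpen_lt (Flag_cont b j).abs continuous_const
  have hQp : 0 < μ Q := hQo.measure_pos μ ⟨0, by
    rw [hQ]
    refine Set.mem_iInter.2 fun j => ?_
    simp only [Set.mem_ofPred_eq, map_zero, Finsupp.coe_zero, Pi.zero_apply, abs_zero]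
    positivity⟩
  obtain ⟨C, _, hC0, hC⟩ := ENNReal.lt_iff_exists_real_btwn.1 hQp
  refine ⟨C, ENNReal.ofReal_pos.1 hC0, fun S hS hconv h0 hneg => ?_⟩
  choose v hv hz hw using Flag_attain b hS h0
  obtain ⟨A, hA⟩ : ∃ A : E →ₗ[ℝ] E, ∀ j, A (b j) = v j := ⟨b.constr ℝ v, fun j => by simp⟩
  have hdet : |LinearMap.det A| = ∏ j, wid b S j := by
    rw [← LinearMap.det_toMatrix b, Matrix.det_of_isLowerTriangular, Finset.abs_prod]
    · exact Finset.prod_congr rfl fun j _ => by rw [LinearMap.toMatrix_apply, hA, hw]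
    · intro i j hij
      rw [LinearMap.toMatrix_apply, hA]
      exact hz j i hij
  have hsm : ∀ (t : ℝ) (x : E), x ∈ S → |t| ≤ 1 → t • x ∈ S := by
    intro t x hx ht
    rcases le_total 0 t with h1 | h1
    · exact hconv.smul_mem_of_zero_mem h0 hx ⟨h1, (le_abs_self t).trans ht⟩
    · rw [← neg_smul_neg]
      exact hconv.smul_mem_of_zero_mem h0 (hneg x hx) ⟨by linarith, (neg_le_abs t).trans ht⟩
  have hsub : A '' Q ⊆ S := by
    rintro _ ⟨x, hx, rfl⟩
    rw [hQ] at hx
    have h1 : A x = ∑ j, b.repr x j • v j := by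
      conv_lhs => rw [← b.sum_repr x]
      simp only [map_sum, map_smul, hA]
    rw [h1]
    rcases Nat.eq_zero_or_pos N with rfl | hN
    · simpa using h0
    have hN' : (0 : ℝ) < N := by exact_mod_cast hN
    have h2 : ∑ j, b.repr x j • v j = ∑ j, (1 / N : ℝ) • ((N * b.repr x j) • v j) :=
      Finset.sum_congr rfl fun j _ => by
        rw [smul_smul]
        congr 1
        field_simp
    rw [h2]
    refine hconv.sum_mem (fun _ _ => by positivity) (by simp; field_simp) fun j _ => ?_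
    refine hsm _ _ (hv j) ?_
    have h3 : |b.repr x j| < 1 / (N + 1) := Set.mem_iInter.1 hx j
    rw [lt_div_iff₀ (by positivity)] at h3
    rw [abs_mul, abs_of_pos hN']
    nlinarith [abs_nonneg (b.repr x j)]
  refine le_trans ?_ (measure_mono hsub)
  rw [Measure.addHaar_image_linearMap, hdet, mul_comm C,
    ENNReal.ofReal_mul (Finset.prod_nonneg fun j _ => wid_nonneg b S j)]
  gcongr

end Vale.Agent.P188
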