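import Vale.Agent.P188.Adapt
import Vale.Agent.P188.Flag
import Vale.Agent.P188.BoxB
import Vale.Agent.P188.CntD

/-! Widths of boxes. -/

namespace Vale.Agent.P188.Geo

open Mdl MeasureTheory
open scoped InnerProductSpace

variable {G : Geo} {ν : Ht G.k} (A : G.Adapt ν)

theorem CntW_cpt (c : Fin G.n → ℝ) : IsCompact (G.B c) := isCompact_Zon

theorem CntW_le {c c' : Fin G.n → ℝ} {k : Fin G.N → ℝ} (hk : ∀ i, 0 < k i)
    (h : ∀ v ∈ G.B c, ∃ v' ∈ G.B c', ∀ i, A.z.repr v i = k i * A.z.repr v' i) (j : Fin G.N) :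
    wid A.z (G.B c) j ≤ k j * wid A.z (G.B c') j := by
  refine wid_le _ (mul_nonneg (hk j).le (wid_nonneg _ _ _)) fun v hv h0 => ?_
  obtain ⟨v', hv', e⟩ := h v hv
  rw [e, abs_mul, abs_of_pos (hk j)]
  refine mul_le_mul_of_nonneg_left (le_wid _ (CntW_cpt c') hv' fun i hi => ?_) (hk j).le
  have := h0 i hi
  rw [e] at this
  exact (mul_eq_zero.1 this).resolve_left (hk i).ne'

theorem wid_add (c : Fin G.n → ℝ) {β : ℝ} (hβ : 0 ≤ β) (j : Fin G.N) :
    wid A.z (G.B fun i => c i + β) j ≤ Real.exp (G.F.d * β) * wid A.z (G.B c) j := by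
  refine CntW_le A (k := fun _ => Real.exp (G.F.d * β)) (fun _ => Real.exp_pos _)
    (fun v hv => ⟨_, shrink_mem hβ hv, fun i => ?_⟩) j
  rw [map_smul, Finsupp.smul_apply, smul_eq_mul, ← mul_assoc, ← Real.exp_add, add_neg_cancel,
    Real.exp_zero, one_mul]

theorem CntW_dl (a : Ht G.k) (v : G.V) : G.dl a (G.dl (-a) v) = v := by
  rw [dl_dl, add_neg_cancel, dl_zero]

theorem CntW_down {c : Fin G.n → ℝ} {a : Ht G.k} {v : G.V}
    (h : v ∈ G.B fun i => c i + G.la a i) : G.dl (-a) v ∈ G.B c := by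
  rw [← dl_mem_B a, CntW_dl]
  exact h

theorem wid_dl (c : Fin G.n → ℝ) (a : Ht G.k) (j : Fin G.N) :
    wid A.z (G.B fun i => c i + G.la a i) j = Real.exp ⟪A.u j, a⟫_ℝ * wid A.z (G.B c) j := by
  refine le_antisymm (CntW_le A (k := fun i => Real.exp ⟪A.u i, a⟫_ℝ) (fun _ => Real.exp_pos _)
    (fun v hv => ⟨_, CntW_down hv, fun i => ?_⟩) j) ?_
  · rw [← A.repr_dl, CntW_dl]
  · have h := CntW_le A (c := c) (c' := fun i => c i + G.la a i)
      (k := fun i => (Real.exp ⟪A.u i, a⟫_ℝ)⁻¹) (fun _ => inv_pos.2 (Real.exp_pos _))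
      (fun v hv => ⟨_, (dl_mem_B a).2 hv, fun i => by
        rw [A.repr_dl, inv_mul_cancel_left₀ (Real.exp_pos _).ne']⟩) j
    rwa [← le_inv_mul_iff₀ (Real.exp_pos _)]

theorem CntW_coord : ∃ K, 0 ≤ K ∧ ∀ (v : G.V) j, |A.z.repr v j| ≤ K * ‖v‖ := by
  obtain ⟨K, hK, h⟩ := A.z.equivFun.toLinearMap.toContinuousLinearMap.bound
  exact ⟨K, hK.le, fun v j => (norm_le_pi_norm (A.z.equivFun v) j).trans (h v)⟩

theorem wid_cell : ∃ C, 0 ≤ C ∧ ∀ (a : Ht G.k) (β : ℝ), 0 ≤ β → ∀ j,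
    Real.exp (⟪A.u j, a⟫_ℝ - C) ≤ wid A.z (G.B fun i => G.la a i + C) j ∧
    ∀ v ∈ G.B fun i => G.la a i + β, |A.z.repr v j| ≤ Real.exp (⟪A.u j, a⟫_ℝ + C * (β + 1)) := by
  obtain ⟨C1, h1, H1⟩ := mem_of_norm (span_x (G := G))
  obtain ⟨C2, h2, H2⟩ := norm_of_mem G.x
  obtain ⟨K, hK, HK⟩ := CntW_coord A
  have hρ : 0 ≤ ∑ j, ‖A.z j‖ := Finset.sum_nonneg fun _ _ => norm_nonneg _
  refine ⟨∑ j, ‖A.z j‖ + C1 + C2 + K, by positivity, fun a β hβ j => ⟨?_, fun v hv => ?_⟩⟩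
  · simp only [add_comm (G.la a _)]
    rw [wid_dl A (fun _ => ∑ j, ‖A.z j‖ + C1 + C2 + K), sub_eq_add_neg, Real.exp_add]
    refine mul_le_mul_of_nonneg_left ?_ (Real.exp_pos _).le
    have hz : A.z j ∈ G.B fun _ => ∑ j, ‖A.z j‖ + C1 + C2 + K := by
      refine B_mono (fun _ => ?_) (H1 _ hρ (A.z j) ?_)
      · show ∑ j, ‖A.z j‖ + C1 ≤ ∑ j, ‖A.z j‖ + C1 + C2 + K
        linarith
      · have := Finset.single_le_sum (f := fun j => ‖A.z j‖) (fun _ _ => norm_nonneg _)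
          (Finset.mem_univ j)
        have h3 := Real.add_one_le_exp (∑ j, ‖A.z j‖)
        linarith
    have h4 := le_wid A.z (CntW_cpt _) hz (j := j) fun i hi => by
      rw [A.z.repr_self, Finsupp.single_eq_of_ne hi.ne]
    rw [A.z.repr_self, Finsupp.single_eq_same, abs_one] at h4
    exact (Real.exp_le_one_iff.2 (neg_nonpos.2 (by positivity))).trans h4
  · simp only [add_comm (G.la a _)] at hv
    have h3 := H2 β hβ _ (CntW_down (c := fun _ => β) hv)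
    rw [← CntW_dl a v, A.repr_dl, abs_mul, abs_of_pos (Real.exp_pos _), Real.exp_add]
    refine mul_le_mul_of_nonneg_left ((HK _ j).trans ?_) (Real.exp_pos _).le
    have h4 : K ≤ Real.exp K := by linarith [Real.add_one_le_exp K]
    refine (mul_le_mul h4 h3 (norm_nonneg _) (Real.exp_pos _).le).trans ?_
    rw [← Real.exp_add]
    refine Real.exp_le_exp.2 ?_
    nlinarith [mul_nonneg hK hβ, mul_nonneg (add_nonneg hρ h1) (add_nonneg hβ zero_le_one)]

/-- in the quotient only the parallel letters count -/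
theorem wid_top {c c' : Fin G.n → ℝ} (h : ∀ i, G.par ν i → c i ≤ c' i) {j : Fin G.N}
    (hj : j.val < A.m) : wid A.z (G.B c) j ≤ wid A.z (G.B c') j := by
  refine wid_le _ (wid_nonneg _ _ _) fun v hv h0 => ?_
  obtain ⟨k, hk, q, hq, rfl⟩ := Bx_split (G.par ν) hv
  have hk0 := (A.mem_iff k).1 (IZ_sub_Id hk)
  have e : ∀ i ≤ j, A.z.repr (k + q) i = A.z.repr q i := fun i hi => by
    rw [map_add, Finsupp.add_apply, hk0 i (lt_of_le_of_lt hi hj), zero_add]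
  have hq' : q ∈ G.B c' :=
    Zon_sub (fun _ _ => trivial) (Zon_le (fun l hl i hi => h i (hl i hi)) hq)
  rw [e j le_rfl]
  exact le_wid _ (CntW_cpt _) hq' fun i hi => by rw [← e i hi.le, h0 i hi]

theorem CntW_cancel (u v : G.V) : G.st (-u) (G.st u v) = v := by
  rw [← st_assoc, neg_st, zero_st]

theorem CntW_cancel' (u v : G.V) : G.st u (G.st (-u) v) = v := by
  rw [← st_assoc, st_neg, zero_st]

/-- widths of a product of a box and a cell inside the ideal -/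
theorem wid_bb : ∃ C > 0, ∀ (c : Fin G.n → ℝ) (w : Ht G.k) (β ρ : ℝ) (y : G.V), 0 ≤ β → 0 ≤ ρ →
    G.Top ν c w (C * (ρ + β + 1)) →
    ∀ v ∈ G.bb y (fun i => c i + β) (fun i => G.la w i + ρ),
    ∀ v' ∈ G.bb y (fun i => c i + β) (fun i => G.la w i + ρ), ∀ j : Fin G.N, A.m ≤ j.val →
      (∀ i < j, A.z.repr (v' - v) i = 0) →
        |A.z.repr (v' - v) j| ≤ Real.exp (C * (β + 1)) * wid A.z (G.B c) j := by
  obtain ⟨C1, h1, H1⟩ := split_Bx G.x (G.par ν)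
  obtain ⟨C2, h2, H2⟩ := st_Bx (x := G.x)
  obtain ⟨C3, h3, H3⟩ := norm_of_mem G.x
  obtain ⟨C4, h4, H4⟩ := absorb G.x (G.par ν)
  have hd : (0 : ℝ) ≤ G.F.d := Nat.cast_nonneg _
  refine ⟨G.F.d * (1 + C1 + 2 * C2) + C3 * (1 + 2 * C2) + C4 + 1, by positivity,
    fun c w β ρ y hβ hρ hT v hv v' hv' j hj h0 => ?_⟩
  set C := G.F.d * (1 + C1 + 2 * C2) + C3 * (1 + 2 * C2) + C4 + 1 with hC
  have hC0 : 0 < C := by positivity
  have dec : ∀ v ∈ G.bb y (fun i => c i + β) (fun i => G.la w i + ρ),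
      ∃ k ∈ IZ G.x (G.par ν) fun i => c i + β + C1,
        ∃ Q ∈ G.B fun i => β + ρ + G.la w i + C2, v = G.st y (G.st k Q) := by
    rintro _ ⟨b, hb, g, hg, rfl⟩
    obtain ⟨k, hk, p, hp, rfl⟩ := H1 _ b hb
    refine ⟨k, hk, G.st p g, H2 _ p ?_ g ?_, by rw [st_assoc, st_assoc]⟩
    · refine Zon_sub (fun _ _ => trivial) (Zon_le (fun l hl i hi => ?_) hp)
      have : c i = G.la w i := hT.1 i (hl i hi)
      linarith
    · refine B_mono (fun i => ?_) hg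
      show G.la w i + ρ ≤ β + ρ + G.la w i
      linarith
  obtain ⟨k, hk, Q, hQ, e⟩ := dec v hv
  obtain ⟨k', hk', Q', hQ', e'⟩ := dec v' hv'
  have hn := A.st_sub h0
  set n := G.st (-v) v' with hndef
  have hn0 : ∀ i < j, A.z.repr n i = 0 := fun i hi => by rw [hn i hi.le, h0 i hi]
  have hnI : n ∈ Id G.x (G.par ν) :=
    (A.mem_iff n).2 fun i hi => hn0 i (Fin.lt_def.2 (lt_of_lt_of_le hi hj))
  have hE : G.st (G.st Q n) (-Q) = G.st (G.st (-k) k') (G.st Q' (-Q)) := by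
    rw [hndef, e, e', st_neg_st, neg_st_rev]
    simp only [st_assoc, CntW_cancel']
  have hkI : G.st (-k) k' ∈ Id G.x (G.par ν) :=
    st_mem_Id span_x (neg_mem (IZ_sub_Id hk)) (IZ_sub_Id hk')
  have hRI : G.st Q' (-Q) ∈ Id G.x (G.par ν) := by
    rw [← CntW_cancel (G.st (-k) k') (G.st Q' (-Q)), ← hE]
    exact st_mem_Id span_x (neg_mem hkI) (conj_mem_Id span_x Q hnI)
  have hR1 : G.st Q' (-Q) ∈ G.B fun i => (β + ρ + 2 * C2) + G.la w i := by
    refine B_mono (fun i => le_of_eq ?_) (H2 _ Q' hQ' _ (neg_mem_Zon hQ))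
    ring
  have hR2 := H3 _ (by positivity) _ (CntW_down (c := fun _ => β + ρ + 2 * C2) hR1)
  have hR3 : G.dl (-w) (G.st Q' (-Q)) ∈ Id G.x (G.par ν) :=
    (A.mem_iff _).2 fun i hi => by rw [A.repr_dl, (A.mem_iff _).1 hRI i hi, mul_zero]
  have hμ : 0 ≤ C * (ρ + β + 1) := by positivity
  have hR4 := H4 (fun i => c i - G.la w i) _ (fun i => by
      by_cases hi : G.par ν i
      · have : c i = G.la w i := hT.1 i hi
        linarith
      · have : G.la w i + C * (ρ + β + 1) ≤ c i := hT.2 i hi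
        linarith)
    (fun i hi => by
      have h5 : G.la w i + C * (ρ + β + 1) ≤ c i := hT.2 i hi
      have h6 : C3 * (β + ρ + 2 * C2 + 1) + C4 ≤ C * (ρ + β + 1) := by
        have hs : 0 ≤ ρ + β := add_nonneg hρ hβ
        have h7 : 0 ≤ G.F.d * (1 + C1 + 2 * C2) * (ρ + β + 1) := by positivity
        rw [hC]
        nlinarith [mul_nonneg (mul_nonneg h3 h2) hs, mul_nonneg h4 hs]
      linarith) _ hR3 hR2
  have hR5 : G.st Q' (-Q) ∈ G.B fun i => c i + β + C1 + C2 := by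
    have h5 : G.dl (-w) (G.st Q' (-Q)) ∈ G.B fun i => c i - G.la w i :=
      Zon_sub (fun _ _ => trivial) hR4
    rw [← dl_mem_B w, CntW_dl] at h5
    refine B_mono (fun i => ?_) h5
    show c i - G.la w i + G.la w i ≤ c i + β + C1 + C2
    linarith
  have hk5 : G.st (-k) k' ∈ G.B fun i => c i + β + C1 + C2 :=
    H2 _ _ (neg_mem_Zon (Zon_sub (fun _ _ => trivial) hk)) _ (Zon_sub (fun _ _ => trivial) hk')
  have h6 : G.st (G.st Q n) (-Q) ∈ G.B fun i => c i + (β + C1 + 2 * C2) := by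
    rw [hE]
    refine B_mono (fun i => le_of_eq ?_) (H2 _ _ hk5 _ hR5)
    ring
  have hc := A.conj Q hn0
  have h7 := le_wid A.z (CntW_cpt _) h6 (j := j) fun i hi => by rw [hc i hi.le, hn0 i hi]
  rw [hc j le_rfl, hn j le_rfl] at h7
  refine h7.trans ((wid_add A c (by positivity) j).trans
    (mul_le_mul_of_nonneg_right (Real.exp_le_exp.2 ?_) (wid_nonneg _ _ _)))
  have h8 : 0 ≤ (C3 * (1 + 2 * C2) + C4 + 1) * (β + 1) := by positivity
  rw [hC]
  nlinarith [mul_nonneg (mul_nonneg hd (add_nonneg h1 (mul_nonneg zero_le_two h2))) hβ]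

theorem wid_bx : ∃ C > 0, ∀ (c : Fin G.n → ℝ) (y : G.V), ∀ v ∈ G.bx y c, ∀ v' ∈ G.bx y c,
    ∀ j : Fin G.N, (∀ i < j, A.z.repr (v' - v) i = 0) →
      |A.z.repr (v' - v) j| ≤ C * wid A.z (G.B c) j := by
  obtain ⟨C, hC, H⟩ := st_Bx (x := G.x)
  refine ⟨Real.exp (G.F.d * C), Real.exp_pos _, fun c y v hv v' hv' j h0 => ?_⟩
  have h1 := H c _ (neg_mem_Zon hv) _ hv'
  rw [st_neg_st] at h1
  have hn := A.st_sub h0
  have h2 := le_wid A.z (CntW_cpt _) h1 (j := j) fun i hi => by rw [hn i hi.le, h0 i hi]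
  rw [hn j le_rfl] at h2
  exact h2.trans (wid_add A c hC j)

end Vale.Agent.P188.Geo
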