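import Vale.Agent.P188.Stmt

/-! Working definitions: lengths, quasi-isometric pairs, growth, nilpotent algebras, the model. -/

namespace Vale.Agent.P188

open scoped InnerProductSpace

/-- length functions -/
structure IsLen {Γ : Type*} [Group Γ] (l : Γ → ℝ) : Prop where
  one : l 1 = 0
  nonneg : ∀ x, 0 ≤ l x
  inv : ∀ x, l x⁻¹ = l x
  mul : ∀ x y, l (x * y) ≤ l x + l y

/-- a pair of mutually inverse quasi-isometries -/
structure QIp {Γ Γ' : Type*} [Group Γ] [Group Γ'] (l : Γ → ℝ) (l' : Γ' → ℝ) (K : ℝ)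
    (f : Γ → Γ') (g : Γ' → Γ) : Prop where
  one_le : 1 ≤ K
  lf : ∀ x y, l' ((f x)⁻¹ * f y) ≤ K * l (x⁻¹ * y) + K
  lg : ∀ x y, l ((g x)⁻¹ * g y) ≤ K * l' (x⁻¹ * y) + K
  gf : ∀ x, l ((g (f x))⁻¹ * x) ≤ K
  fg : ∀ y, l' ((f (g y))⁻¹ * y) ≤ K

/-- the word length as a real number -/
noncomputable def wr {G : Type*} [Group G] (A : Finset G) (g : G) : ℝ := wl A g

/-- polynomial growth -/
def PolyGrowth {G : Type*} [Group G] (A : Finset G) : Prop :=
  ∃ (C : ℝ) (d : ℕ), ∀ n : ℕ, (({g : G | wl A g ≤ n}).ncard : ℝ) ≤ C * (n + 1) ^ d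

/-- a subnormal series whose quotients are subgroups of the integers -/
def PolyZ (G : Type*) [Group G] : Prop :=
  ∃ (m : ℕ) (s : ℕ → Subgroup G), s 0 = ⊥ ∧ s m = ⊤ ∧ ∀ i < m, s i ≤ s (i + 1) ∧
    ∃ φ : s (i + 1) →* Multiplicative ℤ, φ.ker = (s i).subgroupOf (s (i + 1))

/-- a multiplicative filtration that ends in zero -/
structure Filt (A : Type*) [Ring A] [Algebra ℝ A] where
  /-- the length of the filtration -/
  d : ℕ
  /-- the filtration -/
  J : ℕ → Submodule ℝ A
  anti : ∀ k, J (k + 1) ≤ J k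
  mul : ∀ j k x y, x ∈ J j → y ∈ J k → x * y ∈ J (j + k)
  bot : J d = ⊥

section
variable {A : Type*} [Ring A] [Algebra ℝ A]

/-- the truncated exponential -/
noncomputable def ex (d : ℕ) (x : A) : A :=
  ∑ k ∈ Finset.range (d + 1), ((k.factorial : ℝ)⁻¹) • x ^ k

/-- the truncated logarithm -/
noncomputable def lg (d : ℕ) (y : A) : A :=
  ∑ k ∈ Finset.range d, ((-1) ^ k / (k + 1) : ℝ) • (y - 1) ^ (k + 1)

/-- the Baker-Campbell-Hausdorff product -/
noncomputable def bch (d : ℕ) (x y : A) : A := lg d (ex d x * ex d y)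

end

/-- the space of heights -/
abbrev Ht (k : ℕ) : Type := EuclideanSpace ℝ (Fin k)

/-- A graded nilpotent Lie algebra inside an associative algebra, with a height map. -/
structure Mdl where
  /-- the ambient algebra -/
  A : Type
  [nr : NormedRing A]
  [na : NormedAlgebra ℝ A]
  [fd : FiniteDimensional ℝ A]
  /-- the filtration -/
  F : Filt A
  /-- the dimension of the Lie algebra -/
  N : ℕ
  /-- the rank -/
  k : ℕ
  /-- the embedding of the Lie algebra -/
  e : (Fin N → ℝ) →ₗ[ℝ] A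
  inj : Function.Injective e
  mem : ∀ x, e x ∈ F.J 1
  lie : ∀ x y, ∃ z, e z = e x * e y - e y * e x
  /-- the weights of the coordinate vectors -/
  w : Fin N → Ht k
  /-- the diagonal automorphisms -/
  D : Ht k → A →ₐ[ℝ] A
  D_e : ∀ a x, D a (e x) = e fun i => Real.exp ⟪w i, a⟫_ℝ * x i
  /-- the height -/
  t : (Fin N → ℝ) →ₗ[ℝ] Ht k
  t_surj : Function.Surjective t
  t_lie : ∀ x y z, e z = e x * e y - e y * e x → t z = 0
  t_w : ∀ i, w i ≠ 0 → t (Pi.single i 1) = 0
  uni : ∑ i, w i = 0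
  eff : ∀ a, (∀ i, ⟪w i, a⟫_ℝ = 0) → a = 0

attribute [instance] Mdl.nr Mdl.na Mdl.fd

namespace Mdl

variable (M : Mdl)

/-- the Lie algebra in coordinates, which is also the underlying set of the group -/
def V : Type := Fin M.N → ℝ

noncomputable instance : NormedAddCommGroup M.V := Pi.normedAddCommGroup (ι := Fin M.N)
noncomputable instance : NormedSpace ℝ M.V := Pi.normedSpace (ι := Fin M.N)
instance : FiniteDimensional ℝ M.V := (inferInstance : FiniteDimensional ℝ (Fin M.N → ℝ))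
noncomputable instance : MeasureTheory.MeasureSpace M.V :=
  MeasureTheory.MeasureSpace.pi (α := fun _ : Fin M.N => ℝ)
instance : BorelSpace M.V := (inferInstance : BorelSpace (Fin M.N → ℝ))
instance : (MeasureTheory.volume : MeasureTheory.Measure M.V).IsAddHaarMeasure :=
  (inferInstance : (MeasureTheory.volume : MeasureTheory.Measure (Fin M.N → ℝ)).IsAddHaarMeasure)

/-- the embedding -/
def em : M.V →ₗ[ℝ] M.A := M.e

/-- the height -/
def ht : M.V →ₗ[ℝ] Ht M.k := M.t

/-- the coordinate vectors -/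
def bv (i : Fin M.N) : M.V := Pi.single i 1

/-- a left inverse of the embedding -/
noncomputable def p : M.A →ₗ[ℝ] M.V := M.em.leftInverse

/-- the bracket -/
noncomputable def br (x y : M.V) : M.V := M.p (M.em x * M.em y - M.em y * M.em x)

/-- the product of the nilshadow -/
noncomputable def st (x y : M.V) : M.V := M.p (bch M.F.d (M.em x) (M.em y))

/-- the diagonal action in coordinates -/
noncomputable def dl (a : Ht M.k) : M.V →ₗ[ℝ] M.V where
  toFun x := fun i => Real.exp ⟪M.w i, a⟫_ℝ * x i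
  map_add' _ _ := funext fun _ => mul_add _ _ _
  map_smul' _ _ := funext fun _ => mul_left_comm _ _ _

variable {M}

@[ext] theorem V.ext {x y : M.V} (h : ∀ i, x i = y i) : x = y := funext h
@[simp] theorem add_ap (x y : M.V) (i : Fin M.N) : (x + y) i = x i + y i := rfl
@[simp] theorem sub_ap (x y : M.V) (i : Fin M.N) : (x - y) i = x i - y i := rfl
@[simp] theorem neg_ap (x : M.V) (i : Fin M.N) : (-x) i = -x i := rfl
@[simp] theorem zero_ap (i : Fin M.N) : (0 : M.V) i = 0 := rfl
@[simp] theorem smul_ap (c : ℝ) (x : M.V) (i : Fin M.N) : (c • x) i = c * x i := rfl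
theorem dl_ap (a : Ht M.k) (x : M.V) (i : Fin M.N) :
    M.dl a x i = Real.exp ⟪M.w i, a⟫_ℝ * x i := rfl

end Mdl

end Vale.Agent.P188
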