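import Vale.Agent.P188.Pw
import Vale.Agent.P188.CntG

/-! The derivative is an isometry, so the height is short along most lines. -/

namespace Vale.Agent.P188.Sys

open MeasureTheory Filter Mdl Classical
open scoped InnerProductSpace ENNReal

variable {G : Geo} {S : Sys G} {W : S.I → ℝ≥0∞} {A : S.I → Set G.V} {c : ℝ}

theorem Dual_bd (S : Sys G) (v : Ht G.k) {s : ℝ} (hs : s ∈ Set.Icc (0 : ℝ) 1) :
    ∀ᶠ n in S.U, ‖(S.R n * s) • v‖ ≤ ‖v‖ * S.R n := (S.ev_R 0).mono fun n hn => by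
  rw [norm_smul, Real.norm_of_nonneg (mul_nonneg hn hs.1), mul_comm]
  exact mul_le_mul_of_nonneg_left (mul_le_of_le_one_right hn hs.2) (norm_nonneg _)

theorem Dual_bd1 (S : Sys G) (v : Ht G.k) : ∀ᶠ n in S.U, ‖S.R n • v‖ ≤ ‖v‖ * S.R n := by
  simpa only [mul_one] using S.Dual_bd v (s := 1) ⟨zero_le_one, le_rfl⟩

theorem der_low (hA : S.Tan W A) {E : S.Ext} {z : E.J → G.V} (hz : E.Gn W z)
    (hm : ∀ᶠ n in E.U, z n ∈ A (E.π n)) {D : Ht G.k →ₗ[ℝ] Ht G.k} (hD : E.sys.Der z D)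
    (J : Finset (Ht G.k)) : G.hJ (insert 0 J) ≤ G.hJ ((insert 0 J).image D) := by
  obtain ⟨C₀, hC, h⟩ := cnt_gen G
  have h0 : 0 ≤ ∑ v ∈ J, ‖v‖ := Finset.sum_nonneg fun _ _ => norm_nonneg _
  refine h S W A ((∑ v ∈ J, ‖v‖ + 1) * C₀) E z (hA.1 _ (by positivity)) hz hm J _
    (fun v hv => ?_) fun v hv s hs ν hν ε hε => ?_
  · rw [mul_div_cancel_right₀ _ hC.ne']
    exact (Finset.single_le_sum (f := fun v => ‖v‖) (fun _ _ => norm_nonneg _) hv).trans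
      (le_add_of_nonneg_right zero_le_one)
  · have h1 : ∀ w ∈ insert 0 J, ⟪ν, D w⟫_ℝ ≤
        sSup ((fun a => ⟪ν, a⟫_ℝ) '' ((insert 0 J).image D : Finset (Ht G.k))) := fun w hw =>
      le_csSup (Geo.Sig_bd _ ν) ⟨_, Finset.mem_image_of_mem _ hw, rfl⟩
    have h2 := h1 0 (Finset.mem_insert_self _ _)
    rw [map_zero, inner_zero_right] at h2
    have h3 := (mul_le_mul_of_nonneg_left (h1 v hv) hs.1).trans (mul_le_of_le_one_left h2 hs.2)
    filter_upwards [hD.X (E.sys.Dual_bd v hs) ε hε, E.sys.ev_R 0] with n k1 k2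
    have k3 := real_inner_le_norm ν (E.sys.T n (G.st (z n) (G.X ((E.sys.R n * s) • v))) -
      E.sys.T n (z n) - D ((E.sys.R n * s) • v))
    rw [Geo.norm_Nn hν, one_mul, inner_sub_right, map_smul D, inner_smul_right, mul_assoc] at k3
    rw [map_smul D] at k1
    have k4 := mul_le_mul_of_nonneg_left h3 k2
    rw [mul_add]
    linarith

theorem Dual_near (S : Sys G) : ∃ C, ∀ n x, ∀ u ∈ G.U,
    ‖G.ht (S.g n (S.f n x * u)) - G.ht x‖ ≤ C := by
  obtain ⟨C, hC, h⟩ := ht_le (M := G.toMdl)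
  refine ⟨C * (3 * S.K), fun n x u hu => ?_⟩
  have k1 := Coarse_tri x (S.g n (S.f n x)) (S.g n (S.f n x * u))
  have k2 := (S.q n).lg (S.f n x) (S.f n x * u)
  have k3 := (S.q n).gf x
  have k4 := mul_le_of_le_one_right (zero_le_one.trans S.one_le_K) ((Coarse_U u).2 hu)
  have k5 := h (x⁻¹ * S.g n (S.f n x * u))
  rw [Coarse_sym] at k3
  rw [inv_mul_cancel_left] at k2
  rw [ht_mul, ht_inv, neg_add_eq_sub] at k5
  exact k5.trans (mul_le_mul_of_nonneg_left (by linarith) hC)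

theorem Dual_len (S : Sys G) (b : Ht G.k) : ∃ c, ∀ᶠ n in S.U, ∀ x, ∀ u ∈ G.U,
    G.len ((S.f n x * u)⁻¹ * (S.f n (G.st x (G.X (S.R n • b))) * u)) ≤ c * S.R n := by
  obtain ⟨C, hC, h⟩ := Geo.len_X (G := G)
  refine ⟨S.K * (C * (‖b‖ + 1)) + S.K + 2, ?_⟩
  filter_upwards [S.ev_R 1, S.Dual_bd1 b] with n k0 k6 x u hu
  have hK := zero_le_one.trans S.one_le_K
  have k1 := Coarse_tri (S.f n x * u) (S.f n x) (S.f n (G.st x (G.X (S.R n • b))) * u)
  have k2 := Coarse_tri (S.f n x) (S.f n (G.st x (G.X (S.R n • b))))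
    (S.f n (G.st x (G.X (S.R n • b))) * u)
  have k3 := (S.q n).lf x (G.st x (G.X (S.R n • b)))
  have k4 := (Coarse_U u).2 hu
  rw [Coarse_sym _ (S.f n x), inv_mul_cancel_left] at k1
  rw [inv_mul_cancel_left] at k2
  rw [← Geo.mul_V0 x (Geo.X_V0 _), inv_mul_cancel_left, Geo.mul_V0 x (Geo.X_V0 _)] at k3
  have k5 := mul_le_mul_of_nonneg_left ((h (S.R n • b)).trans (mul_le_mul_of_nonneg_left
    (add_le_add k6 k0) hC.le)) hK
  have k7 := mul_le_mul_of_nonneg_left k0 hK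
  nlinarith

theorem Dual_gen {E : S.Ext} {z : E.J → G.V} (hz : E.Gn W z) {E' : E.sys.Ext} {u : E'.J → G.V}
    (hu : E'.Gn (fun _ => volume G.U) u) (hu' : ∀ᶠ n in E'.U, u n ∈ G.U) :
    (E.comp E').Gn W fun n => S.f (E.π (E'.π n)) (z (E'.π n)) * u n := by
  obtain ⟨C, -, h⟩ := cm_avg (M := G.toMdl) S.K
  exact Gen.avg' (D := fun _ => G.U) (Ψ := fun n q => S.f n q.1 * q.2) hz E.h
    (fun _ => isOpen_U.measurableSet) (Eventually.of_forall fun _ => ⟨vol_U_pos.ne', vol_U_lt.ne⟩)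
    (fun n => ((S.mf n).comp measurable_fst).mul measurable_snd)
    (fun n N hN => h _ _ (S.q n) (S.mf n) N hN) E'.h hu hu'

theorem der_iso (hO : G.Orth) (hA : S.Tan W A) (hA' : S.symm.Tan W fun n => S.f n '' A n)
    {E : S.Ext} {z : E.J → G.V} (hz : E.Gn W z) (hm : ∀ᶠ n in E.U, z n ∈ A (E.π n))
    {D : Ht G.k →ₗ[ℝ] Ht G.k} (hD : E.sys.Der z D) (v : Ht G.k) : ‖D v‖ = ‖v‖ := by
  obtain ⟨E', u, hu, hu'⟩ := E.sys.exists_ext (A := fun _ => G.U)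
    (not_nul_self (Eventually.of_forall fun _ => ⟨vol_U_pos.ne', vol_U_lt.ne⟩))
  let F : S.symm.Ext := ⟨E'.J, E'.U, fun n => E.π (E'.π n), E.h.comp E'.h⟩
  have h0 : F.Gn W fun n => S.f (E.π (E'.π n)) (z (E'.π n)) * u n := Dual_gen hz hu hu'
  have h1 : ∀ᶠ n in F.U, S.f (E.π (E'.π n)) (z (E'.π n)) * u n ∈
      G.nb (S.f (F.π n) '' A (F.π n)) (1 * S.symm.R (F.π n)) := by
    filter_upwards [E'.h.eventually hm, hu', F.sys.ev_R 1] with n k1 k2 k3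
    refine ⟨_, ⟨_, k1, rfl⟩, ?_⟩
    rw [inv_mul_cancel_left, one_mul]
    exact ((Coarse_U _).2 k2).trans k3
  obtain ⟨D', hD'⟩ := exists_der (hA'.nb 1) h0 h1
  refine Geo.iso_of_low hO (fun b => ?_) (der_low hA hz hm hD) (der_low (hA'.nb 1) h0 h1 hD') v
  obtain ⟨c, hc⟩ := S.Dual_len b
  obtain ⟨C, hC⟩ := S.Dual_near
  have h2 : F.Gn W fun n => S.f (E.π (E'.π n))
      (G.st (z (E'.π n)) (G.X (S.R (E.π (E'.π n)) • b))) * u n :=
    Dual_gen (hz.st fun n => G.X (S.R n • b)) hu hu'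
  have h3 := (pw_all (c := c) (hA'.nb 1) h0 h2 h1 hD' (by
    filter_upwards [F.h.eventually hc, hu'] with n k1 k2 using k1 _ _ k2)).2.2
  have h4 : F.sys.Sm _ := ((hD.X (E.sys.Dual_bd1 b)).pull E').map D'
  have h5 : F.sys.Sm _ := sm_of_bdd (hu'.mono fun n k => hC (F.π n) (z (E'.π n)) _ k)
  have h6 : F.sys.Sm _ := sm_of_bdd (hu'.mono fun n k => hC (F.π n)
    (G.st (z (E'.π n)) (G.X (S.R (E.π (E'.π n)) • b))) _ k)
  refine (sub_eq_zero.1 (Sm.eq_zero (S := F.sys) ((((h3.add h4).add h5).sub h6).congr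
    (Eventually.of_forall fun n => ?_)))).symm
  simp only [T, ht_mul, ht_st, G.ht_X, map_sub, map_add, map_smul, smul_sub]
  abel

theorem tan_lip (hO : G.Orth) (hA : S.Tan W A) (hA' : S.symm.Tan W fun n => S.f n '' A n)
    (v : Ht G.k) {ε : ℝ} (hε : 0 < ε) : Nul S.U W fun n => {x ∈ A n |
      (‖v‖ + ε) * S.R n ≤ ‖S.T n (G.st x (G.X (S.R n • v))) - S.T n x‖} := by
  by_contra h
  obtain ⟨E, z, hz, hm⟩ := S.exists_ext h
  have hm' := hm.mono fun n k => k.1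
  obtain ⟨D, hD⟩ := exists_der hA hz hm'
  obtain ⟨n, k1, k2, k3⟩ := (hm.and ((hD.X (E.sys.Dual_bd1 v) _ (half_pos hε)).and
    (E.sys.ev_R 1))).exists
  have k4 := k1.2.trans ((norm_le_insert' _ (D (S.R (E.π n) • v))).trans (add_le_add le_rfl k2))
  rw [map_smul, norm_smul, der_iso hO hA hA' hz hm' hD, Real.norm_of_nonneg
    (zero_le_one.trans k3)] at k4
  have k5 := mul_le_mul_of_nonneg_left k3 hε.le
  dsimp only at k4 k5
  linarith

end Vale.Agent.P188.Sys
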