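import Vale.Agent.P188.MBDefs

/-! Induction along a series and elementary facts on integral representations. -/

namespace Vale.Agent.P188.MB

variable {G H : Type*} [Group G] [Group H]

theorem MBSer_cyc (φ : G →* Multiplicative ℤ) : φ.ker = ⊤ ∨ ∃ (ψ : G →* Multiplicative ℤ) (x : G),
    ψ x = Multiplicative.ofAdd 1 ∧ ψ.ker = φ.ker := by
  obtain ⟨⟨_, x, rfl⟩, hx⟩ := IsCyclic.exists_generator (α := φ.range)
  have h1 : ∀ y, ∃ k : ℤ, (φ y).toAdd = k * (φ x).toAdd := fun y => by
    obtain ⟨k, hk⟩ := hx ⟨φ y, y, rfl⟩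
    have h2 : φ x ^ k = φ y := congrArg Subtype.val hk
    exact ⟨k, by rw [← h2, toAdd_zpow, smul_eq_mul]⟩
  by_cases h0 : (φ x).toAdd = 0
  · refine Or.inl (eq_top_iff.2 fun y _ => ?_)
    obtain ⟨k, hk⟩ := h1 y
    rw [h0, mul_zero] at hk
    exact toAdd_eq_zero.1 hk
  · refine Or.inr ⟨MonoidHom.mk' (fun y => Multiplicative.ofAdd ((φ y).toAdd / (φ x).toAdd))
      fun a b => ?_, x, ?_, ?_⟩
    · obtain ⟨k, hk⟩ := h1 a
      obtain ⟨k', hk'⟩ := h1 b
      rw [map_mul, toAdd_mul, hk, hk', ← add_mul, Int.mul_ediv_cancel _ h0,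
        Int.mul_ediv_cancel _ h0, Int.mul_ediv_cancel _ h0, ofAdd_add]
    · rw [MonoidHom.mk'_apply, Int.ediv_self h0]
    · ext y
      obtain ⟨k, hk⟩ := h1 y
      rw [MonoidHom.mem_ker, MonoidHom.mem_ker, MonoidHom.mk'_apply, ofAdd_eq_one,
        ← toAdd_eq_zero, hk, Int.mul_ediv_cancel _ h0, mul_eq_zero, or_iff_left h0]

theorem polyZ_ind {Q : Type*} [Group Q] (hQ : PolyZ Q) (f : G →* Q) (P : Subgroup G → Prop)
    (h0 : P f.ker)
    (hs : ∀ K K' : Subgroup G, f.ker ≤ K → K ≤ K' → ∀ (φ : K' →* Multiplicative ℤ) (x : K'),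
      φ x = Multiplicative.ofAdd 1 → φ.ker = K.subgroupOf K' → P K → P K') : P ⊤ := by
  obtain ⟨m, s, hs0, hsm, hst⟩ := hQ
  have key : ∀ i ≤ m, P ((s i).comap f) := by
    intro i
    induction i with
    | zero => exact fun _ => by rwa [hs0, MonoidHom.comap_bot]
    | succ i ih =>
      intro hi
      obtain ⟨h1, φ, hφ⟩ := hst i hi
      have hP := ih (Nat.le_of_succ_le hi)
      have hk : (φ.comp (f.subgroupComap (s (i + 1)))).ker =
          ((s i).comap f).subgroupOf ((s (i + 1)).comap f) := by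
        ext g
        rw [MonoidHom.mem_ker, MonoidHom.comp_apply, ← MonoidHom.mem_ker, hφ]
        rfl
      rcases MBSer_cyc (φ.comp (f.subgroupComap (s (i + 1)))) with h2 | ⟨ψ, x, h2, h3⟩
      · rw [h2, eq_comm, Subgroup.subgroupOf_eq_top] at hk
        rwa [le_antisymm hk (Subgroup.comap_mono h1)]
      · exact hs _ _ (Subgroup.ker_le_comap f _) (Subgroup.comap_mono h1) ψ x h2 (h3.trans hk) hP
  have h := key m le_rfl
  rwa [hsm, Subgroup.comap_top] at h

theorem Engel.of_injective (j : H →* G) (hj : Function.Injective j) {x : H} (h : Engel (j x)) :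
    Engel x := by
  obtain ⟨r, hr⟩ := h
  have h1 : Function.Semiconj j (cm x) (cm (j x)) := fun y => by simp [cm]
  exact ⟨r, fun y => hj (by rw [h1.iterate_right r y, hr, map_one])⟩

theorem IRep.of_injective {N : Subgroup G} (h : IRep G N) (j : H →* G)
    (hj : Function.Injective j) {N' : Subgroup H} (hN : ∀ n ∈ N', j n ∈ N) : IRep H N' := by
  obtain ⟨d, s, ρ, h1, h2⟩ := h
  refine ⟨d, s, ρ.comp j, h1.comp hj, fun l hl hs => ?_⟩
  have h3 := h2 (l.map j) (fun n hn => by
    obtain ⟨a, ha, rfl⟩ := List.mem_map.1 hn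
    exact hN a (hl a ha)) (by rwa [List.length_map])
  rwa [List.map_map] at h3

theorem IRep.of_ring {N : Subgroup G} {B : Type*} [Ring B] [Module.Finite ℤ B] [Module.Free ℤ B]
    (ρ : G →* B) (hρ : Function.Injective ρ) (s : ℕ)
    (h : ∀ l : List G, (∀ n ∈ l, n ∈ N) → l.length = s → (l.map fun n => ρ n - 1).prod = 0) :
    IRep G N := by
  let ψ := Algebra.leftMulMatrix (Module.finBasis ℤ B)
  have hψ : Function.Injective ψ := Algebra.leftMulMatrix_injective _
  refine ⟨_, s, ψ.toMonoidHom.comp ρ, fun a b e => hρ (hψ e), fun l hl hs => ?_⟩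
  have h1 : (l.map fun n => ρ n - 1).prod = 0 := by
    rw [← List.take_append_drop s l, List.map_append, List.prod_append,
      h _ (fun n hn => hl n (List.mem_of_mem_take hn)) (List.length_take_of_le hs), zero_mul]
  have h2 := map_list_prod ψ (l.map fun n => ρ n - 1)
  rw [h1, map_zero, List.map_map] at h2
  refine Eq.trans (congrArg List.prod (List.map_congr_left fun n _ => ?_)) h2.symm
  simp

/-- adding a unipotent block of size two -/
theorem IRep.of_block {N : Subgroup G} {d : ℕ} (ρ : G →* Matrix (Fin d) (Fin d) ℤ)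
    (φ : G →* Multiplicative ℤ) (hρ : ∀ g, ρ g = 1 → φ g = 1 → g = 1) (s : ℕ)
    (h : ∀ l : List G, (∀ n ∈ l, n ∈ N) → s ≤ l.length → (l.map fun n => ρ n - 1).prod = 0) :
    IRep G N := by
  let u : G →* Matrix (Fin 2) (Fin 2) ℤ :=
    { toFun := fun g => !![1, (φ g).toAdd; 0, 1]
      map_one' := by simp [Matrix.one_fin_two]
      map_mul' := fun a b => by simp [add_comm] }
  have hu : ∀ g, u g = !![1, (φ g).toAdd; 0, 1] := fun _ => rfl
  have hu1 : ∀ g, u g - 1 = !![0, (φ g).toAdd; 0, 0] := fun g => by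
    rw [hu, Matrix.one_fin_two]
    ext i j
    fin_cases i <;> fin_cases j <;> simp
  refine IRep.of_ring (ρ.prod u) (fun a b e => ?_) (s + 2) fun l hl hs => ?_
  · have h1 : ρ a = ρ b := congrArg Prod.fst e
    have h2 : u a = u b := congrArg Prod.snd e
    have h3 : (φ a).toAdd = (φ b).toAdd := by
      have := congrFun (congrFun h2 0) 1
      simpa [hu] using this
    have h4 : φ a = φ b := Multiplicative.toAdd.injective h3
    refine inv_mul_eq_one.1 (hρ _ ?_ ?_)
    · rw [map_mul, ← h1, ← map_mul, inv_mul_cancel, map_one]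
    · rw [map_mul, ← h4, ← map_mul, inv_mul_cancel, map_one]
  · refine Prod.ext ?_ ?_
    · have h1 := map_list_prod (RingHom.fst (Matrix (Fin d) (Fin d) ℤ) (Matrix (Fin 2) (Fin 2) ℤ))
        (l.map fun n => ρ.prod u n - 1)
      rw [List.map_map] at h1
      exact h1.trans (h l hl (by omega))
    · match l, hs with
      | a :: b :: t, _ =>
        have h1 : (u a - 1) * (u b - 1) = 0 := by
          rw [hu1, hu1]
          ext i j
          fin_cases i <;> fin_cases j <;> simp
        rw [List.map_cons, List.map_cons, List.prod_cons, List.prod_cons, ← mul_assoc]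
        exact mul_eq_zero_of_left h1 _

end Vale.Agent.P188.MB
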