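import Vale.Agent.P188.ECDefs
import Vale.Agent.P188.MBSer

/-! Polycyclic groups are amenable. -/

namespace Vale.Agent.P188.EC

open scoped Pointwise

theorem ECAmP_ico (a b : ℤ) (h : a ≤ b) : ((Set.Ico a b).ncard : ℝ) = b - a := by
  rw [← Finset.coe_Ico, Set.ncard_coe_finset, Int.card_Ico, ← Int.cast_natCast,
    Int.toNat_of_nonneg (sub_nonneg.2 h), Int.cast_sub]

theorem amen_step {G : Type*} [Group G] (φ : G →* Multiplicative ℤ) {x : G}
    (hx : φ x = Multiplicative.ofAdd 1) (h : Amen φ.ker) : Amen G := by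
  intro S hS ε hε
  obtain ⟨m, hm⟩ := (hS.image fun s => (φ s).toAdd.natAbs).bddAbove
  have hm' : ∀ s ∈ S, -(m : ℤ) ≤ (φ s).toAdd ∧ (φ s).toAdd ≤ m := fun s hs => by
    have : (φ s).toAdd.natAbs ≤ m := hm ⟨s, hs, rfl⟩
    omega
  obtain ⟨δ, hδ, hδ'⟩ : ∃ δ : ℝ, 0 < δ ∧ (1 + δ) * (1 + δ) ≤ 1 + ε := by
    refine ⟨min (ε / 3) 1, by positivity, ?_⟩
    have h1 := min_le_left (ε / 3) 1
    have h2 := min_le_right (ε / 3) 1
    have h3 : 0 < min (ε / 3) 1 := by positivity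
    nlinarith
  obtain ⟨n, hn⟩ := exists_nat_gt (2 * m / δ)
  have hn0 : (0 : ℝ) < n := lt_of_le_of_lt (by positivity) hn
  rw [div_lt_iff₀ hδ] at hn
  have hp : ∀ j : ℤ, (φ (x ^ j)).toAdd = j := fun j => by
    rw [map_zpow, hx, toAdd_zpow, toAdd_ofAdd, smul_eq_mul, mul_one]
  have hT : (Set.image2 (fun (j : ℤ) s => x ^ j * s * (x ^ (j + (φ s).toAdd))⁻¹)
      (Set.Ico 0 (n : ℤ)) S).Finite := (Set.finite_Ico _ _).image2 _ hS
  have hT' := hT.preimage (f := (Subtype.val : φ.ker → G)) Subtype.val_injective.injOn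
  obtain ⟨A, hA, hA0, hA1⟩ := h _ hT' δ hδ
  have hF : Function.Injective fun p : φ.ker × ℤ => (p.1 : G) * x ^ p.2 := by
    rintro ⟨a, j⟩ ⟨b, k⟩ e
    have e1 := congrArg (fun g => (φ g).toAdd) e
    simp only [map_mul, toAdd_mul, hp, MonoidHom.mem_ker.1 a.2, MonoidHom.mem_ker.1 b.2,
      add_right_inj] at e1
    subst e1
    exact Prod.ext (Subtype.ext (mul_right_cancel e)) rfl
  refine ⟨(fun p : φ.ker × ℤ => (p.1 : G) * x ^ p.2) '' (A ×ˢ Set.Ico 0 (n : ℤ)),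
    (hA.prod (Set.finite_Ico _ _)).image _,
    (hA0.prod (Set.nonempty_Ico.2 (by exact_mod_cast hn0))).image _, ?_⟩
  have hsub : (fun p : φ.ker × ℤ => (p.1 : G) * x ^ p.2) '' (A ×ˢ Set.Ico 0 (n : ℤ)) * S ⊆
      (fun p : φ.ker × ℤ => (p.1 : G) * x ^ p.2) '' ((A * Subtype.val ⁻¹' Set.image2
        (fun (j : ℤ) s => x ^ j * s * (x ^ (j + (φ s).toAdd))⁻¹) (Set.Ico 0 (n : ℤ)) S) ×ˢ
          Set.Ico (-m : ℤ) (n + m)) := by
    rintro _ ⟨_, ⟨⟨a, j⟩, ⟨ha, hj⟩, rfl⟩, s, hs, rfl⟩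
    have hk : x ^ j * s * (x ^ (j + (φ s).toAdd))⁻¹ ∈ φ.ker := by
      rw [MonoidHom.mem_ker, map_mul, map_mul, map_inv, ← toAdd_eq_zero, toAdd_mul, toAdd_mul,
        toAdd_inv, hp, hp, add_neg_cancel]
    refine ⟨(a * ⟨_, hk⟩, j + (φ s).toAdd), ⟨Set.mul_mem_mul ha ⟨j, hj, s, hs, rfl⟩, ?_⟩, ?_⟩
    · have h1 := hm' s hs
      have h2 : 0 ≤ j ∧ j < n := hj
      exact ⟨by dsimp only; omega, by dsimp only; omega⟩
    · simp only [Subgroup.coe_mul, mul_assoc, inv_mul_cancel, mul_one]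
  have h1 := Set.ncard_le_ncard hsub (((hA.mul hT').prod (Set.finite_Ico _ _)).image _)
  rw [Set.ncard_image_of_injective _ hF, Set.ncard_prod] at h1
  have h2 := (Nat.cast_le (α := ℝ)).2 h1
  rw [Nat.cast_mul, ECAmP_ico _ _ (by omega)] at h2
  rw [Set.ncard_image_of_injective _ hF, Set.ncard_prod, Nat.cast_mul, ECAmP_ico _ _ (by omega)]
  push_cast at h2 ⊢
  have h3 : (n : ℝ) + m - -m ≤ (1 + δ) * n := by linarith
  have h4 := mul_le_mul hA1 h3 (by linarith [Nat.cast_nonneg (α := ℝ) m]) (by positivity)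
  have h5 := mul_le_mul_of_nonneg_right hδ' (mul_nonneg (Nat.cast_nonneg A.ncard) hn0.le)
  linarith

theorem Amen.of_equiv {G H : Type*} [Group G] [Group H] (e : G ≃* H) (h : Amen G) : Amen H := by
  intro S hS ε hε
  obtain ⟨A, h1, h2, h3⟩ := h (e.symm '' S) (hS.image _) ε hε
  refine ⟨e '' A, h1.image _, h2.image _, ?_⟩
  have h4 : e '' A * S = e '' (A * e.symm '' S) := by
    rw [Set.image_mul, Set.image_image]
    simp only [MulEquiv.apply_symm_apply, Set.image_id']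
  rwa [h4, Set.ncard_image_of_injective _ e.injective, Set.ncard_image_of_injective _ e.injective]

theorem amen_polyZ {G : Type*} [Group G] (h : PolyZ G) : Amen G := by
  refine Amen.of_equiv Subgroup.topEquiv
    (MB.polyZ_ind h (MonoidHom.id G) (fun K => Amen K) ?_ fun K K' _ hK φ x hx hk hP => ?_)
  · intro S _ ε hε
    refine ⟨{1}, Set.finite_singleton _, Set.singleton_nonempty _, ?_⟩
    have h1 : ({1} * S).ncard ≤ ({1} : Set (MonoidHom.id G).ker).ncard :=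
      Set.ncard_le_ncard (fun g _ => Subtype.ext g.2) (Set.finite_singleton _)
    rw [Set.ncard_singleton] at h1 ⊢
    have h2 := (Nat.cast_le (α := ℝ)).2 h1
    push_cast at h2 ⊢
    linarith
  · refine amen_step φ hx ?_
    rw [hk]
    exact hP.of_equiv (Subgroup.subgroupOfEquivOfLe hK).symm

end Vale.Agent.P188.EC
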