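import Vale.Agent.P188.ECAmP

/-! Amenability is invariant under quasi-isometry. -/

namespace Vale.Agent.P188.EC

open scoped Pointwise

theorem ECAmQ_fib {G H : Type*} [Group G] {T A : Set G} {C : Set H} (hT : T.Finite)
    (hC : C.Finite) (g : G → H) (f : H → G) (hg : ∀ a ∈ A, g a ∈ C)
    (h : ∀ a, (f (g a))⁻¹ * a ∈ T) : (A.ncard : ℝ) ≤ C.ncard * T.ncard := by
  have h1 : A ⊆ f '' C * T := fun a ha =>
    ⟨_, ⟨_, hg a ha, rfl⟩, _, h a, mul_inv_cancel_left _ _⟩
  have h2 := Set.natCard_mul_le (s := f '' C) (t := T)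
  simp only [Nat.card_coe_set_eq] at h2
  exact_mod_cast (Set.ncard_le_ncard h1 ((hC.image f).mul hT)).trans
    (h2.trans (Nat.mul_le_mul_right _ (Set.ncard_image_le hC)))

theorem Amen.of_qip {G H : Type*} [Group G] [Group H] {A : Finset G} {B : Finset H}
    (hA : Subgroup.closure (A : Set G) = ⊤) (hB : Subgroup.closure (B : Set H) = ⊤) {K : ℝ}
    {f : H → G} {g : G → H} (h : QIp (wr B) (wr A) K f g) (hG : Amen G) : Amen H := by
  intro S hS ε hε
  have lA := isLen_wr hA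
  have lB := isLen_wr hB
  have K0 : 0 ≤ K := zero_le_one.trans h.one_le
  obtain ⟨M, hM⟩ := ((hS.image (wr B)).insert 0).bddAbove
  have M0 : 0 ≤ M := hM (Set.mem_insert _ _)
  obtain ⟨n, hn⟩ := pow_unbounded_of_one_lt
    (2 * ({a | wr A a ≤ K}.ncard : ℝ) * {b | wr B b ≤ K}.ncard) (lt_add_of_pos_right 1 hε)
  obtain ⟨T, T1, T2, T3⟩ := hG _ (finite_ball hA (K + (K * (n * M) + K))) 1 one_pos
  by_contra! c
  have fin : ∀ j : ℕ, (g '' T * {b | wr B b ≤ j * M}).Finite := fun j =>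
    (T1.image g).mul (finite_ball hB _)
  have one : ∀ j : ℕ, 1 ∈ {b | wr B b ≤ j * M} := fun j => lB.one.trans_le (by positivity)
  have key : ∀ j : ℕ, (1 + ε) ^ j * (g '' T).ncard ≤ (g '' T * {b | wr B b ≤ j * M}).ncard := by
    intro j
    induction j with
    | zero =>
      rw [pow_zero, one_mul]
      exact_mod_cast Set.ncard_le_ncard (Set.subset_mul_left _ (one 0)) (fin 0)
    | succ j ih =>
      have k1 : g '' T * {b | wr B b ≤ j * M} * S ⊆ g '' T * {b | wr B b ≤ (j + 1 : ℕ) * M} := by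
        rw [mul_assoc]
        refine Set.mul_subset_mul_left ?_
        rintro _ ⟨b, hb, s, hs, rfl⟩
        refine (lB.mul b s).trans ((add_le_add hb
          (hM (Set.mem_insert_of_mem _ ⟨s, hs, rfl⟩))).trans_eq ?_)
        push_cast
        ring
      refine le_trans ?_ ((c _ (fin j) ((T2.image g).mul ⟨1, one j⟩)).le.trans
        (Nat.cast_le.2 (Set.ncard_le_ncard k1 (fin _))))
      rw [pow_succ', mul_assoc]
      gcongr
  have k1 := ECAmQ_fib (finite_ball hA K) (T1.image g) g f (fun a ha => ⟨a, ha, rfl⟩) h.fg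
  have k2 := ECAmQ_fib (A := g '' T * {b | wr B b ≤ n * M}) (finite_ball hB K)
    (T1.mul (finite_ball hA (K + (K * (n * M) + K)))) f g (by
      rintro _ ⟨_, ⟨a, ha, rfl⟩, b, hb, rfl⟩
      refine ⟨a, ha, (((f (g a))⁻¹ * a)⁻¹ * ((f (g a))⁻¹ * f (g a * b))), ?_, by group⟩
      refine (lA.mul _ _).trans (add_le_add ((lA.inv _).trans_le (h.fg a)) ((h.lf _ _).trans ?_))
      rw [inv_mul_cancel_left]
      exact add_le_add_left (mul_le_mul_of_nonneg_left hb K0) _) h.gf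
  have k3 : (0 : ℝ) < (g '' T).ncard := by
    exact_mod_cast (Set.ncard_pos (T1.image g)).2 (T2.image g)
  refine (mul_lt_mul_of_pos_right hn k3).not_ge ((key n).trans (k2.trans ?_))
  calc _ ≤ (1 + 1) * ((g '' T).ncard * ({a | wr A a ≤ K}.ncard : ℝ)) * {b | wr B b ≤ K}.ncard := by
        gcongr
        exact T3.trans (by gcongr)
    _ = _ := by ring

theorem amen_of_qip {G H : Type*} [Group G] [Group H] {A : Finset G} {B : Finset H}
    (hG : VirtPoly G) (hA : Subgroup.closure (A : Set G) = ⊤)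
    (hB : Subgroup.closure (B : Set H) = ⊤) {K : ℝ} {f : H → G} {g : G → H}
    (h : QIp (wr B) (wr A) K f g) : Amen H := by
  obtain ⟨N, hN, hp⟩ := hG
  obtain ⟨N', hN', hz⟩ := hp.exists_polyZ
  obtain ⟨B₁, K₁, g₁, h₁, q₁⟩ := qip_subgroup hA N
  obtain ⟨B₂, K₂, g₂, h₂, q₂⟩ := qip_subgroup h₁ N'
  exact (((amen_polyZ hz).of_qip h₂ h₁ q₂.symm).of_qip h₁ hA q₁.symm).of_qip hA hB h

end Vale.Agent.P188.EC
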