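import Vale.Agent.P188.ECDefs
import Vale.Agent.P188.BoxB
import Vale.Agent.P188.BoxI

/-! Elementary geometry of the section and of the elements of weight zero. -/

namespace Vale.Agent.P188.EC

variable {G : Geo} {x y p : G.V} {Φ : G.V → Ht G.k}

theorem X_mem (a : Ht G.k) : G.X a ∈ G.V0 := fun b => G.dl_X b a

theorem st_mem_V0 (hx : x ∈ G.V0) (hy : y ∈ G.V0) : G.st x y ∈ G.V0 := fun a => by
  rw [Mdl.dl_st, hx a, hy a]

theorem neg_mem_V0 (hx : x ∈ G.V0) : -x ∈ G.V0 := fun a => by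
  rw [map_neg, hx a]

theorem smul_mem_V0 (s : ℝ) (hx : x ∈ G.V0) : s • x ∈ G.V0 := fun a => by
  rw [map_smul, hx a]

theorem mul_V0 (x : G.V) (hy : y ∈ G.V0) : x * y = G.st x y := by
  rw [Mdl.mul_def, hy]

theorem mul_of_ht (hx : G.ht x = 0) (y : G.V) : x * y = G.st x y := by
  rw [Mdl.mul_def, hx, Mdl.dl_zero]

theorem inv_V0 (hx : x ∈ G.V0) : x⁻¹ = -x := by
  rw [Mdl.inv_def, hx]

theorem ECBas_dl (G : Geo) (a : Ht G.k) (i : Fin G.n) :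
    G.dl a (G.x i) = Real.exp (inner ℝ (G.lam i) a) • G.x i := by
  refine Mdl.V.ext fun j => ?_
  rw [Mdl.dl_ap, Mdl.smul_ap]
  rcases eq_or_ne j (G.ix i) with rfl | hj
  · rfl
  · have h : G.x i j = 0 := Pi.single_eq_of_ne hj 1
    rw [h, mul_zero, mul_zero]

theorem SZ_sub_V0 {c : Fin G.n → ℝ} (h : x ∈ Mdl.SZ G.x G.zl c) : x ∈ G.V0 := by
  intro a
  refine Submodule.span_le (p := LinearMap.eqLocus (G.dl a) LinearMap.id) |>.2 ?_ (Mdl.Zon_span h)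
  rintro _ ⟨l, hl, rfl⟩
  have h0 : cw (fun i => inner ℝ (G.lam i) a) l = 0 := by
    refine List.sum_eq_zero fun t ht => ?_
    obtain ⟨i, hi, rfl⟩ := List.mem_map.1 ht
    rw [show G.lam i = 0 from hl i hi, inner_zero_left]
  have h1 := Mdl.dl_yw (ECBas_dl G) a l
  rw [h0, Real.exp_zero, one_smul] at h1
  exact h1

theorem ht_E (h : x ∈ G.E) : G.ht x = 0 := by
  refine Submodule.span_le (p := LinearMap.ker G.ht) |>.2 ?_ h
  rintro _ ⟨l, ⟨i, hi, hz⟩, rfl⟩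
  match l, hi with
  | [j], hi =>
    obtain rfl := List.mem_singleton.1 hi
    exact G.t_w _ hz
  | j :: j' :: l, _ => exact Mdl.ht_br _ _

theorem len_X (G : Geo) : ∃ C, 0 ≤ C ∧ ∀ a, G.len (G.X a) ≤ C * (‖a‖ + 1) := by
  obtain ⟨r, hr⟩ := Mdl.len_of_bdd (M := G.toMdl) ‖LinearMap.toContinuousLinearMap G.X‖
  have hl := Mdl.isLen_len (M := G.toMdl)
  have h0 : 0 ≤ r := (hl.nonneg 0).trans (hr 0 (by rw [norm_zero]; exact norm_nonneg _))
  have key : ∀ b : Ht G.k, ‖b‖ ≤ 1 → ∀ n : ℕ, G.len ((n : ℝ) • G.X b) ≤ n * r := by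
    intro b hb n
    have h1 : G.len (G.X b) ≤ r := hr _
      (((LinearMap.toContinuousLinearMap G.X).le_opNorm b).trans
        (mul_le_of_le_one_right (norm_nonneg _) hb))
    induction n with
    | zero =>
      rw [Nat.cast_zero, zero_smul, zero_mul, ← Mdl.one_def, hl.one]
    | succ n ih =>
      have h2 := Mdl.st_smul (n : ℝ) 1 (G.X b)
      rw [one_smul, ← mul_V0 _ (X_mem b)] at h2
      have h3 := hl.mul ((n : ℝ) • G.X b) (G.X b)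
      rw [Nat.cast_succ, ← h2]
      linarith
  refine ⟨2 * r, by positivity, fun a => ?_⟩
  have h1 : (0 : ℝ) < ((⌈‖a‖⌉₊ + 1 : ℕ) : ℝ) := by positivity
  have h2 : ‖a‖ ≤ ((⌈‖a‖⌉₊ + 1 : ℕ) : ℝ) := by
    rw [Nat.cast_succ]
    linarith [Nat.le_ceil ‖a‖]
  have h3 : ((⌈‖a‖⌉₊ + 1 : ℕ) : ℝ) ≤ 2 * (‖a‖ + 1) := by
    rw [Nat.cast_succ]
    linarith [Nat.ceil_lt_add_one (norm_nonneg a), norm_nonneg a]
  generalize ⌈‖a‖⌉₊ + 1 = n at h1 h2 h3
  have h4 := key ((n : ℝ)⁻¹ • a) (by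
    rw [norm_smul, norm_inv, Real.norm_of_nonneg h1.le]
    exact (inv_mul_le_one₀ h1).2 h2) n
  rw [map_smul, smul_smul, mul_inv_cancel₀ h1.ne', one_smul] at h4
  nlinarith [mul_le_mul_of_nonneg_right h3 h0]

theorem dl_norm (G : Geo) : ∃ C, 0 ≤ C ∧ ∀ a (v : G.V),
    ‖G.dl a v‖ ≤ Real.exp (C * ‖a‖) * ‖v‖ := by
  refine ⟨∑ i, ‖G.w i‖, Finset.sum_nonneg fun _ _ => norm_nonneg _, fun a v => ?_⟩
  refine (pi_norm_le_iff_of_nonneg (ι := Fin G.N) (by positivity)).2 fun i => ?_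
  rw [Mdl.dl_ap, norm_mul, Real.norm_of_nonneg (Real.exp_pos _).le]
  refine mul_le_mul (Real.exp_le_exp.2 ((real_inner_le_norm _ _).trans
    (mul_le_mul_of_nonneg_right ?_ (norm_nonneg a)))) (norm_le_pi_norm (ι := Fin G.N) v i)
    (norm_nonneg _) (Real.exp_pos _).le
  exact Finset.single_le_sum (f := fun i => ‖G.w i‖) (fun _ _ => norm_nonneg _) (Finset.mem_univ i)

theorem Hgt.lip (h : Hgt G Φ) : ∃ L, 0 ≤ L ∧ ∀ x y, ‖Φ (x * y) - Φ x‖ ≤ L * G.len y + L := by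
  obtain ⟨η, hη⟩ := h.st 1 one_pos
  obtain ⟨C, hC, hh⟩ := Mdl.ht_le (M := G.toMdl)
  refine ⟨1 + C + |η|, by positivity, fun x y => ?_⟩
  have h1 := norm_add_le (Φ (x * y) - Φ x - G.ht y) (G.ht y)
  rw [sub_add_cancel] at h1
  have h2 := (Mdl.isLen_len (M := G.toMdl)).nonneg y
  nlinarith [hη x y, hh y, le_abs_self η, mul_nonneg (abs_nonneg η) h2]

theorem Hgt.shift (h : Hgt G Φ) (a : G.V) : Hgt G fun x => Φ (a * x) := by
  constructor
  · intro ε hε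
    obtain ⟨η, hη⟩ := h.st ε hε
    exact ⟨η, fun x y => by rw [← mul_assoc]; exact hη _ _⟩
  · obtain ⟨C, hC⟩ := h.fl
    exact ⟨C, fun x p r => by rw [← mul_assoc]; exact hC _ p r⟩

end Vale.Agent.P188.EC
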