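import Vale.Agent.P188.ECBas

/-! Norm bounds, paths and the finite group of symmetries. -/

namespace Vale.Agent.P188.EC

open scoped InnerProductSpace

theorem ECBasB_dl_x (G : Geo) (a : Ht G.k) (i : Fin G.n) :
    G.dl a (G.x i) = Real.exp ⟪G.lam i, a⟫_ℝ • G.x i := by
  ext j
  rw [Mdl.dl_ap, Mdl.smul_ap]
  by_cases h : j = G.ix i
  · rw [h]; rfl
  · have h1 : G.x i j = 0 := Pi.single_eq_of_ne h _
    rw [h1, mul_zero, mul_zero]

theorem ECBasB_eff (G : Geo) (a : Ht G.k) (h : ∀ i, ⟪G.lam i, a⟫_ℝ = 0) : a = 0 := by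
  have h1 : G.dl a = LinearMap.id := by
    refine LinearMap.ext_on G.span ?_
    rintro _ ⟨l, rfl⟩
    have h2 := Mdl.dl_yw (ECBasB_dl_x G) a l
    have h3 : cw (fun i => ⟪G.lam i, a⟫_ℝ) l = 0 := by simp [cw, h]
    rw [h3, Real.exp_zero, one_smul] at h2
    exact h2
  refine G.eff a fun j => ?_
  have h4 : G.dl a (G.bv j) j = G.bv j j := by rw [h1]; rfl
  have h5 : G.bv j j = 1 := Pi.single_eq_same (M := fun _ => ℝ) j 1
  rw [Mdl.dl_ap, h5, mul_one] at h4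
  exact Real.exp_eq_one_iff _ |>.1 h4

theorem ECBasB_span (G : Geo) : Submodule.span ℝ (G.Nn : Set (Ht G.k)) = ⊤ := by
  classical
  rw [← Submodule.orthogonal_eq_bot_iff, eq_bot_iff]
  intro a ha
  rw [Submodule.mem_bot]
  refine ECBasB_eff G a fun i => ?_
  by_cases h : G.lam i = 0
  · rw [h, inner_zero_left]
  · have h1 : G.nu i ∈ G.Nn := Finset.mem_image.2 ⟨i, Finset.mem_filter.2 ⟨Finset.mem_univ _, h⟩, rfl⟩
    have h2 := (Submodule.mem_orthogonal _ _).1 ha _ (Submodule.subset_span h1)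
    rw [Geo.nu, real_inner_smul_left, mul_eq_zero] at h2
    exact h2.resolve_left (inv_ne_zero (norm_ne_zero_iff.2 h))

theorem st_norm (G : Geo) : ∃ C, 0 ≤ C ∧ ∀ β, 0 ≤ β → ∀ u v : G.V, ‖u‖ ≤ Real.exp β →
    ‖v‖ ≤ Real.exp β → ‖G.st u v‖ ≤ Real.exp (C * (β + 1)) := by
  obtain ⟨C₁, h1, H1⟩ := Mdl.mem_of_norm (x := G.x) G.span
  obtain ⟨C₂, h2, H2⟩ := Mdl.st_Bx G.x
  obtain ⟨C₃, h3, H3⟩ := Mdl.norm_of_mem G.x
  refine ⟨C₃ * (C₁ + C₂ + 1), by positivity, fun β hβ u v hu hv => ?_⟩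
  have h4 := H3 (β + C₁ + C₂) (by positivity) _ (H2 _ u (H1 β hβ u hu) v (H1 β hβ v hv))
  refine h4.trans (Real.exp_le_exp.2 ?_)
  rw [mul_assoc]
  refine mul_le_mul_of_nonneg_left ?_ h3
  nlinarith [mul_nonneg (add_nonneg h1 h2) hβ]

theorem finite_sig (G : Geo) : G.Sig.Finite := by
  have h1 : Finite G.Sig := by
    refine Finite.of_injective (β := G.Nn → G.Nn) (fun σ ν => ⟨σ.1 ν.1, σ.2.1 ν.1 ν.2⟩) ?_
    intro σ σ' h
    refine Subtype.ext (LinearIsometryEquiv.ext fun v => ?_)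
    have h2 : (σ.1.toLinearEquiv : Ht G.k →ₗ[ℝ] Ht G.k) = σ'.1.toLinearEquiv :=
      LinearMap.ext_on (ECBasB_span G) fun ν hν => congrArg Subtype.val (congrFun h ⟨ν, hν⟩)
    exact LinearMap.congr_fun h2 v
  exact Set.toFinite _

/-- bounded steps are joined by paths of bounded diameter -/
theorem joined_step (G : Geo) (D : ℝ) : ∃ D', ∀ x w : G.V, G.len w ≤ D →
    JoinedIn {z | G.len (x⁻¹ * z) ≤ D'} x (x * w) := by
  obtain ⟨C, hC⟩ := Mdl.bdd_of_len (M := G.toMdl) D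
  obtain ⟨r, hr⟩ := Mdl.len_of_bdd (M := G.toMdl) C
  refine ⟨r, fun x w hw => ?_⟩
  refine JoinedIn.ofLine (f := fun s : ℝ => x * (s • w)) ?_ ?_ ?_ ?_
  · exact (continuous_const.mul (continuous_id.smul continuous_const)).continuousOn
  · rw [zero_smul, ← Mdl.one_def, mul_one]
  · rw [one_smul]
  · rintro _ ⟨s, hs, rfl⟩
    rw [Set.mem_ofPred_eq, inv_mul_cancel_left]
    refine hr _ ?_
    rw [norm_smul, Real.norm_eq_abs, abs_of_nonneg hs.1]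
    exact (mul_le_of_le_one_left (norm_nonneg _) hs.2).trans (hC w hw)

/-- the flat part of an element of weight zero -/
theorem flat_part (G : Geo) : ∃ C, 0 ≤ C ∧ ∀ β, 0 ≤ β → ∀ v ∈ G.V0, ‖v‖ ≤ Real.exp β →
    ∃ p ∈ G.V0, G.ht p = 0 ∧ ‖p‖ ≤ Real.exp (C * (β + 1)) ∧ v = p * G.X (G.ht v) := by
  obtain ⟨C₁, h1, H1⟩ := st_norm G
  obtain ⟨C₂, h2, H2⟩ := (G.X ∘ₗ G.ht).toContinuousLinearMap.bound
  refine ⟨C₁ * (C₂ + 1), by positivity, fun β hβ v hv hn => ?_⟩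
  refine ⟨G.st v (-G.X (G.ht v)), st_mem_V0 hv (neg_mem_V0 (X_mem _)), ?_, ?_, ?_⟩
  · rw [Mdl.ht_st, map_neg, G.ht_X, add_neg_cancel]
  · have h3 : ‖-G.X (G.ht v)‖ ≤ Real.exp (β + C₂) := by
      rw [norm_neg, add_comm, Real.exp_add]
      refine (H2 v).trans (mul_le_mul ?_ hn (norm_nonneg _) (Real.exp_pos _).le)
      linarith [Real.add_one_le_exp C₂]
    have h4 := H1 (β + C₂) (by positivity) v _
      (hn.trans (Real.exp_le_exp.2 (le_add_of_nonneg_right h2.le))) h3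
    refine h4.trans (Real.exp_le_exp.2 ?_)
    rw [mul_assoc]
    refine mul_le_mul_of_nonneg_left ?_ h1
    nlinarith [mul_nonneg h2.le hβ]
  · rw [mul_V0 _ (X_mem _), Mdl.st_assoc, Mdl.neg_st, Mdl.st_zero]

end Vale.Agent.P188.EC
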