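import Vale.Agent.P188.BoxA

/-! Basic facts on geometric data. -/

namespace Vale.Agent.P188.Geo

open Mdl
open scoped InnerProductSpace

variable {G : Geo} {c c' : Fin G.n → ℝ} {u v y : G.V} {γ γ' : Ht G.k → ℝ}

theorem span_x : Submodule.span ℝ (Set.range (yw G.x)) = ⊤ := G.span

theorem dl_x (a : Ht G.k) (i : Fin G.n) : G.dl a (G.x i) = Real.exp ⟪G.lam i, a⟫_ℝ • G.x i := by
  ext j
  rw [dl_ap, smul_ap]
  by_cases h : j = G.ix i
  · rw [h]; rfl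
  · have h1 : G.x i j = 0 := Pi.single_eq_of_ne h _
    rw [h1, mul_zero, mul_zero]

theorem dl_mem_B (a : Ht G.k) : G.dl a v ∈ G.B (fun i => c i + G.la a i) ↔ v ∈ G.B c :=
  dl_mem_Zon dl_x a

theorem B_mono (h : c ≤ c') : G.B c ⊆ G.B c' := Zon_mono h

theorem x_mem {i : Fin G.n} {s : ℝ} (hs : |s| ≤ Real.exp (c i)) : s • G.x i ∈ G.B c :=
  gen_mem trivial hs

theorem ht_x {i : Fin G.n} (h : G.lam i ≠ 0) : G.ht (G.x i) = 0 := G.t_w _ h

theorem x_V0 {i : Fin G.n} (h : G.lam i = 0) : G.x i ∈ G.V0 := fun a => by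
  rw [dl_x, h, inner_zero_left, Real.exp_zero, one_smul]

theorem X_V0 (a : Ht G.k) : G.X a ∈ G.V0 := fun b => G.dl_X b a

theorem st_V0 (hu : u ∈ G.V0) (hv : v ∈ G.V0) : G.st u v ∈ G.V0 := fun a => by
  rw [dl_st, hu a, hv a]

theorem smul_V0 (s : ℝ) (hv : v ∈ G.V0) : s • v ∈ G.V0 := fun a => by
  rw [map_smul, hv a]

theorem neg_V0 (hv : v ∈ G.V0) : -v ∈ G.V0 := fun a => by
  rw [map_neg, hv a]

theorem mul_V0 (y : G.V) (hv : v ∈ G.V0) : y * v = G.st y v := by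
  rw [mul_def, hv]

theorem inv_V0 (hv : v ∈ G.V0) : v⁻¹ = -v := by
  rw [inv_def, hv]

theorem SZ_V0 (hv : v ∈ SZ G.x G.zl c) : v ∈ G.V0 := fun a => by
  have h1 : Submodule.span ℝ {w | ∃ l : List (Fin G.n), (∀ i ∈ l, G.zl i) ∧ w = yw G.x l} ≤
      LinearMap.eqLocus (G.dl a) LinearMap.id := by
    rw [Submodule.span_le]
    rintro _ ⟨l, hl, rfl⟩
    have h2 : cw (fun i => ⟪G.lam i, a⟫_ℝ) l = 0 :=
      List.sum_eq_zero fun r hr => by
        obtain ⟨i, hi, rfl⟩ := List.mem_map.1 hr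
        rw [show G.lam i = 0 from hl i hi, inner_zero_left]
    change G.dl a (yw G.x l) = yw G.x l
    rw [dl_yw dl_x, h2, Real.exp_zero, one_smul]
  exact h1 (Zon_span hv)

theorem ht_E (hv : v ∈ G.E) : G.ht v = 0 := by
  have h1 : G.E ≤ LinearMap.ker G.ht := by
    refine Submodule.span_le.2 ?_
    rintro _ ⟨l, ⟨i, hi, h0⟩, rfl⟩
    rcases l with _ | ⟨j, _ | ⟨k, l⟩⟩
    · simp at hi
    · rw [List.mem_singleton] at hi
      subst hi
      exact ht_x h0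
    · exact ht_br _ _
  exact h1 hv

theorem inv_mul_eq (u v : G.V) : u⁻¹ * v = G.dl (-G.ht u) (G.st (-u) v) := by
  rw [mul_def, ht_inv, inv_def, dl_st, map_neg]

theorem st_neg_st (y u v : G.V) : G.st (-G.st y u) (G.st y v) = G.st (-u) v := by
  rw [neg_st_rev, st_assoc, ← st_assoc (-y), neg_st, zero_st]

theorem ht_pr (a : Ht G.k) (y : G.V) : G.ht (G.pr a y) = a := by
  rw [pr, ht_st, G.ht_X, add_sub_cancel]

theorem continuous_pr : Continuous fun q : Ht G.k × G.V => G.pr q.1 q.2 := by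
  have h1 : Continuous fun q : Ht G.k × G.V => (q.2, G.X (q.1 - G.ht q.2)) :=
    continuous_snd.prodMk (G.X.continuous_of_finiteDimensional.comp
      (continuous_fst.sub (Len_ht.comp continuous_snd)))
  have h2 := (contDiff_st (M := G.toMdl)).continuous.comp h1
  exact h2

theorem isCompact_bx (y : G.V) (c : Fin G.n → ℝ) : IsCompact (G.bx y c) := by
  have h1 : G.bx y c = (fun v => G.st y v) '' G.B c := by
    ext v
    constructor
    · intro hv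
      exact ⟨_, hv, by simp only [← st_assoc, st_neg, zero_st]⟩
    · rintro ⟨w, hw, rfl⟩
      change G.st (-y) (G.st y w) ∈ G.B c
      rwa [← st_assoc, neg_st, zero_st]
  have h2 : Continuous fun v : G.V => (y, v) := continuous_const.prodMk continuous_id
  have h3 := (contDiff_st (M := G.toMdl)).continuous.comp h2
  rw [h1]
  exact isCompact_Zon.image h3

theorem st_mem_bx : G.st y v ∈ G.bx y c ↔ v ∈ G.B c := by
  change G.st (-y) (G.st y v) ∈ G.B c ↔ _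
  rw [← st_assoc, neg_st, zero_st]

theorem τ_st (i : Fin G.n) (u v : G.V) : G.τ i (G.st u v) = G.τ i u + G.τ i v := by
  have h := st_sub_mem (LinearMap.ker (G.τ i)) (fun u v _ => G.τ_br i u v) (G.τ_br i u v)
  rw [LinearMap.mem_ker, map_sub, map_sub, sub_sub, sub_eq_zero] at h
  exact h

theorem GeoB_yw (i : Fin G.n) {l : List (Fin G.n)} (h : l ≠ [i]) : G.τ i (yw G.x l) = 0 := by
  rcases l with _ | ⟨j, _ | ⟨k, l⟩⟩
  · exact map_zero _
  · exact (G.τ_x i j).trans (if_neg fun e => h (by rw [e]))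
  · exact G.τ_br i _ _

theorem τ_dl (i : Fin G.n) (a : Ht G.k) (v : G.V) :
    G.τ i (G.dl a v) = Real.exp ⟪G.lam i, a⟫_ℝ * G.τ i v := by
  have h1 : (G.τ i).comp (G.dl a) = Real.exp ⟪G.lam i, a⟫_ℝ • G.τ i := by
    refine LinearMap.ext_on_range span_x fun l => ?_
    rw [LinearMap.comp_apply, dl_yw dl_x, map_smul, LinearMap.smul_apply]
    by_cases h : l = [i]
    · rw [h]
      simp [cw]
    · rw [GeoB_yw i h, smul_zero, smul_zero]
  exact LinearMap.congr_fun h1 v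

theorem τ_yw (i : Fin G.n) {l : List (Fin G.n)} (h : l ≠ [i]) : G.τ i (yw G.x l) = 0 :=
  GeoB_yw i h

theorem τ_self (i : Fin G.n) : G.τ i (G.x i) = 1 := (G.τ_x i i).trans (if_pos rfl)

theorem τ_mem (i : Fin G.n) (hv : v ∈ G.B c) : |G.τ i v| ≤ Real.exp (c i) := by
  obtain ⟨t, h1, -, rfl⟩ := BoxA_elim hv
  rw [map_sum]
  by_cases h : [i] ∈ ws (Fin G.n) G.F.d
  · rw [Finset.sum_eq_single_of_mem [i] h fun l _ hl => by rw [map_smul, τ_yw i hl, smul_zero]]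
    have h2 := h1 [i]
    rw [map_smul, yw, τ_self, smul_eq_mul, mul_one]
    simpa [cw] using h2
  · rw [Finset.sum_eq_zero fun l hl => by
      rw [map_smul, τ_yw i fun e => h (e ▸ hl), smul_zero], abs_zero]
    exact (Real.exp_pos _).le

theorem lam_eq (i : Fin G.n) : G.lam i = ‖G.lam i‖ • G.nu i := by
  by_cases h : G.lam i = 0
  · rw [h, norm_zero, zero_smul]
  · rw [nu, smul_smul, mul_inv_cancel₀ (norm_ne_zero_iff.2 h), one_smul]

theorem nu_mem {i : Fin G.n} (h : G.lam i ≠ 0) : G.nu i ∈ G.Nn := by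
  classical
  exact Finset.mem_image.2 ⟨i, Finset.mem_filter.2 ⟨Finset.mem_univ _, h⟩, rfl⟩

theorem mem_Nn {ν : Ht G.k} (h : ν ∈ G.Nn) : ∃ i, G.lam i ≠ 0 ∧ G.nu i = ν := by
  classical
  obtain ⟨i, hi, e⟩ := Finset.mem_image.1 h
  exact ⟨i, (Finset.mem_filter.1 hi).2, e⟩

theorem norm_Nn {ν : Ht G.k} (h : ν ∈ G.Nn) : ‖ν‖ = 1 := by
  obtain ⟨i, hi, rfl⟩ := mem_Nn h
  rw [nu, norm_smul, norm_inv, norm_norm, inv_mul_cancel₀ (norm_ne_zero_iff.2 hi)]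

theorem cs_inner (a : Ht G.k) : G.cs (fun ν => ⟪ν, a⟫_ℝ) = G.la a := by
  funext i
  change ‖G.lam i‖ * ⟪G.nu i, a⟫_ℝ = ⟪G.lam i, a⟫_ℝ
  rw [← real_inner_smul_left, ← lam_eq]

theorem cs_mono (h : ∀ ν ∈ G.Nn, γ ν ≤ γ' ν) : G.cs γ ≤ G.cs γ' := fun i => by
  change ‖G.lam i‖ * γ (G.nu i) ≤ ‖G.lam i‖ * γ' (G.nu i)
  by_cases h0 : G.lam i = 0
  · rw [h0, norm_zero, zero_mul, zero_mul]
  · exact mul_le_mul_of_nonneg_left (h _ (nu_mem h0)) (norm_nonneg _)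

theorem la_le_cs {a : Ht G.k} (h : a ∈ G.Cl γ) : G.la a ≤ G.cs γ := by
  rw [← cs_inner]
  exact cs_mono h

theorem lam_bd (G : Geo) : ∃ l Λ : ℝ, 0 < l ∧ 0 < Λ ∧ ∀ i, ‖G.lam i‖ ≤ Λ ∧
    (G.lam i ≠ 0 → l ≤ ‖G.lam i‖) := by
  have h1 : ∀ᶠ l in nhdsWithin (0 : ℝ) (Set.Ioi 0), ∀ i, G.lam i ≠ 0 → l ≤ ‖G.lam i‖ := by
    refine Filter.eventually_all.2 fun i => ?_
    by_cases h : G.lam i = 0
    · exact Filter.Eventually.of_forall fun _ h0 => absurd h h0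
    · filter_upwards [nhdsWithin_le_nhds (Iic_mem_nhds (norm_pos_iff.2 h))] with l hl _
      exact hl
  obtain ⟨l, h2, h3⟩ := (h1.and self_mem_nhdsWithin).exists
  have h4 : 0 ≤ ∑ i, ‖G.lam i‖ := Finset.sum_nonneg fun _ _ => norm_nonneg _
  refine ⟨l, ∑ i, ‖G.lam i‖ + 1, h3, by linarith, fun i => ⟨?_, h2 i⟩⟩
  have h5 := Finset.single_le_sum (f := fun i => ‖G.lam i‖) (fun _ _ => norm_nonneg _)
    (Finset.mem_univ i)
  linarith

theorem GeoB_cw (a : Ht G.k) (l : List (Fin G.n)) :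
    ⟪(l.map G.lam).sum, a⟫_ℝ = cw (fun i => ⟪G.lam i, a⟫_ℝ) l := by
  induction l with
  | nil => simp [cw]
  | cons i l ih => rw [List.map_cons, List.sum_cons, inner_add_left, ih, BoxA_cw_cons]

theorem w_eq (j : Fin G.N) : ∃ l : List (Fin G.n), G.w j = (l.map G.lam).sum := by
  have h1 : ∃ l : List (Fin G.n), yw G.x l j ≠ 0 := by
    by_contra hc
    push Not at hc
    let φ : G.V →ₗ[ℝ] ℝ := LinearMap.proj (φ := fun _ : Fin G.N => ℝ) j
    have h2 : φ = 0 := LinearMap.ext_on_range span_x hc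
    have h3 : G.bv j j = 0 := LinearMap.congr_fun h2 (G.bv j)
    have h4 : G.bv j j = 1 := Pi.single_eq_same _ _
    rw [h4] at h3
    exact one_ne_zero h3
  obtain ⟨l, hl⟩ := h1
  refine ⟨l, ext_inner_right ℝ fun a => ?_⟩
  have h2 := congrFun (dl_yw dl_x a l) j
  rw [dl_ap, smul_ap] at h2
  rw [GeoB_cw]
  exact Real.exp_injective (mul_right_cancel₀ hl h2)

theorem norm_le (G : Geo) : ∃ C > 0, ∀ (a : Ht G.k) (r : ℝ), 0 ≤ r →
    (∀ ν ∈ G.Nn, ⟪ν, a⟫_ℝ ≤ r) → ‖a‖ ≤ C * r := by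
  choose l hl using w_eq (G := G)
  let T : Ht G.k →ₗ[ℝ] (Fin G.N → ℝ) := LinearMap.pi fun j => innerₗ (Ht G.k) (G.w j)
  have hT : LinearMap.ker T = ⊥ :=
    LinearMap.ker_eq_bot'.2 fun a ha => G.eff a fun j => congrFun ha j
  obtain ⟨K, -, hK⟩ := T.exists_antilipschitzWith hT
  have h0 : ∀ j, 0 ≤ cw (fun i => ‖G.lam i‖) (l j) := fun j =>
    List.sum_nonneg fun r hr => by
      obtain ⟨i, -, rfl⟩ := List.mem_map.1 hr
      exact norm_nonneg _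
  have hS : 0 ≤ ∑ j, cw (fun i => ‖G.lam i‖) (l j) := Finset.sum_nonneg fun j _ => h0 j
  refine ⟨K * ∑ j, cw (fun i => ‖G.lam i‖) (l j) + 1, by positivity, fun a r hr h => ?_⟩
  have h1 : ∀ m : List (Fin G.n), cw (fun i => ⟪G.lam i, a⟫_ℝ) m ≤
      cw (fun i => ‖G.lam i‖) m * r := by
    intro m
    induction m with
    | nil => simp [cw]
    | cons i m ih =>
      rw [BoxA_cw_cons, BoxA_cw_cons, add_mul]
      exact add_le_add (la_le_cs (γ := fun _ => r) h i) ih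
  have h2 : ∀ j, ⟪G.w j, a⟫_ℝ ≤ cw (fun i => ‖G.lam i‖) (l j) * r := fun j => by
    rw [hl j, GeoB_cw]
    exact h1 _
  have h3 : ∑ j, (cw (fun i => ‖G.lam i‖) (l j) * r - ⟪G.w j, a⟫_ℝ) =
      (∑ j, cw (fun i => ‖G.lam i‖) (l j)) * r := by
    rw [Finset.sum_sub_distrib, ← sum_inner, G.uni, inner_zero_left, sub_zero, Finset.sum_mul]
  have h4 : ‖T a‖ ≤ (∑ j, cw (fun i => ‖G.lam i‖) (l j)) * r := by
    refine (pi_norm_le_iff_of_nonneg (mul_nonneg hS hr)).2 fun j => ?_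
    have a1 := Finset.single_le_sum
      (f := fun j => cw (fun i => ‖G.lam i‖) (l j) * r - ⟪G.w j, a⟫_ℝ)
      (fun j _ => sub_nonneg.2 (h2 j)) (Finset.mem_univ j)
    have a2 := mul_le_mul_of_nonneg_right (Finset.single_le_sum
      (f := fun j => cw (fun i => ‖G.lam i‖) (l j)) (fun j _ => h0 j) (Finset.mem_univ j)) hr
    have a3 := mul_nonneg (h0 j) hr
    have a4 := h2 j
    rw [h3] at a1
    change |⟪G.w j, a⟫_ℝ| ≤ _
    exact abs_le.2 ⟨by linarith, by linarith⟩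
  have h5 := ZeroHomClass.bound_of_antilipschitz T hK a
  have h6 := mul_le_mul_of_nonneg_left h4 K.coe_nonneg
  rw [add_mul, mul_assoc]
  linarith

theorem pos_span (G : Geo) : ∃ C > 0, ∀ a : Ht G.k, ∃ s : Ht G.k → ℝ, (∀ ν, 0 ≤ s ν) ∧
    a = ∑ ν ∈ G.Nn, s ν • ν ∧ ∑ ν ∈ G.Nn, s ν ≤ C * ‖a‖ := by
  classical
  obtain ⟨C, hC, h⟩ := norm_le G
  let K : Set (Ht G.k → ℝ) :=
    (Set.univ.pi fun _ => Set.Icc (0 : ℝ) 1) ∩ {s | ∑ ν ∈ G.Nn, s ν ≤ 1}
  let φ : (Ht G.k → ℝ) →ₗ[ℝ] Ht G.k :=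
    ∑ ν ∈ G.Nn, (LinearMap.proj (φ := fun _ : Ht G.k => ℝ) ν).smulRight ν
  have hφ : ∀ s, φ s = ∑ ν ∈ G.Nn, s ν • ν := fun s => by
    simp only [φ, LinearMap.sum_apply, LinearMap.smulRight_apply, LinearMap.proj_apply]
  have h1 : IsCompact K := (isCompact_univ_pi fun _ => isCompact_Icc).inter_right
    (isClosed_le (continuous_finsetSum _ fun ν _ => continuous_apply ν) continuous_const)
  have h2 : Continuous φ := by
    rw [show (φ : (Ht G.k → ℝ) → Ht G.k) = fun s => ∑ ν ∈ G.Nn, s ν • ν from funext hφ]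
    exact continuous_finsetSum _ fun ν _ => (continuous_apply ν).smul continuous_const
  have h3 : Convex ℝ K := by
    refine (convex_pi fun _ _ => convex_Icc _ _).inter fun s hs t ht a b ha hb hab => ?_
    have a1 := mul_le_mul_of_nonneg_left (show ∑ ν ∈ G.Nn, s ν ≤ 1 from hs) ha
    have a2 := mul_le_mul_of_nonneg_left (show ∑ ν ∈ G.Nn, t ν ≤ 1 from ht) hb
    change ∑ ν ∈ G.Nn, (a * s ν + b * t ν) ≤ 1
    rw [Finset.sum_add_distrib, ← Finset.mul_sum, ← Finset.mul_sum]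
    linarith
  have h4 : ∀ a : Ht G.k, C * ‖a‖ ≤ 1 → a ∈ φ '' K := by
    intro a ha
    by_contra hc
    obtain ⟨f, r, f1, f2⟩ :=
      geometric_hahn_banach_closed_point (h3.linear_image φ) (h1.image h2).isClosed hc
    have a0 : 0 < r := by
      simpa using f1 0 ⟨0, ⟨fun _ _ => ⟨le_rfl, zero_le_one⟩, by simp⟩, map_zero φ⟩
    obtain ⟨y, rfl⟩ := (InnerProductSpace.toDual ℝ (Ht G.k)).surjective f
    have a1 : ‖y‖ ≤ C * r := h y r a0.le fun ν hν => by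
      rw [real_inner_comm]
      refine (f1 ν ⟨Pi.single ν 1, ⟨fun μ _ => ?_, ?_⟩, ?_⟩).le
      · rw [Pi.single_apply]
        split_ifs <;> simp
      · simp [Finset.sum_pi_single', hν]
      · rw [hφ]
        simp [Pi.single_apply, hν]
    have a2 : r < ‖y‖ * ‖a‖ := f2.trans_le (real_inner_le_norm y a)
    have a3 := mul_le_mul_of_nonneg_right a1 (norm_nonneg a)
    have a4 := mul_le_mul_of_nonneg_left ha a0.le
    linarith
  refine ⟨C, hC, fun a => ?_⟩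
  by_cases h0 : a = 0
  · exact ⟨fun _ => 0, fun _ => le_rfl, by simp [h0], by simp [h0]⟩
  have h5 : 0 < C * ‖a‖ := mul_pos hC (norm_pos_iff.2 h0)
  obtain ⟨s, ⟨s1, s2⟩, s3⟩ := h4 ((C * ‖a‖)⁻¹ • a) (by
    rw [norm_smul, norm_inv, Real.norm_of_nonneg h5.le, mul_left_comm, inv_mul_cancel₀ h5.ne'])
  refine ⟨fun ν => C * ‖a‖ * s ν, fun ν => mul_nonneg h5.le (s1 ν trivial).1, ?_, ?_⟩
  · simp only [mul_smul (C * ‖a‖), ← Finset.smul_sum]
    rw [← hφ, s3, smul_inv_smul₀ h5.ne']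
  · rw [← Finset.mul_sum]
    exact mul_le_of_le_one_right h5.le s2

theorem gap (G : Geo) : ∃ g > 0, ∀ ν ∈ G.Nn, ∀ ν' ∈ G.Nn, ν ≠ ν' → ⟪ν, ν'⟫_ℝ ≤ 1 - g := by
  have h1 : ∀ᶠ g in nhdsWithin (0 : ℝ) (Set.Ioi 0),
      ∀ ν ∈ G.Nn, ∀ ν' ∈ G.Nn, ν ≠ ν' → ⟪ν, ν'⟫_ℝ ≤ 1 - g := by
    refine (Filter.eventually_all_finset _).2 fun ν hν =>
      (Filter.eventually_all_finset _).2 fun ν' hν' => ?_
    by_cases h : ν = ν'
    · exact Filter.Eventually.of_forall fun _ h0 => absurd h h0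
    · have h2 := (inner_lt_one_iff_real_of_norm_eq_one (norm_Nn hν) (norm_Nn hν')).2 h
      filter_upwards [nhdsWithin_le_nhds (Iic_mem_nhds (sub_pos.2 h2))] with g hg _
      exact le_sub_comm.1 hg
  obtain ⟨g, h2, h3⟩ := (h1.and self_mem_nhdsWithin).exists
  exact ⟨g, h3, h2⟩

end Vale.Agent.P188.Geo
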