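import Vale.Agent.P188.ECBasB
import Vale.Agent.P188.GeoB

/-! Paths of bounded height end in boxes. -/

namespace Vale.Agent.P188.EC

open Mdl

theorem ECBox_sp {M : Mdl} (l : List M.V) (v : M.V) : sp (l ++ [v]) = M.st (sp l) v := by
  induction l with
  | nil => exact (st_zero v).trans (zero_st v).symm
  | cons a l ih =>
    rw [List.cons_append, sp, List.foldr_cons, sp, List.foldr_cons, st_assoc]
    exact congrArg _ ih

theorem ECBox_le {G : Geo} {α β : ℝ} (hβ : 0 ≤ β) (i : Fin G.n) : sz2 G α β i ≤ α + β := by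
  unfold sz2
  split_ifs <;> linarith

theorem ECBox_mono {G : Geo} {α β α' β' : ℝ} (hα : α ≤ α') (hβ : β ≤ β') :
    sz2 G α β ≤ sz2 G α' β' := fun i => by
  unfold sz2
  split_ifs <;> linarith

theorem ECBox_steps (G : Geo) : ∃ C Λ, 0 ≤ C ∧ 0 ≤ Λ ∧ ∀ (c M : ℝ) (n : ℕ) (p : ℕ → G.V),
    p 0 = 1 → (∀ j < n, (p j)⁻¹ * p (j + 1) ∈ G.B fun _ => c) → (∀ j < n, ‖G.ht (p j)‖ ≤ M) →
      p n ∈ G.B (sz2 G (c + Real.log (n + 1) + C) (Λ * M)) := by
  obtain ⟨C, hC, h⟩ := prod_Bx G.x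
  obtain ⟨_, Λ, -, hΛ, hl⟩ := G.lam_bd
  refine ⟨C, Λ, hC, hΛ.le, fun c M n p h0 h1 h2 => ?_⟩
  have h3 : ∀ k ≤ n, ∃ l : List G.V, l.length = k ∧ (∀ v ∈ l, v ∈ G.B (sz2 G c (Λ * M))) ∧
      sp l = p k := fun k => by
    induction k with
    | zero => exact fun _ => ⟨[], rfl, fun _ h => absurd h List.not_mem_nil, h0.symm⟩
    | succ k ih =>
      intro hk
      obtain ⟨l, h4, h5, h6⟩ := ih (by omega)
      refine ⟨l ++ [G.dl (G.ht (p k)) ((p k)⁻¹ * p (k + 1))], by simp [h4], fun v hv => ?_, ?_⟩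
      · rcases List.mem_append.1 hv with hv | hv
        · exact h5 v hv
        · rw [List.mem_singleton.1 hv]
          refine Geo.B_mono (fun i => ?_) ((Geo.dl_mem_B _).2 (h1 k hk))
          unfold sz2 Geo.la
          split_ifs with hi
          · rw [hi, inner_zero_left]
          · exact add_le_add le_rfl ((real_inner_le_norm _ _).trans
              (mul_le_mul (hl i).1 (h2 k hk) (norm_nonneg _) hΛ.le))
      · rw [ECBox_sp, h6, ← mul_def, mul_inv_cancel_left]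
  obtain ⟨l, h4, h5, h6⟩ := h3 n le_rfl
  have h7 := h _ l h5
  rw [h4, h6] at h7
  exact Zon_mono (fun i => le_of_eq (by unfold sz2; ring)) h7

theorem ECBox_len (G : Geo) : ∃ C, 0 ≤ C ∧ ∀ D, 0 ≤ D → ∀ u : G.V, G.len u ≤ D →
    u ∈ G.B fun _ => C * (D + 1) := by
  obtain ⟨C, Λ, hC, hΛ, h⟩ := ECBox_steps G
  obtain ⟨C₀, h0⟩ := bdd_of_len (M := G.toMdl) 1
  obtain ⟨C₁, hC₁, h1⟩ := mem_of_norm G.span
  obtain ⟨C₂, hC₂, h2⟩ := ht_le (M := G.toMdl)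
  have hC₀ := abs_nonneg C₀
  refine ⟨|C₀| + C₁ + C + 1 + Λ * C₂, by positivity, fun D hD u hu => ?_⟩
  obtain ⟨g, h3, h4, h5⟩ := exists_path u (hu.trans (Nat.le_ceil D))
  have h6 : ∀ j : ℕ, G.len (g j) ≤ j := fun j => by
    induction j with
    | zero => rw [h3, isLen_len.one, Nat.cast_zero]
    | succ j ih =>
      have h7 := isLen_len.mul (g j) ((g j)⁻¹ * g (j + 1))
      rw [mul_inv_cancel_left] at h7
      rw [Nat.cast_succ]
      exact h7.trans (add_le_add ih (h5 j))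
  have h7 := (Nat.ceil_lt_add_one hD).le
  have h8 := h (|C₀| + C₁) (C₂ * (D + 1)) ⌈D⌉₊ g h3 (fun j _ => h1 _ hC₀ _
    ((h0 _ (h5 j)).trans ((le_abs_self _).trans ((le_add_of_nonneg_right zero_le_one).trans
      (Real.add_one_le_exp _))))) fun j hj => (h2 _).trans (mul_le_mul_of_nonneg_left
        ((h6 j).trans ((Nat.cast_le.2 hj.le).trans h7)) hC₂)
  rw [h4 _ le_rfl] at h8
  refine Geo.B_mono (fun i => (ECBox_le (by positivity) i).trans ?_) h8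
  have h9 := Real.log_le_sub_one_of_pos (x := (⌈D⌉₊ : ℝ) + 1) (by positivity)
  have h10 := mul_nonneg (add_nonneg (add_nonneg hC₀ hC₁) hC) hD
  show _ ≤ (|C₀| + C₁ + C + 1 + Λ * C₂) * (D + 1)
  linarith

theorem path_box (G : Geo) : ∃ C, 0 ≤ C ∧ ∀ (D M : ℝ) (n : ℕ) (p : ℕ → G.V), 0 ≤ D → 0 ≤ M →
    p 0 = 1 → (∀ j < n, G.len ((p j)⁻¹ * p (j + 1)) ≤ D) → (∀ j ≤ n, ‖G.ht (p j)‖ ≤ M) →
      p n ∈ G.B (sz2 G (C * (D + Real.log (n + 1) + 1)) (C * M)) := by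
  obtain ⟨C, Λ, hC, hΛ, h⟩ := ECBox_steps G
  obtain ⟨C₁, hC₁, h1⟩ := ECBox_len G
  refine ⟨C + C₁ + 1 + Λ, by positivity, fun D M n p hD hM h0 h2 h3 => ?_⟩
  refine Geo.B_mono (ECBox_mono ?_ ?_) (h _ M n p h0 (fun j hj => h1 D hD _ (h2 j hj))
    fun j hj => h3 j hj.le)
  · have h4 : 0 ≤ Real.log (n + 1) :=
      Real.log_nonneg (le_add_of_nonneg_left (Nat.cast_nonneg n))
    have h5 := mul_nonneg (add_nonneg (add_nonneg hC hC₁) hΛ) h4
    have h6 := mul_nonneg (add_nonneg hC hΛ) hD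
    linarith
  · exact mul_le_mul_of_nonneg_right (le_add_of_nonneg_left (by positivity)) hM

theorem box_split {G : Geo} (hE : LenE G) : ∃ C, 0 ≤ C ∧ ∀ α β, 0 ≤ α → 0 ≤ β →
    ∀ v ∈ G.B (sz2 G α β), ‖v‖ ≤ Real.exp (C * (α + β + 1)) ∧
      ∃ e p : G.V, v = e * p * G.X (G.ht v) ∧ G.ht e = 0 ∧ G.len e ≤ C * (α + β + 1) ∧
        p ∈ G.V0 ∧ G.ht p = 0 ∧ ‖p‖ ≤ Real.exp (C * (α + 1)) := by
  obtain ⟨C₀, hC₀, h0⟩ := hE
  obtain ⟨C₁, hC₁, h1⟩ := norm_of_mem G.x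
  obtain ⟨C₂, hC₂, h2⟩ := split_Bx G.x G.zl
  obtain ⟨C₃, hC₃, h3⟩ := flat_part G
  have hA : 0 ≤ C₀ * (C₁ * (C₂ + 1) + 1) := by positivity
  have hB : 0 ≤ C₃ * (C₁ + 1) := by positivity
  refine ⟨C₁ + C₀ * (C₁ * (C₂ + 1) + 1) + C₃ * (C₁ + 1), by positivity,
    fun α β hα hβ v hv => ⟨?_, ?_⟩⟩
  · refine (h1 (α + β) (by positivity) v (Zon_mono (fun i => ECBox_le hβ i) hv)).trans
      (Real.exp_le_exp.2 (mul_le_mul_of_nonneg_right (by linarith) (by positivity)))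
  · obtain ⟨e, he, q, hq, h4⟩ := h2 _ v hv
    have h5 : G.ht e = 0 := ht_E (IZ_sub_Id he)
    have h6 := h1 (α + β + C₂) (by positivity) e (Zon_mono
      (fun i => add_le_add (ECBox_le hβ i) le_rfl) (Zon_sub (fun _ _ => trivial) he))
    have h7 := h1 α hα q (Zon_sub (fun _ _ => trivial) (Zon_le (fun l hl i hi => by
      unfold sz2
      rw [if_pos (show G.lam i = 0 from hl i hi), add_zero]) hq))
    obtain ⟨p, h8, h9, h10, h11⟩ := h3 _ (by positivity) q (SZ_sub_V0 hq) h7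
    refine ⟨e, p, ?_, h5, (h0 e _ (IZ_sub_Id he) (by positivity) h6).trans ?_, h8, h9,
      h10.trans (Real.exp_le_exp.2 ?_)⟩
    · have h12 : G.ht v = G.ht q := by rw [h4, ht_st, h5, zero_add]
      rw [h12, mul_assoc, ← h11, mul_of_ht h5, h4]
    · have h12 : 0 ≤ α + β := by positivity
      have h13 := mul_nonneg (mul_nonneg hC₀ (add_nonneg (mul_nonneg hC₁ hC₂) zero_le_one)) h12
      have h14 := mul_nonneg (add_nonneg hC₁ hB) (add_nonneg h12 zero_le_one)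
      linarith
    · have h13 := mul_nonneg hC₃ hα
      have h14 := mul_nonneg (add_nonneg hC₁ hA) (add_nonneg hα zero_le_one)
      linarith

end Vale.Agent.P188.EC
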