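import Vale.Agent.P188.ECBasB
import Vale.Agent.P188.Coarse

/-! Counting points in a box. -/

namespace Vale.Agent.P188.EC

open MeasureTheory

theorem ECCount_cl {G : Geo} {H : Type*} [Group H] {B : Finset H}
    (hB : Subgroup.closure (B : Set H) = ⊤) {K : ℝ} {F : H → G.V} {F₂ : G.V → H}
    (h : QIp (wr B) G.len K F F₂) (a : G.V) {g g' : H} {r : ℝ}
    (hr : G.len ((a * F g)⁻¹ * (a * F g')) ≤ r) : wr B (g⁻¹ * g') ≤ K * r + 3 * K := by
  have hl := isLen_wr hB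
  have h1 := hl.mul (g⁻¹ * F₂ (F g)) ((F₂ (F g))⁻¹ * g')
  have h2 := hl.mul ((F₂ (F g))⁻¹ * F₂ (F g')) ((F₂ (F g'))⁻¹ * g')
  have h3 := h.gf g
  have h4 := h.gf g'
  have h5 := h.lg (F g) (F g')
  rw [Word_sym hl] at h3
  rw [mul_inv_rev, mul_assoc, inv_mul_cancel_left] at hr
  have h6 := mul_le_mul_of_nonneg_left hr (zero_le_one.trans h.one_le)
  simp only [mul_assoc, mul_inv_cancel_left] at h1 h2
  linarith

theorem ECCount_nb (G : Geo) : ∃ C, 0 ≤ C ∧ ∀ β, 0 ≤ β → ∀ x y : G.V, ‖G.ht x‖ ≤ β →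
    ‖x‖ ≤ Real.exp β → G.len (x⁻¹ * y) ≤ 1 → ‖y‖ ≤ Real.exp (C * (β + 1)) := by
  obtain ⟨C₂, h2⟩ := Mdl.bdd_of_len (M := G.toMdl) 1
  obtain ⟨C₃, p3, h3⟩ := dl_norm G
  obtain ⟨C₄, p4, h4⟩ := st_norm G
  have p2 := abs_nonneg C₂
  refine ⟨C₄ * (1 + C₃ + |C₂|), by positivity, fun β hβ x y a1 a2 a3 => ?_⟩
  have p5 := mul_nonneg p3 hβ
  have e : y = G.st x (G.dl (G.ht x) (x⁻¹ * y)) := by
    rw [← Mdl.mul_def, mul_inv_cancel_left]
  rw [e]
  refine (h4 (β + C₃ * β + |C₂|) (by positivity) _ _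
    (a2.trans (Real.exp_le_exp.2 (by linarith))) ((h3 _ _).trans ?_)).trans
    (Real.exp_le_exp.2 ?_)
  · have b1 : ‖x⁻¹ * y‖ ≤ Real.exp |C₂| := by
      linarith [h2 _ a3, le_abs_self C₂, Real.add_one_le_exp |C₂|]
    refine (mul_le_mul (Real.exp_le_exp.2 (mul_le_mul_of_nonneg_left a1 p3)) b1 (norm_nonneg _)
      (Real.exp_pos _).le).trans ?_
    rw [← Real.exp_add, Real.exp_le_exp]
    linarith
  · rw [mul_assoc]
    refine mul_le_mul_of_nonneg_left ?_ p4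
    nlinarith [mul_nonneg p2 hβ]

theorem count_box {G : Geo} {H : Type*} [Group H] {B : Finset H}
    (hB : Subgroup.closure (B : Set H) = ⊤) {K : ℝ} {F : H → G.V} {F₂ : G.V → H}
    (h : QIp (wr B) G.len K F F₂) (a : G.V) : ∃ C, 0 ≤ C ∧ ∀ β, 0 ≤ β →
      {g | ‖G.ht (a * F g)‖ ≤ β ∧ ‖a * F g‖ ≤ Real.exp β}.Finite ∧
        ({g | ‖G.ht (a * F g)‖ ≤ β ∧ ‖a * F g‖ ≤ Real.exp β}.ncard : ℝ) ≤
          Real.exp (C * (β + 1)) := by
  obtain ⟨C₀, p0, h0⟩ := Mdl.pack (M := G.toMdl)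
  obtain ⟨C₁, p1, h1⟩ := ECCount_nb G
  have hb := finite_ball hB (K * 4 + 3 * K)
  set m := {g | wr B g ≤ K * 4 + 3 * K}.ncard with hm
  refine ⟨C₀ + m + G.N * (1 + C₁), by positivity, fun β hβ => ?_⟩
  have hS : {g | ‖G.ht (a * F g)‖ ≤ β ∧ ‖a * F g‖ ≤ Real.exp β}.Finite := by
    obtain ⟨r, hr⟩ := Mdl.len_of_bdd (M := G.toMdl) (Real.exp β)
    rcases Set.eq_empty_or_nonempty {g | ‖G.ht (a * F g)‖ ≤ β ∧ ‖a * F g‖ ≤ Real.exp β}
      with e | ⟨g₀, hg₀⟩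
    · rw [e]
      exact Set.finite_empty
    · refine ((finite_ball hB (K * (r + r) + 3 * K)).preimage
        (mul_right_injective g₀⁻¹).injOn).subset fun g hg => ECCount_cl hB h a ?_
      refine (Mdl.isLen_len.mul _ _).trans (add_le_add ?_ (hr _ hg.2))
      rw [Mdl.isLen_len.inv]
      exact hr _ hg₀.2
  refine ⟨hS, ?_⟩
  rw [Set.ncard_eq_toFinset_card _ hS]
  set T := hS.toFinset with hT
  have hmem : ∀ i : Fin T.card, ‖G.ht (a * F (T.equivFin.symm i))‖ ≤ β ∧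
      ‖a * F (T.equivFin.symm i)‖ ≤ Real.exp β := fun i =>
    hS.mem_toFinset.1 (T.equivFin.symm i).2
  have h2 := h0 (Measure.count : Measure (Fin T.card)) Set.univ
    (fun i => a * F (T.equivFin.symm i)) m fun y => by
      rw [Measure.count_apply (Set.toFinite _).measurableSet]
      rcases Set.eq_empty_or_nonempty
        {i ∈ Set.univ | G.len (y⁻¹ * (a * F (T.equivFin.symm i))) ≤ 2} with e | ⟨i₀, hi₀⟩
      · rw [e]
        simp
      · have k1 := Set.encard_le_encard_of_injOn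
          (f := fun i => (T.equivFin.symm i₀ : H)⁻¹ * (T.equivFin.symm i : H))
          (s := {i ∈ Set.univ | G.len (y⁻¹ * (a * F (T.equivFin.symm i))) ≤ 2})
          (t := {g | wr B g ≤ K * 4 + 3 * K})
          (fun i hi => ECCount_cl hB h a ((Mdl.Coarse_tri _ y _).trans (by
            rw [Mdl.Coarse_sym]
            linarith [hi.2, hi₀.2])))
          fun i _ j _ e => T.equivFin.symm.injective (Subtype.ext (mul_left_cancel e))
        rw [← hb.cast_ncard_eq] at k1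
        exact_mod_cast k1
  have h3 : volume (G.nb ((fun i => a * F (T.equivFin.symm i)) '' Set.univ) 1) ≤
      ENNReal.ofReal ((2 * Real.exp (C₁ * (β + 1))) ^ G.N) := by
    have k1 := Real.volume_pi_closedBall (0 : Fin G.N → ℝ) (Real.exp_pos (C₁ * (β + 1))).le
    rw [Fintype.card_fin] at k1
    refine le_trans (measure_mono ?_) k1.le
    rintro y ⟨_, ⟨i, -, rfl⟩, hy⟩
    exact mem_closedBall_zero_iff.2 (h1 β hβ _ y (hmem i).1 (hmem i).2 hy)
  have h4 := h2.trans (mul_le_mul_right h3 _)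
  rw [Measure.count_univ, ENat.card_eq_coe_fintype_card, Fintype.card_fin, ENat.toENNReal_coe,
    ← ENNReal.ofReal_natCast, ← ENNReal.ofReal_natCast m, ← ENNReal.ofReal_mul p0.le,
    ← ENNReal.ofReal_mul (by positivity), ENNReal.ofReal_le_ofReal_iff (by positivity)] at h4
  refine h4.trans ?_
  have k1 : C₀ ≤ Real.exp C₀ := by linarith [Real.add_one_le_exp C₀]
  have k2 : (m : ℝ) ≤ Real.exp m := by linarith [Real.add_one_le_exp (m : ℝ)]
  have k3 : (2 : ℝ) ≤ Real.exp 1 := by linarith [Real.add_one_le_exp (1 : ℝ)]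
  calc C₀ * m * (2 * Real.exp (C₁ * (β + 1))) ^ G.N
      ≤ Real.exp C₀ * Real.exp m * (Real.exp 1 * Real.exp (C₁ * (β + 1))) ^ G.N := by gcongr
    _ = Real.exp (C₀ + m + G.N * (1 + C₁ * (β + 1))) := by
        rw [← Real.exp_add, ← Real.exp_add, ← Real.exp_nat_mul, ← Real.exp_add]
    _ ≤ _ := by
        rw [Real.exp_le_exp]
        have k4 : 0 ≤ (C₀ + m + G.N) * β := by positivity
        nlinarith

end Vale.Agent.P188.EC
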