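import Vale.Agent.P188.Defs

/-! Closure properties of polycyclic groups. -/

namespace Vale.Agent.P188

open Relation

variable {G H : Type*} [Group G] [Group H]

theorem Poly_chain {α : Type*} (R : α → α → Prop) (a b : α) :
    (∃ (m : ℕ) (s : ℕ → α), s 0 = a ∧ s m = b ∧ ∀ i < m, R (s i) (s (i + 1))) ↔
      ReflTransGen R a b := by
  constructor
  · rintro ⟨m, s, rfl, rfl, h⟩
    induction m with
    | zero => exact ReflTransGen.refl
    | succ m ih => exact (ih fun i hi => h i (by omega)).tail (h m (by omega))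
  · intro h
    induction h with
    | refl => exact ⟨0, fun _ => a, rfl, rfl, fun i hi => by omega⟩
    | @tail b c _ hbc ih =>
      obtain ⟨m, s, h0, hm, h⟩ := ih
      refine ⟨m + 1, fun i => if i ≤ m then s i else c, by simpa using h0, by simp, fun i hi => ?_⟩
      rcases Nat.lt_succ_iff_lt_or_eq.1 hi with h1 | rfl
      · simpa only [if_pos h1.le, if_pos (Nat.succ_le_of_lt h1)] using h i h1
      · simpa [hm] using hbc

theorem Poly_lift {α β : Type*} {R : α → α → Prop} {S : β → β → Prop} {a b : α}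
    (h : ReflTransGen R a b) (f : α → β) (hf : ∀ x y, R x y → S (f x) (f y)) :
    ReflTransGen S (f a) (f b) := by
  induction h with
  | refl => exact ReflTransGen.refl
  | tail _ h ih => exact ih.tail (hf _ _ h)

/-- one step of a series, with a generator -/
def Poly_St (A B : Subgroup G) : Prop :=
  A ≤ B ∧ (∀ g ∈ B, ∀ x ∈ A, g * x * g⁻¹ ∈ A) ∧ ∃ g ∈ B, ∀ y ∈ B, ∃ k : ℤ, (g ^ k)⁻¹ * y ∈ A

/-- one step of a series, with a homomorphism -/
def Poly_Sh (n : ℕ) (A B : Subgroup G) : Prop :=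
  A ≤ B ∧ ∃ φ : B →* Multiplicative (ZMod n), φ.ker = A.subgroupOf B

theorem Poly_st_iff {A B : Subgroup G} : (A ≤ B ∧ ∃ _ : (A.subgroupOf B).Normal,
    IsCyclic (B ⧸ A.subgroupOf B)) ↔ Poly_St A B := by
  refine and_congr_right fun hAB => ⟨?_, ?_⟩
  · rintro ⟨hn, g, hg⟩
    refine ⟨fun g hg x hx => hn.conj_mem ⟨x, hAB hx⟩ hx ⟨g, hg⟩, ?_⟩
    obtain ⟨g, rfl⟩ := QuotientGroup.mk_surjective g
    refine ⟨g, g.2, fun y hy => ?_⟩
    obtain ⟨k, hk⟩ := hg (QuotientGroup.mk ⟨y, hy⟩)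
    exact ⟨k, (QuotientGroup.eq (s := A.subgroupOf B)).1
      ((QuotientGroup.mk_zpow _ g k).trans hk)⟩
  · rintro ⟨hn, g, hg, h⟩
    have hN : (A.subgroupOf B).Normal := ⟨fun x hx g => hn g g.2 x hx⟩
    refine ⟨hN, QuotientGroup.mk ⟨g, hg⟩, fun y => ?_⟩
    obtain ⟨y, rfl⟩ := QuotientGroup.mk_surjective y
    obtain ⟨k, hk⟩ := h y y.2
    exact ⟨k, (QuotientGroup.mk_zpow _ _ k).symm.trans (QuotientGroup.eq.2 hk)⟩

theorem Poly_st_iff_sh {A B : Subgroup G} : Poly_St A B ↔ ∃ n, Poly_Sh n A B := by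
  rw [← Poly_st_iff]
  constructor
  · rintro ⟨hAB, hn, hc⟩
    refine ⟨_, hAB, (zmodCyclicMulEquiv hc).symm.toMonoidHom.comp (QuotientGroup.mk' _), ?_⟩
    ext x
    simp
  · rintro ⟨n, hAB, φ, hφ⟩
    rw [← hφ]
    exact ⟨hAB, inferInstance, (QuotientGroup.quotientKerEquivRange φ).isCyclic.2 inferInstance⟩

theorem Poly_St.map {A B : Subgroup G} (h : Poly_St A B) (f : G →* H) :
    Poly_St (A.map f) (B.map f) := by
  obtain ⟨h1, h2, g, hg, h3⟩ := h
  refine ⟨Subgroup.map_mono h1, ?_, f g, ⟨g, hg, rfl⟩, ?_⟩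
  · rintro _ ⟨g, hg, rfl⟩ _ ⟨x, hx, rfl⟩
    exact ⟨_, h2 g hg x hx, by simp⟩
  · rintro _ ⟨y, hy, rfl⟩
    obtain ⟨k, hk⟩ := h3 y hy
    exact ⟨k, _, hk, by simp⟩

theorem Poly_Sh.comap {n : ℕ} {A B : Subgroup G} (h : Poly_Sh n A B) (f : H →* G) :
    Poly_Sh n (A.comap f) (B.comap f) := by
  obtain ⟨h1, φ, hφ⟩ := h
  refine ⟨Subgroup.comap_mono h1, φ.comp (f.subgroupComap B), ?_⟩
  rw [← MonoidHom.comap_ker, hφ]
  rfl

theorem Poly_Sh.map {n : ℕ} {A B : Subgroup G} (h : Poly_Sh n A B) {f : G →* H}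
    (hf : Function.Injective f) : Poly_Sh n (A.map f) (B.map f) := by
  obtain ⟨h1, φ, hφ⟩ := h
  refine ⟨Subgroup.map_mono h1, φ.comp (B.equivMapOfInjective f hf).symm.toMonoidHom, ?_⟩
  ext x
  obtain ⟨x, rfl⟩ := (B.equivMapOfInjective f hf).surjective x
  rw [← MonoidHom.comap_ker, hφ, Subgroup.mem_comap, Subgroup.mem_subgroupOf,
    Subgroup.mem_subgroupOf, Subgroup.coe_equivMapOfInjective_apply,
    Subgroup.mem_map_iff_mem hf]
  simp

theorem Poly_St.comap {A B : Subgroup G} (h : Poly_St A B) (f : H →* G) :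
    Poly_St (A.comap f) (B.comap f) := by
  obtain ⟨n, h⟩ := Poly_st_iff_sh.1 h
  exact Poly_st_iff_sh.2 ⟨n, h.comap f⟩

/-- working form of the definition -/
theorem polycyclic_iff : Polycyclic G ↔ ∃ (m : ℕ) (s : ℕ → Subgroup G), s 0 = ⊥ ∧ s m = ⊤ ∧
    ∀ i < m, s i ≤ s (i + 1) ∧ (∀ g ∈ s (i + 1), ∀ x ∈ s i, g * x * g⁻¹ ∈ s i) ∧
      ∃ g ∈ s (i + 1), ∀ y ∈ s (i + 1), ∃ k : ℤ, (g ^ k)⁻¹ * y ∈ s i := by
  unfold Polycyclic
  simp only [Poly_st_iff]
  rfl

theorem Poly_iff : Polycyclic G ↔ ReflTransGen Poly_St (⊥ : Subgroup G) ⊤ :=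
  polycyclic_iff.trans (Poly_chain Poly_St _ _)

theorem Poly_iffZ : PolyZ G ↔ ReflTransGen (Poly_Sh 0) (⊥ : Subgroup G) ⊤ :=
  Poly_chain (Poly_Sh 0) _ _

theorem Polycyclic.of_injective (h : Polycyclic G) (f : H →* G) (hf : Function.Injective f) :
    Polycyclic H := by
  have := Poly_lift (Poly_iff.1 h) (Subgroup.comap f) fun _ _ h => h.comap f
  rw [MonoidHom.comap_bot, (MonoidHom.ker_eq_bot_iff f).2 hf, Subgroup.comap_top] at this
  exact Poly_iff.2 this

theorem Polycyclic.of_surjective (h : Polycyclic G) (f : G →* H) (hf : Function.Surjective f) :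
    Polycyclic H := by
  have := Poly_lift (Poly_iff.1 h) (Subgroup.map f) fun _ _ h => h.map f
  rw [Subgroup.map_bot, Subgroup.map_top_of_surjective f hf] at this
  exact Poly_iff.2 this

theorem Polycyclic.ext (f : G →* H) (h1 : Polycyclic f.ker) (h2 : Polycyclic H) :
    Polycyclic G := by
  have a := Poly_lift (Poly_iff.1 h1) (Subgroup.map f.ker.subtype) fun _ _ h => h.map _
  have b := Poly_lift (Poly_iff.1 h2) (Subgroup.comap f) fun _ _ h => h.comap f
  rw [Subgroup.map_bot, ← MonoidHom.range_eq_map, Subgroup.range_subtype] at a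
  rw [MonoidHom.comap_bot, Subgroup.comap_top] at b
  exact Poly_iff.2 (a.trans b)

theorem Poly_fg {B : Subgroup G} (h : ReflTransGen Poly_St ⊥ B) : B.FG := by
  induction h with
  | refl => exact ⟨∅, by simp⟩
  | @tail A B _ hAB ih =>
    obtain ⟨h1, -, g, hg, h3⟩ := hAB
    have : B = A ⊔ Subgroup.closure {g} := by
      refine le_antisymm (fun y hy => ?_) (sup_le h1 (by simpa using hg))
      obtain ⟨k, hk⟩ := h3 y hy
      rw [← mul_inv_cancel_left (g ^ k) y]
      exact mul_mem (Subgroup.mem_sup_right (zpow_mem (Subgroup.mem_closure_singleton_self g) k))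
        (Subgroup.mem_sup_left hk)
    rw [this]
    exact ih.sup ⟨{g}, by simp⟩

theorem Polycyclic.fg (h : Polycyclic G) : Group.FG G := ⟨Poly_fg (Poly_iff.1 h)⟩

theorem polycyclic_of_comm [Group.FG G] (h : ∀ x y : G, x * y = y * x) : Polycyclic G := by
  classical
  obtain ⟨S, hS⟩ := Group.fg_def.1 ‹_›
  rw [Poly_iff, ← hS]
  clear hS
  induction S using Finset.induction_on with
  | empty => simpa using ReflTransGen.refl
  | insert a S _ ih =>
    refine ih.tail ⟨Subgroup.closure_mono (by simp), fun g _ x hx => ?_, a,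
      Subgroup.subset_closure (by simp), fun y hy => ?_⟩
    · rwa [h g x, mul_inv_cancel_right]
    · induction hy using Subgroup.closure_induction with
      | mem x hx =>
        rcases Finset.mem_insert.1 hx with rfl | hx
        · exact ⟨1, by simp⟩
        · exact ⟨0, by simpa using Subgroup.subset_closure hx⟩
      | one => exact ⟨0, by simp⟩
      | mul x y _ _ hx hy =>
        obtain ⟨k, hk⟩ := hx
        obtain ⟨l, hl⟩ := hy
        refine ⟨l + k, ?_⟩
        have := mul_mem hk hl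
        rwa [mul_assoc, ← mul_assoc x, h x, ← mul_assoc, ← mul_assoc, ← mul_inv_rev, ← zpow_add,
          mul_assoc] at this
      | inv x _ hx =>
        obtain ⟨k, hk⟩ := hx
        refine ⟨-k, ?_⟩
        have := inv_mem hk
        rwa [mul_inv_rev, h, ← zpow_neg] at this

theorem PolyZ.polycyclic (h : PolyZ G) : Polycyclic G :=
  Poly_iff.2 (Poly_lift (Poly_iffZ.1 h) id fun _ _ h => Poly_st_iff_sh.2 ⟨0, h⟩)

theorem PolyZ.of_injective (h : PolyZ G) (f : H →* G) (hf : Function.Injective f) :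
    PolyZ H := by
  have := Poly_lift (Poly_iffZ.1 h) (Subgroup.comap f) fun _ _ h => h.comap f
  rw [MonoidHom.comap_bot, (MonoidHom.ker_eq_bot_iff f).2 hf, Subgroup.comap_top] at this
  exact Poly_iffZ.2 this

theorem Poly_extZ (φ : G →* Multiplicative (ZMod 0)) (h : PolyZ φ.ker) : PolyZ G := by
  have a := Poly_lift (Poly_iffZ.1 h) (Subgroup.map φ.ker.subtype) fun _ _ h =>
    h.map φ.ker.subtype_injective
  rw [Subgroup.map_bot, ← MonoidHom.range_eq_map, Subgroup.range_subtype] at a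
  exact Poly_iffZ.2 (a.tail ⟨le_top, φ.comp (Subgroup.subtype ⊤), rfl⟩)

/-- a subgroup of finite index in a finitely generated group contains a characteristic one -/
theorem exists_char [Group.FG G] (K : Subgroup G) [K.FiniteIndex] :
    ∃ L : Subgroup G, L ≤ K ∧ L.FiniteIndex ∧ L.Characteristic := by
  obtain ⟨S, hS⟩ := Group.fg_def.1 ‹_›
  have : Finite (G →* Equiv.Perm (G ⧸ K)) :=
    Finite.of_injective (fun (φ : G →* Equiv.Perm (G ⧸ K)) (s : S) => φ s) fun φ ψ h =>
      MonoidHom.eq_of_eqOn_dense hS fun s hs => congrFun h ⟨s, hs⟩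
  refine ⟨⨅ φ : G →* Equiv.Perm (G ⧸ K), φ.ker, (iInf_le _ (MulAction.toPermHom G (G ⧸ K))).trans ?_,
    Subgroup.finiteIndex_iInf fun φ => inferInstance,
    Subgroup.characteristic_iff_le_comap.2 fun e x hx => ?_⟩
  · rw [← Subgroup.normalCore_eq_ker]
    exact K.normalCore_le
  · rw [Subgroup.mem_comap, Subgroup.mem_iInf]
    exact fun φ => Subgroup.mem_iInf.1 hx (φ.comp e.toMonoidHom)

theorem Poly_fi_map {N : Subgroup G} [N.FiniteIndex] (K : Subgroup N) [K.FiniteIndex] :
    (K.map N.subtype).FiniteIndex :=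
  ⟨by rw [Subgroup.index_map_subtype]
      exact mul_ne_zero Subgroup.FiniteIndex.index_ne_zero Subgroup.FiniteIndex.index_ne_zero⟩

theorem Poly_fi_comap (K : Subgroup G) [K.FiniteIndex] (f : H →* G) : (K.comap f).FiniteIndex :=
  ⟨by rw [Subgroup.index_comap]
      exact Subgroup.FiniteIndex.index_ne_zero (H := K.subgroupOf f.range)⟩

theorem Poly_fg_of_fi (K : Subgroup G) [K.FiniteIndex] (h : Group.FG K) : Group.FG G := by
  obtain ⟨S, hS, hf⟩ := (Subgroup.fg_iff K).1 ((Group.fg_iff_subgroup_fg K).1 h)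
  refine Group.fg_iff.2 ⟨S ∪ Set.range (Quotient.out : G ⧸ K → G), eq_top_iff.2 fun y _ => ?_,
    hf.union (@Set.finite_range _ (G ⧸ K) _ _)⟩
  obtain ⟨k, hk⟩ := QuotientGroup.mk_out_eq_mul K y
  rw [← mul_inv_cancel_right y k, ← hk]
  exact mul_mem (Subgroup.subset_closure (Or.inr ⟨_, rfl⟩))
    (inv_mem (Subgroup.closure_mono Set.subset_union_left (hS ▸ k.2)))

/-- the inclusion of a subgroup contained in the image of `L` -/
theorem Poly_inc {N : Subgroup G} {K L : Subgroup N} (hL : L ≤ K) {f : H →* G}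
    (hf : Function.Injective f) (h : ∀ x, f x ∈ L.map N.subtype) :
    ∃ g : H →* K, Function.Injective g := by
  have h1 : ∀ x, f x ∈ K.map N.subtype := fun x => Subgroup.map_mono hL (h x)
  exact ⟨(K.equivMapOfInjective _ N.subtype_injective).symm.toMonoidHom.comp (f.codRestrict _ h1),
    (K.equivMapOfInjective _ N.subtype_injective).symm.injective.comp
      ((MonoidHom.injective_codRestrict _ _ h1).2 hf)⟩

theorem Poly_step {N : Subgroup G} (h : Poly_St N ⊤) (hK : ∃ K : Subgroup N, K.FiniteIndex ∧ PolyZ K) :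
    ∃ K : Subgroup G, K.FiniteIndex ∧ PolyZ K := by
  obtain ⟨K, hK, hz⟩ := hK
  by_cases hN : N.FiniteIndex
  · obtain ⟨g, hg⟩ := Poly_inc (le_refl K) (K.map N.subtype).subtype_injective fun x => x.2
    exact ⟨_, Poly_fi_map K, hz.of_injective g hg⟩
  obtain ⟨n, -, ψ, hψ⟩ := Poly_st_iff_sh.1 h
  obtain ⟨-, hn, g, -, hg⟩ := h
  have : N.Normal := ⟨fun x hx g => hn g trivial x hx⟩
  set φ := ψ.comp Subgroup.topEquiv.symm.toMonoidHom
  have hφ : φ.ker = N := by
    rw [← MonoidHom.comap_ker, hψ]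
    rfl
  obtain rfl : n = 0 := by
    by_contra h0
    have : NeZero n := ⟨h0⟩
    exact hN (hφ ▸ inferInstance)
  have := Poly_fg_of_fi K hz.polycyclic.fg
  obtain ⟨L, hL, hL1, hL2⟩ := exists_char K
  have hg1 : φ g ≠ 1 := fun h1 => hN (by
    have : N = ⊤ := eq_top_iff.2 fun y _ => by
      obtain ⟨k, hk⟩ := hg y trivial
      have h2 : g ∈ N := hφ ▸ h1
      exact (mul_mem_cancel_left (inv_mem (zpow_mem h2 k))).1 hk
    rw [this]
    infer_instance)
  refine ⟨L.map N.subtype ⊔ Subgroup.zpowers g, ?_, Poly_extZ (φ.comp (Subgroup.subtype _)) ?_⟩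
  · have : Finite (G ⧸ (L.map N.subtype ⊔ Subgroup.zpowers g)) := by
      refine Finite.of_surjective (fun q : N ⧸ L => ((q.out : N) : G)) fun y => ?_
      obtain ⟨y, rfl⟩ := QuotientGroup.mk_surjective y
      obtain ⟨k, hk⟩ := hg y⁻¹ trivial
      obtain ⟨l, hl⟩ := QuotientGroup.mk_out_eq_mul L ⟨_, inv_mem hk⟩
      refine ⟨QuotientGroup.mk ⟨_, inv_mem hk⟩, QuotientGroup.eq.2 ?_⟩
      rw [hl]
      have e : (((⟨_, inv_mem hk⟩ : N) * l : N) : G)⁻¹ * y = ((l : N) : G)⁻¹ * (g ^ k)⁻¹ := by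
        simp [mul_assoc]
      rw [e]
      exact mul_mem (Subgroup.mem_sup_left (inv_mem ⟨_, l.2, rfl⟩))
        (Subgroup.mem_sup_right (inv_mem ⟨k, rfl⟩))
    exact Subgroup.finiteIndex_of_finite_quotient
  · obtain ⟨f, hf⟩ := Poly_inc hL (f := (Subgroup.subtype _).comp (φ.comp (Subgroup.subtype
      (L.map N.subtype ⊔ Subgroup.zpowers g))).ker.subtype)
      ((Subgroup.subtype_injective _).comp (Subgroup.subtype_injective _)) fun x => by
        obtain ⟨⟨x, hx⟩, h1⟩ := x
        obtain ⟨l, hl, _, ⟨k, rfl⟩, rfl⟩ := Subgroup.mem_sup_of_normal_left.1 hx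
        have h2 : φ l = 1 := by
          obtain ⟨l, -, rfl⟩ := hl
          exact (hφ ▸ l.2 : (l : G) ∈ φ.ker)
        have h3 : φ (l * g ^ k) = 1 := h1
        rw [map_mul, h2, one_mul, map_zpow] at h3
        have h4 : k * (Multiplicative.toAdd (φ g) : ℤ) = 0 := congrArg Multiplicative.toAdd h3
        obtain rfl : k = 0 := (mul_eq_zero.1 h4).resolve_right hg1
        simpa using hl
    exact hz.of_injective f hf

theorem Polycyclic.exists_polyZ (h : Polycyclic G) :
    ∃ K : Subgroup G, K.FiniteIndex ∧ PolyZ K := by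
  have tr : ∀ {X Y : Type _} [Group X] [Group Y] (f : X →* Y), Function.Injective f →
      (∃ K : Subgroup Y, K.FiniteIndex ∧ PolyZ K) → ∃ K : Subgroup X, K.FiniteIndex ∧ PolyZ K := by
    rintro X Y _ _ f hf ⟨K, h1, h2⟩
    exact ⟨K.comap f, Poly_fi_comap K f, h2.of_injective (f.subgroupComap K) fun x y h =>
      Subtype.ext (hf (congrArg Subtype.val h))⟩
  have key : ∀ B : Subgroup G, ReflTransGen Poly_St ⊥ B →
      ∃ K : Subgroup B, K.FiniteIndex ∧ PolyZ K := by
    intro B hB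
    induction hB with
    | refl =>
      refine ⟨⊤, inferInstance, Poly_iffZ.2 ?_⟩
      rw [Subsingleton.elim (⊥ : Subgroup (⊤ : Subgroup (⊥ : Subgroup G))) ⊤]
    | @tail A B _ hAB ih =>
      have h1 := hAB.comap B.subtype
      rw [Subgroup.comap_subtype, Subgroup.comap_subtype, Subgroup.subgroupOf_self] at h1
      exact Poly_step h1 (tr (Subgroup.subgroupOfEquivOfLe hAB.1).toMonoidHom
        (MulEquiv.injective _) ih)
  exact tr Subgroup.topEquiv.symm.toMonoidHom (MulEquiv.injective _) (key ⊤ (Poly_iff.1 h))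

theorem VirtPoly.of_finiteIndex (K : Subgroup G) [K.FiniteIndex] (h : VirtPoly K) :
    VirtPoly G := by
  obtain ⟨L, h1, h2⟩ := h
  obtain ⟨g, hg⟩ := Poly_inc (le_refl L) (L.map K.subtype).subtype_injective fun x => x.2
  exact ⟨_, Poly_fi_map L, h2.of_injective g hg⟩

theorem Poly_ext_comm (f : G →* H) [Group.FG f.range] (hc : ∀ x y, f x * f y = f y * f x)
    (h : Polycyclic f.ker) : Polycyclic G := by
  refine Polycyclic.ext f.rangeRestrict (by rwa [MonoidHom.ker_rangeRestrict])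
    (polycyclic_of_comm ?_)
  rintro ⟨_, x, rfl⟩ ⟨_, y, rfl⟩
  exact Subtype.ext (hc x y)

/-- extensions of a virtually polycyclic group by a finitely generated abelian group -/
theorem VirtPoly.ext [Group.FG G] (f : G →* H) (hH : ∀ x y : H, x * y = y * x)
    (h : VirtPoly f.ker) : VirtPoly G := by
  obtain ⟨K, hK, hp⟩ := h
  have := Poly_fg_of_fi K hp.fg
  obtain ⟨L, hL, hL1, hL2⟩ := exists_char K
  set π := QuotientGroup.mk' (L.map f.ker.subtype)
  have hs : Function.Surjective π := QuotientGroup.mk'_surjective _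
  have : (f.ker.map π).Normal := Subgroup.Normal.map inferInstance π hs
  have hfin : Finite (f.ker.map π) := by
    have e : (π.comp f.ker.subtype).ker = L := by
      rw [← MonoidHom.comap_ker, QuotientGroup.ker_mk',
        Subgroup.comap_map_eq_self_of_injective f.ker.subtype_injective]
    have : (π.comp f.ker.subtype).ker.FiniteIndex := by rwa [e]
    have := Finite.of_equiv _ (QuotientGroup.quotientKerEquivRange (π.comp f.ker.subtype)).toEquiv
    rwa [MonoidHom.range_comp, Subgroup.range_subtype] at this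
  set c : G →* MulAut (f.ker.map π) := MulAut.conjNormal.comp π
  refine ⟨c.ker, inferInstance, Poly_ext_comm (f.comp c.ker.subtype) (fun _ _ => hH _ _) ?_⟩
  set j := c.ker.subtype.comp (f.comp c.ker.subtype).ker.subtype
  have hj : ∀ x, π (j x) ∈ f.ker.map π := fun x => ⟨_, x.2, rfl⟩
  have : Finite (π.comp j).range :=
    Finite.Set.subset (f.ker.map π : Set _) (by rintro _ ⟨x, rfl⟩; exact hj x)
  refine Poly_ext_comm (π.comp j) (fun x y => ?_) ?_
  · have h1 : c (j x) ⟨_, hj y⟩ = ⟨_, hj y⟩ := by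
      rw [show c (j x) = 1 from x.1.2]
      rfl
    exact mul_inv_eq_iff_eq_mul.1 (congrArg Subtype.val h1)
  · obtain ⟨g, hg⟩ := Poly_inc hL (f := j.comp (π.comp j).ker.subtype)
      (((Subgroup.subtype_injective _).comp (Subgroup.subtype_injective _)).comp
        (Subgroup.subtype_injective _)) fun x => (QuotientGroup.eq_one_iff _).1 x.2
    exact hp.of_injective g hg

end Vale.Agent.P188
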