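import Vale.Agent.P188.Defs

/-! Word lengths, quasi-isometric pairs and the lemma of Milnor. -/

namespace Vale.Agent.P188

variable {G H L : Type*} [Group G] [Group H] [Group L]

theorem exists_word {A : Finset G} (hA : Subgroup.closure (A : Set G) = ⊤) (g : G) :
    ∃ l : List G, l.length = wl A g ∧ (∀ x ∈ l, x ∈ A ∨ x⁻¹ ∈ A) ∧ l.prod = g := by
  have hg : g ∈ (Subgroup.closure (A : Set G)).toSubmonoid := by simp [hA]
  rw [Subgroup.closure_toSubmonoid] at hg
  obtain ⟨l, h1, h2⟩ := Submonoid.exists_list_of_mem_closure hg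
  exact Nat.sInf_mem (s := {n | ∃ l : List G, l.length = n ∧ (∀ x ∈ l, x ∈ A ∨ x⁻¹ ∈ A) ∧
    l.prod = g}) ⟨l.length, l, rfl, fun x hx => by simpa using h1 x hx, h2⟩

theorem wl_le {A : Finset G} {l : List G} (h : ∀ x ∈ l, x ∈ A ∨ x⁻¹ ∈ A) :
    wl A l.prod ≤ l.length := Nat.sInf_le ⟨l, rfl, h, rfl⟩

theorem Word_inv {A : Finset G} (hA : Subgroup.closure (A : Set G) = ⊤) (g : G) :
    wl A g⁻¹ ≤ wl A g := by
  obtain ⟨l, h1, h2, rfl⟩ := exists_word hA g
  rw [← h1, List.prod_inv_reverse]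
  refine (wl_le fun x hx => ?_).trans (by simp)
  obtain ⟨y, hy, rfl⟩ := List.mem_map.1 (List.mem_reverse.1 hx)
  simpa [or_comm] using h2 y hy

theorem isLen_wr {A : Finset G} (hA : Subgroup.closure (A : Set G) = ⊤) : IsLen (wr A) := by
  refine ⟨?_, fun x => Nat.cast_nonneg _, fun x => ?_, fun x y => ?_⟩
  · have := wl_le (A := A) (l := []) (by simp)
    simpa [wr] using this
  · have h1 := Word_inv hA x
    have h2 := Word_inv hA x⁻¹
    rw [inv_inv] at h2
    rw [wr, wr, le_antisymm h1 h2]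
  · obtain ⟨l, h1, h2, rfl⟩ := exists_word hA x
    obtain ⟨l', h1', h2', rfl⟩ := exists_word hA y
    have := wl_le (A := A) (l := l ++ l') fun z hz =>
      (List.mem_append.1 hz).elim (h2 z) (h2' z)
    rw [List.prod_append, List.length_append, h1, h1'] at this
    unfold wr
    exact_mod_cast this

theorem finite_ball {A : Finset G} (hA : Subgroup.closure (A : Set G) = ⊤) (r : ℝ) :
    {g | wr A g ≤ r}.Finite := by
  have hS : {x : G | x ∈ A ∨ x⁻¹ ∈ A}.Finite := A.finite_toSet.union A.finite_toSet.inv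
  have := hS.to_subtype
  refine ((List.finite_length_le {x : G | x ∈ A ∨ x⁻¹ ∈ A} ⌈r⌉₊).image
    fun l => (l.map Subtype.val).prod).subset fun g hg => ?_
  obtain ⟨l, h1, h2, rfl⟩ := exists_word hA g
  lift l to List {x : G | x ∈ A ∨ x⁻¹ ∈ A} using h2
  refine ⟨l, ?_, rfl⟩
  rw [List.length_map] at h1
  have h3 : (l.length : ℝ) ≤ ⌈r⌉₊ := by
    rw [h1]
    exact le_trans hg (Nat.le_ceil r)
  exact_mod_cast h3

theorem Word_tri {l : G → ℝ} (hl : IsLen l) (x y z : G) :
    l (x⁻¹ * z) ≤ l (x⁻¹ * y) + l (y⁻¹ * z) := by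
  simpa [mul_assoc] using hl.mul (x⁻¹ * y) (y⁻¹ * z)

theorem Word_sym {l : G → ℝ} (hl : IsLen l) (x y : G) : l (x⁻¹ * y) = l (y⁻¹ * x) := by
  rw [← hl.inv, mul_inv_rev, inv_inv]

/-- a map that moves neighbours a bounded distance is coarsely Lipschitz -/
theorem IsLen.lip {A : Finset G} (hA : Subgroup.closure (A : Set G) = ⊤) {l : H → ℝ}
    (hl : IsLen l) {f : G → H} {C : ℝ} (h : ∀ x, ∀ a ∈ A, l ((f x)⁻¹ * f (x * a)) ≤ C)
    (x y : G) : l ((f x)⁻¹ * f y) ≤ C * wr A (x⁻¹ * y) := by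
  have key : ∀ (w : List G) (x : G), (∀ a ∈ w, a ∈ A ∨ a⁻¹ ∈ A) →
      l ((f x)⁻¹ * f (x * w.prod)) ≤ C * w.length := by
    intro w
    induction w with
    | nil => intro x _; simp [hl.one]
    | cons a w ih =>
      intro x hw
      have h1 : l ((f x)⁻¹ * f (x * a)) ≤ C := by
        rcases hw a (by simp) with ha | ha
        · exact h x a ha
        · have := h (x * a) _ ha
          rw [← hl.inv] at this
          simpa using this
      have h2 := ih (x * a) fun b hb => hw b (by simp [hb])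
      have h3 := Word_tri hl (f x) (f (x * a)) (f (x * a * w.prod))
      rw [List.prod_cons, ← mul_assoc, List.length_cons]
      push_cast
      linarith
  obtain ⟨w, h1, h2, h3⟩ := exists_word hA (x⁻¹ * y)
  have := key w x h2
  rwa [h3, mul_inv_cancel_left, h1] at this

theorem QIp.symm {l : G → ℝ} {l' : H → ℝ} {K : ℝ} {f : G → H} {g : H → G}
    (h : QIp l l' K f g) : QIp l' l K g f := ⟨h.one_le, h.lg, h.lf, h.fg, h.gf⟩

theorem QIp.mono {l : G → ℝ} {l' : H → ℝ} (hl : IsLen l) (hl' : IsLen l') {K K' : ℝ} {f : G → H}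
    {g : H → G} (h : QIp l l' K f g) (hK : K ≤ K') : QIp l l' K' f g :=
  ⟨h.one_le.trans hK,
    fun x y => (h.lf x y).trans (add_le_add (mul_le_mul_of_nonneg_right hK (hl.nonneg _)) hK),
    fun x y => (h.lg x y).trans (add_le_add (mul_le_mul_of_nonneg_right hK (hl'.nonneg _)) hK),
    fun x => (h.gf x).trans hK, fun y => (h.fg y).trans hK⟩

theorem QIp.trans {l : G → ℝ} {l' : H → ℝ} {l'' : L → ℝ} (hl : IsLen l) (hl' : IsLen l')
    (hl'' : IsLen l'') {K K' : ℝ} {f : G → H} {g : H → G} {f' : H → L} {g' : L → H}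
    (h : QIp l l' K f g) (h' : QIp l' l'' K' f' g') :
    QIp l l'' (3 * K * K') (f' ∘ f) (g ∘ g') := by
  have h1 := h.one_le
  have h2 := h'.one_le
  have h3 : K ≤ K * K' := le_mul_of_one_le_right (by linarith) h2
  have h4 : K' ≤ K * K' := le_mul_of_one_le_left (by linarith) h1
  refine ⟨by linarith, fun x y => ?_, fun x y => ?_, fun x => ?_, fun y => ?_⟩
  · have a1 := h'.lf (f x) (f y)
    have a2 := mul_le_mul_of_nonneg_left (h.lf x y) (by linarith : 0 ≤ K')
    have a3 : 0 ≤ K * K' * l (x⁻¹ * y) := mul_nonneg (by linarith) (hl.nonneg _)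
    simp only [Function.comp_apply]
    linarith
  · have a1 := h.lg (g' x) (g' y)
    have a2 := mul_le_mul_of_nonneg_left (h'.lg x y) (by linarith : 0 ≤ K)
    have a3 : 0 ≤ K * K' * l'' (x⁻¹ * y) := mul_nonneg (by linarith) (hl''.nonneg _)
    simp only [Function.comp_apply]
    linarith
  · have a1 := Word_tri hl (g (g' (f' (f x)))) (g (f x)) x
    have a2 := h.lg (g' (f' (f x))) (f x)
    have a3 := mul_le_mul_of_nonneg_left (h'.gf (f x)) (by linarith : 0 ≤ K)
    have a4 := h.gf x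
    simp only [Function.comp_apply]
    linarith
  · have a1 := Word_tri hl'' (f' (f (g (g' y)))) (f' (g' y)) y
    have a2 := h'.lf (f (g (g' y))) (g' y)
    have a3 := mul_le_mul_of_nonneg_left (h.fg (g' y)) (by linarith : 0 ≤ K')
    have a4 := h'.fg y
    simp only [Function.comp_apply]
    linarith

theorem QIp.mul_left {l : G → ℝ} (hl : IsLen l) (a : G) :
    QIp l l 1 (fun x => a * x) (fun x => a⁻¹ * x) := by
  refine ⟨le_rfl, fun x y => ?_, fun x y => ?_, fun x => ?_, fun x => ?_⟩ <;>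
    simp [mul_assoc, hl.one]

theorem qip_of_isQI {A : Finset G} {B : Finset H} (hA : Subgroup.closure (A : Set G) = ⊤)
    (hB : Subgroup.closure (B : Set H) = ⊤) {K C : ℝ} {F : H → G}
    (h : IsQI (wd B) (wd A) K C F) : ∃ K' F', QIp (wr B) (wr A) K' F F' := by
  obtain ⟨h1, h2, h3, h4⟩ := h
  choose F' hF using h4
  have hl := isLen_wr hA
  have hl' := isLen_wr hB
  have h5 : C ≤ K * C := le_mul_of_one_le_left h2 h1
  have h6 : ∀ x x', wr B (x⁻¹ * x') ≤ K * wr A ((F x)⁻¹ * F x') + K * C := fun x x' => by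
    have := (h3 x x').1
    rw [sub_le_iff_le_add, inv_mul_le_iff₀ (by linarith), mul_add] at this
    exact this
  have h7 : ∀ y, wr A (y⁻¹ * F (F' y)) ≤ C := hF
  have h8 : ∀ y, wr A ((F (F' y))⁻¹ * y) ≤ C := fun y => by rw [Word_sym hl]; exact h7 y
  have hK : 0 ≤ K := by linarith
  refine ⟨K + 3 * (K * C), F', by linarith, fun x y => ?_, fun x y => ?_, fun x => ?_,
    fun y => ?_⟩
  · have a1 : wr A ((F x)⁻¹ * F y) ≤ K * wr B (x⁻¹ * y) + C := (h3 x y).2
    have a2 : 0 ≤ K * C * wr B (x⁻¹ * y) := mul_nonneg (by linarith) (hl'.nonneg _)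
    linarith
  · have a1 := h6 (F' x) (F' y)
    have a2 := Word_tri hl (F (F' x)) x (F (F' y))
    have a3 := Word_tri hl x y (F (F' y))
    have a4 : wr A ((F (F' x))⁻¹ * F (F' y)) ≤ C + (wr A (x⁻¹ * y) + C) := by
      linarith [h7 y, h8 x]
    have a5 := mul_le_mul_of_nonneg_left a4 hK
    have a6 : 0 ≤ K * C * wr A (x⁻¹ * y) := mul_nonneg (by linarith) (hl.nonneg _)
    linarith
  · have a1 := h6 (F' (F x)) x
    have a2 := mul_le_mul_of_nonneg_left (h8 (F x)) hK
    linarith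
  · linarith [h8 y]

theorem Word_bdd {X : Type*} {S : Set X} (hS : S.Finite) (l : X → ℝ) :
    ∃ C, 1 ≤ C ∧ ∀ s ∈ S, l s ≤ C := by
  obtain ⟨C, hC⟩ := (hS.image l).bddAbove
  exact ⟨max 1 C, le_max_left _ _, fun s hs => (hC ⟨s, hs, rfl⟩).trans (le_max_right _ _)⟩

/-- the inclusion of a subgroup of finite index -/
theorem qip_subgroup {A : Finset G} (hA : Subgroup.closure (A : Set G) = ⊤) (N : Subgroup G)
    [N.FiniteIndex] : ∃ (B : Finset N) (K : ℝ) (g : G → N),
      Subgroup.closure (B : Set N) = ⊤ ∧ QIp (wr B) (wr A) K (fun x => (x : G)) g := by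
  have : Group.FG G := Group.fg_def.2 ⟨A, hA⟩
  obtain ⟨B, hB⟩ := Group.fg_def.1 (inferInstance : Group.FG N)
  have hl := isLen_wr hA
  have hl' := isLen_wr hB
  choose g hg using fun x : G => QuotientGroup.mk_out_eq_mul N x⁻¹
  have hT : (Set.range (Quotient.out : G ⧸ N → G)).Finite :=
    @Set.finite_range _ _ _ (inferInstance : Finite (G ⧸ N))
  have hg' : ∀ x, x⁻¹ * g x ∈ Set.range (Quotient.out : G ⧸ N → G) := fun x => ⟨_, hg x⟩
  set T := Set.range (Quotient.out : G ⧸ N → G)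
  obtain ⟨C1, h1, hC1⟩ := Word_bdd B.finite_toSet fun b => wr A (b : G)
  obtain ⟨C2, h2, hC2⟩ := Word_bdd (((hT.inv.mul A.finite_toSet).mul hT).preimage
    (f := fun x : N => (x : G)) Subtype.val_injective.injOn) (wr B)
  obtain ⟨C3, h3, hC3⟩ := Word_bdd (hT.preimage
    (f := fun x : N => (x : G)) Subtype.val_injective.injOn) (wr B)
  obtain ⟨C4, h4, hC4⟩ := Word_bdd hT (wr A)
  refine ⟨B, C1 + C2 + C3 + C4, g, hB, by linarith, fun x y => ?_, fun x y => ?_, fun x => ?_,
    fun y => ?_⟩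
  · have a1 := hl.lip hB (f := fun x : N => (x : G)) (C := C1)
      (fun x b hb => by simpa using hC1 b hb) x y
    have a2 : 0 ≤ (C2 + C3 + C4) * wr B (x⁻¹ * y) := mul_nonneg (by linarith) (hl'.nonneg _)
    linarith
  · have a1 := hl'.lip hA (f := g) (C := C2) (fun x a ha => hC2 _
      ⟨_, ⟨(x⁻¹ * g x)⁻¹, by simpa only [Set.mem_inv, inv_inv] using hg' x, a, ha, rfl⟩, _,
        hg' (x * a), by simp [mul_assoc]⟩) x y
    have a2 : 0 ≤ (C1 + C3 + C4) * wr A (x⁻¹ * y) := mul_nonneg (by linarith) (hl.nonneg _)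
    linarith
  · have a1 := hC3 (x⁻¹ * g x) (hg' x)
    rw [Word_sym hl'] at a1
    linarith
  · have a1 := hC4 _ (hg' y)
    rw [Word_sym hl] at a1
    linarith

/-- the words `g x^{e_1} g x^{e_2} ...` -/
def mw (g x : G) (e : List Bool) : G := (e.map fun b => if b then g * x else g).prod

theorem Word_conj {g x y : G} {S : Set ℤ} {K : Subgroup G} (j : ℤ)
    (hy : y ∈ Subgroup.closure ((fun j : ℤ => g ^ j * x * (g ^ j)⁻¹) '' S))
    (h : ∀ i ∈ S, g ^ (j + i) * x * (g ^ (j + i))⁻¹ ∈ K) : g ^ j * y * (g ^ j)⁻¹ ∈ K := by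
  have : Subgroup.closure ((fun j : ℤ => g ^ j * x * (g ^ j)⁻¹) '' S) ≤
      K.comap (MulAut.conj (g ^ j)).toMonoidHom := by
    rw [Subgroup.closure_le]
    rintro _ ⟨i, hi, rfl⟩
    change g ^ j * (g ^ i * x * (g ^ i)⁻¹) * (g ^ j)⁻¹ ∈ K
    simpa [zpow_add, mul_assoc] using h i hi
  exact this hy

theorem Word_mw (g x : G) (e : List Bool) : mw g x e * (g ^ e.length)⁻¹ ∈
    Subgroup.closure ((fun j : ℤ => g ^ j * x * (g ^ j)⁻¹) '' Set.Icc 1 (e.length : ℤ)) := by
  induction e with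
  | nil => simp [mw]
  | cons b e ih =>
    have h1 := Word_conj (K := Subgroup.closure ((fun j : ℤ => g ^ j * x * (g ^ j)⁻¹) ''
      Set.Icc 1 ((b :: e).length : ℤ))) 1 ih fun i hi => Subgroup.subset_closure
        ⟨1 + i, ⟨by linarith [hi.1], by simp only [List.length_cons]; push_cast; linarith [hi.2]⟩,
          rfl⟩
    have h2 : g ^ (1 : ℤ) * x * (g ^ (1 : ℤ))⁻¹ ∈ Subgroup.closure
        ((fun j : ℤ => g ^ j * x * (g ^ j)⁻¹) '' Set.Icc 1 ((b :: e).length : ℤ)) :=
      Subgroup.subset_closure ⟨1, ⟨le_rfl, by simp⟩, rfl⟩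
    cases b
    · simpa [mw, pow_succ', mul_assoc] using h1
    · simpa [mw, pow_succ', mul_assoc] using Subgroup.mul_mem _ h2 h1

theorem Word_zero {g x : G} {r : ℕ} (h : ¬Set.InjOn (mw g x) {e | e.length = r}) : ∃ n : ℕ,
    x ∈ Subgroup.closure ((fun j : ℤ => g ^ j * x * (g ^ j)⁻¹) '' Set.Icc 1 (n : ℤ)) := by
  induction r with
  | zero =>
    refine absurd (fun e he e' he' _ => ?_) h
    rw [List.length_eq_zero_iff.1 he, List.length_eq_zero_iff.1 he']
  | succ r ih =>
    by_contra hc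
    have hi : Set.InjOn (mw g x) {e | e.length = r} := by
      by_contra h0
      exact hc (ih h0)
    have key : ∀ e e' : List Bool, e.length = r → e'.length = r →
        g * x * mw g x e ≠ g * mw g x e' := fun e e' he he' h0 => by
      have a1 := Word_mw g x e
      have a2 := Word_mw g x e'
      rw [he] at a1
      rw [he'] at a2
      rw [mul_assoc, mul_right_inj] at h0
      have a3 := Subgroup.mul_mem _ a2 (Subgroup.inv_mem _ a1)
      rw [← h0] at a3
      exact hc ⟨r, by simpa [mul_assoc] using a3⟩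
    refine h fun e he e' he' h0 => ?_
    obtain ⟨b, e, rfl⟩ := List.exists_cons_of_length_eq_add_one he
    obtain ⟨b', e', rfl⟩ := List.exists_cons_of_length_eq_add_one he'
    have he1 : e.length = r := by simpa using he
    have he2 : e'.length = r := by simpa using he'
    cases b <;> cases b'
    · rw [hi he1 he2 (mul_left_cancel (a := g) h0)]
    · exact absurd h0.symm (key _ _ he2 he1)
    · exact absurd h0 (key _ _ he1 he2)
    · rw [hi he1 he2 (mul_left_cancel (a := g * x) h0)]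

theorem Word_half {g x : G} {r : ℕ} (h : ¬Set.InjOn (mw g x) {e | e.length = r}) : ∃ n : ℕ,
    ∀ j : ℤ, j ≤ 0 → g ^ j * x * (g ^ j)⁻¹ ∈
      Subgroup.closure ((fun j : ℤ => g ^ j * x * (g ^ j)⁻¹) '' Set.Icc 1 (n : ℤ)) := by
  obtain ⟨n, hn⟩ := Word_zero h
  have key : ∀ (k : ℕ) (j : ℤ), 1 - k ≤ j → j ≤ n → g ^ j * x * (g ^ j)⁻¹ ∈
      Subgroup.closure ((fun j : ℤ => g ^ j * x * (g ^ j)⁻¹) '' Set.Icc 1 (n : ℤ)) := by
    intro k
    induction k with
    | zero => exact fun j h1 h2 => Subgroup.subset_closure ⟨j, ⟨by simpa using h1, h2⟩, rfl⟩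
    | succ k ih =>
      intro j h1 h2
      by_cases h3 : 1 - k ≤ j
      · exact ih j h3 h2
      · exact Word_conj j hn fun i hi => ih _ (by have := hi.1; omega) (by have := hi.2; omega)
  exact ⟨n, fun j hj => key (1 - j).toNat j (by omega) (by omega)⟩

/-- Milnor: without a free semigroup the conjugates of `x` by powers of `g` generate a finitely
generated group -/
theorem milnor {g x : G} {r s : ℕ} (h1 : ¬Set.InjOn (mw g x) {e | e.length = r})
    (h2 : ¬Set.InjOn (mw g⁻¹ x) {e | e.length = s}) :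
    (Subgroup.closure (Set.range fun j : ℤ => g ^ j * x * (g ^ j)⁻¹)).FG := by
  obtain ⟨n, hn⟩ := Word_half h1
  obtain ⟨m, hm⟩ := Word_half h2
  refine (Subgroup.fg_iff _).2 ⟨(fun j : ℤ => g ^ j * x * (g ^ j)⁻¹) '' Set.Icc (-m : ℤ) n,
    le_antisymm (Subgroup.closure_mono (Set.image_subset_range _ _)) ?_,
    (Set.finite_Icc _ _).image _⟩
  rw [Subgroup.closure_le]
  rintro _ ⟨j, rfl⟩
  rcases le_total j 0 with hj | hj
  · exact Subgroup.closure_mono (Set.image_mono (Set.Icc_subset_Icc_left (by omega))) (hn j hj)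
  · have := hm (-j) (by omega)
    simp only [inv_zpow', neg_neg] at this
    refine Subgroup.closure_mono ?_ this
    rintro _ ⟨i, hi, rfl⟩
    exact ⟨-i, ⟨by linarith [hi.2], by linarith [hi.1, Int.natCast_nonneg n]⟩, rfl⟩

/-- descent of finite generation along a cyclic quotient -/
theorem fg_of_milnor {B : Finset G} {g : G} (N : Subgroup G) [N.Normal] (hB : (B : Set G) ⊆ N)
    (h : Subgroup.closure (insert g (B : Set G)) = ⊤)
    (hm : ∀ x ∈ B, (Subgroup.closure (Set.range fun j : ℤ => g ^ j * x * (g ^ j)⁻¹)).FG) :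
    N.FG := by
  set P : G → Subgroup G := fun x =>
    Subgroup.closure (Set.range fun j : ℤ => g ^ j * x * (g ^ j)⁻¹) with hP
  set N0 : Subgroup G := ⨆ x ∈ B, P x with hN0
  have f0 : N0.FG := Subgroup.FG.biSup_finset B P hm
  have hle : ∀ x ∈ B, P x ≤ N0 := fun x hx => le_biSup P hx
  have h0 : N0 ≤ N := iSup₂_le fun x hx => (Subgroup.closure_le _).2 (by
    rintro _ ⟨j, rfl⟩
    exact Subgroup.Normal.conj_mem inferInstance x (hB hx) _)
  have hc : ∀ (k : ℤ), ∀ y ∈ N0, g ^ k * y * (g ^ k)⁻¹ ∈ N0 := fun k => by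
    have : N0 ≤ N0.comap (MulAut.conj (g ^ k)).toMonoidHom := iSup₂_le fun x hx y hy =>
      Word_conj (x := x) (S := Set.univ) k (by rwa [Set.image_univ]) fun i _ =>
        hle x hx (Subgroup.subset_closure ⟨_, rfl⟩)
    exact this
  have hy : ∀ y : G, ∃ k : ℤ, y * (g ^ k)⁻¹ ∈ N0 := fun y => by
    have hy : y ∈ Subgroup.closure (insert g (B : Set G)) := by simp [h]
    induction hy using Subgroup.closure_induction with
    | mem y hy =>
      rcases hy with rfl | hy
      · exact ⟨1, by simp⟩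
      · exact ⟨0, hle y hy (Subgroup.subset_closure ⟨0, by simp⟩)⟩
    | one => exact ⟨0, by simp⟩
    | mul y z _ _ h1 h2 =>
      obtain ⟨k, hk⟩ := h1
      obtain ⟨m, hm⟩ := h2
      exact ⟨k + m, by simpa [zpow_add, mul_assoc] using N0.mul_mem hk (hc k _ hm)⟩
    | inv y _ h1 =>
      obtain ⟨k, hk⟩ := h1
      exact ⟨-k, by simpa [mul_assoc] using hc (-k) _ (N0.inv_mem hk)⟩
  obtain ⟨d, hd⟩ := Int.subgroup_cyclic
    { carrier := {k | g ^ k ∈ N}
      add_mem' := fun {a b} ha hb => by simpa [zpow_add] using N.mul_mem ha hb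
      zero_mem' := by simp
      neg_mem' := fun {a} ha => by simpa using ha }
  have hd' : ∀ k : ℤ, g ^ k ∈ N ↔ k ∈ AddSubgroup.closure {d} := fun k => by rw [← hd]; rfl
  have e : N = N0 ⊔ Subgroup.closure {g ^ d} := by
    refine le_antisymm (fun y hyN => ?_) (sup_le h0 ((Subgroup.closure_le _).2 ?_))
    · obtain ⟨k, hk⟩ := hy y
      have h1 : g ^ k ∈ N := by simpa using N.mul_mem (N.inv_mem (h0 hk)) hyN
      obtain ⟨a, rfl⟩ := AddSubgroup.mem_closure_singleton.1 ((hd' k).1 h1)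
      have h2 : g ^ (a • d) ∈ Subgroup.closure {g ^ d} :=
        Subgroup.mem_closure_singleton.2 ⟨a, by rw [← zpow_mul, smul_eq_mul, mul_comm]⟩
      simpa using Subgroup.mul_mem_sup hk h2
    · rintro _ rfl
      exact (hd' d).2 (AddSubgroup.subset_closure rfl)
  rw [e]
  exact f0.sup ((Subgroup.fg_iff _).2 ⟨_, rfl, Set.finite_singleton _⟩)

end Vale.Agent.P188
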