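import Vale.Agent.P188.BoxD
import Vale.Agent.P188.Word
import Vale.Agent.P188.Poly

/-! Working definitions for the endgame. -/

namespace Vale.Agent.P188.EC

open scoped Pointwise

/-- the condition of Folner -/
def Amen (H : Type*) [Group H] : Prop :=
  ∀ S : Set H, S.Finite → ∀ ε : ℝ, 0 < ε →
    ∃ A : Set H, A.Finite ∧ A.Nonempty ∧ ((A * S).ncard : ℝ) ≤ (1 + ε) * A.ncard

/-- the exponential radical is exponentially distorted -/
def LenE (G : Geo) : Prop :=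
  ∃ C : ℝ, 0 ≤ C ∧ ∀ (e : G.V) (ρ : ℝ), e ∈ G.E → 0 ≤ ρ → ‖e‖ ≤ Real.exp ρ → G.len e ≤ C * (ρ + 1)

/-- families of functions that are sublinearly close to the height and grow slowly on flats -/
structure Fam (G : Geo) {ι : Type*} (T : ι → G.V → Ht G.k) : Prop where
  st : ∀ ε > 0, ∃ η : ℝ, ∀ i x y, ‖T i (x * y) - T i x - G.ht y‖ ≤ ε * G.len y + η
  fl : ∃ C : ℝ, ∀ i x p r, p ∈ G.V0 → G.ht p = 0 → ‖p‖ ≤ r → 2 ≤ r →
    ‖T i (x * p) - T i x‖ ≤ C * Real.log r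

/-- a function that is sublinearly close to the height and grows slowly on flats -/
structure Hgt (G : Geo) (Φ : G.V → Ht G.k) : Prop where
  st : ∀ ε > 0, ∃ η : ℝ, ∀ x y, ‖Φ (x * y) - Φ x - G.ht y‖ ≤ ε * G.len y + η
  fl : ∃ C : ℝ, ∀ x p r, p ∈ G.V0 → G.ht p = 0 → ‖p‖ ≤ r → 2 ≤ r →
    ‖Φ (x * p) - Φ x‖ ≤ C * Real.log r

open Classical in
/-- sizes `α` on the letters of weight zero and `α + β` on the others -/
noncomputable def sz2 (G : Geo) (α β : ℝ) : Fin G.n → ℝ :=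
  fun i => α + if G.lam i = 0 then 0 else β

section
variable {H E : Type*} [Group H] [NormedAddCommGroup E]

/-- the norm of the image -/
def nv (φ : H →* Multiplicative E) (h : H) : ℝ := ‖(φ h).toAdd‖

/-- endpoints of paths of `n` steps of size `D` inside a slab -/
def Reach (B : Finset H) (φ : H →* Multiplicative E) (D ρ : ℝ) (n : ℕ) : Set H :=
  {h | ∃ p : ℕ → H, p 0 = 1 ∧ p n = h ∧ (∀ j < n, wr B ((p j)⁻¹ * p (j + 1)) ≤ D) ∧
    ∀ j ≤ n, nv φ (p j) ≤ ρ}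

/-- slabs grow slowly -/
def Slow (B : Finset H) (φ : H →* Multiplicative E) : Prop :=
  ∃ C : ℝ, 0 ≤ C ∧ ∀ (D ρ : ℝ) (n : ℕ), 0 ≤ D → 0 ≤ ρ → (Reach B φ D ρ n).Finite ∧
    ((Reach B φ D ρ n).ncard : ℝ) ≤ Real.exp (C * (ρ + D + Real.log (n + 1) + 1))

/-- the kernel is coarsely connected inside a slab -/
def Conn (B : Finset H) (φ : H →* Multiplicative E) : Prop :=
  ∃ D ρ : ℝ, ∀ h ∈ φ.ker, Relation.ReflTransGen
    (fun a b => nv φ a ≤ ρ ∧ nv φ b ≤ ρ ∧ wr B (a⁻¹ * b) ≤ D) 1 h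

end

end Vale.Agent.P188.EC
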