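import Vale.Agent.P188.ECDefs

/-! The kernel is finitely generated and has polynomial growth. -/

namespace Vale.Agent.P188.EC

variable {H E : Type*} [Group H] [NormedAddCommGroup E] {B : Finset H}
  {φ : H →* Multiplicative E}

theorem ECDesc_mul (a b : H) : nv φ (a * b) ≤ nv φ a + nv φ b := by
  rw [nv, map_mul, toAdd_mul]
  exact norm_add_le _ _

theorem ECDesc_ker {a : H} (h : a ∈ φ.ker) : nv φ a = 0 := by
  rw [nv, MonoidHom.mem_ker.1 h, toAdd_one, norm_zero]

theorem ECDesc_inv (a : H) : nv φ a⁻¹ = nv φ a := by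
  rw [nv, map_inv, toAdd_inv, norm_neg, nv]

theorem ECDesc_prod {t : ℝ} (l : List H) (h : ∀ a ∈ l, nv φ a ≤ t) :
    nv φ l.prod ≤ l.length * t := by
  induction l with
  | nil => simp [ECDesc_ker (one_mem φ.ker)]
  | cons a l ih =>
    have h1 := h a List.mem_cons_self
    have h2 := ih fun b hb => h b (List.mem_cons_of_mem _ hb)
    have h3 := ECDesc_mul (φ := φ) a l.prod
    rw [List.prod_cons, List.length_cons, Nat.cast_succ]
    linarith

theorem ECDesc_reach (hB : Subgroup.closure (B : Set H) = ⊤) {D t : ℝ} (hD : 0 ≤ D) (ht : 0 ≤ t)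
    {n : ℕ} {l : List H} (hn : l.length ≤ n) (h1 : ∀ a ∈ l, wr B a ≤ D)
    (h2 : ∀ a ∈ l, nv φ a ≤ t) : l.prod ∈ Reach B φ D (n * t) n := by
  refine ⟨fun j => (l.take j).prod, rfl, by simp only [List.take_of_length_le hn], fun j _ => ?_,
    fun j hj => ?_⟩
  · by_cases h : j < l.length
    · simp only [List.prod_take_succ l j h, inv_mul_cancel_left]
      exact h1 _ (List.getElem_mem h)
    · simp only [List.take_of_length_le (not_lt.1 h),
        List.take_of_length_le ((not_lt.1 h).trans (Nat.le_succ j)), inv_mul_cancel]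
      exact (isLen_wr hB).one.trans_le hD
  · exact (ECDesc_prod _ fun a ha => h2 a (List.mem_of_mem_take ha)).trans
      (mul_le_mul_of_nonneg_right (Nat.cast_le.2 ((List.length_take_le j l).trans hj)) ht)

theorem ECDesc_mw (M : Subgroup H) {g x : M} {r : ℕ}
    (h : ¬Set.InjOn (mw (g : H) x) {e | e.length = r}) : ¬Set.InjOn (mw g x) {e | e.length = r} := by
  have h1 : ∀ e, ((mw g x e : M) : H) = mw (g : H) x e := fun e => by
    rw [mw, mw, Subgroup.val_list_prod, List.map_map]
    refine congrArg _ (List.map_congr_left fun b _ => ?_)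
    cases b <;> rfl
  exact fun h2 => h fun a ha b hb h3 => h2 ha hb (Subtype.ext (by rw [h1, h1, h3]))

theorem not_injOn (hB : Subgroup.closure (B : Set H) = ⊤) (hs : Slow B φ) :
    ∃ δ > 0, ∀ g x : H, nv φ g ≤ δ → nv φ x ≤ δ →
      ∃ r, ¬Set.InjOn (mw g x) {e | e.length = r} := by
  obtain ⟨C, hC, h⟩ := hs
  obtain ⟨δ, hδ, hCδ⟩ : ∃ δ : ℝ, 0 < δ ∧ C * (δ + δ) ≤ 1 / 4 := by
    refine ⟨1 / (8 * (C + 1)), by positivity, ?_⟩
    rw [← add_div, ← mul_div_assoc, div_le_iff₀ (by positivity)]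
    linarith
  refine ⟨δ, hδ, fun g x hg hx => ?_⟩
  by_contra hn
  have hl := isLen_wr hB
  have hD := add_nonneg (hl.nonneg g) (hl.nonneg x)
  obtain ⟨r, hr⟩ := exists_nat_gt
    (10 * (1 + C * (wr B g + wr B x + 1 - Real.log (δ + δ))))
  have h1 : Set.InjOn (mw g x) {e | e.length = r} := by_contra fun h2 => hn ⟨r, h2⟩
  obtain ⟨h2, h3⟩ := h (wr B g + wr B x) (r * (δ + δ)) r hD (by positivity)
  have h4 := Set.ncard_le_ncard_of_injOn (s := Set.univ)
    (fun e : Fin r → Bool => mw g x (List.ofFn e)) (fun e _ => ?_) (fun a _ b _ h5 =>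
      List.ofFn_injective (h1 List.length_ofFn List.length_ofFn h5)) h2
  · rw [Set.ncard_univ, Nat.card_fun, Nat.card_eq_fintype_card, Nat.card_eq_fintype_card,
      Fintype.card_bool, Fintype.card_fin] at h4
    have h5 := (Nat.cast_le.2 h4).trans h3
    rw [Nat.cast_pow, Nat.cast_ofNat, ← Real.exp_log two_pos, ← Real.exp_nat_mul,
      Real.exp_le_exp] at h5
    have h6 := Real.log_le_sub_one_of_pos (x := (r + 1) * (δ + δ)) (by positivity)
    rw [Real.log_mul (by positivity) (by positivity)] at h6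
    have h7 := mul_le_mul_of_nonneg_left h6 hC
    have h8 := mul_le_mul_of_nonneg_left hCδ (Nat.cast_nonneg r)
    have h9 := mul_le_mul_of_nonneg_left Real.log_two_gt_d9.le (Nat.cast_nonneg r)
    have h10 : (0 : ℝ) ≤ r := Nat.cast_nonneg r
    linarith
  · refine ECDesc_reach hB hD (by positivity) (by simp) (fun a ha => ?_) fun a ha => ?_
    · obtain ⟨b, -, rfl⟩ := List.mem_map.1 ha
      cases b
      · exact le_add_of_nonneg_right (hl.nonneg x)
      · exact hl.mul g x
    · obtain ⟨b, -, rfl⟩ := List.mem_map.1 ha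
      cases b
      · exact hg.trans (le_add_of_nonneg_right hδ.le)
      · exact (ECDesc_mul g x).trans (add_le_add hg hx)

theorem fg_ker {δ : ℝ} (hδ : 0 ≤ δ) (hm : ∀ g x : H, nv φ g ≤ δ → nv φ x ≤ δ →
      ∃ r, ¬Set.InjOn (mw g x) {e | e.length = r}) (S T : Finset H) (hS : ∀ g ∈ S, nv φ g ≤ δ)
    (hT : (T : Set H) ⊆ φ.ker) (h : φ.ker ≤ Subgroup.closure ((S : Set H) ∪ T)) :
    φ.ker.FG := by
  classical
  induction S using Finset.induction_on generalizing T with
  | empty =>
    rw [Finset.coe_empty, Set.empty_union] at h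
    exact ⟨T, le_antisymm ((Subgroup.closure_le _).2 hT) h⟩
  | insert g S _ ih =>
    obtain ⟨N, hN⟩ : ∃ N : Subgroup H, N = ((Subgroup.closure (S : Set H)).map φ).comap φ :=
      ⟨_, rfl⟩
    haveI : N.Normal := hN ▸ Subgroup.Normal.comap inferInstance φ
    have h1 : ∀ y ∈ N, ∃ s ∈ Subgroup.closure (S : Set H), y * s⁻¹ ∈ φ.ker := fun y hy => by
      rw [hN] at hy
      obtain ⟨s, hs, h2⟩ := hy
      exact ⟨s, hs, by rw [MonoidHom.mem_ker, map_mul, map_inv, h2, mul_inv_cancel]⟩
    have h2 : φ.ker ≤ N := fun y hy => by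
      rw [hN, Subgroup.mem_comap, MonoidHom.mem_ker.1 hy]
      exact one_mem _
    have h3 : (S : Set H) ⊆ N := fun y hy => by
      rw [hN]
      exact ⟨y, Subgroup.subset_closure hy, rfl⟩
    have h4 : N ≤ Subgroup.closure ((insert g S : Finset H) ∪ T : Set H) := fun y hy => by
      obtain ⟨s, hs, h5⟩ := h1 y hy
      rw [← inv_mul_cancel_right y s]
      exact mul_mem (h h5) (Subgroup.closure_mono (fun z hz => Or.inl
        (Finset.mem_coe.2 (Finset.mem_insert_of_mem hz))) hs)
    have h5 : ((↑) ⁻¹' (S ∪ T : Set H) :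
        Set (Subgroup.closure ((insert g S : Finset H) ∪ T : Set H))).Finite :=
      (S.finite_toSet.union T.finite_toSet).preimage Subtype.val_injective.injOn
    have hg := hS g (Finset.mem_insert_self g S)
    have h6 := fg_of_milnor (B := h5.toFinset)
      (g := ⟨g, Subgroup.subset_closure (Or.inl (Finset.mem_insert_self g S))⟩) (N.subgroupOf _)
      (fun y hy => ?_) ?_ fun y hy => ?_
    · obtain ⟨W, hW⟩ := h6
      have h7 := congrArg (Subgroup.map (Subgroup.subtype _)) hW
      rw [Subgroup.map_subgroupOf_eq_of_le h4, MonoidHom.map_closure] at h7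
      rw [← Finset.coe_image] at h7
      obtain ⟨W', h7⟩ : ∃ W' : Finset H, Subgroup.closure (W' : Set H) = N := ⟨_, h7⟩
      have h8 : ∀ w ∈ W', w ∈ N := fun w hw => h7 ▸ Subgroup.subset_closure hw
      choose! s hs hk using h1
      refine ih (W'.image fun w => w * (s w)⁻¹)
        (fun y hy => hS y (Finset.mem_insert_of_mem hy)) (fun y hy => ?_) (h2.trans ?_)
      · obtain ⟨w, hw, rfl⟩ := Finset.mem_image.1 hy
        exact hk _ (h8 w hw)
      · rw [← h7, Subgroup.closure_le]
        intro w hw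
        rw [← inv_mul_cancel_right w (s w)]
        exact mul_mem (Subgroup.subset_closure (Or.inr (Finset.mem_image_of_mem _ hw)))
          (Subgroup.closure_mono Set.subset_union_left (hs _ (h8 w hw)))
    · exact (h5.mem_toFinset.1 hy).elim (fun h7 => h3 h7) fun h7 => h2 (hT h7)
    · rw [eq_top_iff, ← Subgroup.closure_closure_coe_preimage]
      refine Subgroup.closure_mono fun y hy => ?_
      rcases hy with hy | hy
      · rcases Finset.mem_insert.1 hy with hy | hy
        · exact Or.inl (Subtype.ext hy)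
        · exact Or.inr (h5.mem_toFinset.2 (Or.inl hy))
      · exact Or.inr (h5.mem_toFinset.2 (Or.inr hy))
    · have h7 : nv φ y ≤ δ := (h5.mem_toFinset.1 hy).elim
        (fun h7 => hS _ (Finset.mem_insert_of_mem h7)) fun h7 => (ECDesc_ker (hT h7)).trans_le hδ
      obtain ⟨r, hr⟩ := hm g y hg h7
      obtain ⟨s, hs⟩ := hm g⁻¹ y ((ECDesc_inv g).trans_le hg) h7
      exact milnor (ECDesc_mw _ hr) (ECDesc_mw _ hs)

theorem polyGrowth_ker (hB : Subgroup.closure (B : Set H) = ⊤) (hs : Slow B φ)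
    (A : Finset φ.ker) (hA : Subgroup.closure (A : Set φ.ker) = ⊤) : PolyGrowth A := by
  obtain ⟨C, hC, h⟩ := hs
  have hl := isLen_wr hB
  have hD : 0 ≤ ∑ a ∈ A, wr B a := Finset.sum_nonneg fun a _ => hl.nonneg _
  have h1 : ∀ a ∈ A, wr B (a : H) ≤ ∑ a ∈ A, wr B a := fun a ha =>
    Finset.single_le_sum (f := fun a : φ.ker => wr B (a : H)) (fun a _ => hl.nonneg _) ha
  refine ⟨Real.exp (C * (∑ a ∈ A, wr B a + 1)), ⌈C⌉₊, fun n => ?_⟩
  obtain ⟨h2, h3⟩ := h (∑ a ∈ A, wr B a) (n * 0) n hD (by positivity)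
  have h4 := Set.ncard_le_ncard_of_injOn (s := {g : φ.ker | wl A g ≤ n}) (↑) (fun g hg => ?_)
    Subtype.val_injective.injOn h2
  · refine ((Nat.cast_le.2 h4).trans h3).trans ?_
    have h5 : (0 : ℝ) < n + 1 := by positivity
    have h6 := mul_le_mul_of_nonneg_right (Nat.le_ceil C)
      (Real.log_nonneg (le_add_of_nonneg_left (Nat.cast_nonneg n) : (1 : ℝ) ≤ n + 1))
    rw [← Real.exp_log (pow_pos h5 _), Real.log_pow, ← Real.exp_add, Real.exp_le_exp]
    linarith
  · obtain ⟨l, h5, h6, rfl⟩ := exists_word hA g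
    rw [Subgroup.val_list_prod]
    refine ECDesc_reach hB hD le_rfl (by rw [List.length_map, h5]; exact hg) (fun a ha => ?_)
      fun a ha => ?_
    · obtain ⟨b, hb, rfl⟩ := List.mem_map.1 ha
      exact (h6 b hb).elim (h1 b) fun h7 => (hl.inv _).ge.trans (h1 _ h7)
    · obtain ⟨b, -, rfl⟩ := List.mem_map.1 ha
      exact (ECDesc_ker b.2).le

end Vale.Agent.P188.EC
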