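import Vale.Agent.P188.ECDefs

/-! Averaging a coarsely Lipschitz function to a homomorphism. -/

namespace Vale.Agent.P188.EC

open Filter Topology
open scoped Pointwise

theorem ECMean_avg {H E : Type*} [NormedAddCommGroup E] [NormedSpace ℝ E] {B : Finset H}
    (hB : B.Nonempty) {f : H → E} {v : E} {r : ℝ} (h : ∀ u, ‖f u - v‖ ≤ r) :
    ‖(B.card : ℝ)⁻¹ • ∑ u ∈ B, f u - v‖ ≤ r := by
  have hc : (0 : ℝ) < B.card := Nat.cast_pos.2 hB.card_pos
  have e : (B.card : ℝ)⁻¹ • ∑ u ∈ B, f u - v = (B.card : ℝ)⁻¹ • ∑ u ∈ B, (f u - v) := by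
    rw [Finset.sum_sub_distrib, Finset.sum_const, smul_sub, ← Nat.cast_smul_eq_nsmul ℝ, smul_smul,
      inv_mul_cancel₀ hc.ne', one_smul]
  rw [e, norm_smul, norm_inv, Real.norm_of_nonneg hc.le, inv_mul_le_iff₀ hc, ← nsmul_eq_mul]
  exact (norm_sum_le _ _).trans (Finset.sum_le_card_nsmul _ _ _ fun u _ => h u)

theorem ECMean_inv {H E : Type*} [Group H] [DecidableEq H] [NormedAddCommGroup E] [NormedSpace ℝ E]
    {B : Finset H} (hB : B.Nonempty) {c : H → E} {C ε : ℝ} (hC : ∀ u, ‖c u‖ ≤ C) (h : H)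
    (hc : ((B.image (· * h) ∪ B).card : ℝ) ≤ (1 + ε) * B.card) :
    ‖(B.card : ℝ)⁻¹ • (∑ u ∈ B, c (u * h) - ∑ u ∈ B, c u)‖ ≤ 2 * C * ε := by
  have h0 : (0 : ℝ) < B.card := Nat.cast_pos.2 hB.card_pos
  have hC0 : 0 ≤ C := (norm_nonneg _).trans (hC 1)
  have h1 : ∑ u ∈ B, c (u * h) = ∑ u ∈ B.image (· * h), c u :=
    (Finset.sum_image fun _ _ _ _ e => mul_right_cancel e).symm
  have h2 : (B.image (· * h)).card = B.card :=
    Finset.card_image_of_injective _ (mul_left_injective h)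
  have h3 : ∀ s : Finset H, ‖∑ u ∈ s, c u‖ ≤ s.card * C := fun s => by
    rw [← nsmul_eq_mul]
    exact (norm_sum_le _ _).trans (Finset.sum_le_card_nsmul _ _ _ fun u _ => hC u)
  have h4 : ((B.image (· * h) \ B).card : ℝ) ≤ ε * B.card := by
    rw [← Finset.card_sdiff_add_card, Nat.cast_add] at hc
    linarith
  have h5 := h3 (B \ B.image (· * h))
  rw [← Finset.card_sdiff_comm h2] at h5
  rw [h1, ← Finset.sum_sdiff_sub_sum_sdiff, norm_smul, norm_inv, Real.norm_of_nonneg h0.le,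
    inv_mul_le_iff₀ h0]
  refine (norm_sub_le _ _).trans ?_
  nlinarith [h3 (B.image (· * h) \ B), mul_le_mul_of_nonneg_right h4 hC0]

theorem exists_mean {H E : Type*} [Group H] [NormedAddCommGroup E] [NormedSpace ℝ E]
    [FiniteDimensional ℝ E] (hH : Amen H) (τ : H → E)
    (hτ : ∀ h, ∃ C, ∀ u, ‖τ (u * h) - τ u‖ ≤ C) :
    ∃ φ : H →* Multiplicative E, ∀ h v r, (∀ u, ‖τ (u * h) - τ u - v‖ ≤ r) →
      ‖(φ h).toAdd - v‖ ≤ r := by
  classical
  have := FiniteDimensional.proper_real E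
  have hA : ∀ i : Finset H × ℕ, ∃ B : Finset H, B.Nonempty ∧ ∀ h ∈ i.1,
      ((B.image (· * h) ∪ B).card : ℝ) ≤ (1 + 1 / ((i.2 : ℝ) + 1)) * B.card := by
    intro i
    obtain ⟨A, h1, h2, h3⟩ := hH (insert 1 (i.1 : Set H)) (i.1.finite_toSet.insert 1)
      (1 / ((i.2 : ℝ) + 1)) (by positivity)
    lift A to Finset H using h1
    refine ⟨A, h2, fun h hh => ?_⟩
    rw [Set.ncard_coe_finset] at h3
    refine le_trans (Nat.cast_le.2 ?_) h3
    rw [← Set.ncard_coe_finset]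
    refine Set.ncard_le_ncard (fun x hx => ?_) (A.finite_toSet.mul (i.1.finite_toSet.insert 1))
    rcases Finset.mem_union.1 hx with hx | hx
    · obtain ⟨u, hu, rfl⟩ := Finset.mem_image.1 hx
      exact Set.mul_mem_mul hu (Set.mem_insert_of_mem _ hh)
    · exact ⟨x, hx, 1, Set.mem_insert _ _, mul_one x⟩
  choose B hB hB' using hA
  choose C hC using hτ
  let U : Ultrafilter (Finset H × ℕ) := Ultrafilter.of atTop
  have hU : (U : Filter (Finset H × ℕ)) ≤ atTop := Ultrafilter.of_le _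
  have hm : ∀ h, ∃ x, Tendsto (fun i => ((B i).card : ℝ)⁻¹ • ∑ u ∈ B i, (τ (u * h) - τ u))
      U (𝓝 x) := by
    intro h
    obtain ⟨x, -, hx⟩ := (isCompact_closedBall (0 : E) (C h)).ultrafilter_le_nhds
      (U.map fun i => ((B i).card : ℝ)⁻¹ • ∑ u ∈ B i, (τ (u * h) - τ u))
      (le_principal_iff.2 (mem_map.2 (univ_mem' fun i => mem_closedBall_iff_norm.2
        (ECMean_avg (hB i) fun u => by rw [sub_zero]; exact hC h u))))
    exact ⟨x, hx⟩
  choose φ hφ using hm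
  have hadd : ∀ h h', φ (h * h') = φ h + φ h' := by
    intro h h'
    have h1 := ((hφ (h * h')).sub (hφ h)).sub (hφ h')
    have h2 : Tendsto (fun i : Finset H × ℕ => 2 * C h' * (1 / ((i.2 : ℝ) + 1))) U (𝓝 0) := by
      have h3 : Tendsto (Prod.snd : Finset H × ℕ → ℕ) atTop atTop := by
        rw [← prod_atTop_atTop_eq]
        exact tendsto_snd
      have h4 := ((tendsto_one_div_add_atTop_nhds_zero_nat (𝕜 := ℝ)).comp h3).const_mul (2 * C h')
      rw [mul_zero] at h4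
      exact h4.mono_left hU
    have h5 := tendsto_nhds_unique h1 (squeeze_zero_norm' ?_ h2)
    · rwa [sub_sub, sub_eq_zero] at h5
    · filter_upwards [hU (mem_atTop (({h}, 0) : Finset H × ℕ))] with i hi
      have h6 := ECMean_inv (hB i) (hC h') h (hB' i h (hi.1 (Finset.mem_singleton_self h)))
      refine le_trans (le_of_eq ?_) h6
      rw [← smul_sub, ← smul_sub, ← Finset.sum_sub_distrib]
      simp only [mul_assoc, sub_sub_sub_cancel_right]
  refine ⟨MonoidHom.mk' (fun h => Multiplicative.ofAdd (φ h)) fun h h' => by rw [hadd, ofAdd_add],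
    fun h v r hr => ?_⟩
  exact le_of_tendsto' ((hφ h).sub_const v).norm fun i => ECMean_avg (hB i) hr

end Vale.Agent.P188.EC
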