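import Vale.Agent.P188.ECDefs

/-! Measurable inverses. -/

namespace Vale.Agent.P188.EC

open Mdl Pointwise TopologicalSpace

theorem exists_meas {M : Mdl} {H : Type*} [Group H] {l : H → ℝ} (hl : IsLen l) {K : ℝ}
    {F : H → M.V} {F₂ : M.V → H} (h : QIp l M.len K F F₂) :
    ∃ (K' : ℝ) (F₃ : M.V → H), QIp l M.len K' F F₃ ∧
      ∀ ψ : H → M.V, Measurable fun y => ψ (F₃ y) := by
  classical
  have : Nonempty M.V := ⟨0⟩
  have h1 : ∀ y : M.V, ∃ n, y⁻¹ * denseSeq M.V n ∈ M.U := fun y =>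
    (denseRange_denseSeq M.V).exists_mem_open (isOpen_U.preimage (continuous_const_mul y⁻¹))
      ⟨y, by simpa using Len_one⟩
  have h2 : ∀ y : M.V, M.len (y⁻¹ * denseSeq M.V (Nat.find (h1 y))) ≤ 1 := fun y => by
    have := (len_le_iff _ 1).2 (by rw [pow_one]; exact Nat.find_spec (h1 y))
    rwa [Nat.cast_one] at this
  have h3 : ∀ y : M.V, M.len ((denseSeq M.V (Nat.find (h1 y)))⁻¹ * y) ≤ 1 := fun y => by
    rw [← isLen_len.inv, mul_inv_rev, inv_inv]
    exact h2 y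
  have hK := h.one_le
  refine ⟨3 * K, fun y => F₂ (denseSeq M.V (Nat.find (h1 y))), ⟨by linarith, fun x y => ?_,
    fun x y => ?_, fun x => ?_, fun y => ?_⟩, fun ψ => ?_⟩
  · nlinarith [h.lf x y, hl.nonneg (x⁻¹ * y)]
  · have h4 := h.lg (denseSeq M.V (Nat.find (h1 x))) (denseSeq M.V (Nat.find (h1 y)))
    have h5 := isLen_len.mul ((denseSeq M.V (Nat.find (h1 x)))⁻¹ * x)
      (x⁻¹ * y * (y⁻¹ * denseSeq M.V (Nat.find (h1 y))))
    have h6 := isLen_len.mul (x⁻¹ * y) (y⁻¹ * denseSeq M.V (Nat.find (h1 y)))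
    rw [mul_assoc x⁻¹, mul_inv_cancel_left, mul_assoc, mul_inv_cancel_left] at h5
    rw [mul_assoc x⁻¹, mul_inv_cancel_left] at h6
    nlinarith [h2 y, h3 x, isLen_len.nonneg (x⁻¹ * y)]
  · have h4 := h.lg (denseSeq M.V (Nat.find (h1 (F x)))) (F x)
    have h5 := hl.mul ((F₂ (denseSeq M.V (Nat.find (h1 (F x)))))⁻¹ * F₂ (F x)) ((F₂ (F x))⁻¹ * x)
    rw [mul_assoc, mul_inv_cancel_left] at h5
    nlinarith [h3 (F x), h.gf x]
  · have h5 := isLen_len.mul ((F (F₂ (denseSeq M.V (Nat.find (h1 y)))))⁻¹ *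
      denseSeq M.V (Nat.find (h1 y))) ((denseSeq M.V (Nat.find (h1 y)))⁻¹ * y)
    rw [mul_assoc, mul_inv_cancel_left] at h5
    linarith [h3 y, h.fg (denseSeq M.V (Nat.find (h1 y)))]
  · exact (measurable_from_nat (f := fun n => ψ (F₂ (denseSeq M.V n)))).comp
      (measurable_find h1 fun n =>
        (isOpen_U.preimage (continuous_inv.mul continuous_const)).measurableSet)

end Vale.Agent.P188.EC
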