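import Vale.Agent.P188.ECBox

/-! Paths in a slab have bounded height. -/

namespace Vale.Agent.P188.EC

theorem ECPath_step {G : Geo} (hE : LenE G) {Φ : G.V → Ht G.k} (hΦ : Hgt G Φ) {C₁ : ℝ}
    (h₁ : 0 ≤ C₁) : ∃ K, 0 ≤ K ∧ ∀ (L α : ℝ) (v : G.V), 1 ≤ L → 0 ≤ α → α ≤ C₁ * L →
      v ∈ G.B (sz2 G α (C₁ * ‖G.ht v‖)) → ‖G.ht v‖ ≤ 2 * ‖Φ v - Φ 1‖ + K * L := by
  obtain ⟨C₂, h₂, hs⟩ := box_split hE
  obtain ⟨C₃, h₃, hX⟩ := len_X G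
  obtain ⟨C₄, hf⟩ := hΦ.fl
  have hp : 0 < 2 * (C₃ + C₂ * C₁ + 1) := by positivity
  obtain ⟨η, hη⟩ := hΦ.st (1 / (2 * (C₃ + C₂ * C₁ + 1))) (by positivity)
  set ε := 1 / (2 * (C₃ + C₂ * C₁ + 1)) with hε
  have hε0 : 0 < ε := by positivity
  have hε1 : ε * (C₃ + C₂ * C₁ + 1) = 1 / 2 := by
    rw [hε]
    field_simp
  have hε2 : ε ≤ 1 := by nlinarith [mul_nonneg hε0.le h₃, mul_nonneg hε0.le (mul_nonneg h₂ h₁)]
  refine ⟨2 * (C₃ + C₂ * (C₁ + 1) + 2 * |η| + |C₄| * (1 + C₂ * (C₁ + 1))), by positivity,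
    fun L α v hL hα hαL hv => ?_⟩
  obtain ⟨-, e, q, he, he0, hel, hq, hq0, hqn⟩ := hs α _ hα (by positivity) v hv
  set M := ‖G.ht v‖ with hM
  have hM0 : 0 ≤ M := norm_nonneg _
  have a1 := hη (e * q) (G.X (G.ht v))
  rw [← he, G.ht_X] at a1
  have hx := Real.one_le_exp (show 0 ≤ C₂ * (α + 1) by positivity)
  have a2 := hf e q (2 * Real.exp (C₂ * (α + 1))) hq hq0 (by linarith) (by linarith)
  have a3 := hη 1 e
  rw [one_mul, he0, sub_zero] at a3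
  have b1 : C₂ * (α + 1) ≤ C₂ * (C₁ + 1) * L := by
    rw [mul_assoc]
    exact mul_le_mul_of_nonneg_left (by nlinarith) h₂
  have b2 : C₄ * Real.log (2 * Real.exp (C₂ * (α + 1))) ≤ |C₄| * (1 + C₂ * (C₁ + 1)) * L := by
    have b3 : Real.log 2 ≤ 1 := by linarith [Real.log_le_sub_one_of_pos (show (0 : ℝ) < 2 by norm_num)]
    refine (mul_le_mul_of_nonneg_right (le_abs_self C₄) (Real.log_nonneg (by linarith))).trans ?_
    rw [Real.log_mul two_ne_zero (Real.exp_ne_zero _), Real.log_exp, mul_assoc]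
    exact mul_le_mul_of_nonneg_left (by linarith) (abs_nonneg _)
  have b4 := mul_le_mul_of_nonneg_left (hX (G.ht v)) hε0.le
  have b5 := mul_le_mul_of_nonneg_left hel hε0.le
  have b6 : M ≤ ‖Φ v - Φ 1‖ + (‖Φ v - Φ (e * q) - G.ht v‖ + ‖Φ (e * q) - Φ e‖ + ‖Φ e - Φ 1‖) := by
    have e1 : G.ht v = (Φ v - Φ 1) -
        ((Φ v - Φ (e * q) - G.ht v) + (Φ (e * q) - Φ e) + (Φ e - Φ 1)) := by abel
    calc M = ‖(Φ v - Φ 1) -
        ((Φ v - Φ (e * q) - G.ht v) + (Φ (e * q) - Φ e) + (Φ e - Φ 1))‖ := by rw [← e1]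
      _ ≤ _ := (norm_sub_le _ _).trans (add_le_add le_rfl norm_add₃_le)
  have b7 : ε * (C₃ + C₂ * C₁) * M ≤ M / 2 := by nlinarith
  have b8 : ε * C₃ ≤ C₃ * L := by nlinarith
  have b9 : ε * (C₂ * (α + 1)) ≤ C₂ * (α + 1) := mul_le_of_le_one_left (by positivity) hε2
  have b10 : η ≤ |η| * L := (le_abs_self η).trans (le_mul_of_one_le_right (abs_nonneg _) hL)
  rw [← hM] at b4
  linarith

theorem path_bound {G : Geo} (hE : LenE G) {Φ : G.V → Ht G.k} (hΦ : Hgt G Φ) :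
    ∃ C, 0 ≤ C ∧ ∀ (D ρ : ℝ) (n : ℕ) (p : ℕ → G.V), 0 ≤ D → 0 ≤ ρ → p 0 = 1 →
      (∀ j < n, G.len ((p j)⁻¹ * p (j + 1)) ≤ D) → (∀ j ≤ n, ‖Φ (p j) - Φ 1‖ ≤ ρ) →
        ‖G.ht (p n)‖ ≤ C * (ρ + D + Real.log (n + 1) + 1) ∧
          ‖p n‖ ≤ Real.exp (C * (ρ + D + Real.log (n + 1) + 1)) := by
  obtain ⟨C₁, h₁, hb⟩ := path_box G
  obtain ⟨C₂, h₂, hs⟩ := box_split hE
  obtain ⟨K, hK, hst⟩ := ECPath_step hE hΦ h₁
  refine ⟨(2 + K) + C₂ * (C₁ + C₁ * (2 + K) + 1), by positivity,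
    fun D ρ n p hD hρ h0 hl hr => ?_⟩
  obtain ⟨j, hj, hmax⟩ := Finset.exists_max_image (Finset.range (n + 1)) (fun j => ‖G.ht (p j)‖)
    ⟨0, by simp⟩
  have hjn : j ≤ n := Nat.lt_succ_iff.1 (Finset.mem_range.1 hj)
  have hmax' : ∀ i ≤ n, ‖G.ht (p i)‖ ≤ ‖G.ht (p j)‖ := fun i hi =>
    hmax i (Finset.mem_range.2 (Nat.lt_succ_of_le hi))
  have l0 : ∀ m : ℕ, 0 ≤ Real.log (m + 1) := fun m =>
    Real.log_nonneg (by linarith [Nat.cast_nonneg (α := ℝ) m])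
  have l1 : Real.log (j + 1) ≤ Real.log (n + 1) :=
    Real.log_le_log (by positivity) (by exact_mod_cast Nat.succ_le_succ hjn)
  set L := D + Real.log (n + 1) + 1 with hL
  have hL1 : 1 ≤ L := by linarith [l0 n]
  have a1 := hst L _ (p j) hL1 (mul_nonneg h₁ (by linarith [l0 j]))
    (mul_le_mul_of_nonneg_left (by linarith) h₁)
    (hb D _ j p hD (norm_nonneg _) h0 (fun i hi => hl i (hi.trans_le hjn))
      fun i hi => hmax' i (hi.trans hjn))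
  have a2 : ‖G.ht (p j)‖ ≤ (2 + K) * (ρ + L) := by
    nlinarith [hr j hjn, mul_nonneg hK hρ]
  have e1 : ρ + D + Real.log (n + 1) + 1 = ρ + L := by rw [hL]; ring
  have a3 := (hs _ _ (mul_nonneg h₁ (by linarith)) (mul_nonneg h₁ (norm_nonneg _)) (p n)
    (hb D _ n p hD (norm_nonneg _) h0 hl hmax')).1
  have a4 : 0 ≤ C₂ * (C₁ + C₁ * (2 + K) + 1) * (ρ + L) := by positivity
  have a5 : 0 ≤ (2 + K) * (ρ + L) := by positivity
  rw [e1]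
  refine ⟨by linarith [hmax' n le_rfl], a3.trans (Real.exp_le_exp.2 ?_)⟩
  have a6 : C₁ * L + C₁ * ‖G.ht (p j)‖ + 1 ≤ (C₁ + C₁ * (2 + K) + 1) * (ρ + L) := by
    nlinarith [mul_le_mul_of_nonneg_left a2 h₁, mul_nonneg h₁ hρ]
  have a7 := mul_le_mul_of_nonneg_left a6 h₂
  linarith

end Vale.Agent.P188.EC
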