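import Vale.Agent.P188.ECBasB

/-! Slabs are connected. -/

namespace Vale.Agent.P188.EC

open Mdl Filter Topology Pointwise

variable {G : Geo} {Φ : G.V → Ht G.k}

theorem ECPush_log {a N : ℝ} (c : ℝ) (ha : 0 ≤ a) (hN : 0 ≤ N) :
    ∃ M₀, 0 ≤ M₀ ∧ ∀ M, M₀ ≤ M → a * Real.log (1 + N * M) + c ≤ M / 4 := by
  have hk : 0 < 8 * a * N + 1 := by positivity
  refine ⟨|8 * (c + a + a * Real.log (8 * a * N + 1))|, abs_nonneg _, fun M hM => ?_⟩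
  have h0 : 0 ≤ M := (abs_nonneg _).trans hM
  have h1 := Real.log_le_sub_one_of_pos (div_pos (by positivity : 0 < 1 + N * M) hk)
  rw [Real.log_div (by positivity) hk.ne'] at h1
  have h2 : a * ((1 + N * M) / (8 * a * N + 1)) ≤ a + M / 8 := by
    rw [← mul_div_assoc, div_le_iff₀ hk]
    nlinarith [mul_nonneg (mul_nonneg ha ha) hN]
  nlinarith [mul_le_mul_of_nonneg_left h1 ha, le_abs_self
    (8 * (c + a + a * Real.log (8 * a * N + 1)))]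

theorem ECPush_join (hΦ : Hgt G Φ) (D : ℝ) : ∃ c, 0 ≤ c ∧ ∀ x w : G.V, G.len w ≤ D →
    JoinedIn {z | ‖Φ z‖ ≤ ‖Φ x‖ + c} x (x * w) := by
  obtain ⟨L, L0, hL⟩ := hΦ.lip
  obtain ⟨D', h⟩ := joined_step G D
  refine ⟨L * |D'| + L, by positivity, fun x w hw => (h x w hw).mono fun z hz => ?_⟩
  have h1 := hL x (x⁻¹ * z)
  rw [mul_inv_cancel_left] at h1
  have h2 := mul_le_mul_of_nonneg_left ((show G.len (x⁻¹ * z) ≤ D' from hz).trans (le_abs_self D')) L0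
  have h3 := norm_le_norm_add_norm_sub' (Φ z) (Φ x)
  change ‖Φ z‖ ≤ _
  linarith

theorem ECPush_near (x a : G.V) : ∀ᶠ y in 𝓝 x, G.len ((x * a)⁻¹ * (y * a)) ≤ 1 := by
  have h1 : Continuous fun y : G.V => (x * a)⁻¹ * (y * a) :=
    (continuous_const_mul _).comp (continuous_mul_const a)
  have h2 : (x * a)⁻¹ * (x * a) ∈ G.U := by
    rw [inv_mul_cancel]
    exact Len_one
  filter_upwards [h1.continuousAt.preimage_mem_nhds (isOpen_U.mem_nhds h2)] with y hy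
  have := (len_le_iff ((x * a)⁻¹ * (y * a)) 1).2 (by rwa [pow_one])
  rwa [Nat.cast_one] at this

/-- the pushing lemma -/
theorem push (hΦ : Hgt G Φ) : ∃ M₀, ∀ M, M₀ ≤ M → ∀ x y, JoinedIn {z | ‖Φ z‖ ≤ M} x y →
    JoinedIn {z | ‖Φ z‖ ≤ M / 2} (x * G.X (-Φ x)) (y * G.X (-Φ y)) := by
  obtain ⟨L, L0, hL⟩ := hΦ.lip
  obtain ⟨C, C0, hX⟩ := len_X G
  obtain ⟨η, hη⟩ := hΦ.st (1 / (8 * (C + 1))) (by positivity)
  obtain ⟨Cf, hf⟩ := hΦ.fl
  obtain ⟨c1, c10, h1⟩ := ECPush_join hΦ 1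
  obtain ⟨c3, c30, h3⟩ := ECPush_join hΦ (C * (2 * L + 1))
  obtain ⟨Cs, Cs0, hs⟩ := st_norm G
  obtain ⟨Cp, Cp0, hp⟩ := flat_part G
  set N := ‖LinearMap.toContinuousLinearMap G.X‖
  have hN : ∀ a, ‖G.X a‖ ≤ N * ‖a‖ := (LinearMap.toContinuousLinearMap G.X).le_opNorm
  obtain ⟨M₀, M0, hM⟩ := ECPush_log (a := |Cf| * (Cp * Cs)) (N := N)
    (1 / 8 + η + c1 + c3 + |Cf| * (1 + Cp * (Cs + 1 + 1))) (by positivity) (norm_nonneg _)
  refine ⟨M₀, fun M hM₀ x y ⟨γ, hγ⟩ => ?_⟩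
  have hM1 : 0 ≤ M := M0.trans hM₀
  have hN0 : 0 ≤ N * M := mul_nonneg (norm_nonneg _) hM1
  set β := Real.log (1 + N * M)
  have hβ : 0 ≤ β := Real.log_nonneg (by linarith)
  have hXb : ∀ b, ‖b‖ ≤ M → ‖G.X b‖ ≤ Real.exp β := fun b hb => by
    rw [Real.exp_log (by linarith)]
    linarith [hN b, mul_le_mul_of_nonneg_left hb (norm_nonneg (LinearMap.toContinuousLinearMap G.X))]
  have key : ∀ x x' : G.V, ‖Φ x‖ ≤ M → ‖Φ x'‖ ≤ M → G.len ((x * 1)⁻¹ * (x' * 1)) ≤ 1 →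
      G.len ((x * G.X (-Φ x))⁻¹ * (x' * G.X (-Φ x))) ≤ 1 →
      JoinedIn {z | ‖Φ z‖ ≤ M / 2} (x * G.X (-Φ x)) (x' * G.X (-Φ x')) := by
    intro x x' hx hx' e1 e2
    rw [mul_one, mul_one] at e1
    rw [← norm_neg] at hx hx'
    have a1 : ‖-Φ x' - -Φ x‖ ≤ 2 * L := by
      have := hL x (x⁻¹ * x')
      rw [mul_inv_cancel_left, norm_sub_rev] at this
      rw [neg_sub_neg]
      nlinarith
    have a2 : ‖Φ (x * G.X (-Φ x))‖ ≤ (M + 1) / 8 + η := by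
      have h4 := hη x (G.X (-Φ x))
      rw [G.ht_X, sub_neg_eq_add, sub_add_cancel] at h4
      have h5 : 1 / (8 * (C + 1)) * G.len (G.X (-Φ x)) ≤ (M + 1) / 8 := by
        rw [div_mul_eq_mul_div, div_le_div_iff₀ (by positivity) (by norm_num)]
        nlinarith [hX (-Φ x), mul_le_mul_of_nonneg_left hx C0]
      linarith
    have j1 := h1 (x * G.X (-Φ x)) _ e2
    rw [mul_inv_cancel_left] at j1
    set z := x' * G.X (-Φ x)
    have a3 : ‖Φ z‖ ≤ _ := j1.target_mem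
    obtain ⟨p, p0, p1, p2, p3⟩ := hp (Cs * (β + 1)) (by positivity)
      (G.st (-G.X (-Φ x)) (G.X (-Φ x'))) (st_mem_V0 (neg_mem_V0 (X_mem _)) (X_mem _))
      (hs β hβ _ _ (by rw [norm_neg]; exact hXb _ hx) (hXb _ hx'))
    rw [ht_st, map_neg G.ht, G.ht_X, G.ht_X, ← mul_V0 _ (X_mem _), ← inv_V0 (X_mem _),
      neg_add_eq_sub] at p3
    have a4 : ∀ s : ℝ, |s| ≤ 1 → ‖Φ (z * (s • p))‖ ≤
        ‖Φ z‖ + |Cf| * (1 + Cp * (Cs * (β + 1) + 1)) := fun s hs => by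
      have h6 := Real.one_le_exp (by positivity : 0 ≤ Cp * (Cs * (β + 1) + 1))
      have h4 := hf z (s • p) (2 * Real.exp (Cp * (Cs * (β + 1) + 1))) (smul_mem_V0 s p0)
        (by rw [map_smul, p1, smul_zero]) (by
          rw [norm_smul, Real.norm_eq_abs]
          nlinarith [norm_nonneg p]) (by linarith)
      rw [Real.log_mul two_ne_zero (by positivity), Real.log_exp] at h4
      have h5 := norm_le_norm_add_norm_sub' (Φ (z * (s • p))) (Φ z)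
      have h7 := Real.log_two_lt_d9
      have h8 : 0 ≤ Real.log 2 + Cp * (Cs * (β + 1) + 1) := by
        have := Real.log_two_gt_d9
        positivity
      nlinarith [mul_le_mul_of_nonneg_right (le_abs_self Cf) h8, abs_nonneg Cf]
    have a5 := hM M hM₀
    have a6 : 0 ≤ |Cf| * (1 + Cp * (Cs * (β + 1) + 1)) := by positivity
    have a7 : |Cf| * (1 + Cp * (Cs * (β + 1) + 1)) ≤
        |Cf| * (Cp * Cs) * β + |Cf| * (1 + Cp * (Cs + 1 + 1)) := by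
      nlinarith [mul_nonneg (abs_nonneg Cf) Cp0]
    have j2 : JoinedIn {z | ‖Φ z‖ ≤ M / 2} z (z * p) :=
      JoinedIn.ofLine (f := fun s : ℝ => z * (s • p)) (by fun_prop)
        (by rw [zero_smul, ← one_def, mul_one]) (by rw [one_smul]) (by
          rintro _ ⟨s, hs, rfl⟩
          have := a4 s (abs_le.2 ⟨by linarith [hs.1], hs.2⟩)
          change ‖Φ (z * (s • p))‖ ≤ M / 2
          linarith)
    have j3 := h3 (z * p) (G.X (-Φ x' - -Φ x)) ((hX _).trans (by nlinarith))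
    have a8 := a4 1 (by simp)
    rw [one_smul] at a8
    rw [show z * p * G.X (-Φ x' - -Φ x) = x' * G.X (-Φ x') by
      rw [mul_assoc z, ← p3, mul_assoc x', mul_inv_cancel_left]] at j3
    refine ((j1.mono fun w hw => ?_).trans j2).trans (j3.mono fun w hw => ?_)
    · have : ‖Φ w‖ ≤ _ := hw
      change ‖Φ w‖ ≤ M / 2
      linarith
    · have : ‖Φ w‖ ≤ _ := hw
      change ‖Φ w‖ ≤ M / 2
      linarith
  refine (isPreconnected_range γ.continuous).induction₂'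
    (fun x y => JoinedIn {z | ‖Φ z‖ ≤ M / 2} (x * G.X (-Φ x)) (y * G.X (-Φ y))) ?_
    (fun _ _ _ _ _ _ h h' => h.trans h') γ.source_mem_range γ.target_mem_range
  rintro _ ⟨t, rfl⟩
  filter_upwards [self_mem_nhdsWithin, mem_nhdsWithin_of_mem_nhds (ECPush_near (γ t) 1),
    mem_nhdsWithin_of_mem_nhds (ECPush_near (γ t) (G.X (-Φ (γ t))))]
  rintro _ ⟨s, rfl⟩ e1 e2
  exact ⟨key _ _ (hγ t) (hγ s) e1 e2, (key _ _ (hγ t) (hγ s) e1 e2).symm⟩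

theorem joined (hΦ : Hgt G Φ) (ρ₀ : ℝ) : ∃ ρ₁, ∀ x y, ‖Φ x‖ ≤ ρ₀ → ‖Φ y‖ ≤ ρ₀ →
    JoinedIn {z | ‖Φ z‖ ≤ ρ₁} x y := by
  obtain ⟨M₀, hM⟩ := push hΦ
  obtain ⟨C, C0, hX⟩ := len_X G
  obtain ⟨c, -, hc⟩ := ECPush_join hΦ (C * (ρ₀ + 1))
  set ρ := max (max M₀ 1) (ρ₀ + c)
  have r1 : 1 ≤ ρ := (le_max_right _ _).trans (le_max_left _ _)
  have r2 : M₀ ≤ ρ := (le_max_left _ _).trans (le_max_left _ _)
  have h1 : ∀ x, ‖Φ x‖ ≤ ρ₀ → ∀ M, ρ ≤ M → JoinedIn {z | ‖Φ z‖ ≤ M} x (x * G.X (-Φ x)) :=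
    fun x hx M hM => (hc x _ ((hX _).trans (by rw [norm_neg]; nlinarith))).mono fun w hw => by
      have : ‖Φ w‖ ≤ _ := hw
      change ‖Φ w‖ ≤ M
      linarith [le_max_right (max M₀ 1) (ρ₀ + c)]
  refine ⟨ρ, fun x y hx hy => ?_⟩
  have h2 : ∀ n : ℕ, JoinedIn {z | ‖Φ z‖ ≤ 2 ^ n * ρ} x y → JoinedIn {z | ‖Φ z‖ ≤ ρ} x y := by
    intro n
    induction n with
    | zero => simp
    | succ n ih =>
      intro h
      have h3 : ρ ≤ 2 ^ n * ρ := le_mul_of_one_le_left (by linarith) (one_le_pow₀ one_le_two)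
      have h4 := hM _ (by rw [pow_succ]; linarith) x y h
      rw [show 2 ^ (n + 1) * ρ / 2 = 2 ^ n * ρ by ring] at h4
      exact ih (((h1 x hx _ h3).trans h4).trans (h1 y hy _ h3).symm)
  obtain ⟨c', -, hc'⟩ := ECPush_join hΦ (G.len (x⁻¹ * y))
  obtain ⟨n, hn⟩ := pow_unbounded_of_one_lt (‖Φ x‖ + c') (one_lt_two (α := ℝ))
  have h5 := hc' x _ le_rfl
  rw [mul_inv_cancel_left] at h5
  refine h2 n (h5.mono fun w hw => ?_)
  have : ‖Φ w‖ ≤ _ := hw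
  change ‖Φ w‖ ≤ 2 ^ n * ρ
  nlinarith [pow_pos (two_pos (α := ℝ)) n]

end Vale.Agent.P188.EC
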