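import Vale.Agent.P188.ECDefs

/-! The argument of Schreier. -/

namespace Vale.Agent.P188.EC

/-- elements generated by finitely many elements of `A` and of `K` -/
def ECSchM {H : Type*} [Group H] (A K : Set H) : Subgroup H where
  carrier := {g | ∃ S T : Set H, S.Finite ∧ T.Finite ∧ S ⊆ A ∧ T ⊆ K ∧
    g ∈ Subgroup.closure (S ∪ T)}
  one_mem' := ⟨∅, ∅, Set.finite_empty, Set.finite_empty, Set.empty_subset _, Set.empty_subset _,
    one_mem _⟩
  mul_mem' := by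
    rintro a b ⟨S, T, h1, h2, h3, h4, h5⟩ ⟨S', T', k1, k2, k3, k4, k5⟩
    refine ⟨S ∪ S', T ∪ T', h1.union k1, h2.union k2, Set.union_subset h3 k3,
      Set.union_subset h4 k4, mul_mem ?_ ?_⟩
    · exact Subgroup.closure_mono
        (Set.union_subset_union Set.subset_union_left Set.subset_union_left) h5
    · exact Subgroup.closure_mono
        (Set.union_subset_union Set.subset_union_right Set.subset_union_right) k5
  inv_mem' := by
    rintro a ⟨S, T, h1, h2, h3, h4, h5⟩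
    exact ⟨S, T, h1, h2, h3, h4, inv_mem h5⟩

theorem ECSch_fin {H : Type*} [Group H] {A K S₀ : Set H} (h : S₀.Finite)
    (hM : S₀ ⊆ ECSchM A K) : ∃ S T : Finset H, (S : Set H) ⊆ A ∧ (T : Set H) ⊆ K ∧
      Subgroup.closure S₀ ≤ Subgroup.closure ((S : Set H) ∪ T) := by
  choose! S T h1 h2 h3 h4 h5 using hM
  refine ⟨(h.biUnion h1).toFinset, (h.biUnion h2).toFinset, ?_, ?_, ?_⟩
  · rw [Set.Finite.coe_toFinset]
    exact Set.iUnion₂_subset h3
  · rw [Set.Finite.coe_toFinset]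
    exact Set.iUnion₂_subset h4
  · rw [Set.Finite.coe_toFinset, Set.Finite.coe_toFinset, Subgroup.closure_le]
    exact fun g hg => Subgroup.closure_mono (Set.union_subset_union
      (Set.subset_biUnion_of_mem (u := S) hg) (Set.subset_biUnion_of_mem (u := T) hg)) (h5 hg)

theorem ECSch_net {H E : Type*} [Group H] [NormedAddCommGroup E] [NormedSpace ℝ E]
    [FiniteDimensional ℝ E] (φ : H →* Multiplicative E) (ρ : ℝ) {δ : ℝ} (hδ : 0 < δ) :
    ∃ (T₀ : Set H) (r : H → H), T₀.Finite ∧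
      ∀ a, nv φ a ≤ ρ → r a ∈ T₀ ∧ nv φ (a * (r a)⁻¹) ≤ δ := by
  have : ProperSpace E := FiniteDimensional.proper_real E
  have hb : TotallyBounded ((fun a => (φ a).toAdd) '' {a | nv φ a ≤ ρ}) := by
    refine (isCompact_closedBall (0 : E) ρ).totallyBounded.subset ?_
    rintro _ ⟨a, ha, rfl⟩
    exact mem_closedBall_zero_iff.2 ha
  obtain ⟨t, ht1, ht2, ht3⟩ := Metric.finite_approx_of_totallyBounded hb δ hδ
  obtain ⟨T₀, -, hT, rfl⟩ := Set.Finite.exists_subset_finite_image_eq ht2 ht1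
  have key : ∀ a, nv φ a ≤ ρ → ∃ b ∈ T₀, nv φ (a * b⁻¹) ≤ δ := by
    intro a ha
    obtain ⟨_, ⟨b, hb, rfl⟩, h⟩ := Set.mem_iUnion₂.1 (ht3 ⟨a, ha, rfl⟩)
    refine ⟨b, hb, ?_⟩
    rw [Metric.mem_ball, dist_eq_norm] at h
    rw [nv, map_mul, map_inv, toAdd_mul, toAdd_inv, ← sub_eq_add_neg]
    exact h.le
  choose! r hr using key
  exact ⟨T₀, r, hT, hr⟩

theorem exists_gens {H E : Type*} [Group H] [NormedAddCommGroup E] [NormedSpace ℝ E]
    [FiniteDimensional ℝ E] {B : Finset H} (hB : Subgroup.closure (B : Set H) = ⊤)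
    {φ : H →* Multiplicative E} (hc : Conn B φ) {δ : ℝ} (hδ : 0 < δ) :
    ∃ S T : Finset H, (∀ g ∈ S, nv φ g ≤ δ) ∧ (T : Set H) ⊆ φ.ker ∧
      φ.ker ≤ Subgroup.closure ((S : Set H) ∪ T) := by
  obtain ⟨D, ρ, hc⟩ := hc
  obtain ⟨T₀, r, hT, hr⟩ := ECSch_net φ (max ρ 0) hδ
  set M := ECSchM {g | nv φ g ≤ δ} (φ.ker : Set H) with hM
  have hA : ∀ g, nv φ g ≤ δ → g ∈ M := fun g hg =>
    ⟨{g}, ∅, Set.finite_singleton g, Set.finite_empty, Set.singleton_subset_iff.2 hg,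
      Set.empty_subset _, Subgroup.subset_closure (Or.inl rfl)⟩
  have hK : ∀ g ∈ φ.ker, g ∈ M := fun g hg =>
    ⟨∅, {g}, Set.finite_empty, Set.finite_singleton g, Set.empty_subset _,
      Set.singleton_subset_iff.2 hg, Subgroup.subset_closure (Or.inr rfl)⟩
  set S₀ : Set H := (T₀ ∪ Set.image2 (fun x y => x * y⁻¹)
    (Set.image2 (fun x y => x * y) T₀ {g | wr B g ≤ D}) T₀) ∩ M with hS₀
  have hfin : S₀.Finite :=
    (hT.union ((hT.image2 _ (finite_ball hB D)).image2 _ hT)).subset Set.inter_subset_left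
  obtain ⟨S, T, h1, h2, h3⟩ := ECSch_fin hfin Set.inter_subset_right
  refine ⟨S, T, fun g hg => h1 hg, h2, fun h hh => h3 ?_⟩
  have chain : ∀ a, Relation.ReflTransGen
      (fun a b => nv φ a ≤ ρ ∧ nv φ b ≤ ρ ∧ wr B (a⁻¹ * b) ≤ D) 1 a →
      (1 * (r 1)⁻¹)⁻¹ * (a * (r a)⁻¹) ∈ Subgroup.closure S₀ := by
    intro a ha
    induction ha with
    | refl => rw [inv_mul_cancel]; exact one_mem _
    | @tail a b _ hab ih =>
      obtain ⟨a1, a2⟩ := hr a (hab.1.trans (le_max_left _ _))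
      obtain ⟨b1, b2⟩ := hr b (hab.2.1.trans (le_max_left _ _))
      have e : (1 * (r 1)⁻¹)⁻¹ * (b * (r b)⁻¹) =
          (1 * (r 1)⁻¹)⁻¹ * (a * (r a)⁻¹) * ((a * (r a)⁻¹)⁻¹ * (b * (r b)⁻¹)) := by group
      rw [e]
      refine mul_mem ih (Subgroup.subset_closure ⟨Or.inr ?_, mul_mem (inv_mem (hA _ a2)) (hA _ b2)⟩)
      exact ⟨r a * (a⁻¹ * b), ⟨r a, a1, a⁻¹ * b, hab.2.2, rfl⟩, r b, b1, by group⟩
  have hr0 : ∀ g ∈ φ.ker, r g ∈ Subgroup.closure S₀ := by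
    intro g hg
    have h0 : nv φ g ≤ max ρ 0 := by
      rw [nv, (MonoidHom.mem_ker).1 hg, toAdd_one, norm_zero]
      exact le_max_right _ _
    obtain ⟨g1, g2⟩ := hr g h0
    refine Subgroup.subset_closure ⟨Or.inl g1, ?_⟩
    have e : r g = (g * (r g)⁻¹)⁻¹ * g := by group
    rw [e]
    exact mul_mem (inv_mem (hA _ g2)) (hK g hg)
  have e : h = (r 1)⁻¹ * ((1 * (r 1)⁻¹)⁻¹ * (h * (r h)⁻¹)) * r h := by group
  rw [e]
  exact mul_mem (mul_mem (inv_mem (hr0 1 (one_mem _))) (chain h (hc h hh))) (hr0 h hh)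

end Vale.Agent.P188.EC
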