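import Vale.Agent.P188.ECBasB
import Vale.Agent.P188.ECMeas

/-! The finite linear part. -/

namespace Vale.Agent.P188.EC

open Mdl

variable {G : Geo} {H : Type*} [Group H] {B : Finset H} {K : ℝ} {F : H → G.V} {F₂ : G.V → H}

theorem ECSig_ht (x y : G.V) : G.ht (x⁻¹ * y) = G.ht y - G.ht x := by
  rw [ht_mul, ht_inv, neg_add_eq_sub]

theorem ECSig_close (h : QIp (wr B) G.len K F F₂) (D : ℝ) :
    ∃ c, ∀ u a b, wr B (a⁻¹ * b) ≤ D → ‖G.ht (F (u * b)) - G.ht (F (u * a))‖ ≤ c := by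
  obtain ⟨C, C0, hC⟩ := ht_le (M := G.toMdl)
  refine ⟨C * (K * D + K), fun u a b hab => ?_⟩
  have h1 := h.lf (u * a) (u * b)
  rw [mul_inv_rev, mul_assoc, inv_mul_cancel_left] at h1
  rw [← ECSig_ht]
  refine (hC _).trans (mul_le_mul_of_nonneg_left (h1.trans ?_) C0)
  linarith [mul_le_mul_of_nonneg_left hab (zero_le_one.trans h.one_le)]

/-- the linear part of `T` is `s` -/
def ECSigS (G : Geo) (T : G.V → Ht G.k) (s : Ht G.k ≃ₗᵢ[ℝ] Ht G.k) : Prop :=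
  ∀ ε > 0, ∃ η : ℝ, ∀ x y, ‖T (x * y) - T x - s (G.ht y)‖ ≤ ε * G.len y + η

theorem ECSig_uniq {T : G.V → Ht G.k} {s s' : Ht G.k ≃ₗᵢ[ℝ] Ht G.k} (h : ECSigS G T s)
    (h' : ECSigS G T s') : s = s' := by
  obtain ⟨C, C0, hX⟩ := len_X G
  refine LinearIsometryEquiv.ext fun b => by_contra fun hne => ?_
  have hδ : 0 < ‖s b - s' b‖ := norm_pos_iff.2 (sub_ne_zero.2 hne)
  set δ := ‖s b - s' b‖ with hδ'
  have hk : 0 < 4 * (C * ‖b‖ + 1) := by positivity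
  obtain ⟨η, hη⟩ := h (δ / (4 * (C * ‖b‖ + 1))) (by positivity)
  obtain ⟨η', hη'⟩ := h' (δ / (4 * (C * ‖b‖ + 1))) (by positivity)
  set ε := δ / (4 * (C * ‖b‖ + 1))
  have hε : 0 < ε := by positivity
  have e1 : ε * (4 * (C * ‖b‖ + 1)) = δ := div_mul_cancel₀ _ hk.ne'
  obtain ⟨n, hn⟩ := exists_nat_gt (2 * (2 * ε * C + η + η') / δ)
  rw [div_lt_iff₀ hδ] at hn
  have h1 := hη 1 (G.X ((n : ℝ) • b))
  have h2 := hη' 1 (G.X ((n : ℝ) • b))
  have h3 := hX ((n : ℝ) • b)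
  rw [G.ht_X] at h1 h2
  rw [norm_smul, Real.norm_natCast] at h3
  have h4 := norm_sub_le (T (1 * G.X ((n : ℝ) • b)) - T 1 - s' ((n : ℝ) • b))
    (T (1 * G.X ((n : ℝ) • b)) - T 1 - s ((n : ℝ) • b))
  rw [sub_sub_sub_cancel_left, map_smul, map_smul, ← smul_sub, norm_smul, Real.norm_natCast,
    ← map_smul, ← map_smul, ← hδ'] at h4
  have h5 := mul_le_mul_of_nonneg_left h3 hε.le
  have h6 : (0 : ℝ) ≤ n * ε := by positivity
  have h7 : n * δ = n * (ε * (4 * (C * ‖b‖ + 1))) := by rw [e1]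
  nlinarith

/-- the linear part is trivial on a subgroup of finite index -/
theorem exists_fam₀ (hr : G.Rigid) (hB : Subgroup.closure (B : Set H) = ⊤)
    (h : QIp (wr B) G.len K F F₂) (hm : ∀ ψ : H → G.V, Measurable fun y => ψ (F₂ y)) :
    ∃ H₀ : Subgroup H, H₀.FiniteIndex ∧ Fam G fun (u : H₀) y => G.ht (F (u * F₂ y)) := by
  have hq : ∀ u : H, QIp G.len G.len (3 * (3 * K * 1) * K) (fun y => F (u * F₂ y))
      fun y => F (u⁻¹ * F₂ y) := fun u => by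
    have := QIp.trans isLen_len (isLen_wr hB) isLen_len
      (QIp.trans isLen_len (isLen_wr hB) (isLen_wr hB) h.symm (QIp.mul_left (isLen_wr hB) u)) h
    exact this
  obtain ⟨η, C, hR⟩ := hr (3 * (3 * K * 1) * K)
  have hR' := fun u : H => hR _ _ (hq u) (hm fun g => F (u * g)) (hm fun g => F (u⁻¹ * g))
  choose σ hσ hst using fun u => (hR' u).1
  have hst' : ∀ u, ∀ ε > 0, ∀ x y, ‖G.ht (F (u * F₂ (x * y))) - G.ht (F (u * F₂ x)) -
      σ u (G.ht y)‖ ≤ ε * G.len y + η ε := fun u ε hε x y => by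
    have := hst u ε hε x (x * y)
    rwa [inv_mul_cancel_left, ht_mul, add_sub_cancel_left] at this
  obtain ⟨c, hc⟩ := ECSig_close h K
  have hmul : ∀ u v, σ (u * v) = σ u * σ v := fun u v => by
    refine ECSig_uniq (T := fun y => G.ht (F (u * v * F₂ y))) (fun ε hε => ⟨_, hst' _ ε hε⟩)
      fun ε hε => ?_
    have k1 := (hq v).one_le
    set K' := 3 * (3 * K * 1) * K
    have hε' : 0 < ε / (K' + 1) := by positivity
    have e1 : ε / (K' + 1) * (K' + 1) = ε := div_mul_cancel₀ _ (by positivity)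
    set ε' := ε / (K' + 1)
    refine ⟨2 * c + ε' * K' + 2 * η ε', fun x y => ?_⟩
    have h1 := hst u ε' hε' (F (v * F₂ x)) (F (v * F₂ (x * y)))
    have h2 := hst' v ε' hε' x y
    have h3 := (hq v).lf x (x * y)
    have h4 := hc u _ _ (h.gf (v * F₂ (x * y)))
    have h5 := hc u _ _ (h.gf (v * F₂ x))
    rw [inv_mul_cancel_left] at h3
    rw [← (σ u).norm_map, map_sub (σ u)] at h2
    rw [← mul_assoc] at h4 h5
    have h6 := mul_le_mul_of_nonneg_left h3 hε'.le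
    have h7 : ∀ a a' b b' p q : Ht G.k, ‖a - b - q‖ ≤
        ‖a - a'‖ + ‖b - b'‖ + ‖a' - b' - p‖ + ‖p - q‖ := fun a a' b b' p q => by
      rw [show a - b - q = a - a' - (b - b') + (a' - b' - p) + (p - q) by abel]
      exact norm_add_le_of_le (norm_add_le_of_le (norm_sub_le _ _) le_rfl) le_rfl
    refine (h7 _ (G.ht (F (u * F₂ (F (v * F₂ (x * y)))))) _ (G.ht (F (u * F₂ (F (v * F₂ x)))))
      (σ u (G.ht (F (v * F₂ (x * y))) - G.ht (F (v * F₂ x)))) (σ u (σ v (G.ht y)))).trans ?_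
    rw [← e1]
    linarith
  let φ : H →* (Ht G.k ≃ₗᵢ[ℝ] Ht G.k) := MonoidHom.mk' σ hmul
  have : Finite φ.range := ((finite_sig G).subset (t := (φ.range : Set _)) (by
    rintro _ ⟨u, rfl⟩
    exact hσ u)).to_subtype
  refine ⟨φ.ker, inferInstance, fun ε hε => ⟨η ε, fun u x y => ?_⟩, C, fun u => (hR' u).2⟩
  have h1 := hst' u ε hε x y
  rwa [show σ u = 1 from u.2] at h1

theorem exists_fam (hr : G.Rigid) (hB : Subgroup.closure (B : Set H) = ⊤)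
    (h : QIp (wr B) G.len K F F₂) :
    ∃ H₀ : Subgroup H, H₀.FiniteIndex ∧ ∃ (B₀ : Finset H₀) (K₀ : ℝ) (F₀ : H₀ → G.V)
      (F₁ : G.V → H₀), Subgroup.closure (B₀ : Set H₀) = ⊤ ∧ QIp (wr B₀) G.len K₀ F₀ F₁ ∧
        Fam G fun (u : H₀) y => G.ht (F₀ (u * F₁ y)) := by
  obtain ⟨K', F₃, h₃, hm⟩ := exists_meas (isLen_wr hB) h
  obtain ⟨H₀, hH, hst, C, hfl⟩ := exists_fam₀ hr hB h₃ hm
  obtain ⟨B₀, K₁, g, hB₀, h₁⟩ := qip_subgroup hB H₀
  obtain ⟨c, hc⟩ := ECSig_close h₃ K₁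
  have hc' : ∀ (u : H₀) y, ‖G.ht (F (u * F₃ y)) - G.ht (F (u * g (F₃ y)))‖ ≤ c :=
    fun u y => hc u _ _ (h₁.fg (F₃ y))
  have h7 : ∀ a a' b b' q : Ht G.k, ‖a - b - q‖ ≤ ‖a' - a‖ + ‖b' - b‖ + ‖a' - b' - q‖ :=
    fun a a' b b' q => by
      rw [show a - b - q = b' - b - (a' - a) + (a' - b' - q) by abel, add_comm ‖a' - a‖]
      exact norm_add_le_of_le (norm_sub_le _ _) le_rfl
  refine ⟨H₀, hH, B₀, _, _, _, hB₀, QIp.trans (isLen_wr hB₀) (isLen_wr hB) isLen_len h₁ h₃,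
    fun ε hε => ?_, C + 4 * c, fun u x p r p0 p1 p2 p3 => ?_⟩
  · obtain ⟨η, hη⟩ := hst ε hε
    refine ⟨η + 2 * c, fun u x y => ?_⟩
    refine (h7 _ (G.ht (F (u * F₃ (x * y)))) _ (G.ht (F (u * F₃ x))) _).trans ?_
    have h1 : ‖G.ht (F (u * F₃ (x * y))) - G.ht (F (u * F₃ x)) - G.ht y‖ ≤ _ := hη u x y
    exact (add_le_add (add_le_add (hc' u (x * y)) (hc' u x)) h1).trans_eq (by ring)
  · have h1 : ‖G.ht (F (u * F₃ (x * p))) - G.ht (F (u * F₃ x))‖ ≤ _ := hfl u x p r p0 p1 p2 p3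
    have h2 := h7 (G.ht (F (u * g (F₃ (x * p))))) (G.ht (F (u * F₃ (x * p))))
      (G.ht (F (u * g (F₃ x)))) (G.ht (F (u * F₃ x))) 0
    rw [sub_zero, sub_zero] at h2
    refine h2.trans ((add_le_add (add_le_add (hc' u (x * p)) (hc' u x)) h1).trans ?_)
    have h3 := Real.log_le_log two_pos p3
    have h4 := Real.log_two_gt_d9
    nlinarith [(norm_nonneg _).trans (hc' u x)]

theorem exists_hgt (hB : Subgroup.closure (B : Set H) = ⊤) (h : QIp (wr B) G.len K F F₂)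
    {φ : H →* Multiplicative (Ht G.k)}
    (hφ : ∀ g v r, (∀ u, ‖G.ht (F (u * g)) - G.ht (F u) - v‖ ≤ r) → ‖(φ g).toAdd - v‖ ≤ r)
    (hF : Fam G fun (u : H) y => G.ht (F (u * F₂ y))) : Hgt G fun y => (φ (F₂ y)).toAdd := by
  have key : ∀ x y v r, (∀ u, ‖G.ht (F (u * F₂ y)) - G.ht (F (u * F₂ x)) - v‖ ≤ r) →
      ‖(φ (F₂ y)).toAdd - (φ (F₂ x)).toAdd - v‖ ≤ r := fun x y v r hu => by
    have := hφ ((F₂ x)⁻¹ * F₂ y) v r fun u => by
      have := hu (u * (F₂ x)⁻¹)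
      rwa [inv_mul_cancel_right, mul_assoc] at this
    rwa [map_mul, map_inv, toAdd_mul, toAdd_inv, neg_add_eq_sub] at this
  obtain ⟨hst, C, hfl⟩ := hF
  refine ⟨fun ε hε => ?_, C, fun x p r p0 p1 p2 p3 => ?_⟩
  · obtain ⟨η, hη⟩ := hst ε hε
    exact ⟨η, fun x y => key x (x * y) _ _ fun u => hη u x y⟩
  · have := key x (x * p) 0 _ fun u => by
      rw [sub_zero]
      exact hfl u x p r p0 p1 p2 p3
    rwa [sub_zero] at this

theorem ht_bdd (hB : Subgroup.closure (B : Set H) = ⊤) (h : QIp (wr B) G.len K F F₂) (g : H) :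
    ∃ C, ∀ u, ‖G.ht (F (u * g)) - G.ht (F u)‖ ≤ C := by
  obtain ⟨c, hc⟩ := ECSig_close h (wr B (1⁻¹ * g))
  exact ⟨c, fun u => by simpa only [mul_one] using hc u 1 g le_rfl⟩

end Vale.Agent.P188.EC
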