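import Vale.Agent.P188.ECPath
import Vale.Agent.P188.ECCount
import Vale.Agent.P188.ECPush

/-! Transfer to the discrete group. -/

namespace Vale.Agent.P188.EC

variable {G : Geo} {H : Type*} [Group H] {B : Finset H} {K : ℝ} {F : H → G.V} {F₂ : G.V → H}
  {φ : H →* Multiplicative (Ht G.k)}

theorem ECSlab_c (φ : H →* Multiplicative (Ht G.k)) (hB : Subgroup.closure (B : Set H) = ⊤)
    (h : QIp (wr B) G.len K F F₂) : ∃ c, 0 ≤ c ∧ ∀ g, nv φ (F₂ (F g)) ≤ nv φ g + c := by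
  obtain ⟨c, h1, h2⟩ := Word_bdd (finite_ball hB K) (nv φ)
  refine ⟨c, zero_le_one.trans h1, fun g => ?_⟩
  have h3 : (φ (F₂ (F g))).toAdd = (φ g).toAdd - (φ ((F₂ (F g))⁻¹ * g)).toAdd := by simp
  rw [nv, h3]
  exact (norm_sub_le _ _).trans (add_le_add_right (h2 _ (h.gf g)) _)

theorem slow (hE : LenE G) (hB : Subgroup.closure (B : Set H) = ⊤) (h : QIp (wr B) G.len K F F₂)
    (hΦ : Hgt G fun y => (φ (F₂ y)).toAdd) : Slow B φ := by
  obtain ⟨c, hc, h1⟩ := ECSlab_c φ hB h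
  obtain ⟨C₁, hC₁, h2⟩ := path_bound hE (hΦ.shift (F 1))
  obtain ⟨C₂, hC₂, h3⟩ := count_box hB h (F 1)⁻¹
  have hK := h.one_le
  refine ⟨C₂ * (C₁ * (2 * c + 2 * K) + 1), by positivity, fun D ρ n hD hρ => ?_⟩
  have hl : 0 ≤ Real.log (n + 1) := Real.log_nonneg (by simp)
  obtain ⟨h4, h5⟩ := h3 (C₁ * (ρ + 2 * c + (K * D + K) + Real.log (n + 1) + 1)) (by positivity)
  have h6 : Reach B φ D ρ n ⊆ _ := fun g ⟨p, a0, an, a1, a2⟩ => an ▸
    h2 (K * D + K) (ρ + 2 * c) n (fun j => (F 1)⁻¹ * F (p j)) (by positivity) (by positivity)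
      (by rw [a0, inv_mul_cancel]) (fun j hj => by
        rw [mul_inv_rev, inv_inv, mul_assoc, mul_inv_cancel_left]
        exact (h.lf _ _).trans (by gcongr; exact a1 j hj)) fun j hj => by
        rw [mul_inv_cancel_left, mul_one]
        have b1 := h1 (p j)
        have b2 := h1 1
        have b3 : nv φ 1 = 0 := by simp [nv]
        exact (norm_sub_le _ _).trans (by
          change nv φ _ + nv φ _ ≤ _
          linarith [a2 j hj])
  refine ⟨h4.subset h6, ((Nat.cast_le.2 (Set.ncard_le_ncard h6 h4)).trans h5).trans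
    (Real.exp_le_exp.2 ?_)⟩
  rw [mul_assoc]
  refine mul_le_mul_of_nonneg_left ?_ hC₂
  have h7 : ρ + 2 * c + (K * D + K) + Real.log (n + 1) + 1 ≤
      (2 * c + 2 * K) * (ρ + D + Real.log (n + 1) + 1) := by
    nlinarith [mul_nonneg hc hρ, mul_nonneg hc hD, mul_nonneg hc hl, mul_nonneg (sub_nonneg.2 hK) hρ,
      mul_nonneg (sub_nonneg.2 hK) hl, mul_nonneg (sub_nonneg.2 hK) hD]
  nlinarith [mul_le_mul_of_nonneg_left h7 hC₁]

theorem conn (hB : Subgroup.closure (B : Set H) = ⊤) (h : QIp (wr B) G.len K F F₂)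
    (hΦ : Hgt G fun y => (φ (F₂ y)).toAdd) : Conn B φ := by
  obtain ⟨c, hc, h1⟩ := ECSlab_c φ hB h
  obtain ⟨ρ, h2⟩ := joined hΦ c
  have hK := h.one_le
  have h0 : ∀ g ∈ φ.ker, nv φ g = 0 := fun g hg => by simp [nv, MonoidHom.mem_ker.1 hg]
  have h3 : ∀ g ∈ φ.ker, nv φ (F₂ (F g)) ≤ c := fun g hg => by simpa [h0 g hg] using h1 g
  refine ⟨2 * K, max ρ c, fun g hg => ?_⟩
  obtain ⟨γ, hγ⟩ := h2 (F 1) (F g) (h3 1 (one_mem _)) (h3 g hg)
  have h4 : ∀ x y, G.len (x⁻¹ * y) ≤ 1 → wr B ((F₂ x)⁻¹ * F₂ y) ≤ 2 * K := fun x y e =>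
    (h.lg x y).trans (by nlinarith)
  have h5 := isPreconnected_univ.induction₂' (fun s t => Relation.ReflTransGen
    (fun a b => nv φ a ≤ max ρ c ∧ nv φ b ≤ max ρ c ∧ wr B (a⁻¹ * b) ≤ 2 * K)
      (F₂ (γ s)) (F₂ (γ t))) (fun s _ => by
        filter_upwards [nhdsWithin_le_nhds (γ.continuous.continuousAt.eventually
          (ECPush_near (γ s) 1))] with t ht
        rw [mul_one, mul_one] at ht
        exact ⟨.single ⟨le_max_of_le_left (hγ s), le_max_of_le_left (hγ t), h4 _ _ ht⟩,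
          .single ⟨le_max_of_le_left (hγ t), le_max_of_le_left (hγ s),
            h4 _ _ (Mdl.Coarse_sym _ _ ▸ ht)⟩⟩) (fun _ _ _ _ _ _ => .trans)
      (Set.mem_univ 0) (Set.mem_univ 1)
  rw [γ.source, γ.target] at h5
  refine .head ⟨?_, le_max_of_le_right (h3 1 (one_mem _)), ?_⟩
    (h5.tail ⟨le_max_of_le_right (h3 g hg), ?_, (h.gf g).trans (by linarith)⟩)
  · exact le_max_of_le_right ((h0 1 (one_mem _)).trans_le hc)
  · rw [Word_sym (isLen_wr hB)]
    exact (h.gf 1).trans (by linarith)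
  · exact le_max_of_le_right ((h0 g hg).trans_le hc)

end Vale.Agent.P188.EC
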