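import Vale.Agent.P188.GAVirt

/-! Groups of polynomial growth. -/

namespace Vale.Agent.P188

universe u

theorem gromov_finite {G : Type*} [Group G] [Finite G] : VirtPoly G :=
  ⟨⊥, inferInstance, polycyclic_of_comm fun _ _ => Subsingleton.elim _ _⟩

theorem gromov_aux (d : ℕ) : ∀ (G : Type u) [Group G] [Group.FG G], PG G d → VirtPoly G := by
  induction d with
  | zero =>
    intro G _ _ h
    have := h.finite
    exact gromov_finite
  | succ d ih =>
    intro G _ _ h
    rcases finite_or_infinite G with hG | hG
    · exact gromov_finite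
    · obtain ⟨H, hH, ψ, hψ⟩ := virt_onto_int h
      have h1 := h.subgroup H
      have h2 := h1.fg_ker ψ hψ
      exact VirtPoly.of_finiteIndex H
        (VirtPoly.ext ψ (fun x y => mul_comm x y) (ih ψ.ker (h1.ker ψ hψ)))

theorem gromov {G : Type*} [Group G] (A : Finset G) (hA : Subgroup.closure (A : Set G) = ⊤)
    (h : PolyGrowth A) : VirtPoly G := by
  obtain ⟨d, hd⟩ := pg_of_polyGrowth A hA h
  have : Group.FG G := Group.fg_def.2 ⟨A, hA⟩
  exact gromov_aux d G hd

end Vale.Agent.P188
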