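import Vale.Agent.P188.ECAmQ
import Vale.Agent.P188.ECMean
import Vale.Agent.P188.ECSig
import Vale.Agent.P188.ECSlab
import Vale.Agent.P188.ECSch
import Vale.Agent.P188.ECDesc
import Vale.Agent.P188.Gromov

/-! From the rigidity of the height to virtual polycyclicity. -/

namespace Vale.Agent.P188

open EC

theorem endgame (G : Geo) (hE : LenE G) (hr : G.Rigid) {H : Type*} [Group H] (hA : Amen H)
    (B : Finset H) (hB : Subgroup.closure (B : Set H) = ⊤) {K : ℝ} {F : H → G.V} {F₂ : G.V → H}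
    (h : QIp (wr B) G.len K F F₂) : VirtPoly H := by
  obtain ⟨H₀, hH, B₀, K₀, F₀, F₁, hB₀, h₀, hF⟩ := exists_fam hr hB h
  obtain ⟨B₁, K₁, g₁, hB₁, h₁⟩ := qip_subgroup hB H₀
  obtain ⟨φ, hφ⟩ := exists_mean (Amen.of_qip hB hB₁ h₁ hA) (fun u => G.ht (F₀ u)) (ht_bdd hB₀ h₀)
  have hΦ := exists_hgt hB₀ h₀ hφ hF
  have hs := slow hE hB₀ h₀ hΦ
  obtain ⟨δ, hδ, hm⟩ := not_injOn hB₀ hs
  obtain ⟨S, T, hS, hT, hk⟩ := exists_gens hB₀ (conn hB₀ h₀ hΦ) hδ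
  obtain ⟨A, hA'⟩ := Group.fg_def.1 ((Group.fg_iff_subgroup_fg _).2 (fg_ker hδ.le hm S T hS hT hk))
  have : Group.FG H₀ := ⟨⟨B₀, hB₀⟩⟩
  exact VirtPoly.of_finiteIndex H₀
    (VirtPoly.ext φ mul_comm (gromov A hA' (polyGrowth_ker hB₀ hs A hA')))

end Vale.Agent.P188
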