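import Vale.Agent.P188.SysB

/-! Coarse differentiation along lines. -/

namespace Vale.Agent.P188.Sys

open MeasureTheory Filter Mdl
open scoped InnerProductSpace ENNReal

variable {G : Geo} {S : Sys G} {W : S.I → ℝ≥0∞} {A : S.I → Set G.V} {c : ℝ}

theorem Erg_sum {α : Type} [MeasurableSpace α] {μ : Measure α} {τ : ℕ → α → α} {Ω : ℕ → Set α}
    {s d : ℕ → α → ℝ≥0∞} (hτ : ∀ l, MeasurePreserving (τ l) μ μ) (hs : ∀ l, Measurable (s l))
    (h : ∀ l x, 2 * (s l x + d l x) ≤ s (l + 1) x + s (l + 1) (τ l x)) (m : ℕ)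
    (hΩ : ∀ l ≤ m, MeasurableSet (Ω l))
    (h1 : ∀ l < m, Ω l ⊆ Ω (l + 1) ∧ Set.MapsTo (τ l) (Ω l) (Ω (l + 1))) :
    ∑ l ∈ Finset.range m, ∫⁻ x in Ω l, d l x ∂μ ≤ ∫⁻ x in Ω m, s m x ∂μ := by
  induction m with
  | zero => simp
  | succ m ih =>
    rw [Finset.sum_range_succ]
    refine (add_le_add_left (ih (fun l hl => hΩ l (by omega)) fun l hl => h1 l (by omega)) _).trans
      ?_
    obtain ⟨h2, h3⟩ := h1 m (Nat.lt_succ_self m)
    rw [← lintegral_add_left (hs m), ← ENNReal.mul_le_mul_iff_right (a := 2) (by simp) (by simp),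
      ← lintegral_const_mul' _ _ (by simp), two_mul]
    refine (lintegral_mono (h m)).trans ?_
    rw [lintegral_add_left (hs (m + 1))]
    refine add_le_add (lintegral_mono_set h2) ?_
    rw [← (hτ m).setLIntegral_comp_preimage (hΩ (m + 1) le_rfl) (hs (m + 1))]
    exact lintegral_mono_set h3

theorem Erg_st (x : G.V) (v : Ht G.k) (h : ℝ) :
    G.st (G.st x (G.X (h • v))) (G.X (h • v)) = G.st x (G.X ((2 * h) • v)) := by
  rw [st_assoc, map_smul, map_smul, st_smul, two_mul]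

theorem Erg_len (G : Geo) (v : Ht G.k) : ∃ β, 0 ≤ β ∧ ∀ (x : G.V) (h : ℝ), 1 ≤ h →
    G.len (x⁻¹ * G.st x (G.X (h • v))) ≤ β * h := by
  obtain ⟨C, hC, H⟩ := Geo.len_line (G := G)
  refine ⟨C * (‖v‖ + 1), by positivity, fun x h hh => ?_⟩
  have h1 := H x v 0 h
  rw [zero_smul, map_zero, st_zero, sub_zero, abs_of_nonneg (by linarith)] at h1
  refine h1.trans ?_
  rw [mul_assoc]
  exact mul_le_mul_of_nonneg_left (by linarith) hC.le

theorem Erg_par (p0 p1 p2 : Ht G.k) {ε a : ℝ} (hε : 0 < ε) (ha : 0 < a) :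
    2 * (ENNReal.ofReal (‖p2 - p0‖ ^ 2 / (ε * (2 * a)) ^ 2) +
      ENNReal.ofReal (‖p2 - (2 : ℝ) • p1 + p0‖ ^ 2 / (ε * (2 * a)) ^ 2)) ≤
      ENNReal.ofReal (‖p1 - p0‖ ^ 2 / (ε * a) ^ 2) +
        ENNReal.ofReal (‖p2 - p1‖ ^ 2 / (ε * a) ^ 2) := by
  rw [← ENNReal.ofReal_add (by positivity) (by positivity),
    ← ENNReal.ofReal_add (by positivity) (by positivity), two_mul,
    ← ENNReal.ofReal_add (by positivity) (by positivity)]
  refine ENNReal.ofReal_le_ofReal (le_of_eq ?_)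
  have e := parallelogram_law_with_norm ℝ (p2 - p1) (p1 - p0)
  have e1 : p2 - p1 + (p1 - p0) = p2 - p0 := by abel
  have e2 : p2 - p1 - (p1 - p0) = p2 - (2 : ℝ) • p1 + p0 := by
    rw [two_smul]
    abel
  rw [e1, e2] at e
  field_simp
  linarith

/-- first differences -/
noncomputable def Erg_s (T : G.V → Ht G.k) (v : Ht G.k) (ε h : ℝ) (x : G.V) : ℝ≥0∞ :=
  ENNReal.ofReal (‖T (G.st x (G.X ((2 * h) • v))) - T x‖ ^ 2 / (ε * h) ^ 2)

/-- second differences -/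
noncomputable def Erg_d (T : G.V → Ht G.k) (v : Ht G.k) (ε h : ℝ) (x : G.V) : ℝ≥0∞ :=
  ENNReal.ofReal (‖T (G.st x (G.X ((2 * h) • v))) - (2 : ℝ) • T (G.st x (G.X (h • v))) + T x‖ ^ 2 /
    (ε * h) ^ 2)

theorem Erg_m {T : G.V → Ht G.k} (hT : Measurable T) (a : G.V) :
    Measurable fun x => T (G.st x a) := hT.comp (mp_st_right a).measurable

theorem Erg_ms {T : G.V → Ht G.k} (hT : Measurable T) (v : Ht G.k) (ε h : ℝ) :
    Measurable (Erg_s T v ε h) :=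
  ((((Erg_m hT _).sub hT).norm.pow_const 2).div_const _).ennreal_ofReal

theorem Erg_md {T : G.V → Ht G.k} (hT : Measurable T) (v : Ht G.k) (ε h : ℝ) :
    Measurable (Erg_d T v ε h) :=
  (((((Erg_m hT _).sub ((Erg_m hT _).const_smul (2 : ℝ))).add hT).norm.pow_const 2).div_const
    _).ennreal_ofReal

theorem Erg_pt (T : G.V → Ht G.k) (v : Ht G.k) {ε a : ℝ} (hε : 0 < ε) (ha : 0 < a) (x : G.V) :
    2 * (Erg_s T v ε (2 * a) x + Erg_d T v ε (2 * a) x) ≤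
      Erg_s T v ε a x + Erg_s T v ε a (G.st x (G.X ((2 * a) • v))) := by
  simp only [Erg_s, Erg_d, Erg_st]
  exact Erg_par _ _ _ hε ha

theorem Erg_mk {T : G.V → Ht G.k} (hT : Measurable T) (v : Ht G.k) {ε h : ℝ} (hε : 0 < ε)
    (hh : 0 < h) {Ω : Set G.V} (hΩ : MeasurableSet Ω) :
    volume {x ∈ Ω | ε * h ≤ ‖T (G.st x (G.X ((2 * h) • v))) -
      (2 : ℝ) • T (G.st x (G.X (h • v))) + T x‖} ≤ ∫⁻ x in Ω, Erg_d T v ε h x := by
  refine le_trans ?_ (mul_meas_ge_le_lintegral (Erg_md hT v ε h) 1)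
  rw [one_mul, Measure.restrict_apply' hΩ]
  refine measure_mono fun x hx => ⟨?_, hx.1⟩
  have hp : 0 < ε * h := mul_pos hε hh
  exact ENNReal.one_le_ofReal.2 ((one_le_div (by positivity)).2 (pow_le_pow_left₀ hp.le hx.2 2))

theorem Erg_fin (G : Geo) {L ε : ℝ} (hL : 0 ≤ L) (hε : 0 < ε) (v : Ht G.k) :
    ∃ β M : ℝ, 0 ≤ β ∧ ∀ T : G.V → Ht G.k, Measurable T →
      (∀ x y, ‖T y - T x‖ ≤ L * (G.len (x⁻¹ * y) + 1)) →
      ∀ (A : Set G.V) (ρ : ℝ) (g : ℕ → ℝ) (m : ℕ), (∀ l, 0 < g l) → (∀ l, g l = 2 * g (l + 1)) →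
        (∀ l ≤ m, 1 ≤ g l) → (∀ l, 1 ≤ ρ - 2 * β * g l) →
        ∑ l ∈ Finset.range m, volume {x ∈ G.nb A (ρ - 2 * β * g l) | ε * g l ≤
          ‖T (G.st x (G.X ((2 * g l) • v))) - (2 : ℝ) • T (G.st x (G.X (g l • v))) + T x‖} ≤
          ENNReal.ofReal M * volume (G.nb A ρ) := by
  obtain ⟨β, hβ, Hβ⟩ := Erg_len G v
  refine ⟨β, (2 * L * (β + 1) / ε) ^ 2, hβ, fun T hT hL' A ρ g m hg0 hg2 hg1 hρ => ?_⟩
  have hΩ : ∀ l, MeasurableSet (G.nb A (ρ - 2 * β * g l)) := fun l =>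
    (isOpen_nb A (hρ l)).measurableSet
  have key := Erg_sum (μ := volume) (τ := fun l x => G.st x (G.X (g l • v)))
    (Ω := fun l => G.nb A (ρ - 2 * β * g l)) (s := fun l => Erg_s T v ε (g l))
    (d := fun l => Erg_d T v ε (g l)) (fun l => mp_st_right _) (fun l => Erg_ms hT v ε _)
    (fun l x => by
      rw [hg2 l]
      exact Erg_pt T v hε (hg0 _) x) m (fun l _ => hΩ l)
    (fun l hl => by
      have e : ρ - 2 * β * g (l + 1) = ρ - 2 * β * g l + β * g l := by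
        rw [hg2 l]
        ring
      rw [e]
      exact ⟨nb_mono subset_rfl (le_add_of_nonneg_right (mul_nonneg hβ (hg0 l).le)),
        fun x hx => nb_nb A _ _ ⟨x, hx, Hβ x _ (hg1 l hl.le)⟩⟩)
  refine (Finset.sum_le_sum fun l _ => Erg_mk hT v hε (hg0 l) (hΩ l)).trans (key.trans ?_)
  refine (lintegral_mono (g := fun _ => ENNReal.ofReal ((2 * L * (β + 1) / ε) ^ 2))
    fun x => ENNReal.ofReal_le_ofReal ?_).trans ?_
  · have hp : 0 < ε * g m := mul_pos hε (hg0 m)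
    rw [← div_pow]
    refine pow_le_pow_left₀ (by positivity) ?_ 2
    have h1 := hg1 m le_rfl
    have h2 := Hβ x (2 * g m) (by linarith)
    have h3 := hL' x (G.st x (G.X ((2 * g m) • v)))
    rw [div_le_iff₀ hp]
    have e : 2 * L * (β + 1) / ε * (ε * g m) = L * (β * (2 * g m) + 2 * g m) := by
      field_simp
    rw [e]
    exact h3.trans (mul_le_mul_of_nonneg_left (by linarith) hL)
  · rw [setLIntegral_const]
    exact mul_le_mul_right (measure_mono (nb_mono subset_rfl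
      (sub_le_self _ (by have := hg0 m; positivity)))) _

theorem Erg_ev (a : ℝ) {b : ℝ} (hb : 0 < b) : ∀ᶠ l : ℕ in atTop, a / 2 ^ l ≤ b :=
  (tendsto_const_nhds.div_atTop (tendsto_pow_atTop_atTop_of_one_lt one_lt_two)).eventually
    (ge_mem_nhds hb)

theorem tan_blow (hA : S.Rg W A c) {𝒱 : Ultrafilter ℕ} (h𝒱 : (𝒱 : Filter ℕ) ≤ atTop) :
    (S.blow 𝒱).Tan (fun q => W q.1) fun q => G.nb (A q.1) (c / 2 * S.R q.1) := by
  obtain ⟨hc, C, hC⟩ := hA
  refine ⟨fun c₁ hc₁ => ⟨hc₁, C, (eventually_bind S.U 𝒱 _).2 ?_⟩, fun v c₁ ε hε κ hκ =>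
    (eventually_bind S.U 𝒱 _).2 (h𝒱 ?_)⟩
  · filter_upwards [h𝒱 (Erg_ev c₁ (half_pos hc))] with l hl
    filter_upwards [hC, S.ev_R 0] with n hn hR
    refine (measure_mono ((nb_nb _ _ _).trans (nb_mono subset_rfl ?_))).trans hn
    have h1 : c₁ / 2 ^ l ≤ c / 2 := hl
    show c / 2 * S.R n + c₁ * (S.R n / 2 ^ l) ≤ c * S.R n
    have e : c₁ * (S.R n / 2 ^ l) = c₁ / 2 ^ l * S.R n := by ring
    nlinarith
  obtain ⟨C', hC', HT⟩ := T_lip G
  obtain ⟨β, M, hβ, H⟩ := Erg_fin G (L := C' * S.K)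
    (mul_nonneg hC'.le (zero_le_one.trans S.one_le_K)) hε v
  obtain ⟨l₀, hl₀⟩ := eventually_atTop.1 (Erg_ev (|c₁| + 2 * β) (half_pos hc))
  set Bad : ℕ → S.I → Set G.V := fun l n =>
    {x ∈ G.nb (G.nb (A n) (c / 2 * S.R n)) (c₁ * (S.R n / 2 ^ l)) | ε * (S.R n / 2 ^ l) ≤
      ‖S.T n (G.st x (G.X ((2 * (S.R n / 2 ^ l)) • v))) -
        (2 : ℝ) • S.T n (G.st x (G.X ((S.R n / 2 ^ l) • v))) + S.T n x‖} with hBad
  have hsum : ∀ m, ∀ᶠ n in S.U, ∑ l ∈ Finset.range m, volume (Bad (l₀ + l) n) ≤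
      ENNReal.ofReal M * (ENNReal.ofReal C * W n) := by
    intro m
    filter_upwards [hC, S.ev_R (2 ^ (l₀ + m)), S.ev_R (2 / c)] with n hn hR hR'
    have hR0 : 0 < S.R n := lt_of_lt_of_le (by positivity) hR
    have hk : ∀ l, c / 2 * S.R n + |c₁| * (S.R n / 2 ^ (l₀ + l)) ≤
        c * S.R n - 2 * β * (S.R n / 2 ^ (l₀ + l)) := fun l => by
      have h1 := mul_le_mul_of_nonneg_right (hl₀ (l₀ + l) (Nat.le_add_right _ _)) hR0.le
      have e : (|c₁| + 2 * β) / 2 ^ (l₀ + l) * S.R n =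
          |c₁| * (S.R n / 2 ^ (l₀ + l)) + 2 * β * (S.R n / 2 ^ (l₀ + l)) := by ring
      linarith
    have h2 := H (S.T n) (S.measurable_T n) (HT S n) (A n) (c * S.R n)
      (fun l => S.R n / 2 ^ (l₀ + l)) m (fun l => by positivity)
      (fun l => by
        rw [← add_assoc, pow_succ]
        field_simp)
      (fun l hl => (one_le_div (by positivity)).2
        ((pow_le_pow_right₀ one_le_two (by omega)).trans hR))
      (fun l => by
        have h3 := hk l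
        have h4 : 0 ≤ |c₁| * (S.R n / 2 ^ (l₀ + l)) := by positivity
        rw [div_le_iff₀ hc] at hR'
        linarith)
    refine le_trans (Finset.sum_le_sum fun l _ => measure_mono ?_)
      (h2.trans (mul_le_mul_right hn _))
    intro x hx
    refine ⟨nb_mono subset_rfl (le_trans ?_ (hk l)) (nb_nb _ _ _ hx.1), hx.2⟩
    exact add_le_add_right (mul_le_mul_of_nonneg_right (le_abs_self _) (by positivity)) _
  have hev : ∀ᶠ l in atTop, ∀ᶠ n in S.U, volume (Bad (l₀ + l) n) ≤ ENNReal.ofReal κ * W n := by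
    by_contra hcon
    rw [not_eventually, Nat.frequently_atTop_iff_infinite] at hcon
    obtain ⟨N, hN⟩ := exists_nat_ge (|M| * |C| / κ)
    obtain ⟨F, hF, hFc⟩ := hcon.exists_subset_card_eq (N + 1)
    obtain ⟨m, hm⟩ := F.exists_nat_subset_range
    have h1 : ∀ᶠ n in S.U, ∀ l ∈ F, ENNReal.ofReal κ * W n < volume (Bad (l₀ + l) n) :=
      (eventually_all_finset F).2 fun l hl =>
        (Ultrafilter.eventually_not.2 (hF hl)).mono fun n hn => not_le.1 hn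
    obtain ⟨n, h2, h3⟩ := (h1.and (hsum m)).exists
    have h4 := ENNReal.sum_lt_sum_of_nonempty (Finset.card_pos.1 (by omega)) h2
    have h5 := (h4.trans_le (Finset.sum_le_sum_of_subset hm)).trans_le h3
    rw [Finset.sum_const, hFc, nsmul_eq_mul, ← mul_assoc, ← mul_assoc] at h5
    refine absurd h5 (not_lt.2 (mul_le_mul_left ?_ _))
    rw [← ENNReal.ofReal_natCast, ← ENNReal.ofReal_mul (Nat.cast_nonneg _)]
    refine (mul_le_mul' (ENNReal.ofReal_le_ofReal (le_abs_self M))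
      (ENNReal.ofReal_le_ofReal (le_abs_self C))).trans ?_
    rw [← ENNReal.ofReal_mul (abs_nonneg _)]
    refine ENNReal.ofReal_le_ofReal ?_
    rw [div_le_iff₀ hκ] at hN
    push_cast
    linarith
  obtain ⟨a, ha⟩ := eventually_atTop.1 hev
  refine eventually_atTop.2 ⟨l₀ + a, fun l hl => ?_⟩
  obtain ⟨k, rfl⟩ := Nat.exists_eq_add_of_le (le_trans (Nat.le_add_right l₀ a) hl)
  exact ha k (by omega)

theorem Tan.mono {B : S.I → Set G.V} (h : S.Tan W B) (hAB : ∀ᶠ n in S.U, A n ⊆ B n) :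
    S.Tan W A :=
  ⟨fun c hc => (h.1 c hc).mono hAB hc le_rfl, fun v c ε hε => (h.2 v c ε hε).mono
    (hAB.mono fun _ hn _ hx => ⟨nb_mono hn le_rfl hx.1, hx.2⟩)⟩

theorem Tan.nb (h : S.Tan W A) (c : ℝ) : S.Tan W fun n => G.nb (A n) (c * S.R n) :=
  ⟨fun c' hc' => (h.1 (|c| + c') (by positivity)).nb hc' (add_le_add_left (le_abs_self c) _),
    fun v c' ε hε => (h.2 v (c + c') ε hε).mono (Eventually.of_forall fun _ _ hx =>
      ⟨nb_mono subset_rfl (add_mul _ _ _).ge (nb_nb _ _ _ hx.1), hx.2⟩)⟩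

end Vale.Agent.P188.Sys
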