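import Vale.Agent.P188.Mac
import Vale.Agent.P188.CntG

/-! The crossing inequality. -/

namespace Vale.Agent.P188.Sys

open MeasureTheory Filter Mdl
open scoped InnerProductSpace ENNReal

variable {G : Geo}

theorem xl_tri (x y z : G.V) : G.len (x⁻¹ * z) ≤ G.len (x⁻¹ * y) + G.len (y⁻¹ * z) := by
  have h := (isLen_len (M := G.toMdl)).mul (x⁻¹ * y) (y⁻¹ * z)
  rwa [mul_assoc, mul_inv_cancel_left] at h

theorem xl_symm (x y : G.V) : G.len (x⁻¹ * y) = G.len (y⁻¹ * x) := by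
  rw [← (isLen_len (M := G.toMdl)).inv, mul_inv_rev, inv_inv]

/-- the fibres of the projection to a height followed by the map -/
theorem fib (S : Sys G) (a : Ht G.k) (C₀ : ℝ) : ∃ C, 0 ≤ C ∧ ∀ᶠ n in S.U, ∀ (y p k k' : G.V),
    ‖G.ht (G.st y k)‖ ≤ C₀ * S.R n → ‖G.ht (G.st y k')‖ ≤ C₀ * S.R n →
    G.len (p⁻¹ * S.f n (G.pr (S.R n • a) (G.st y k))) ≤ 2 →
    G.len (p⁻¹ * S.f n (G.pr (S.R n • a) (G.st y k'))) ≤ 2 →
      G.st (-k) k' ∈ G.B fun i => G.la (S.R n • a) i + Real.log (S.R n) + C := by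
  obtain ⟨C, hC, h⟩ := G.fiber (‖a‖ + C₀) (7 * S.K)
  refine ⟨C, hC, (S.ev_R 1).mono fun n hn y p k k' h1 h2 h3 h4 => ?_⟩
  have hb : ∀ x : G.V, ‖G.ht x‖ ≤ C₀ * S.R n → ‖S.R n • a - G.ht x‖ ≤ (‖a‖ + C₀) * S.R n :=
    fun x hx => by
      have h5 := norm_sub_le (S.R n • a) (G.ht x)
      rw [norm_smul, Real.norm_of_nonneg (zero_le_one.trans hn)] at h5
      linarith
  rw [← Geo.st_neg_st y]
  refine h _ hn _ _ _ (hb _ h1) (hb _ h2) ?_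
  generalize G.pr (S.R n • a) (G.st y k) = x at h3 ⊢
  generalize G.pr (S.R n • a) (G.st y k') = x' at h4 ⊢
  have hK := S.one_le_K
  have a1 := xl_tri (S.f n x) p (S.f n x')
  rw [xl_symm (S.f n x) p] at a1
  have a2 := (S.q n).lg (S.f n x) (S.f n x')
  have a3 := (S.q n).gf x
  have a4 := (S.q n).gf x'
  have a5 := xl_tri x (S.g n (S.f n x)) x'
  have a6 := xl_tri (S.g n (S.f n x)) (S.g n (S.f n x')) x'
  rw [xl_symm x (S.g n (S.f n x))] at a5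
  have a7 := mul_le_mul_of_nonneg_left (a1.trans (add_le_add h3 h4)) (zero_le_one.trans hK)
  linarith

theorem lp_dist (G : Geo) : ∃ C > 0, ∀ (S : Sys G) (D : S.I → Set G.V) (η ρ : ℝ)
    (w w' : Ht G.k), 0 ≤ ρ → S.Big D η → (∀ ε > 0, Nul S.U (fun n => volume (D n)) fun n =>
      {k ∈ D n | ¬∃ z z', G.len (z'⁻¹ * z) ≤ ρ * S.R n ∧ ‖S.T n z - S.R n • w‖ ≤ ε * S.R n ∧
        ‖S.T n z' - S.R n • w'‖ ≤ ε * S.R n}) → ‖w - w'‖ ≤ C * S.K * ρ := by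
  obtain ⟨C, hC, hT⟩ := T_lip G
  refine ⟨C, hC, fun S D η ρ w w' _ hD hN => le_of_forall_pos_le_add fun ε hε => ?_⟩
  by_contra hc
  have hε' : 0 < ε / 3 := by positivity
  refine not_nul_self (U := S.U) (A := D) ((hD 1 one_pos).mono fun n hn =>
    ⟨((ENNReal.ofReal_pos.2 (Real.exp_pos _)).trans_le hn.1).ne', hn.2⟩) ((hN _ hε').mono ?_)
  filter_upwards [S.SysB_ev (C * S.K) hε', S.ev_R 1] with n h1 h2 k hk
  refine ⟨hk, ?_⟩
  rintro ⟨z, z', h3, h4, h5⟩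
  have hK := S.one_le_K
  have h6 := (hT S n z' z).trans (mul_le_mul_of_nonneg_left (add_le_add h3 le_rfl)
    (by positivity))
  have h7 := norm_sub_le_norm_sub_add_norm_sub (S.R n • w) (S.T n z) (S.R n • w')
  have h8 := norm_sub_le_norm_sub_add_norm_sub (S.T n z) (S.T n z') (S.R n • w')
  rw [← smul_sub, norm_smul, Real.norm_of_nonneg (zero_le_one.trans h2), norm_sub_rev (S.R n • w)]
    at h7
  refine hc (le_of_mul_le_mul_left ?_ (one_pos.trans_le h2))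
  linarith

theorem xl_h0 (G : Geo) (H : Ht G.k) {β : ℝ} (hβ : 0 ≤ β) :
    G.h (fun i => G.la H i + β) ≤ G.N * G.F.d * β := by
  have h1 := Geo.h_shift (G := G) (fun _ => β) H
  have h2 := Geo.h_add (G := G) (fun i => 0 * G.la H i) hβ
  rw [Geo.h_smul _ le_rfl] at h2
  simp only [zero_mul, zero_add] at h2
  simp only [add_comm (G.la H _)]
  exact h1.trans_le h2

theorem xl_inner {Λ δ R : ℝ} {i : Fin G.n} (hl : ‖G.lam i‖ ≤ Λ) {t w : Ht G.k}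
    (h : ‖t - R • w‖ ≤ δ) : ⟪G.lam i, t⟫_ℝ ≤ R * ⟪G.lam i, w⟫_ℝ + Λ * δ := by
  have b2 := (real_inner_le_norm (G.lam i) (t - R • w)).trans
    (mul_le_mul hl h (norm_nonneg _) ((norm_nonneg _).trans hl))
  rw [inner_sub_right, real_inner_smul_right] at b2
  linarith

theorem xl_three {a b c t : ℝ} (ha : |a| ≤ Real.exp t) (hb : |b| ≤ Real.exp t)
    (hc : |c| ≤ Real.exp t) : |a - b + c| ≤ Real.exp (t + 2) := by
  have h1 := abs_add_le (a - b) c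
  have h2 := abs_sub a b
  have h3 := mul_le_mul_of_nonneg_left (Real.add_one_le_exp 2) (Real.exp_pos t).le
  rw [Real.exp_add]
  linarith

theorem xl (G : Geo) : ∃ C > 0, ∀ (S : Sys G) (y y₁ y₂ : S.I → G.V) (D : S.I → Set G.V)
    (a' w w' : Ht G.k) (c c' : Fin G.n → ℝ) (i : Fin G.n) (η ρ C₀ : ℝ), 0 ≤ ρ → S.Big D η →
    (∀ᶠ n in S.U, ∀ k ∈ D n, ‖G.ht (G.st (y n) k)‖ ≤ C₀ * S.R n) → G.la w' ≤ c' →
    c i ≤ ⟪G.lam i, w⟫_ℝ →
    (∀ ε > 0, Nul S.U (fun n => volume (D n)) fun n => {k ∈ D n |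
      ¬(S.Lp n (G.pr (S.R n • a') (G.st (y n) k)) (y₁ n) w' c' ε ∧
        ∃ z, G.len ((G.pr (S.R n • a') (G.st (y n) k))⁻¹ * z) ≤ ρ * S.R n ∧
          S.Lp n z (y₂ n) w c ε)}) →
    η ≤ G.h c' - (c' i - ⟪G.lam i, w'⟫_ℝ) + C * S.K * ρ := by
  obtain ⟨C₁, h1, hv⟩ := G.vol_B
  obtain ⟨C₂, h2, hs⟩ := G.step_mem
  obtain ⟨C₃, h3, hb⟩ := st_Bx G.x
  obtain ⟨C₄, h4, hτ⟩ := G.τ_len
  obtain ⟨C₅, h5, hd⟩ := lp_dist G
  obtain ⟨C₆, h6, hcut⟩ := G.vol_cut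
  obtain ⟨l, Λ, -, hΛ, hl⟩ := G.lam_bd
  refine ⟨C₄ + Λ * C₅, by positivity, fun S y y₁ y₂ D a' w w' c c' i η ρ C₀ hρ hD hy hw hc hN => ?_⟩
  have hK := S.one_le_K
  have hww : ‖w - w'‖ ≤ C₅ * S.K * ρ := hd S D η ρ w w' hρ hD fun ε hε => (hN ε hε).mono
    (Eventually.of_forall fun n k hk => ⟨hk.1, fun h => hk.2
      (h.2.elim fun z hz => ⟨z, _, hz.1, hz.2.1, h.1.1⟩)⟩)
  have hw1 : ⟪G.lam i, w⟫_ℝ ≤ 1 * ⟪G.lam i, w'⟫_ℝ + Λ * (C₅ * S.K * ρ) :=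
    xl_inner (hl i).1 (by rwa [one_smul])
  obtain ⟨C₇, h7, hf⟩ := S.fib a' C₀
  obtain ⟨A, hA, eA⟩ : ∃ A : ℝ, 0 ≤ A ∧ (G.N : ℝ) * G.F.d = A := ⟨_, by positivity, rfl⟩
  rw [← zero_add (_ + _)]
  refine S.count (F := fun n k => S.f n (G.pr (S.R n • a') (G.st (y n) k))) hD
    (fun ε hε => ?_) fun ε hε => ?_
  · filter_upwards [hf, hy, S.ev_R 1, S.ev_log (A * (1 + C₇) + C₁) hε] with n g1 g2 g3 g4 p
    rcases Set.eq_empty_or_nonempty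
      {k ∈ D n | G.len (p⁻¹ * S.f n (G.pr (S.R n • a') (G.st (y n) k))) ≤ 2} with e | ⟨k, hk⟩
    · rw [e, measure_empty]
      exact zero_le
    have hlog := Real.log_nonneg g3
    refine (measure_mono (t := G.bx k fun j => G.la (S.R n • a') j + (Real.log (S.R n) + C₇))
      fun k' hk' => ?_).trans ?_
    · simp only [← add_assoc]
      exact g1 _ p k k' (g2 k hk.1) (g2 k' hk'.1) hk.2 hk'.2
    rw [G.vol_bx]
    refine (hv _).2.trans (ENNReal.ofReal_le_ofReal (Real.exp_le_exp.2 ?_))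
    have g5 := xl_h0 G (S.R n • a') (add_nonneg hlog h7)
    rw [eA] at g5
    have p1 := mul_nonneg (mul_nonneg hA h7) hlog
    have p2 := mul_nonneg h1 hlog
    linarith
  obtain ⟨ε₁, hε₁, e1⟩ : ∃ ε₁ > 0, ε₁ * (A + 1) = ε :=
    ⟨ε / (A + 1), by positivity, div_mul_cancel₀ _ (by positivity)⟩
  obtain ⟨δ, hδ, e2⟩ : ∃ δ > 0, δ * (Λ + 1) = ε₁ / 2 :=
    ⟨ε₁ / 2 / (Λ + 1), by positivity, div_mul_cancel₀ _ (by positivity)⟩
  refine ⟨fun n => {v ∈ G.bx (y₁ n) fun j => S.R n * c' j + ε₁ * S.R n |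
    |G.τ i v - G.τ i (y₂ n)| ≤ Real.exp (S.R n * (⟪G.lam i, w'⟫_ℝ + (C₄ + Λ * C₅) * S.K * ρ) +
      ε₁ * S.R n)}, ?_, (hN δ hδ).mono ?_⟩
  · filter_upwards [S.ev_R 0, S.SysB_ev C₆ hε₁] with n g1 g2
    refine (hcut _ _ _ _ _).trans (ENNReal.ofReal_le_ofReal (Real.exp_le_exp.2 ?_))
    have g3 := Geo.h_add (G := G) (fun j => S.R n * c' j) (mul_nonneg hε₁.le g1)
    rw [Geo.h_smul _ g1, eA] at g3
    rw [← e1]
    linarith
  filter_upwards [S.ev_R 0, S.SysB_ev (C₂ + C₃ + C₄ * S.K + 2) (half_pos hε₁)] with n g1 g2 k hk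
  refine ⟨hk.1, fun h => hk.2 ?_⟩
  obtain ⟨hp, z, hz, hq⟩ := h
  rintro v ⟨_, rfl, hv'⟩
  generalize G.pr (S.R n • a') (G.st (y n) k) = x at hp hz hv'
  have e3 := congrArg (· * S.R n) e2
  have p0 : 0 ≤ δ * S.R n := by positivity
  have p1 := mul_nonneg hΛ.le p0
  have p2 : C₄ ≤ C₄ * S.K := le_mul_of_one_le_right h4.le hK
  have p3 : 0 ≤ S.K * (ρ * S.R n) := by positivity
  have p4 := mul_nonneg h4.le p3
  have p5 := mul_nonneg (mul_nonneg hΛ.le h5.le) p3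
  refine ⟨?_, ?_⟩
  · have a2 := hb (fun j => S.R n * c' j + (ε₁ * S.R n - C₃)) _
      (Geo.B_mono (fun j => by linarith) hp.2) _ (Geo.B_mono (fun j => ?_) (hs _ _ _ le_rfl hv'))
    · rw [st_assoc, ← st_assoc (S.f n x), st_neg, zero_st] at a2
      exact Geo.B_mono (fun j => by linarith) a2
    have b1 : G.sz (C₂ * 1) j ≤ C₂ * 1 := by
      unfold Geo.sz
      split_ifs
      · exact Real.log_le_self (by positivity)
      · exact le_rfl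
    have b2 := xl_inner (hl j).1 hp.1
    have b3 : S.R n * ⟪G.lam j, w'⟫_ℝ ≤ S.R n * c' j := mul_le_mul_of_nonneg_left (hw j) g1
    change ⟪G.lam j, S.T n x⟫_ℝ + _ ≤ _
    linarith
  have b2 : ⟪G.lam i, G.ht (S.f n x)⟫_ℝ ≤ _ := xl_inner (hl i).1 hp.1
  have a1 := hτ _ _ _ i le_rfl hv'
  have a2 := hτ _ _ _ i (by linarith) (((S.q n).lf x z).trans
    (add_le_add (mul_le_mul_of_nonneg_left hz (zero_le_one.trans hK)) le_rfl))
  have a3 := Geo.τ_mem i hq.2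
  rw [Geo.τ_st, map_neg, neg_add_eq_sub] at a3
  have b3 := mul_le_mul_of_nonneg_left (hc.trans hw1) g1
  have a4 := xl_three (t := S.R n * (⟪G.lam i, w'⟫_ℝ + (C₄ + Λ * C₅) * S.K * ρ) + ε₁ * S.R n - 2)
    (a1.trans (Real.exp_le_exp.2 (by linarith))) (a2.trans (Real.exp_le_exp.2 (by linarith)))
    (a3.trans (Real.exp_le_exp.2 (by linarith)))
  rwa [sub_add_cancel, sub_sub_sub_cancel_right, sub_add_sub_cancel] at a4

end Vale.Agent.P188.Sys
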