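import Vale.Agent.P188.Pair
import Vale.Agent.P188.XL

/-! Every box is coherent. -/

namespace Vale.Agent.P188.Sys

open MeasureTheory Filter Mdl
open scoped InnerProductSpace ENNReal

variable {G : Geo} {S : Sys G} {y : S.I → G.V} {γ : Ht G.k → ℝ} {μ : ℝ}

theorem mc_log (S : Sys G) (L : ℝ) {δ : ℝ} (hδ : 0 < δ) :
    ∀ᶠ n in S.U, Real.log (S.R n) + L ≤ δ * S.R n := by
  filter_upwards [S.ev_log 1 (half_pos hδ), S.SysB_ev L (half_pos hδ)] with n h1 h2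
  linarith

theorem mc_close (G : Geo) (C₀ : ℝ) {ε : ℝ} (hε : 0 < ε) : ∃ δ > 0, ∀ (S : Sys G)
    (γ : Ht G.k → ℝ) (L : ℝ) (i : Fin G.n) (s : S.I → ℝ) (a : Ht G.k), G.lam i ≠ 0 →
    (∀ᶠ n in S.U, |s n| ≤ Real.exp (G.ty (S.R n) γ L i)) → G.cs γ i ≤ G.la a i + δ →
    ∀ᶠ n in S.U, ∀ x, ‖S.R n • a - G.ht x‖ ≤ C₀ * S.R n →
      G.len ((G.pr (S.R n • a) x)⁻¹ * G.pr (S.R n • a) (G.st x (s n • G.x i))) ≤ ε * S.R n := by
  obtain ⟨δ, hδ, R₀, h⟩ := G.close_cell C₀ hε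
  refine ⟨δ / 2, half_pos hδ, fun S γ L i s a hi hs ha => ?_⟩
  filter_upwards [hs, S.ev_R R₀, S.ev_R 0, S.mc_log L (half_pos hδ)] with n h1 h2 h3 h4 x hx
  refine h _ h2 x _ hx _ (Geo.x_mem (h1.trans (Real.exp_le_exp.2 ?_)))
  have h5 := mul_le_mul_of_nonneg_left ha h3
  simp only [Geo.ty, Geo.sz, if_neg hi, Geo.la, inner_smul_right] at h5 ⊢
  linarith

theorem mc_ht (h : S.Bd y) (γ : Ht G.k → ℝ) (L : ℝ) : ∃ C, ∀ᶠ n in S.U,
    ∀ k ∈ G.B (G.ty (S.R n) γ L), ‖G.ht (G.st (y n) k)‖ ≤ C * S.R n := by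
  obtain ⟨C, hC⟩ := h
  obtain ⟨C', -, hC'⟩ := G.ht_of_mem
  refine ⟨C + C' * Real.exp L, ?_⟩
  filter_upwards [hC, S.ev_R 1] with n h1 h2 k hk
  have h3 := hC' _ (Real.log (S.R n) + L) (fun i hi => by simp [Geo.ty, Geo.cs, hi]) k hk
  rw [Real.exp_add, Real.exp_log (by linarith)] at h3
  rw [ht_st]
  refine (norm_add_le _ _).trans ?_
  linarith [h1.1]

theorem mc_facet {σ σ' : Ht G.k ≃ₗᵢ[ℝ] Ht G.k} {o o' a : Ht G.k} {L : ℝ} {i : Fin G.n}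
    {s : S.I → ℝ} (hi : G.lam i ≠ 0) (hs : ∀ᶠ n in S.U, |s n| ≤ Real.exp (G.ty (S.R n) γ L i))
    (hy : S.Bd y) (hy' : S.Bd fun n => G.st (y n) (s n • G.x i)) (h : S.Par y γ σ o)
    (h' : S.Par (fun n => G.st (y n) (s n • G.x i)) γ σ' o') (ha : a ∈ G.Cl γ)
    (ha' : ⟪G.nu i, a⟫_ℝ = γ (G.nu i)) : σ' a + o' = σ a + o := by
  have h1 : S.Sm fun n => S.T n (G.pr (S.R n • a) (G.st (y n) (s n • G.x i))) -
      S.T n (G.pr (S.R n • a) (y n)) := by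
    refine sm_of_len fun ε hε => ?_
    obtain ⟨C, hC⟩ := hy
    obtain ⟨δ, hδ, h2⟩ := mc_close G (‖a‖ + C) hε
    have h3 : G.cs γ i ≤ G.la a i + δ := by
      rw [Geo.cs, Geo.la, ← ha', ← real_inner_smul_left, ← Geo.lam_eq]
      linarith
    filter_upwards [h2 S γ L i s a hi hs h3, hC, S.ev_R 0] with n h4 h5 h6
    refine h4 _ ((norm_sub_le _ _).trans ?_)
    rw [norm_smul, Real.norm_of_nonneg h6]
    linarith [h5.1]
  have h2 := (h1.sub (h'.pr hy' ha)).add (h.pr hy ha)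
  refine sub_eq_zero.1 (Sm.eq_zero (h2.congr (Eventually.of_forall fun n => ?_)))
  rw [smul_sub]
  abel

theorem mc_big (S : Sys G) (γ : Ht G.k → ℝ) {L β : ℝ} (hL : 0 ≤ L) (hβ : 0 ≤ β) :
    S.Big (fun n => G.B fun j => G.ty (S.R n) γ L j - β * S.R n)
      (G.h (G.cs γ) - G.N * G.F.d * β) := by
  obtain ⟨C, -, hC⟩ := G.vol_B
  intro ε hε
  filter_upwards [S.ev_R 1, S.SysB_ev C hε] with n h1 h2
  refine ⟨le_trans (ENNReal.ofReal_le_ofReal (Real.exp_le_exp.2 ?_)) (hC _).1,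
    ne_top_of_le_ne_top ENNReal.ofReal_ne_top (hC _).2⟩
  have h3 := G.h_add (fun j => G.cs γ j - β) hβ
  simp only [sub_add_cancel] at h3
  have h4 := G.h_smul (fun j => G.cs γ j - β) (zero_le_one.trans h1)
  have h5 : G.h (fun j => S.R n * (G.cs γ j - β)) ≤
      G.h fun j => G.ty (S.R n) γ L j - β * S.R n := Geo.h_mono fun j => by
    have := Real.log_nonneg h1
    simp only [Geo.ty]
    linarith
  have h6 := mul_le_mul_of_nonneg_left h3 (zero_le_one.trans h1)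
  change S.R n * G.h (G.cs γ) ≤ _ at h6
  linarith

theorem mc_lp {γ' : Ht G.k → ℝ} {E : S.Ext} {z z' : E.J → G.V} {σ : Ht G.k ≃ₗᵢ[ℝ] Ht G.k}
    {o a : Ht G.k} (hO : G.Orth) (hμ : 0 < μ) (hγ' : G.Ok γ' μ) (hle : ∀ ν ∈ G.Nn, γ' ν ≤ γ ν)
    (hy : S.Bd y) (H : S.Hyp y γ γ') (hz : E.Gn (S.Wv γ) z) (hz' : E.Gn (S.Wv γ) z')
    (hm : E.sys.In (fun n => y (E.π n)) γ z) (hm' : E.sys.In z γ' z') (hσ : σ ∈ G.Sig)
    (h : E.sys.Par z γ' σ o) (ha : a ∈ G.Cl γ') {ε : ℝ} (hε : 0 < ε) :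
    ∀ᶠ n in E.U, E.sys.Lp n (G.pr (E.sys.R n • a) (z' n))
      (E.sys.f n (G.pr (E.sys.R n • a) (z n))) (σ a + o) (G.cs (G.im γ' σ o)) ε :=
  ((pair_par hO hμ hγ' hle hy H hz hz' hm hm' h).pr (((hy.pull E).of_in hm).of_in hm') ha ε
    hε).and (pair_ev hO hμ hγ' hle hy H hz hz' hm hm' hσ h ha ε hε)

theorem mc_d (i : Fin G.n) : (1 : ℝ) ≤ G.F.d := by
  by_contra h
  have h1 : G.F.d ≤ [i].length := by
    have : G.F.d < 1 := by exact_mod_cast not_le.1 h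
    exact this.le
  have h2 : G.x i = 0 := yw_long G.x h1
  have h3 := G.τ_self i
  rw [h2, map_zero] at h3
  exact zero_ne_one h3

theorem mc_ty {Λ θ R : ℝ} (hΛ : ∀ j, ‖G.lam j‖ ≤ Λ) (hθ : 0 ≤ θ) (hR : 0 ≤ R) (L C : ℝ)
    (j : Fin G.n) :
    G.ty R γ L j - Λ * θ * R + C ≤ G.ty R (fun ν => γ ν - θ) (L + C) j := by
  have := mul_le_mul_of_nonneg_right (hΛ j) (mul_nonneg hθ hR)
  simp only [Geo.ty, Geo.cs]
  linarith

theorem mc_theta {a b c d e : ℝ} (ha : 0 < a) (hb : 0 < b) (hc : 0 < c) (hd : 0 ≤ d)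
    (he : 0 ≤ e) : ∃ θ > 0, θ ≤ a ∧ d * θ ≤ b ∧ e * θ ≤ c := by
  refine ⟨min a (min (b / (d + 1)) (c / (e + 1))), by positivity, min_le_left _ _, ?_, ?_⟩
  · refine (mul_le_mul_of_nonneg_left ((min_le_right _ _).trans (min_le_left _ _)) hd).trans ?_
    rw [← mul_div_assoc, div_le_iff₀ (by positivity)]
    linarith
  · refine (mul_le_mul_of_nonneg_left ((min_le_right _ _).trans (min_le_right _ _)) he).trans ?_
    rw [← mul_div_assoc, div_le_iff₀ (by positivity)]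
    linarith

theorem mc_conj (x k q : G.V) :
    G.st (-G.st x q) (G.st (G.st x k) q) = G.st (G.st (-q) k) q := by
  rw [st_assoc x, Geo.st_neg_st, st_assoc]

theorem mc_nul {γ' : Ht G.k → ℝ} {E : S.Ext} {x : E.J → G.V} {σ σ' : Ht G.k ≃ₗᵢ[ℝ] Ht G.k}
    {o o' a : Ht G.k} {q : S.I → G.V} {D : S.I → Set G.V} {L L' ρ : ℝ} (hO : G.Orth)
    (hμ : 0 < μ) (hγ' : G.Ok γ' μ) (hle : ∀ ν ∈ G.Nn, γ' ν ≤ γ ν) (hy : S.Bd y)
    (H : S.Hyp y γ γ') (hx : E.Gn (S.Wv γ) x) (hm : E.sys.In (fun n => y (E.π n)) γ x)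
    (hm' : E.sys.In (fun n => y (E.π n)) γ fun n => G.st (x n) (q (E.π n))) (hσ : σ ∈ G.Sig)
    (hσ' : σ' ∈ G.Sig) (h : E.sys.Par x γ' σ o)
    (h' : E.sys.Par (fun n => G.st (x n) (q (E.π n))) γ' σ' o') (ha : a ∈ G.Cl γ')
    (hDm : ∀ n, MeasurableSet (D n)) (hDv : ∀ᶠ n in S.U, volume (D n) ≠ 0 ∧ volume (D n) ≠ ⊤)
    (hsub : ∀ᶠ n in S.U, D n ⊆ G.B (G.ty (S.R n) γ' L))
    (hcj : ∀ᶠ n in S.U, ∀ k ∈ D n, G.st (G.st (-q n) k) (q n) ∈ G.B (G.ty (S.R n) γ' L'))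
    (hlen : ∀ᶠ n in E.U, ∀ k ∈ D (E.π n), G.len ((G.pr (E.sys.R n • a) (G.st (x n) k))⁻¹ *
      G.pr (E.sys.R n • a) (G.st (G.st (x n) k) (q (E.π n)))) ≤ ρ * E.sys.R n) :
    ∀ ε > 0, Nul E.U (fun n => volume (D (E.π n))) fun n => {k ∈ D (E.π n) |
      ¬(E.sys.Lp n (G.pr (E.sys.R n • a) (G.st (x n) k))
          (E.sys.f n (G.pr (E.sys.R n • a) (x n))) (σ a + o) (G.cs (G.im γ' σ o)) ε ∧
        ∃ z, G.len ((G.pr (E.sys.R n • a) (G.st (x n) k))⁻¹ * z) ≤ ρ * E.sys.R n ∧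
          E.sys.Lp n z (E.sys.f n (G.pr (E.sys.R n • a) (G.st (x n) (q (E.π n)))))
            (σ' a + o') (G.cs (G.im γ' σ' o')) ε)} := by
  intro ε hε
  by_contra hn
  obtain ⟨E', k, hk, hk'⟩ := E.sys.exists_ext hn
  have hkD : ∀ᶠ n in E'.U, k n ∈ D (E.π (E'.π n)) := hk'.mono fun n h => h.1
  have hg := hx.box hDm hDv hk hkD
  have hπ := (E.comp E').h
  have p1 := mc_lp (E := E.comp E') hO hμ hγ' hle hy H (hx.comp E') hg (hm.pull E')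
    (in_st (S := (E.comp E').sys) _ ((hπ.eventually hsub).mp (hkD.mono fun n h1 h2 => h2 h1))) hσ
    (h.pull E') ha hε
  have hin : (E.comp E').sys.In (fun n => G.st (x (E'.π n)) (q (E.π (E'.π n)))) γ'
      fun n => G.st (G.st (x (E'.π n)) (k n)) (q (E.π (E'.π n))) := by
    refine ⟨L', ?_⟩
    filter_upwards [hπ.eventually hcj, hkD] with n h1 h2
    have h3 := h1 _ h2
    rw [← mc_conj (x (E'.π n))] at h3
    exact h3
  have p2 := mc_lp (E := E.comp E') hO hμ hγ' hle hy H ((hx.st q).comp E') (hg.st q)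
    (hm'.pull E') hin hσ' (h'.pull E') ha hε
  obtain ⟨n, q1, q2, q3, q4⟩ := (hk'.and (p1.and (p2.and (E'.h.eventually hlen)))).exists
  exact q1.2 ⟨q2, _, q4 _ q1.1, q3⟩

theorem mc_cross {E : S.Ext} {x : E.J → G.V} {σ σ' : Ht G.k ≃ₗᵢ[ℝ] Ht G.k} {o o' : Ht G.k}
    {L : ℝ} {i : Fin G.n} {s : S.I → ℝ} (hO : G.Orth) (hμ : 0 < μ) (hγ : G.Ok γ μ) (hy : S.Bd y)
    (hL : 0 ≤ L) (hi : G.lam i ≠ 0) (hs : ∀ᶠ n in S.U, |s n| ≤ Real.exp (G.ty (S.R n) γ L i))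
    (hx : E.Gn (S.Wv γ) x) (hm : E.sys.In (fun n => y (E.π n)) γ x) (hσ : σ ∈ G.Sig)
    (hσ' : σ' ∈ G.Sig) (h : E.sys.Par x γ σ o)
    (h' : E.sys.Par (fun n => G.st (x n) (s (E.π n) • G.x i)) γ σ' o') :
    σ' (G.nu i) ≠ -σ (G.nu i) := by
  intro hneg
  have hν := G.nu_mem hi
  obtain ⟨l, Λ, hl, hΛ0, hlΛ⟩ := G.lam_bd
  have hΛ : ∀ j, ‖G.lam j‖ ≤ Λ := fun j => (hlΛ j).1
  obtain ⟨C, hC, hxl⟩ := xl G
  have hK : 0 < S.K := one_pos.trans_le S.one_le_K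
  have hd := mc_d i
  obtain ⟨C₁, hC₁⟩ := mc_ht ((hy.pull E).of_in hm) γ L
  obtain ⟨δ, hδ, hcl⟩ := mc_close G (γ (G.nu i) + C₁) (ε := l * μ / (4 * C * S.K)) (by positivity)
  obtain ⟨θ, hθ, hθ1, hθ2, hθ3⟩ := mc_theta (a := μ / 4) (b := δ) (c := l * μ / 2) (d := Λ)
    (e := G.N * G.F.d * (G.F.d * Λ) + 2 * l) (by positivity) hδ (by positivity) hΛ0.le
    (by positivity)
  obtain ⟨C₂, -, hC₂⟩ := conj_Bx (x := G.x)
  set γ₁ : Ht G.k → ℝ := fun ν => γ ν - θ with hγ₁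
  have hok : G.Ok γ₁ (μ - 2 * θ) := hγ.pert fun ν _ => by simp [hγ₁, abs_of_pos hθ]
  have hμ₁ : 0 < μ - 2 * θ := by linarith
  have hle : ∀ ν ∈ G.Nn, γ₁ ν ≤ γ ν := fun ν _ => sub_le_self _ hθ.le
  have H : S.Hyp y γ γ₁ := hyp_of_lt hO hμ hγ hy fun ν _ => sub_lt_self _ hθ
  have ha := hok.cl hμ₁.le _ hν
  obtain ⟨j, hj, hj'⟩ := G.mem_Nn (hσ'.1 _ hν)
  have hβ : 0 ≤ G.F.d * Λ * θ := by positivity
  set D : S.I → Set G.V := fun n => G.B fun j => G.ty (S.R n) γ L j - G.F.d * Λ * θ * S.R n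
    with hD
  have hbig : S.Big D _ := mc_big S γ hL hβ
  have hsub : ∀ᶠ n in S.U, D n ⊆ G.B (G.ty (S.R n) γ₁ (L + 0)) := by
    filter_upwards [S.ev_R 0] with n h0
    refine Geo.B_mono fun j => le_trans ?_ (mc_ty hΛ hθ.le h0 L 0 j)
    have := mul_le_mul_of_nonneg_right hd (mul_nonneg (mul_nonneg hΛ0.le hθ.le) h0)
    linarith
  have hsub' : ∀ᶠ n in S.U, D n ⊆ G.B (G.ty (S.R n) γ L) := by
    filter_upwards [S.ev_R 0] with n h0
    exact Geo.B_mono fun j => sub_le_self _ (mul_nonneg hβ h0)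
  have hq : ∀ᶠ n in S.U, s n • G.x i ∈ G.B (G.ty (S.R n) γ L) := hs.mono fun n => Geo.x_mem
  have hcj : ∀ᶠ n in S.U, ∀ k ∈ D n, G.st (G.st (-(s n • G.x i)) k) (s n • G.x i) ∈
      G.B (G.ty (S.R n) γ₁ (L + C₂)) := by
    filter_upwards [S.ev_R 0, hq] with n h0 h1 k hk
    refine Geo.B_mono (fun j => le_trans (le_of_eq ?_) (mc_ty hΛ hθ.le h0 L C₂ j))
      (hC₂ _ _ (mul_nonneg hβ h0) _ h1 k hk)
    have : (G.F.d : ℝ) ≠ 0 := by linarith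
    field_simp
  have hm' : E.sys.In (fun n => y (E.π n)) γ fun n => G.st (x n) (s (E.π n) • G.x i) :=
    hm.trans (in_st (S := E.sys) x (E.h.eventually hq))
  have hinn : ∀ b, ⟪G.lam j, b⟫_ℝ = ‖G.lam j‖ * ⟪σ' (G.nu i), b⟫_ℝ := fun b => by
    rw [← hj', ← real_inner_smul_left, ← Geo.lam_eq]
  have hht : ∀ᶠ n in E.U, ∀ k ∈ D (E.π n), ‖G.ht (G.st (x n) k)‖ ≤ C₁ * S.R (E.π n) := by
    filter_upwards [hC₁, E.h.eventually hsub'] with n h1 h2 k hk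
    exact h1 k (h2 hk)
  have key := hxl E.sys x (fun n => E.sys.f n (G.pr (E.sys.R n • γ₁ (G.nu i) • G.nu i) (x n)))
    (fun n => E.sys.f n (G.pr (E.sys.R n • γ₁ (G.nu i) • G.nu i)
      (G.st (x n) (s (E.π n) • G.x i)))) (fun n => D (E.π n)) (γ₁ (G.nu i) • G.nu i)
    (σ' (γ₁ (G.nu i) • G.nu i) + o') (σ (γ₁ (G.nu i) • G.nu i) + o) (G.cs (G.im γ₁ σ' o'))
    (G.cs (G.im γ₁ σ o)) j _ (l * μ / (4 * C * S.K)) C₁ (by positivity)
    (fun ε hε => E.h.eventually (hbig ε hε)) hht (Geo.la_le_cs (Geo.mem_Cl_im hσ o ha)) ?_ ?_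
  · have h1 : -G.nu i ∈ G.Nn := by
      have := Geo.symm_mem hσ (hσ'.1 _ hν)
      rwa [hneg, map_neg, LinearIsometryEquiv.symm_apply_apply] at this
    rw [Geo.h_im (hok.cl hμ₁.le) hσ, Geo.cs_im, inner_add_right, hinn, hj', hneg, map_neg,
      LinearIsometryEquiv.symm_apply_apply, inner_neg_left, LinearIsometryEquiv.inner_map_map,
      Geo.Sig_self hν] at key
    have h2 : G.h (G.cs γ₁) ≤ G.h (G.cs γ) := Geo.h_mono (Geo.cs_mono hle)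
    have h3 : C * S.K * (l * μ / (4 * C * S.K)) = l * μ / 4 := by field_simp
    have h4 : l * (2 * (μ - θ)) ≤ ‖G.lam j‖ * (γ₁ (-G.nu i) + γ₁ (G.nu i)) := by
      refine mul_le_mul ((hlΛ j).2 hj) ?_ (by linarith) (norm_nonneg _)
      have := (hγ _ h1).1
      have := (hγ _ hν).1
      simp only [hγ₁]
      linarith
    have h5 : 0 < l * μ := by positivity
    change _ ≤ _ - (_ + ⟪G.lam j, o⟫_ℝ - _) + C * S.K * _ at key
    linarith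
  · rw [Geo.cs_im, inner_add_right, hinn, hj', LinearIsometryEquiv.symm_apply_apply,
      LinearIsometryEquiv.inner_map_map, Geo.Sig_self hν]
    exact le_rfl
  · have h3 : G.cs γ i ≤ G.la (γ₁ (G.nu i) • G.nu i) i + δ := by
      have h4 : G.la (γ₁ (G.nu i) • G.nu i) i = ‖G.lam i‖ * γ₁ (G.nu i) := by
        rw [← Geo.cs_inner, Geo.cs, Geo.Sig_self hν]
      have h5 := mul_le_mul_of_nonneg_right (hΛ i) hθ.le
      rw [h4]
      simp only [Geo.cs, hγ₁]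
      linarith
    have hDm : ∀ n, MeasurableSet (D n) := fun n =>
      (isCompact_Zon (x := G.x) (P := fun _ => True)).isClosed.measurableSet
    have hDv : ∀ᶠ n in S.U, volume (D n) ≠ 0 ∧ volume (D n) ≠ ⊤ := (hbig 1 one_pos).mono
      fun n h => ⟨((ENNReal.ofReal_pos.2 (Real.exp_pos _)).trans_le h.1).ne', h.2⟩
    refine mc_nul (q := fun n => s n • G.x i) (D := D) hO hμ₁ hok hle hy H hx hm hm' hσ hσ'
      (h.mono hle) (h'.mono hle) ha hDm hDv hsub hcj ?_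
    filter_upwards [E.h.eventually (hcl S γ L i s _ hi hs h3), hht,
      E.h.eventually (S.ev_R 0)] with n q4 q5 q6 k hk
    refine q4 _ ((norm_sub_le _ _).trans ?_)
    have h6 := q5 _ hk
    have h7 : |γ₁ (G.nu i)| ≤ γ (G.nu i) := by
      rw [abs_of_pos (hok.pos hμ₁ _ hν)]
      exact hle _ hν
    have h8 := mul_le_mul_of_nonneg_left h7 q6
    rw [norm_smul, norm_smul, Real.norm_of_nonneg q6, Geo.norm_Nn hν, mul_one, Real.norm_eq_abs]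
    linarith

theorem mc_par {E : S.Ext} {x : E.J → G.V} {σ : Ht G.k ≃ₗᵢ[ℝ] Ht G.k} {o : Ht G.k}
    {L : ℝ} {i : Fin G.n} {s : S.I → ℝ} (hO : G.Orth) (hμ : 0 < μ) (hγ : G.Ok γ μ) (hy : S.Bd y)
    (hL : 0 ≤ L) (hs : ∀ᶠ n in S.U, |s n| ≤ Real.exp (G.ty (S.R n) γ L i))
    (hx : E.Gn (S.Wv γ) x) (hm : E.sys.In (fun n => y (E.π n)) γ x) (hσ : σ ∈ G.Sig)
    (h : E.sys.Par x γ σ o) :
    E.sys.Par (fun n => G.st (x n) (s (E.π n) • G.x i)) γ σ o := by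
  by_cases hi : G.lam i = 0
  · refine h.leaf (L := L) ((E.h.eventually hs).mono fun n hn =>
      ⟨Geo.smul_V0 _ (Geo.x_V0 hi), Geo.x_mem ?_⟩)
    simpa [Geo.ty, Geo.cs, hi] using hn
  have hν := G.nu_mem hi
  have hm' : E.sys.In (fun n => y (E.π n)) γ fun n => G.st (x n) (s (E.π n) • G.x i) :=
    hm.trans (in_st (S := E.sys) x (E.h.eventually (hs.mono fun n => Geo.x_mem)))
  obtain ⟨σ', hσ', o', h'⟩ := exists_par hO (hγ.pos hμ) hy (hx.st fun n => s n • G.x i) hm'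
  have hf : ∀ a ∈ G.Cl γ, ⟪G.nu i, a⟫_ℝ = γ (G.nu i) → σ' a + o' = σ a + o := fun a ha ha' =>
    mc_facet (S := E.sys) hi (E.h.eventually hs) ((hy.pull E).of_in hm) ((hy.pull E).of_in hm')
      h h' ha ha'
  have h0 := hf _ (hγ.cl hμ.le _ hν) (Geo.Sig_self hν _)
  have h1 : ∀ v, ⟪G.nu i, v⟫_ℝ = 0 → ‖v‖ = 1 → σ v = σ' v := by
    intro v hv hv'
    have h2 : ⟪G.nu i, γ (G.nu i) • G.nu i + μ • v⟫_ℝ = γ (G.nu i) := by
      rw [inner_add_right, Geo.Sig_self hν, inner_smul_right, hv, mul_zero, add_zero]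
    have h3 := hf (γ (G.nu i) • G.nu i + μ • v) (fun ν' hν' => ?_) h2
    · rw [map_add, map_add, add_right_comm, h0, add_right_comm _ _ o, add_right_inj, map_smul,
        map_smul] at h3
      exact (smul_right_injective _ hμ.ne' h3).symm
    · by_cases e : ν' = G.nu i
      · rw [e, h2]
      · have h4 := (hγ _ hν).2 ν' hν' e
        have h5 := real_inner_le_norm ν' v
        rw [Geo.norm_Nn hν', hv'] at h5
        rw [inner_add_right, inner_smul_right ν' v]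
        nlinarith
  rcases Geo.Sig_perp (Geo.norm_Nn hν) h1 with e | e
  · subst e
    rwa [add_left_cancel h0] at h'
  · exact absurd e (mc_cross hO hμ hγ hy hL hi hs hx hm hσ hσ' h h')

theorem hyp_self (hO : G.Orth) (hμ : 0 < μ) (hγ : G.Ok γ μ) (hy : S.Bd y) : S.Hyp y γ γ := by
  intro L i s hs a ha ε hε
  by_contra hn
  obtain ⟨E, x, hx, hx'⟩ := S.exists_ext hn
  have hm : E.sys.In (fun n => y (E.π n)) γ x := ⟨L, hx'.mono fun n h => h.1⟩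
  obtain ⟨σ, hσ, o, h⟩ := exists_par hO (hγ.pos hμ) hy hx hm
  have hs' : ∀ᶠ n in S.U, |s n| ≤ Real.exp (G.ty (S.R n) γ (max L 0) i) := hs.mono fun n hn =>
    hn.trans (Real.exp_le_exp.2 (add_le_add_right (le_max_left _ _) _))
  have h' := mc_par hO hμ hγ hy (le_max_right _ _) hs' hx hm hσ h
  have hb := (hy.pull E).of_in hm
  have hb' := hb.of_in (in_st (S := E.sys) x (E.h.eventually (hs.mono fun n => Geo.x_mem)))
  obtain ⟨n, q1, q2, q3⟩ := (hx'.and ((((h.pr hb ha).sub (h'.pr hb' ha)) _ (half_pos hε)).and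
    (E.sys.ev_R 1))).exists
  have q4 := q1.2
  simp only [sub_sub_sub_cancel_right] at q2
  have q5 : ε * E.sys.R n ≤ ε / 2 * E.sys.R n := q4.trans q2
  nlinarith

theorem exists_coh (hO : G.Orth) (hμ : 0 < μ) (hγ : G.Ok γ μ) (hy : S.Bd y) :
    ∃ σ ∈ G.Sig, ∃ o, S.Coh y γ σ o := by
  obtain ⟨E, z, hz, hz'⟩ := S.exists_ext (S.not_nul_box y γ 0)
  have hm : E.sys.In (fun n => y (E.π n)) γ z := ⟨0, hz'⟩
  obtain ⟨σ, hσ, o, h⟩ := exists_par hO (hγ.pos hμ) hy hz hm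
  exact ⟨σ, hσ, o, ((coh_of_hyp hO hμ hγ (fun _ _ => le_rfl) hy (hyp_self hO hμ hγ hy) hz hm
    h).of_in hm.symm).of_pull⟩

end Vale.Agent.P188.Sys
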