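import Vale.Agent.P188.FeAB
import Vale.Agent.P188.MC

/-! Facet extension. -/

namespace Vale.Agent.P188.Sys

open MeasureTheory Filter Mdl
open scoped InnerProductSpace ENNReal

variable {G : Geo}

theorem FE_in {S : Sys G} {y : S.I → G.V} {γ : Ht G.k → ℝ} {μ : ℝ}
    (hγ : G.Ok γ μ) (h2 : ∀ ν ∈ G.Nn, γ ν ≤ 2) (hy : S.Bd y) {σ : Ht G.k ≃ₗᵢ[ℝ] Ht G.k}
    (hσ : σ ∈ G.Sig) {o : Ht G.k} (h : S.Coh y γ σ o) {ν : Ht G.k} (hν : ν ∈ G.Nn) {τ : ℝ}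
    (h0 : 0 ≤ τ) (h1 : τ ≤ μ / 4) : ∃ (S' : Sys G) (y' : S'.I → G.V) (E : S'.Ext) (z : E.J → G.V),
      S'.K = S.K ∧ S'.Fe y' (fun ν => γ ν - τ) σ o E z ν τ (μ / 2) σ o := by
  obtain ⟨E₁, y₁, g1, m1⟩ := S.exists_ext (S.not_nul_box y γ 0)
  have i1 : E₁.sys.In (fun n => y (E₁.π n)) γ y₁ := ⟨0, m1⟩
  obtain ⟨E₂, k, g2, m2⟩ := E₁.sys.exists_ext (not_nul_self
    (Eventually.of_forall (E₁.sys.vol_ty (fun ν => γ ν - τ) 0)))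
  have l1 : ∀ ν ∈ G.Nn, γ ν - τ ≤ γ ν := fun ν _ => sub_le_self _ h0
  have i2 : E₂.sys.In (fun n => y₁ (E₂.π n)) (fun ν => γ ν - τ) fun n => G.st (y₁ (E₂.π n)) (k n) :=
    in_st (S := E₂.sys) (L := 0) _ m2
  have g3 := g1.box (D := fun n => G.B (G.ty (S.R n) (fun ν => γ ν - τ) 0))
    (fun n => isCompact_Zon.measurableSet) (Eventually.of_forall (S.vol_ty _ 0)) g2 m2
  refine ⟨E₁.sys, y₁, E₂, fun n => G.st (y₁ (E₂.π n)) (k n), rfl, (hy.pull E₁).of_in i1,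
    (hγ.pert (t := τ) fun ν _ => ?_).mono (by linarith), fun ν h => (l1 ν h).trans (h2 ν h), hσ,
    h.inh g1 i1 l1, g2.st_left y₁, i2, hν, h0, hσ,
    h.inh (E := E₁.comp E₂) g3 ((i1.pull E₂).trans (i2.mono l1)) fun ν' _ => ?_⟩
  · rw [sub_sub_cancel_left, abs_neg, abs_of_nonneg h0]
  · have h3 := mul_nonneg G.Mc_nonneg h0
    simp only [Geo.up]
    split_ifs with h4
    · rw [h4, sub_add_cancel]
    · linarith

theorem inside (hO : G.Orth) {S : Sys G} {y : S.I → G.V} {γ : Ht G.k → ℝ} {μ : ℝ} (hμ : 0 < μ)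
    (hγ : G.Ok γ μ) (h2 : ∀ ν ∈ G.Nn, γ ν ≤ 2) (hy : S.Bd y) {σ : Ht G.k ≃ₗᵢ[ℝ] Ht G.k}
    (hσ : σ ∈ G.Sig) {o : Ht G.k} (h : S.Coh y γ σ o) (C : ℝ) :
    (∀ ν ∈ G.Nn, G.del (σ ν) = G.del ν) ∧
      ∀ ν ∈ G.Nn, ∀ w, ⟪ν, w⟫_ℝ = 1 → ‖w‖ ≤ C → G.hp (σ w) = G.hp w := by
  obtain ⟨t, ht, hA⟩ := fe_A hO S.K (half_pos hμ)
  obtain ⟨s, hs, hB⟩ := fe_B hO S.K C (half_pos hμ)
  have h0 : 0 < min (min t s) (μ / 4) := lt_min (lt_min ht hs) (by linarith)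
  have h1 : min (min t s) (μ / 4) ≤ t := (min_le_left _ _).trans (min_le_left _ _)
  have h3 : min (min t s) (μ / 4) ≤ s := (min_le_left _ _).trans (min_le_right _ _)
  refine ⟨Geo.del_eq hσ fun ν hν => ?_, Geo.hp_eq hσ fun ν hν w hw hw' => ?_⟩
  · obtain ⟨S', y', E, z, hK, F⟩ := FE_in hγ h2 hy hσ h hν h0.le (min_le_right _ _)
    have h4 := hA S' y' _ σ o E z ν _ o hK h1 F
    rw [sub_self, inner_zero_right, add_zero] at h4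
    exact le_of_mul_le_mul_right h4 h0
  · obtain ⟨S', y', E, z, hK, F⟩ := FE_in hγ h2 hy hσ h hν h0.le (min_le_right _ _)
    have h4 := hB S' y' _ σ o E z ν _ o hK h3 F
      (by rw [sub_self, inner_zero_right, add_zero]; exact h0.le) w hw hw'
    rw [sub_self, add_zero, Geo.hp_smul _ h0.le] at h4
    exact le_of_mul_le_mul_left h4 h0

theorem fe (hO : G.Orth) (K : ℝ) {μ : ℝ} (hμ : 0 < μ) : ∃ τ₀ > 0, ∀ (S : Sys G) (y : S.I → G.V)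
    (γ : Ht G.k → ℝ) σ o (E : S.Ext) (z : E.J → G.V) (ν : Ht G.k) (τ : ℝ), S.K = K → S.Bd y →
    G.Ok γ μ → (∀ ν ∈ G.Nn, γ ν ≤ 2) → σ ∈ G.Sig → S.Coh y γ σ o → E.Gn (S.Wv γ) z →
    E.sys.In (fun n => y (E.π n)) γ z → ν ∈ G.Nn → 0 ≤ τ → τ ≤ τ₀ →
      E.sys.Coh z (G.up γ ν τ) σ o := by
  obtain ⟨C, -, hC⟩ := G.shear
  obtain ⟨r, hr, hX⟩ := fe_X hO K hμ
  obtain ⟨t, ht, hA⟩ := fe_A hO K hμ
  obtain ⟨s, hs, hB⟩ := fe_B hO K C hμ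
  have hM := G.Mc_nonneg
  obtain ⟨q, hq, hq'⟩ := FeAB_tau (1 + G.Mc) (by linarith) (show 0 < μ / 4 by linarith)
  refine ⟨min (min r t) (min s q), lt_min (lt_min hr ht) (lt_min hs hq),
    fun S y γ σ o E z ν τ hK hy hγ h2 hσ h hz hm hν h0 hτ => ?_⟩
  simp only [le_min_iff] at hτ
  have h1 := hq' τ hτ.2.2
  have h3 := mul_nonneg hM h0
  have o2 : G.Ok (G.up γ ν τ) (μ / 2) := (hγ.pert (t := μ / 4) fun ν' _ => by
    simp only [Geo.up, abs_le]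
    split_ifs with h4
    · rw [h4]
      constructor <;> linarith
    · constructor <;> linarith).mono (by linarith)
  obtain ⟨σ', hσ', o', h'⟩ := exists_coh hO (half_pos hμ) o2 ((hy.pull E).of_in hm)
  have F : S.Fe y γ σ o E z ν τ μ σ' o' := ⟨hy, hγ, h2, hσ, h, hz, hm, hν, h0, hσ', h'⟩
  obtain rfl := hX S y γ σ o E z ν τ σ' o' hK hτ.1.1 F
  obtain ⟨i1, i2⟩ := inside hO hμ hγ h2 hy hσ h C
  have h4 := hA S y γ σ' o E z ν τ o' hK hτ.1.2 F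
  rw [i1 ν hν] at h4
  have h5 : 0 ≤ ⟪σ' ν, o' - o⟫_ℝ := by linarith [le_of_mul_le_mul_left h4 (Geo.del_pos hν)]
  have h6 := hC _ (hσ.1 ν hν) (o' - o) τ h0 h5 fun w hw hw' => by
    obtain ⟨w, rfl⟩ := σ'.surjective w
    rw [σ'.inner_map_map] at hw
    rw [σ'.norm_map] at hw'
    rw [i2 ν hν w hw hw']
    exact hB S y γ σ' o E z ν τ o' hK hτ.2.1 F (add_nonneg h0 h5) w hw hw'
  rwa [sub_eq_zero.1 h6] at h'

end Vale.Agent.P188.Sys
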