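import Vale.Agent.P188.FeX
import Vale.Agent.P188.AB

/-! The two inequalities for the change of the constant term. -/

namespace Vale.Agent.P188.Sys

open MeasureTheory Filter Mdl
open scoped InnerProductSpace ENNReal

variable {G : Geo}

theorem FeAB_top {σ : Ht G.k ≃ₗᵢ[ℝ] Ht G.k} (hσ : σ ∈ G.Sig) {β : Ht G.k → ℝ} {ν a : Ht G.k}
    (o : Ht G.k) {l m : ℝ} (hl : ∀ i, G.lam i ≠ 0 → l ≤ ‖G.lam i‖) (hm : 0 ≤ m)
    (h1 : β ν = ⟪ν, a⟫_ℝ) (h2 : ∀ ν' ∈ G.Nn, ν' ≠ ν → ⟪ν', a⟫_ℝ + m ≤ β ν') :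
    G.Top (σ ν) (G.cs (G.im β σ o)) (σ a + o) (l * m) := by
  have h3 : ∀ i, ⟪G.lam i, σ a + o⟫_ℝ = ‖G.lam i‖ * ⟪σ.symm (G.nu i), a⟫_ℝ + G.la o i := fun i => by
    rw [inner_add_right, ← Geo.Sig_inner, ← real_inner_smul_left, ← Geo.lam_eq]
    rfl
  refine ⟨fun i hi => ?_, fun i hi => ?_⟩
  · rw [h3, Geo.cs_im]
    rcases hi with hi | hi
    · rw [hi, norm_zero, zero_mul, zero_mul]
    · rw [hi, σ.symm_apply_apply, h1]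
  · rw [h3, Geo.cs_im]
    have h4 : G.lam i ≠ 0 := fun h => hi (Or.inl h)
    have h5 := h2 _ (Geo.symm_mem hσ (Geo.nu_mem h4)) fun h =>
      hi (Or.inr (by rw [← h, σ.apply_symm_apply]))
    have h6 := mul_le_mul_of_nonneg_left h5 (norm_nonneg (G.lam i))
    have h7 := mul_le_mul_of_nonneg_right (hl i h4) hm
    linarith

theorem FeAB_D (β β' : Ht G.k → ℝ) (R : ℝ) :
    MeasurableSet (G.B (G.ty R β 0) ∩ G.B (G.ty R β' 0)) ∧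
      volume (G.B (G.ty R β 0) ∩ G.B (G.ty R β' 0)) ≠ 0 ∧
      G.B (G.ty R β 0) ∩ G.B (G.ty R β' 0) ⊆ G.B (G.ty R β 0) ∩ G.B (G.ty R β' 0) :=
  ⟨isCompact_Zon.measurableSet.inter isCompact_Zon.measurableSet,
    ((vol_Bx_pos Geo.span_x (G.ty R β 0 ⊓ G.ty R β' 0)).trans_le (measure_mono
      (Set.subset_inter (Geo.B_mono inf_le_left) (Geo.B_mono inf_le_right)))).ne', subset_rfl⟩

theorem FeAB_rho (C K : ℝ) {m : ℝ} (hm : 0 < m) : ∃ ρ > 0, C * K * ρ < m := by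
  obtain ⟨g, hg, h⟩ := Geo.Sig_mul (C * K) hm
  exact ⟨g, hg, by rw [mul_comm]; exact h g hg le_rfl⟩

theorem FeAB_tau (C : ℝ) {m : ℝ} (hC : 0 ≤ C) (hm : 0 < m) : ∃ t > 0, ∀ τ ≤ t, C * τ ≤ m := by
  obtain ⟨g, hg, h⟩ := Geo.Sig_mul C hm
  exact ⟨g, hg, fun τ hτ => (mul_le_mul_of_nonneg_left hτ hC).trans
    (by rw [mul_comm]; exact (h g hg le_rfl).le)⟩

theorem FeAB_big (S : Sys G) (β : Ht G.k → ℝ) (b : Ht G.k) :
    S.Big (fun n => G.B (G.ty (S.R n) β 0) ∩ G.B (G.ty (S.R n) (fun ν => β ν + ⟪ν, b⟫_ℝ) 0))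
      (G.h (G.cs β) - G.hp b) := by
  obtain ⟨C, -, hC⟩ := G.vol_inter
  intro ε hε
  filter_upwards [S.ev_R 1, S.SysB_ev C hε] with n h1 h2
  refine ⟨?_, ((measure_mono Set.inter_subset_left).trans_lt (S.vol_ty β 0 n).2.lt_top).ne⟩
  have h3 : G.ty (S.R n) (fun ν => β ν + ⟪ν, b⟫_ℝ) 0 =
      fun i => G.ty (S.R n) β 0 i + G.la (S.R n • b) i := by
    funext i
    simp only [Geo.ty, Geo.Sig_cs_add, Geo.la, inner_smul_right]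
    ring
  rw [h3]
  refine le_trans (ENNReal.ofReal_le_ofReal (Real.exp_le_exp.2 ?_)) (hC _ _)
  have h4 : G.h (fun i => S.R n * G.cs β i) ≤ G.h (G.ty (S.R n) β 0) :=
    Geo.h_mono fun i => by
      simp only [Geo.ty]
      linarith [Real.log_nonneg h1]
  rw [Geo.h_smul _ (by linarith)] at h4
  rw [Geo.hp_smul _ (by linarith)]
  linarith

theorem fe_A (hO : G.Orth) (K : ℝ) {μ : ℝ} (hμ : 0 < μ) : ∃ τ₀ > 0, ∀ (S : Sys G) y γ σ o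
    (E : S.Ext) z ν τ o', S.K = K → τ ≤ τ₀ → S.Fe y γ σ o E z ν τ μ σ o' →
      G.del ν * τ ≤ G.del (σ ν) * (τ + ⟪σ ν, o' - o⟫_ℝ) := by
  classical
  obtain ⟨C, -, hC⟩ := al G
  obtain ⟨l, _, hl0, -, hl⟩ := G.lam_bd
  obtain ⟨ρ, hρ, hρ'⟩ := FeAB_rho C K (mul_pos hl0 (half_pos hμ))
  obtain ⟨δ, hδ, C₀, hc⟩ := close_two G 2 hρ
  have hM := G.Mc_nonneg
  obtain ⟨t, ht, ht'⟩ := FeAB_tau (1 + G.Mc) (by linarith) (show 0 < μ / 4 by linarith)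
  refine ⟨min δ t, lt_min hδ ht, fun S y γ σ o E z ν τ o' hK hτ F => ?_⟩
  have h0 := F.pos
  have h1 := ht' τ (hτ.trans (min_le_right _ _))
  have h2 := mul_nonneg hM h0
  obtain ⟨β, hβ⟩ : ∃ β : Ht G.k → ℝ, β = fun ν' => if ν' = ν then γ ν else γ ν' - G.Mc * τ :=
    ⟨_, rfl⟩
  have b1 : β ν = γ ν := by simp [hβ]
  have b2 : G.up γ ν τ ν = γ ν + τ := by simp [Geo.up]
  have b3 : ∀ ν', β ν' ≤ γ ν' ∧ β ν' ≤ G.up γ ν τ ν' ∧ |β ν' - γ ν'| ≤ μ / 4 ∧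
      |G.up γ ν τ ν' - γ ν'| ≤ μ / 4 := fun ν' => by
    simp only [hβ, Geo.up, abs_le]
    split_ifs with h
    · rw [h]
      refine ⟨le_rfl, ?_, ⟨?_, ?_⟩, ?_, ?_⟩ <;> linarith
    · refine ⟨?_, le_rfl, ⟨?_, ?_⟩, ?_, ?_⟩ <;> linarith
  have o1 : G.Ok β (μ / 2) := (F.ok.pert fun ν' _ => (b3 ν').2.2.1).mono (by linarith)
  have o2 : G.Ok (G.up γ ν τ) (μ / 2) := (F.ok.pert fun ν' _ => (b3 ν').2.2.2).mono (by linarith)
  have c1 := o1.cl (half_pos hμ).le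
  have c2 := o2.cl (half_pos hμ).le
  obtain ⟨S', x, y₁, y₂, hK', hx, hT⟩ := top_cfg hO F (half_pos hμ) o1 o2 (fun ν' _ => (b3 ν').1)
    (fun _ _ => le_rfl) (c1 ν F.nu) (c2 ν F.nu) ((Geo.Sig_self F.nu _).trans b2)
    (o2 ν F.nu).2 (FeAB_D β (G.up γ ν τ))
  have e1 : G.up γ ν τ ν • ν - β ν • ν = τ • ν := by rw [← sub_smul, b1, b2, add_sub_cancel_left]
  have h3 := hC S' x y₁ y₂ _ _ _ _ _ ν (σ ν) _ _ β (G.h (G.cs β)) ρ (l * (μ / 2)) C₀ 0 hρ.le F.nu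
    (F.sig.1 ν F.nu) (fun ε hε => by
      filter_upwards [S'.big_ty β 0 ε hε, S'.ev_R 0] with n h4 h5
      rwa [Set.inter_eq_left.2 (Geo.B_mono (Geo.ty_mono h5 (fun ν' _ => (b3 ν').2.1) le_rfl))])
    ((hc S' x β _ _ hx (by
        rw [norm_smul, Geo.norm_Nn F.nu, mul_one, b1,
          Real.norm_of_nonneg (F.ok.pos hμ ν F.nu).le]
        exact F.le ν F.nu) (by
        rw [e1, norm_smul, Geo.norm_Nn F.nu, mul_one, Real.norm_of_nonneg h0]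
        exact hτ.trans (min_le_left _ _))).mono fun n hn k hk => ⟨(hn k hk.1).1, hk.1, (hn k hk.1).2⟩)
    (Geo.Sig_self F.nu _).symm
    (FeAB_top F.sig o (fun i => (hl i).2) (half_pos hμ).le (Geo.Sig_self F.nu _).symm (o1 ν F.nu).2)
    (by rwa [hK', hK]) (Geo.la_le_cs (Geo.mem_Cl_im F.sig o' (c2 ν F.nu)))
    (fun i hi => ((FeAB_top F.sig o' (fun i => (hl i).2) (half_pos hμ).le
      (Geo.Sig_self F.nu _).symm (o2 ν F.nu).2).1 i hi).le) hT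
  rw [Geo.h_im c1 F.sig, e1, Geo.Sig_self F.nu, add_sub_add_comm, ← map_sub, e1, inner_add_right,
    σ.inner_map_map, Geo.Sig_self F.nu] at h3
  linarith

theorem fe_B (hO : G.Orth) (K C : ℝ) {μ : ℝ} (hμ : 0 < μ) : ∃ τ₀ > 0, ∀ (S : Sys G) y γ σ o
    (E : S.Ext) z ν τ o', S.K = K → τ ≤ τ₀ → S.Fe y γ σ o E z ν τ μ σ o' →
      0 ≤ τ + ⟪σ ν, o' - o⟫_ℝ → ∀ w, ⟪ν, w⟫_ℝ = 1 → ‖w‖ ≤ C →
        G.hp (τ • σ w + (o' - o)) ≤ τ * G.hp w := by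
  classical
  obtain ⟨D, -, hD⟩ := bl G
  obtain ⟨l, _, hl0, -, hl⟩ := G.lam_bd
  obtain ⟨ρ, hρ, hρ'⟩ := FeAB_rho D K (mul_pos hl0 (half_pos hμ))
  obtain ⟨δ, hδ, C₀, hc⟩ := close_two G 2 hρ
  have hM := G.Mc_nonneg
  have hC := abs_nonneg C
  obtain ⟨t, ht, ht'⟩ := FeAB_tau (G.Mc + 2 * |C|) (by linarith) (show 0 < μ / 4 by linarith)
  obtain ⟨s, hs, hs'⟩ := FeAB_tau |C| hC hδ
  refine ⟨min s t, lt_min hs ht, fun S y γ σ o E z ν τ o' hK hτ F hu w hw hw' => ?_⟩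
  have h0 := F.pos
  have h1 := ht' τ (hτ.trans (min_le_right _ _))
  have h2 := mul_nonneg hM h0
  have h3 : ‖τ • w‖ ≤ |C| * τ := by
    rw [norm_smul, Real.norm_of_nonneg h0, mul_comm]
    exact mul_le_mul_of_nonneg_right (hw'.trans (le_abs_self C)) h0
  have h4 : ∀ ν' ∈ G.Nn, |⟪ν', τ • w⟫_ℝ| ≤ |C| * τ := fun ν' h =>
    (abs_real_inner_le_norm _ _).trans (by rwa [Geo.norm_Nn h, one_mul])
  have h5 : ⟪ν, τ • w⟫_ℝ = τ := by rw [inner_smul_right, hw, mul_one]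
  have h6 := mul_nonneg hC h0
  obtain ⟨β, hβ⟩ : ∃ β : Ht G.k → ℝ,
      β = fun ν' => if ν' = ν then γ ν else γ ν' - (G.Mc + |C|) * τ := ⟨_, rfl⟩
  have b1 : β ν = γ ν := by simp [hβ]
  have b3 : ∀ ν' ∈ G.Nn, β ν' ≤ γ ν' ∧ β ν' + ⟪ν', τ • w⟫_ℝ ≤ G.up γ ν τ ν' ∧
      |β ν' - γ ν'| ≤ μ / 4 ∧ |β ν' + ⟪ν', τ • w⟫_ℝ - γ ν'| ≤ μ / 4 := fun ν' hν' => by
    have h7 := abs_le.1 (h4 ν' hν')
    simp only [hβ, Geo.up, abs_le]
    split_ifs with h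
    · rw [h] at h7 ⊢
      refine ⟨le_rfl, ?_, ⟨?_, ?_⟩, ?_, ?_⟩ <;> linarith
    · refine ⟨?_, ?_, ⟨?_, ?_⟩, ?_, ?_⟩ <;> linarith
  have o1 : G.Ok β (μ / 2) := (F.ok.pert fun ν' h => (b3 ν' h).2.2.1).mono (by linarith)
  have o2 : G.Ok (fun ν' => β ν' + ⟪ν', τ • w⟫_ℝ) (μ / 2) :=
    (F.ok.pert fun ν' h => (b3 ν' h).2.2.2).mono (by linarith)
  have c1 := o1.cl (half_pos hμ).le
  obtain ⟨S', x, y₁, y₂, hK', hx, hT⟩ := top_cfg hO F (a := β ν • ν + τ • w) (half_pos hμ) o1 o2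
    (fun ν' h => (b3 ν' h).1) (fun ν' h => (b3 ν' h).2.1) (c1 ν F.nu)
    (fun ν' h => by
      rw [inner_add_right]
      exact add_le_add (c1 ν F.nu ν' h) le_rfl)
    (by rw [inner_add_right, Geo.Sig_self F.nu, h5, b1])
    (fun ν' h h' => by
      rw [inner_add_right]
      linarith [(o1 ν F.nu).2 ν' h h', (b3 ν' h).2.1]) (FeAB_D β _)
  have e1 : σ (β ν • ν + τ • w) + o' - (σ (β ν • ν) + o) = τ • σ w + (o' - o) := by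
    rw [map_add, map_smul σ τ]
    abel
  have e2 : G.im (fun ν' => β ν' + ⟪ν', τ • w⟫_ℝ) σ o' = fun ν' => G.im β σ o ν' +
      ⟪ν', σ (β ν • ν + τ • w) + o' - (σ (β ν • ν) + o)⟫_ℝ := by
    funext ν'
    rw [e1, ← map_smul, inner_add_right, inner_sub_right, Geo.Sig_inner]
    simp only [Geo.im]
    ring
  rw [e2, Geo.Sig_cs_add] at hT
  have h7 := hD S' x y₁ y₂ _ _ _ _ _ (σ ν) _ _ ρ (l * (μ / 2)) C₀ hρ.le (F.sig.1 ν F.nu)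
    (FeAB_big S' β (τ • w))
    ((hc S' x β _ _ hx (by
        rw [norm_smul, Geo.norm_Nn F.nu, mul_one, b1,
          Real.norm_of_nonneg (F.ok.pos hμ ν F.nu).le]
        exact F.le ν F.nu) (by
        rw [add_sub_cancel_left]
        exact h3.trans (hs' τ (hτ.trans (min_le_left _ _))))).mono fun n hn k hk => hn k hk.1)
    (FeAB_top F.sig o (fun i => (hl i).2) (half_pos hμ).le (Geo.Sig_self F.nu _).symm (o1 ν F.nu).2)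
    (by rwa [hK', hK])
    (by rwa [e1, inner_add_right, inner_smul_right, σ.inner_map_map, hw, mul_one]) hT
  rw [Geo.h_im c1 F.sig, e1, Geo.hp_smul _ h0] at h7
  linarith

end Vale.Agent.P188.Sys
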