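import Vale.Agent.P188.TopC
import Vale.Agent.P188.XL

/-! The linear part does not change when a facet is moved. -/

namespace Vale.Agent.P188.Sys

open MeasureTheory Filter Mdl
open scoped InnerProductSpace ENNReal

variable {G : Geo}

/-- uniform closeness of two projections -/
theorem close_two (G : Geo) (C₁ : ℝ) {ρ : ℝ} (hρ : 0 < ρ) : ∃ δ > 0, ∃ C₀ : ℝ,
    ∀ (S : Sys G) (x : S.I → G.V) (β : Ht G.k → ℝ) (a a' : Ht G.k), (S.Sm fun n => G.ht (x n)) →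
      ‖a'‖ ≤ C₁ → ‖a - a'‖ ≤ δ → ∀ᶠ n in S.U, ∀ k ∈ G.B (G.ty (S.R n) β 0),
        ‖G.ht (G.st (x n) k)‖ ≤ C₀ * S.R n ∧
        G.len ((G.pr (S.R n • a') (G.st (x n) k))⁻¹ * G.pr (S.R n • a) (G.st (x n) k)) ≤
          ρ * S.R n := by
  obtain ⟨C, hC, h⟩ := G.ht_of_mem
  obtain ⟨δ, hδ, R₀, hl⟩ := G.close_line (C₁ + (1 + C)) hρ
  refine ⟨δ, hδ, 1 + C, fun S x β a a' hx ha' ha => ?_⟩
  filter_upwards [hx 1 one_pos, S.hR.eventually_ge_atTop R₀, S.hR.eventually_gt_atTop 0]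
    with n h1 h2 h3 k hk
  have h4 := h _ (Real.log (S.R n)) (fun i hi => by simp [Geo.ty, Geo.cs, hi]) k hk
  rw [Real.exp_log h3] at h4
  have h5 : ‖G.ht (G.st (x n) k)‖ ≤ (1 + C) * S.R n := by
    rw [ht_st]
    exact (norm_add_le _ _).trans (by linarith)
  refine ⟨h5, hl _ h2 _ _ _ ((norm_sub_le _ _).trans ?_) ?_⟩
  · rw [norm_smul, Real.norm_of_nonneg h3.le]
    nlinarith [mul_le_mul_of_nonneg_left ha' h3.le]
  · rw [sub_sub_sub_cancel_right, ← smul_sub, norm_smul, Real.norm_of_nonneg h3.le, mul_comm]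
    exact mul_le_mul_of_nonneg_right ha h3.le

open Classical in
/-- the type below both types -/
noncomputable def FeX_b (G : Geo) (γ : Ht G.k → ℝ) (ν : Ht G.k) (τ : ℝ) : Ht G.k → ℝ :=
  fun ν' => if ν' = ν then γ ν else γ ν' - G.Mc * τ

theorem FeX_ok {γ : Ht G.k → ℝ} {μ τ : ℝ} (ν : Ht G.k) (h : G.Ok γ μ) (hμ : 0 < μ) (h0 : 0 ≤ τ)
    (hτ : (1 + G.Mc) * τ ≤ μ / 8) :
    G.Ok (FeX_b G γ ν τ) (μ / 4) ∧ G.Ok (G.up γ ν τ) (μ / 4) := by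
  have hM := mul_nonneg G.Mc_nonneg h0
  constructor
  · refine (h.pert (t := μ / 8) fun ν' _ => ?_).mono (by linarith)
    unfold FeX_b
    split_ifs with e
    · rw [e, sub_self, abs_zero]
      linarith
    · rw [abs_le]
      constructor <;> linarith
  · refine (h.pert (t := μ / 8) fun ν' _ => ?_).mono (by linarith)
    unfold Geo.up
    split_ifs with e
    · rw [e, abs_le]
      constructor <;> linarith
    · rw [abs_le]
      constructor <;> linarith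

theorem FeX_cfg (hO : G.Orth) {S : Sys G} {y : S.I → G.V} {γ : Ht G.k → ℝ} {E : S.Ext}
    {z : E.J → G.V} {τ μ : ℝ} {σ σ' : Ht G.k ≃ₗᵢ[ℝ] Ht G.k} {o o' ν v : Ht G.k}
    (F : S.Fe y γ σ o E z ν τ μ σ' o') (hμ : 0 < μ) (hτ : (1 + G.Mc) * τ ≤ μ / 8)
    (hv : ⟪ν, v⟫_ℝ = 0) (hv1 : ‖v‖ ≤ 1) {δ ρ C₀ : ℝ} (hδ : τ ≤ δ)
    (hc : ∀ (S : Sys G) (x : S.I → G.V) (β : Ht G.k → ℝ) (a a' : Ht G.k),
      (S.Sm fun n => G.ht (x n)) → ‖a'‖ ≤ 3 → ‖a - a'‖ ≤ δ →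
      ∀ᶠ n in S.U, ∀ k ∈ G.B (G.ty (S.R n) β 0), ‖G.ht (G.st (x n) k)‖ ≤ C₀ * S.R n ∧
        G.len ((G.pr (S.R n • a') (G.st (x n) k))⁻¹ * G.pr (S.R n • a) (G.st (x n) k)) ≤
          ρ * S.R n) :
    γ ν • ν + (μ / 2) • v ∈ G.Cl (FeX_b G γ ν τ) ∧
    ∃ (S' : Sys G) (x y₁ y₂ : S'.I → G.V) (D : S'.I → Set G.V), S'.K = S.K ∧
      S'.Big D (G.h (G.cs (FeX_b G γ ν τ))) ∧
      (∀ᶠ n in S'.U, ∀ k ∈ D n, ‖G.ht (G.st (x n) k)‖ ≤ C₀ * S'.R n ∧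
        G.len ((G.pr (S'.R n • (γ ν • ν + (μ / 2) • v)) (G.st (x n) k))⁻¹ *
          G.pr (S'.R n • (γ ν • ν + (μ / 2) • v + τ • ν)) (G.st (x n) k)) ≤ ρ * S'.R n) ∧
      S'.Two x D (γ ν • ν + (μ / 2) • v + τ • ν) (γ ν • ν + (μ / 2) • v)
        (σ' (γ ν • ν + (μ / 2) • v + τ • ν) + o') (σ (γ ν • ν + (μ / 2) • v) + o)
        (G.cs (G.im (G.up γ ν τ) σ' o')) (G.cs (G.im (FeX_b G γ ν τ) σ o)) y₁ y₂ := by
  have h0 := F.pos
  have hM := mul_nonneg G.Mc_nonneg h0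
  have hν := Geo.norm_Nn F.nu
  obtain ⟨k1, k2⟩ := FeX_ok ν F.ok hμ h0 hτ
  have i1 : ⟪ν, γ ν • ν + (μ / 2) • v⟫_ℝ = γ ν := by
    rw [inner_add_right, Geo.Sig_self F.nu, inner_smul_right, hv, mul_zero, add_zero]
  have i2 : ⟪ν, γ ν • ν + (μ / 2) • v + τ • ν⟫_ℝ = γ ν + τ := by
    rw [inner_add_right, i1, Geo.Sig_self F.nu]
  have i0 : ∀ ν' ∈ G.Nn, ∀ u : Ht G.k, ‖u‖ ≤ 1 → ⟪ν', u⟫_ℝ ≤ 1 := fun ν' h u hu =>
    (real_inner_le_norm ν' u).trans (by rw [Geo.norm_Nn h, one_mul]; exact hu)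
  have i3 : ∀ ν' ∈ G.Nn, ν' ≠ ν → ⟪ν', γ ν • ν + (μ / 2) • v⟫_ℝ ≤ γ ν' - μ / 2 :=
    fun ν' h h' => by
      have h1 := (F.ok ν F.nu).2 ν' h h'
      have h2 := mul_le_mul_of_nonneg_left (i0 ν' h v hv1) (half_pos hμ).le
      rw [inner_add_right, inner_smul_right _ v]
      linarith
  have i4 : ∀ ν' ∈ G.Nn, ν' ≠ ν →
      ⟪ν', γ ν • ν + (μ / 2) • v + τ • ν⟫_ℝ + μ / 4 ≤ G.up γ ν τ ν' := fun ν' h h' => by
    have h1 := i3 ν' h h'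
    have h2 := mul_le_mul_of_nonneg_left (i0 ν' h ν hν.le) h0
    rw [inner_add_right, inner_smul_right _ ν τ, Geo.up, if_neg h']
    linarith
  have ha' : γ ν • ν + (μ / 2) • v ∈ G.Cl (FeX_b G γ ν τ) := fun ν' h => by
    unfold FeX_b
    split_ifs with e
    · rw [e, i1]
    · linarith [i3 ν' h e]
  have ha : γ ν • ν + (μ / 2) • v + τ • ν ∈ G.Cl (G.up γ ν τ) := fun ν' h => by
    by_cases e : ν' = ν
    · rw [e, i2, Geo.up, if_pos rfl]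
    · linarith [i4 ν' h e]
  have h1 : ∀ ν' ∈ G.Nn, FeX_b G γ ν τ ν' ≤ γ ν' := fun ν' _ => by
    unfold FeX_b
    split_ifs with e
    · rw [e]
    · linarith
  have h2 : ∀ ν' ∈ G.Nn, FeX_b G γ ν τ ν' ≤ G.up γ ν τ ν' := fun ν' _ => by
    unfold FeX_b Geo.up
    split_ifs with e
    · linarith
    · exact le_rfl
  obtain ⟨S', x, y₁, y₂, hK, hx, hT⟩ := top_cfg hO F (by linarith : 0 < μ / 4) k1 k2 h1
    (fun _ _ => le_rfl) ha' ha i2 i4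
    (D := fun R => G.B (G.ty R (FeX_b G γ ν τ) 0 ⊓ G.ty R (G.up γ ν τ) 0)) fun R =>
      ⟨isCompact_Zon.isClosed.measurableSet, (vol_Bx_pos Geo.span_x _).ne',
        Set.subset_inter (Geo.B_mono inf_le_left) (Geo.B_mono inf_le_right)⟩
  refine ⟨ha', S', x, y₁, y₂, _, hK, fun ε hε => ?_, ?_, hT⟩
  · filter_upwards [big_ty S' (FeX_b G γ ν τ) 0 ε hε, S'.hR.eventually_ge_atTop 0] with n h3 h4
    rwa [inf_eq_left.2 (Geo.ty_mono h4 h2 le_rfl)]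
  · have h3 : ‖γ ν • ν + (μ / 2) • v‖ ≤ 3 := by
      have h4 := F.le ν F.nu
      have h5 := (F.ok ν F.nu).1
      refine (norm_add_le _ _).trans ?_
      rw [norm_smul, norm_smul, hν, Real.norm_of_nonneg (by linarith),
        Real.norm_of_nonneg (by linarith)]
      nlinarith
    filter_upwards [hc S' x (FeX_b G γ ν τ) (γ ν • ν + (μ / 2) • v + τ • ν) _ hx h3 (by
      rwa [add_sub_cancel_left, norm_smul, hν, mul_one, Real.norm_of_nonneg h0])] with n h4 k hk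
    exact h4 k (Geo.B_mono inf_le_left hk)

theorem fe_X (hO : G.Orth) (K : ℝ) {μ : ℝ} (hμ : 0 < μ) : ∃ τ₀ > 0, ∀ (S : Sys G) y γ σ o
    (E : S.Ext) z ν τ σ' o', S.K = K → τ ≤ τ₀ → S.Fe y γ σ o E z ν τ μ σ' o' → σ' = σ := by
  obtain ⟨g, hg, hsig⟩ := G.sig_perp
  obtain ⟨C₁, hC₁, hlp⟩ := lp_dist G
  obtain ⟨C₂, hC₂, hxl⟩ := xl G
  obtain ⟨l, Λ, hl, -, hlam⟩ := G.lam_bd
  have hM := G.Mc_nonneg
  have hK : 0 < |K| + 1 := by positivity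
  have hK' : K ≤ |K| + 1 := by linarith [le_abs_self K]
  obtain ⟨ρ, hρ, hρ1, hρ2⟩ : ∃ ρ > 0, C₁ * K * ρ ≤ g * μ / 4 ∧ C₂ * K * ρ < l * μ := by
    refine ⟨min (g * μ / 4 / (C₁ * (|K| + 1))) (l * μ / 2 / (C₂ * (|K| + 1))), by positivity,
      ?_, ?_⟩
    · calc _ ≤ C₁ * (|K| + 1) * min (g * μ / 4 / (C₁ * (|K| + 1)))
            (l * μ / 2 / (C₂ * (|K| + 1))) := by gcongr
        _ ≤ C₁ * (|K| + 1) * (g * μ / 4 / (C₁ * (|K| + 1))) := by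
          gcongr
          exact min_le_left _ _
        _ = _ := by field_simp
    · calc _ ≤ C₂ * (|K| + 1) * min (g * μ / 4 / (C₁ * (|K| + 1)))
            (l * μ / 2 / (C₂ * (|K| + 1))) := by gcongr
        _ ≤ C₂ * (|K| + 1) * (l * μ / 2 / (C₂ * (|K| + 1))) := by
          gcongr
          exact min_le_right _ _
        _ = l * μ / 2 := by field_simp
        _ < _ := half_lt_self (by positivity)
  obtain ⟨δ, hδ, C₀, hc⟩ := close_two G 3 hρ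
  refine ⟨min δ (μ / 8 / (1 + G.Mc)), by positivity,
    fun S y γ σ o E z ν τ σ' o' hS hτ F => ?_⟩
  have h1 : τ ≤ δ := hτ.trans (min_le_left _ _)
  have h2 : (1 + G.Mc) * τ ≤ μ / 8 := by
    rw [mul_comm, ← le_div_iff₀ (by positivity)]
    exact hτ.trans (min_le_right _ _)
  have h3 : ∀ v, ⟪ν, v⟫_ℝ = 0 → ‖v‖ ≤ 1 → ‖σ' (γ ν • ν + (μ / 2) • v + τ • ν) + o' -
      (σ (γ ν • ν + (μ / 2) • v) + o)‖ ≤ g * μ / 4 := fun v hv hv1 => by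
    obtain ⟨-, S', x, y₁, y₂, D, e, hB, hD, hT⟩ := FeX_cfg hO F hμ h2 hv hv1 h1 hc
    refine (hlp S' D _ ρ _ _ hρ.le hB fun ε hε => (hT.good ε hε).mono ?_).trans
      (by rwa [e, hS])
    filter_upwards [hD] with n hn k hk
    exact ⟨hk.1, fun h => hk.2 ⟨_, _, (hn k hk.1).2, h.2.1, h.1.1⟩⟩
  refine (hsig σ F.sig σ' F.sig' ν F.nu fun v hv hv1 => ?_).resolve_right fun hn => ?_
  · have h4 := h3 v hv hv1.le
    have h5 := h3 0 (inner_zero_right _) (by simp)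
    have h6 : (μ / 2) • (σ v - σ' v) =
        σ' (γ ν • ν + (μ / 2) • (0 : Ht G.k) + τ • ν) + o' -
          (σ (γ ν • ν + (μ / 2) • (0 : Ht G.k)) + o) -
        (σ' (γ ν • ν + (μ / 2) • v + τ • ν) + o' - (σ (γ ν • ν + (μ / 2) • v) + o)) := by
      simp only [map_add, map_smul, map_zero]
      module
    have h7 := (norm_sub_le _ _).trans (add_le_add h5 h4)
    rw [← h6, norm_smul, Real.norm_of_nonneg (half_pos hμ).le] at h7
    refine le_of_mul_le_mul_left (h7.trans_eq ?_) (half_pos hμ)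
    ring
  · obtain ⟨ha', S', x, y₁, y₂, D, e, hB, hD, hT⟩ :=
      FeX_cfg hO F hμ h2 (inner_zero_right ν) (by simp) h1 hc
    obtain ⟨k1, -⟩ := FeX_ok ν F.ok hμ F.pos h2
    obtain ⟨i, hi, hi'⟩ := Geo.mem_Nn (F.sig'.1 ν F.nu)
    have e1 : ∀ u, ⟪G.lam i, u⟫_ℝ = ‖G.lam i‖ * ⟪σ' ν, u⟫_ℝ := fun u => by
      rw [← hi', ← real_inner_smul_left, ← Geo.lam_eq]
    have e2 : σ.symm (σ' ν) = -ν := by rw [hn, map_neg, σ.symm_apply_apply]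
    have h4 := hxl S' x y₁ y₂ D (γ ν • ν + (μ / 2) • 0) (σ' (γ ν • ν + (μ / 2) • 0 + τ • ν) + o')
      _ (G.cs (G.im (G.up γ ν τ) σ' o')) _ i _ ρ C₀ hρ.le hB
      (hD.mono fun n h k hk => (h k hk).1) (Geo.la_le_cs (Geo.mem_Cl_im F.sig o ha')) (by
        rw [Geo.cs_im, hi', σ'.symm_apply_apply, inner_add_right, e1 (σ' _), σ'.inner_map_map,
          smul_zero, add_zero, ← add_smul, Geo.Sig_self F.nu, Geo.up, if_pos rfl]
        exact le_rfl) fun ε hε => (hT.good ε hε).mono (by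
          filter_upwards [hD] with n hn k hk
          exact ⟨hk.1, fun h => hk.2 ⟨h.1, _, (hn k hk.1).2, h.2⟩⟩)
    rw [Geo.h_im (k1.cl (by linarith)) F.sig, Geo.cs_im, hi', e2, inner_add_right, e1 (σ _),
      Geo.Sig_inner, e2, smul_zero, add_zero, inner_neg_left, Geo.Sig_self F.nu, e, hS] at h4
    have h5 := (k1 (-ν) (e2 ▸ Geo.symm_mem F.sig (F.sig'.1 ν F.nu))).1
    have h6 := (F.ok ν F.nu).1
    have h7 := (hlam i).2 hi
    have h8 : l * μ ≤ ‖G.lam i‖ * (FeX_b G γ ν τ (-ν) + γ ν) :=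
      mul_le_mul h7 (by linarith) hμ.le (norm_nonneg _)
    have h9 : G.la o i = ⟪G.lam i, o⟫_ℝ := rfl
    linarith

end Vale.Agent.P188.Sys
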