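import Vale.Agent.P188.Close
import Vale.Agent.P188.BoxI

/-! The logarithmic bound along flat directions. -/

namespace Vale.Agent.P188.Geo

open Mdl
open scoped InnerProductSpace

/-- the height is roughly carried along `σ` -/
def FlH (G : Geo) (η : ℝ → ℝ) (f : G.V → G.V) (σ : Ht G.k ≃ₗᵢ[ℝ] Ht G.k) : Prop :=
  ∀ ε > 0, ∀ x y,
    ‖G.ht (f y) - G.ht (f x) - σ (G.ht y - G.ht x)‖ ≤ ε * G.len (x⁻¹ * y) + η ε

theorem Fl_tel (y : ℕ → ℝ) (b : ℕ → ℝ) (n : ℕ) (h : ∀ j < n, |y (j + 1) - y j| ≤ b j) :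
    |y n - y 0| ≤ ∑ j ∈ Finset.range n, b j := by
  rw [← Finset.sum_range_sub]
  exact (Finset.abs_sum_le_sum_abs _ _).trans
    (Finset.sum_le_sum fun j hj => h j (Finset.mem_range.1 hj))

theorem Fl_geo {l : ℝ} (hl : 0 < l) : ∃ C, 0 ≤ C ∧ ∀ n : ℕ,
    ∑ j ∈ Finset.range n, Real.exp (-(l * j)) ≤ C := by
  have h1 : Real.exp (-l) < 1 := Real.exp_lt_one_iff.2 (by linarith)
  have h2 := summable_geometric_of_lt_one (Real.exp_pos (-l)).le h1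
  refine ⟨∑' j : ℕ, Real.exp (-l) ^ j, tsum_nonneg fun j => by positivity, fun n => ?_⟩
  refine le_trans (le_of_eq (Finset.sum_congr rfl fun j _ => ?_))
    (h2.sum_le_tsum (Finset.range n) fun j _ => by positivity)
  rw [← Real.exp_nat_mul]
  congr 1
  ring

theorem Fl_ev {C l : ℝ} (hC : 0 ≤ C) (hl : 0 < l) (b : ℝ) :
    ∃ n : ℕ, 1 ≤ n ∧ C * Real.log n - l * n ≤ b := by
  obtain ⟨κ, hκ⟩ : ∃ κ, κ = l / (2 * (C + 1)) := ⟨_, rfl⟩
  have hκ0 : 0 < κ := by rw [hκ]; positivity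
  have e : (C + 1) * κ = l / 2 := by rw [hκ]; field_simp
  obtain ⟨n, hn⟩ := exists_nat_ge (2 / l * (-b - C * Real.log κ))
  refine ⟨n + 1, by omega, ?_⟩
  have h0 : (0 : ℝ) < ((n + 1 : ℕ) : ℝ) := by positivity
  have h1 : (n : ℝ) ≤ ((n + 1 : ℕ) : ℝ) := by push_cast; linarith
  generalize ((n + 1 : ℕ) : ℝ) = m at h0 h1
  have h2 := Real.log_le_sub_one_of_pos (mul_pos hκ0 h0)
  rw [Real.log_mul hκ0.ne' h0.ne'] at h2
  have h3 := mul_le_mul_of_nonneg_left h2 hC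
  have h4 := mul_le_mul_of_nonneg_left (hn.trans h1) (half_pos hl).le
  have e2 : l / 2 * (2 / l * (-b - C * Real.log κ)) = -b - C * Real.log κ := by field_simp
  have h5 : C * (κ * m) ≤ l / 2 * m := by
    rw [← e]
    nlinarith [mul_pos hκ0 h0]
  rw [e2] at h4
  nlinarith

variable (G : Geo) (i : Fin G.n)

theorem Fl_near : ∃ c, 0 ≤ c ∧ ∀ (y y' : G.V) (ρ : ℝ), 1 ≤ ρ → G.len (y⁻¹ * y') ≤ ρ →
    |G.τ i y' - G.τ i y| ≤ Real.exp (⟪G.lam i, G.ht y⟫_ℝ + c * ρ) ∧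
      ⟪G.lam i, G.ht y'⟫_ℝ ≤ ⟪G.lam i, G.ht y⟫_ℝ + c * ρ := by
  obtain ⟨A, hA, h1⟩ := G.τ_len
  obtain ⟨B, hB, h2⟩ := ht_le (M := G.toMdl)
  have h0 := norm_nonneg (G.lam i)
  have h3 := mul_nonneg h0 hB
  refine ⟨A + ‖G.lam i‖ * B, by positivity, fun y y' ρ hρ h => ⟨?_, ?_⟩⟩
  · refine (h1 y y' ρ i hρ h).trans (Real.exp_le_exp.2 ?_)
    nlinarith
  · have a1 := (h2 (y⁻¹ * y')).trans (mul_le_mul_of_nonneg_left h hB)
    have a2 := (real_inner_le_norm (G.lam i) _).trans (mul_le_mul_of_nonneg_left a1 h0)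
    rw [ht_mul, ht_inv, inner_add_right, inner_neg_right] at a2
    nlinarith

theorem Fl_step (K : ℝ) : ∃ c, 0 ≤ c ∧ ∀ f g : G.V → G.V, QIp G.len G.len K f g →
    ∀ (y y' : G.V) (D : ℝ), G.len (y⁻¹ * y') ≤ D →
      |G.τ i (f y') - G.τ i (f y)| ≤ Real.exp (⟪G.lam i, G.ht (f y)⟫_ℝ + c * (D + 1)) ∧
        ⟪G.lam i, G.ht (f y')⟫_ℝ ≤ ⟪G.lam i, G.ht (f y)⟫_ℝ + c * (D + 1) := by
  obtain ⟨c, hc, h⟩ := G.Fl_near i
  refine ⟨c * |K|, by positivity, fun f g hq y y' D hD => ?_⟩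
  have hK := hq.one_le
  have h0 : 0 ≤ D := (isLen_len.nonneg _).trans hD
  rw [abs_of_nonneg (show 0 ≤ K by linarith), mul_assoc]
  refine h _ _ (K * (D + 1)) (by nlinarith) ((hq.lf y y').trans ?_)
  nlinarith

variable {G i} in
theorem Fl_ht {η : ℝ → ℝ} {f : G.V → G.V} {σ : Ht G.k ≃ₗᵢ[ℝ] Ht G.k} (h : FlH G η f σ)
    {ε : ℝ} (hε : 0 < ε) (y u : G.V) {D : ℝ} (hD : G.len u ≤ D) :
    ⟪G.lam i, G.ht (f (y * u))⟫_ℝ ≤ ⟪G.lam i, G.ht (f y)⟫_ℝ + ⟪G.lam i, σ (G.ht u)⟫_ℝ +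
      ‖G.lam i‖ * (ε * D + η ε) := by
  have a1 := h ε hε y (y * u)
  rw [inv_mul_cancel_left, ht_mul, add_sub_cancel_left] at a1
  have a2 := (real_inner_le_norm (G.lam i) _).trans (mul_le_mul_of_nonneg_left
    (a1.trans (add_le_add_left (mul_le_mul_of_nonneg_left hD hε.le) _)) (norm_nonneg _))
  rw [inner_sub_right, inner_sub_right] at a2
  linarith

variable {i}

theorem Fl_norm (hi : G.lam i ≠ 0) (σ : Ht G.k ≃ₗᵢ[ℝ] Ht G.k) : ‖-σ.symm (G.nu i)‖ = 1 := by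
  rw [norm_neg, LinearIsometryEquiv.norm_map, norm_Nn (nu_mem hi)]

theorem Fl_line (hi : G.lam i ≠ 0) (η : ℝ → ℝ) : ∃ c, ∀ (f : G.V → G.V)
    (σ : Ht G.k ≃ₗᵢ[ℝ] Ht G.k), FlH G η f σ → ∀ (x : G.V) (s : ℝ), 0 ≤ s →
      ⟪G.lam i, G.ht (f (x * G.X (s • -σ.symm (G.nu i))))⟫_ℝ ≤
        ⟪G.lam i, G.ht (f x)⟫_ℝ - ‖G.lam i‖ / 2 * s + c := by
  obtain ⟨A, hA, h1⟩ := G.len_X
  refine ⟨‖G.lam i‖ * (1 / 2 + η (1 / (2 * A))), fun f σ h x s hs => ?_⟩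
  have a1 := h1 (s • -σ.symm (G.nu i))
  rw [norm_smul, Fl_norm G hi, mul_one, Real.norm_eq_abs, abs_of_nonneg hs] at a1
  have a2 := Fl_ht (i := i) h (ε := 1 / (2 * A)) (by positivity) x _ a1
  have e1 : ⟪G.lam i, G.nu i⟫_ℝ = ‖G.lam i‖ := by
    rw [nu, inner_smul_right, real_inner_self_eq_norm_mul_norm,
      inv_mul_cancel_left₀ (norm_ne_zero_iff.2 hi)]
  have e2 : 1 / (2 * A) * (A * (s + 1)) = (s + 1) / 2 := by field_simp
  rw [G.ht_X, map_smul σ, map_neg σ, LinearIsometryEquiv.apply_symm_apply, inner_smul_right,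
    inner_neg_right, e1, e2] at a2
  linarith

theorem Fl_a (hi : G.lam i ≠ 0) (K : ℝ) (η : ℝ → ℝ) : ∃ C, 0 ≤ C ∧ ∀ (f g : G.V → G.V)
    (σ : Ht G.k ≃ₗᵢ[ℝ] Ht G.k), QIp G.len G.len K f g → FlH G η f σ → ∀ (x : G.V) (n : ℕ),
      |G.τ i (f (x * G.X ((n : ℝ) • -σ.symm (G.nu i)))) - G.τ i (f x)| ≤
        C * Real.exp ⟪G.lam i, G.ht (f x)⟫_ℝ := by
  obtain ⟨c, -, h1⟩ := G.Fl_step i K
  obtain ⟨c', h2⟩ := G.Fl_line hi η
  obtain ⟨A, hA, h3⟩ := G.len_line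
  obtain ⟨S, hS, h4⟩ := Fl_geo (half_pos (norm_pos_iff.2 hi))
  refine ⟨S * Real.exp (c' + c * (A * 2 + 1)), by positivity, fun f g σ hq h x n => ?_⟩
  have a1 := Fl_tel (fun j : ℕ => G.τ i (f (x * G.X ((j : ℝ) • -σ.symm (G.nu i)))))
    (fun j => Real.exp (-(‖G.lam i‖ / 2 * j)) *
      (Real.exp (c' + c * (A * 2 + 1)) * Real.exp ⟪G.lam i, G.ht (f x)⟫_ℝ)) n fun j _ => by
      have b1 := h3 x (-σ.symm (G.nu i)) (j : ℝ) ((j + 1 : ℕ) : ℝ)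
      rw [← mul_V0 _ (X_V0 _), ← mul_V0 _ (X_V0 _), Fl_norm G hi, Nat.cast_succ,
        add_sub_cancel_left, abs_one, mul_one, one_add_one_eq_two, ← Nat.cast_succ] at b1
      refine (h1 f g hq _ _ _ b1).1.trans ?_
      rw [← Real.exp_add, ← Real.exp_add, Real.exp_le_exp]
      have b2 := h2 f σ h x j (Nat.cast_nonneg j)
      linarith
  simp only [Nat.cast_zero, zero_smul, map_zero] at a1
  rw [← one_def, mul_one, ← Finset.sum_mul] at a1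
  refine a1.trans ?_
  rw [mul_assoc]
  exact mul_le_mul_of_nonneg_right (h4 n) (by positivity)

variable (i) in
theorem Fl_path (K : ℝ) : ∃ c, ∀ f g : G.V → G.V, QIp G.len G.len K f g →
    ∀ (z q : G.V) (β : ℝ), q ∈ G.V0 →
      (∀ s : ℝ, |s| ≤ 1 → ⟪G.lam i, G.ht (f (z * (s • q)))⟫_ℝ ≤ β) →
        |G.τ i (f (z * q)) - G.τ i (f z)| ≤ (‖q‖ + 2) * Real.exp (β + c) := by
  obtain ⟨c, -, h1⟩ := G.Fl_step i K
  obtain ⟨A, hA, h2⟩ := G.len_V0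
  refine ⟨c * (A * 2 + 1), fun f g hq z q β hq0 h => ?_⟩
  obtain ⟨N, hN⟩ : ∃ N : ℕ, N = ⌈‖q‖⌉₊ + 1 := ⟨_, rfl⟩
  have n1 : ‖q‖ + 1 ≤ N := by
    rw [hN]; push_cast; linarith [Nat.le_ceil ‖q‖]
  have n2 : (N : ℝ) ≤ ‖q‖ + 2 := by
    rw [hN]; push_cast; linarith [(Nat.ceil_lt_add_one (norm_nonneg q)).le]
  have n0 : (0 : ℝ) < N := by linarith [norm_nonneg q]
  have a1 := Fl_tel (fun j : ℕ => G.τ i (f (z * (((j : ℝ) / N) • q))))
    (fun _ => Real.exp (β + c * (A * 2 + 1))) N fun j hj => by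
      have b0 : (j : ℝ) ≤ N := by exact_mod_cast hj.le
      have b1 : G.len ((z * (((j : ℝ) / N) • q))⁻¹ * (z * ((((j + 1 : ℕ) : ℝ) / N) • q))) ≤
          A * 2 := by
        rw [mul_inv_rev, mul_assoc, inv_mul_cancel_left, inv_V0 (smul_V0 _ hq0),
          mul_V0 _ (smul_V0 _ hq0), ← neg_smul, st_smul]
        refine (h2 _ (smul_V0 _ hq0)).trans (mul_le_mul_of_nonneg_left ?_ hA.le)
        have e : -((j : ℝ) / N) + ((j + 1 : ℕ) : ℝ) / N = 1 / N := by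
          push_cast; ring
        rw [e, norm_smul, Real.norm_eq_abs, abs_of_pos (by positivity), one_div,
          inv_mul_eq_div]
        have := (div_le_one n0).2 (show ‖q‖ ≤ N by linarith)
        linarith
      refine (h1 f g hq _ _ _ b1).1.trans (Real.exp_le_exp.2 (add_le_add_left (h _ ?_) _))
      rw [abs_of_nonneg (by positivity)]
      exact (div_le_one n0).2 b0
  simp only [Nat.cast_zero, zero_div, zero_smul, div_self n0.ne', one_smul, Finset.sum_const,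
    Finset.card_range, nsmul_eq_mul] at a1
  rw [← one_def, mul_one] at a1
  exact a1.trans (mul_le_mul_of_nonneg_right n2 (Real.exp_pos _).le)

theorem Fl_cj : ∃ C, 0 ≤ C ∧ ∀ (β : ℝ) (p u : G.V), (p ∈ G.B fun _ => β) →
    (u ∈ G.B fun _ => β) → G.st (G.st (-p) u) p ∈ G.B fun _ => β + C := by
  obtain ⟨C, hC, hs⟩ := st_Bx G.x
  refine ⟨C + C, by linarith, fun β p u hp hu => ?_⟩
  have a1 : p ∈ G.B fun _ => β + C := B_mono (fun _ => by linarith) hp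
  exact B_mono (fun _ => by linarith) (hs _ _ (hs _ _ (neg_mem_Zon hp) _ hu) _ a1)

theorem Fl_b (hi : G.lam i ≠ 0) {K : ℝ} {η : ℝ → ℝ} {f g : G.V → G.V}
    {σ : Ht G.k ≃ₗᵢ[ℝ] Ht G.k} (hq : QIp G.len G.len K f g) (h : FlH G η f σ) (x p : G.V)
    (hp : p ∈ G.V0) (h0 : G.ht p = 0) {δ : ℝ} (hδ : 0 < δ) : ∃ n : ℕ,
      |G.τ i (f (x * p * G.X ((n : ℝ) • -σ.symm (G.nu i)))) -
        G.τ i (f (x * G.X ((n : ℝ) • -σ.symm (G.nu i))))| ≤ δ := by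
  obtain ⟨c, h1⟩ := G.Fl_path i K
  obtain ⟨c', h2⟩ := G.Fl_line hi η
  obtain ⟨A, hA, h3⟩ := G.Fl_cj
  obtain ⟨B, hB, h4⟩ := G.X_mem
  obtain ⟨D, hD, h5⟩ := BoxB_bdd G.x span_x ‖p‖
  obtain ⟨E, hE, h6⟩ := G.len_of_mem
  obtain ⟨F, hF, h7⟩ := norm_of_mem G.x
  have hl := norm_pos_iff.2 hi
  obtain ⟨ε, hε⟩ : ∃ ε, ε = 1 / (4 * (E * Real.exp (B + D + A))) := ⟨_, rfl⟩
  have hε0 : 0 < ε := by rw [hε]; positivity
  obtain ⟨n, hn, hb⟩ := Fl_ev hF (l := ‖G.lam i‖ / 4) (by positivity)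
    (Real.log (δ / 3) - F * (B + D + A + 1) - ⟪G.lam i, G.ht (f x)⟫_ℝ - c' - ‖G.lam i‖ * η ε - c)
  refine ⟨n, ?_⟩
  have n1 : (1 : ℝ) ≤ n := by exact_mod_cast hn
  have n2 := Real.log_nonneg n1
  have a0 := h2 f σ h x n (by linarith)
  have a1 : G.X ((n : ℝ) • -σ.symm (G.nu i)) ∈ G.B fun _ => Real.log n + B :=
    h4 _ n (by linarith) (by
      rw [norm_smul, Fl_norm G hi, mul_one, Real.norm_eq_abs, abs_of_nonneg (by linarith)]) n1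
  have a2 := X_V0 (G := G) ((n : ℝ) • -σ.symm (G.nu i))
  generalize G.X ((n : ℝ) • -σ.symm (G.nu i)) = Y at a0 a1 a2 ⊢
  have a3 := h3 (Real.log n + B + D) Y p (B_mono (fun _ => by linarith) a1)
    (B_mono (fun _ => by linarith) (h5 p le_rfl))
  have a4 := st_V0 (st_V0 (neg_V0 a2) hp) a2
  have a5 : G.ht (G.st (G.st (-Y) p) Y) = 0 := by
    rw [ht_st, ht_st, map_neg, h0]; abel
  have a6 : x * p * Y = x * Y * G.st (G.st (-Y) p) Y := by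
    rw [← mul_V0 _ a2, ← mul_V0 _ hp, ← inv_V0 a2]; group
  generalize G.st (G.st (-Y) p) Y = q at a3 a4 a5 a6
  have a7 := h7 _ (by linarith) q a3
  have a8 := h1 f g hq (x * Y) q
    (⟪G.lam i, G.ht (f x)⟫_ℝ - ‖G.lam i‖ / 4 * n + c' + ‖G.lam i‖ * η ε) a4 fun s hs => by
      have b0 : 1 ≤ Real.exp (B + D + A) := Real.one_le_exp (by linarith)
      have b1 : s • q ∈ G.B (G.sz (Real.exp (B + D + A) * n)) := by
        refine B_mono (fun j => le_trans ?_ (G.Close_log_le (by positivity) j))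
          (smul_mem_Zon hs a3)
        rw [Real.log_mul (by positivity) (by positivity), Real.log_exp]
        linarith
      have b2 := Fl_ht (i := i) h hε0 (x * Y) _ (h6 _ (by nlinarith) _ b1)
      have e : ε * (E * (Real.exp (B + D + A) * n)) = n / 4 := by
        rw [hε]; field_simp
      rw [map_smul, a5, smul_zero, map_zero, inner_zero_right, e] at b2
      linarith
  rw [a6]
  refine a8.trans ?_
  have a9 : 1 ≤ Real.exp (F * (Real.log n + B + D + A + 1)) := Real.one_le_exp (by positivity)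
  refine (mul_le_mul_of_nonneg_right
    (show ‖q‖ + 2 ≤ 3 * Real.exp (F * (Real.log n + B + D + A + 1)) by linarith)
    (Real.exp_pos _).le).trans ?_
  rw [mul_assoc, ← Real.exp_add, ← le_div_iff₀' (by norm_num),
    ← Real.le_log_iff_exp_le (by positivity)]
  linarith

theorem Fl_ab (hi : G.lam i ≠ 0) (K : ℝ) (η : ℝ → ℝ) : ∃ C, 0 ≤ C ∧ ∀ (f g : G.V → G.V)
    (σ : Ht G.k ≃ₗᵢ[ℝ] Ht G.k), QIp G.len G.len K f g → FlH G η f σ → ∀ x p : G.V,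
      p ∈ G.V0 → G.ht p = 0 → |G.τ i (f (x * p)) - G.τ i (f x)| ≤
        C * Real.exp ⟪G.lam i, G.ht (f x)⟫_ℝ + C * Real.exp ⟪G.lam i, G.ht (f (x * p))⟫_ℝ := by
  obtain ⟨C, hC, h1⟩ := G.Fl_a hi K η
  refine ⟨C, hC, fun f g σ hq h x p hp h0 => le_of_forall_pos_le_add fun δ hδ => ?_⟩
  obtain ⟨n, hn⟩ := G.Fl_b hi hq h x p hp h0 hδ
  have a1 := abs_le.1 (h1 f g σ hq h x n)
  have a2 := abs_le.1 (h1 f g σ hq h (x * p) n)
  have a3 := abs_le.1 hn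
  rw [abs_le]
  constructor <;> linarith [a1.1, a1.2, a2.1, a2.2, a3.1, a3.2]

/-- moving a bounded element past a flat element costs a logarithm -/
theorem Fl_move (R : ℝ) : ∃ C, 0 ≤ C ∧ ∀ (u p : G.V) (r : ℝ), G.len u ≤ R → p ∈ G.V0 →
    G.ht p = 0 → ‖p‖ ≤ r → 2 ≤ r → ∃ p' ∈ G.V0, G.ht p' = 0 ∧
      G.len (p⁻¹ * (u * p')) ≤ C * (Real.log r + 1) := by
  obtain ⟨A, h1⟩ := bdd_of_len (M := G.toMdl) R
  obtain ⟨B, hB, h2⟩ := BoxB_bdd G.x span_x A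
  obtain ⟨C, hC, h3⟩ := split_Bx G.x G.zl
  obtain ⟨D, hD, h4⟩ := mem_of_norm (span_x (G := G))
  obtain ⟨E, hE, h5⟩ := G.Fl_cj
  obtain ⟨F, hF, h6⟩ := norm_of_mem G.x
  obtain ⟨L, hL, h7⟩ := G.len_E
  obtain ⟨N, hN, h8⟩ := G.len_V0
  refine ⟨L * (F * (B + C + D + E + 1) + 1) + N * (Real.exp (F * (B + 1)) + 1), by positivity,
    fun u p r hu hp h0 hr h2r => ?_⟩
  obtain ⟨e, he, v, hv, huv⟩ := h3 _ u (h2 u (h1 u hu))
  have hv0 : v ∈ G.V0 := SZ_V0 hv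
  have l0 : 0 ≤ Real.log r := Real.log_nonneg (by linarith)
  refine ⟨G.st (G.st (-v) p) v, st_V0 (st_V0 (neg_V0 hv0) hp) hv0, ?_, ?_⟩
  · rw [ht_st, ht_st, map_neg, h0]; abel
  have e1 : p⁻¹ * e * p = G.st (G.st (-p) e) p := by
    rw [mul_V0 _ hp, inv_V0 hp, mul_def, map_neg, h0, neg_zero, dl_zero]
  have e2 : p⁻¹ * (u * G.st (G.st (-v) p) v) = G.st (G.st (-p) e) p * v := by
    rw [← e1, huv, ← mul_V0 _ hv0, ← mul_V0 _ hv0, ← mul_V0 _ hp, ← inv_V0 hv0]; group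
  have a1 : G.st (G.st (-p) e) p ∈ G.E := by
    have := conj_mem_Id span_x (-p) (IZ_sub_Id he)
    rwa [neg_neg] at this
  have a2 : p ∈ G.B fun _ => Real.log r + D :=
    h4 _ l0 p (by rwa [Real.exp_log (by linarith)])
  have a3 : e ∈ G.B fun _ => B + C := Zon_sub (fun _ _ => trivial) he
  have a4 := h6 _ (by linarith) _ (h5 (Real.log r + B + C + D) p e
    (B_mono (fun _ => by linarith) a2) (B_mono (fun _ => by linarith) a3))
  have a5 : 0 ≤ F * (Real.log r + B + C + D + E + 1) := by positivity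
  have a6 := h7 _ a1 (F * (Real.log r + B + C + D + E + 1) + 1) (by linarith)
    (a4.trans (Real.exp_le_exp.2 (by linarith)))
  have a7 := (h8 v hv0).trans (mul_le_mul_of_nonneg_left
    (add_le_add_left (h6 B hB v (Zon_sub (fun _ _ => trivial) hv)) 1) hN.le)
  rw [e2]
  refine (isLen_len.mul _ _).trans ((add_le_add a6 a7).trans ?_)
  have a8 : 0 ≤ N * (Real.exp (F * (B + 1)) + 1) * Real.log r := by positivity
  have a9 : 0 ≤ L * (F * (B + C + D + E) + 1) * Real.log r := by positivity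
  nlinarith

theorem Fl_c (hi : G.lam i ≠ 0) (K : ℝ) (η : ℝ → ℝ) : ∃ C, ∀ (f g : G.V → G.V)
    (σ : Ht G.k ≃ₗᵢ[ℝ] Ht G.k), QIp G.len G.len K f g → FlH G η f σ → ∀ (x p : G.V) (r : ℝ),
      p ∈ G.V0 → G.ht p = 0 → ‖p‖ ≤ r → 2 ≤ r →
        ⟪G.lam i, G.ht (f x)⟫_ℝ ≤ ⟪G.lam i, G.ht (f (x * p))⟫_ℝ + C * (Real.log r + 1) := by
  obtain ⟨C, hC, h1⟩ := G.Fl_ab hi K η
  obtain ⟨c, hc, h2⟩ := G.Fl_near i
  obtain ⟨c', hc', h3⟩ := G.Fl_step i K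
  obtain ⟨M, hM⟩ : ∃ M, M = Real.exp (c * K) + C * Real.exp (c * K) + C + 1 := ⟨_, rfl⟩
  obtain ⟨A, hA, h4⟩ := G.Fl_move (K + (K * G.len (M • G.x i) + K))
  refine ⟨c' * (A + 1) + (2 * C + 1), fun f g σ hq h x p r hp h0 hr h2r => ?_⟩
  obtain ⟨y, hy⟩ : ∃ y, y = f x * (M • G.x i) := ⟨_, rfl⟩
  have l0 : 0 ≤ Real.log r := Real.log_nonneg (by linarith)
  have y1 : G.ht y = G.ht (f x) := by
    rw [hy, ht_mul, map_smul, ht_x hi, smul_zero, add_zero]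
  have y2 : G.τ i y = G.τ i (f x) + Real.exp ⟪G.lam i, G.ht (f x)⟫_ℝ * M := by
    rw [hy, mul_def, τ_st, τ_dl, map_smul, τ_self, smul_eq_mul, mul_one]
  have a1 : G.len (y⁻¹ * f (g y)) ≤ K := by
    rw [← isLen_len.inv, mul_inv_rev, inv_inv]
    exact hq.fg y
  obtain ⟨a2, a3⟩ := h2 _ _ K hq.one_le a1
  rw [y1] at a2 a3
  have a4 : G.len (x⁻¹ * g y) ≤ K + (K * G.len (M • G.x i) + K) := by
    have b1 := hq.gf x
    have b2 := hq.lg (f x) y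
    rw [← isLen_len.inv, mul_inv_rev, inv_inv] at b1
    rw [show (f x)⁻¹ * y = M • G.x i by rw [hy, inv_mul_cancel_left]] at b2
    have b3 := isLen_len.mul (x⁻¹ * g (f x)) ((g (f x))⁻¹ * g y)
    rw [mul_assoc, mul_inv_cancel_left] at b3
    linarith
  obtain ⟨p', hp', h0', a5⟩ := h4 _ p r a4 hp h0 hr h2r
  have e1 : p⁻¹ * (x⁻¹ * g y * p') = (x * p)⁻¹ * (g y * p') := by group
  rw [e1] at a5
  obtain ⟨a6, a7⟩ := h3 f g hq _ _ _ a5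
  have a8 := abs_le.1 (h1 f g σ hq h x p hp h0)
  have a9 := abs_le.1 (h1 f g σ hq h (g y) p' hp' h0')
  have b1 := mul_le_mul_of_nonneg_left (Real.exp_le_exp.2 a3) hC
  have b2 := mul_le_mul_of_nonneg_left (Real.exp_le_exp.2 a7) hC
  have b0 : 0 ≤ c' * (A * (Real.log r + 1) + 1) := by positivity
  have b3 := mul_le_mul_of_nonneg_left (Real.exp_le_exp.2
    (le_add_of_nonneg_right (a := ⟪G.lam i, G.ht (f (x * p))⟫_ℝ) b0)) hC
  rw [Real.exp_add] at a2 b1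
  rw [y2, hM] at a2
  have b4 : Real.exp ⟪G.lam i, G.ht (f x)⟫_ℝ ≤ (2 * C + 1) *
      Real.exp (⟪G.lam i, G.ht (f (x * p))⟫_ℝ + c' * (A * (Real.log r + 1) + 1)) := by
    have := (abs_le.1 a2).1
    have := (abs_le.1 a6).2
    linarith [a8.2, a9.1]
  have b5 : 2 * C + 1 ≤ Real.exp (2 * C + 1) := by linarith [Real.add_one_le_exp (2 * C + 1)]
  have b6 := b4.trans (mul_le_mul_of_nonneg_right b5 (Real.exp_pos _).le)
  rw [← Real.exp_add, Real.exp_le_exp] at b6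
  have b7 := mul_nonneg hc' l0
  have b8 := mul_nonneg hC l0
  nlinarith

theorem flat_log (G : Geo) (K : ℝ) (η : ℝ → ℝ) : ∃ C : ℝ, ∀ (f g : G.V → G.V)
    (σ : Ht G.k ≃ₗᵢ[ℝ] Ht G.k), QIp G.len G.len K f g →
    (∀ ε > 0, ∀ x y,
      ‖G.ht (f y) - G.ht (f x) - σ (G.ht y - G.ht x)‖ ≤ ε * G.len (x⁻¹ * y) + η ε) →
    ∀ x p r, p ∈ G.V0 → G.ht p = 0 → ‖p‖ ≤ r → 2 ≤ r →
      ‖G.ht (f (x * p)) - G.ht (f x)‖ ≤ C * Real.log r := by
  have key : ∀ i : Fin G.n, ∃ C, 0 ≤ C ∧ (G.lam i ≠ 0 → ∀ (f g : G.V → G.V)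
      (σ : Ht G.k ≃ₗᵢ[ℝ] Ht G.k), QIp G.len G.len K f g → FlH G η f σ → ∀ (x p : G.V) (r : ℝ),
        p ∈ G.V0 → G.ht p = 0 → ‖p‖ ≤ r → 2 ≤ r →
          ⟪G.nu i, G.ht (f x) - G.ht (f (x * p))⟫_ℝ ≤ C * (Real.log r + 1)) := by
    intro i
    by_cases hi : G.lam i = 0
    · exact ⟨0, le_rfl, fun h => (h hi).elim⟩
    obtain ⟨C, h1⟩ := G.Fl_c hi K η
    refine ⟨‖G.lam i‖⁻¹ * |C|, by positivity, fun _ f g σ hq h x p r hp h0 hr h2r => ?_⟩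
    have l0 : 0 ≤ Real.log r := Real.log_nonneg (by linarith)
    have a1 := h1 f g σ hq h x p r hp h0 hr h2r
    have a2 := mul_le_mul_of_nonneg_right (le_abs_self C) (show 0 ≤ Real.log r + 1 by linarith)
    rw [nu, real_inner_smul_left, inner_sub_right, mul_assoc]
    exact mul_le_mul_of_nonneg_left (by linarith) (by positivity)
  choose c hc0 hc using key
  obtain ⟨A, hA, h1⟩ := G.norm_le
  have hS : 0 ≤ ∑ i, c i := Finset.sum_nonneg fun i _ => hc0 i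
  refine ⟨A * ((∑ i, c i) * 3), fun f g σ hq h x p r hp h0 hr h2r => ?_⟩
  have l1 : 1 / 2 ≤ Real.log r := by
    have := Real.log_le_log (by norm_num) h2r
    linarith [Real.log_two_gt_d9]
  rw [norm_sub_rev, mul_assoc]
  refine h1 _ _ (by positivity) fun ν hν => ?_
  obtain ⟨i, hi, rfl⟩ := mem_Nn hν
  refine (hc i hi f g σ hq h x p r hp h0 hr h2r).trans ?_
  rw [mul_assoc]
  exact mul_le_mul (Finset.single_le_sum (fun j _ => hc0 j) (Finset.mem_univ i)) (by linarith)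
    (by linarith) hS

end Vale.Agent.P188.Geo
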