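import Vale.Agent.P188.Close
import Vale.Agent.P188.Coarse

/-! Flat moves cannot lower the height on a set of positive density. -/

namespace Vale.Agent.P188.Geo

open MeasureTheory Mdl
open scoped InnerProductSpace

theorem FlatC_small (G : Geo) (L : ℝ) {ε : ℝ} (hε : 0 < ε) : ∃ δ > 0, ∃ R₀ : ℝ, ∀ R ≥ R₀,
    ∀ p ∈ G.B fun _ => Real.log R + L, ∀ s : ℝ, |s| ≤ δ → G.len (s • p) ≤ ε * R := by
  obtain ⟨β, R₀, h⟩ := G.len_small hε
  refine ⟨Real.exp (-(G.F.d * |L + β|)), Real.exp_pos _, R₀, fun R hR p hp s hs => h R hR _ ?_⟩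
  have h1 := shrink_mem (c := fun _ => Real.log R - β) (abs_nonneg (L + β)) (Zon_mono (fun _ => by
    have := le_abs_self (L + β)
    show Real.log R + L ≤ Real.log R - β + |L + β|
    linarith) hp)
  have h2 := smul_mem_Zon (a := s / Real.exp (-(G.F.d * |L + β|))) (by
    rwa [abs_div, abs_of_pos (Real.exp_pos _), div_le_one (Real.exp_pos _)]) h1
  rwa [smul_smul, div_mul_cancel₀ _ (Real.exp_pos _).ne'] at h2

theorem FlatC_sum {a : ℕ → ℝ} {b : ℝ} (m : ℕ) (h : ∀ j < m, |a (j + 1) - a j| ≤ b) :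
    |a m - a 0| ≤ m * b := by
  induction m with
  | zero => simp
  | succ m ih =>
    have h1 := ih fun j hj => h j (by omega)
    have h2 := h m (by omega)
    have h3 := abs_sub_le (a (m + 1)) (a m) (a 0)
    rw [Nat.cast_succ]
    linarith

theorem FlatC_rec {M : Mdl} (q : M.V) {Z Ω : Set M.V} (hZ : MeasurableSet Z)
    (hΩ : ∀ z ∈ Z, ∀ s : ℝ, |s| ≤ 1 → M.st z (s • q) ∈ Ω) {C : ℝ} (hC : 0 < C)
    (h0 : volume Z ≠ 0) (h1 : volume Z ≠ ⊤) (h : volume Ω ≤ ENNReal.ofReal C * volume Z) :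
    ∃ z ∈ Z, ∃ s : ℝ, |s| ≤ 1 ∧ 1 / (4 * C) ≤ |s| ∧ M.st z (s • q) ∈ Z := by
  by_contra hn
  have h2 := recur q hZ hΩ (ENNReal.ofReal (1 / (4 * C) - -(1 / (4 * C))))
  rw [Set.sep_eq_self_iff_mem_true.2 fun z hz => ?_] at h2
  · have h3 := h2.trans (mul_le_mul' le_rfl h)
    rw [← mul_assoc, ← ENNReal.ofReal_mul (by rw [sub_neg_eq_add]; positivity)] at h3
    have h4 := (ENNReal.mul_le_mul_iff_left h0 h1).1 ((one_mul _).le.trans h3)
    rw [ENNReal.one_le_ofReal, sub_neg_eq_add, ← add_div, div_mul_eq_mul_div,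
      le_div_iff₀ (by positivity)] at h4
    linarith
  · rw [← Real.volume_Icc]
    exact measure_mono fun s hs =>
      abs_le.1 (le_of_not_ge fun h3 => hn ⟨z, hz, s, hs.1, h3, hs.2⟩)

theorem flat_core (G : Geo) (K L : ℝ) {c μ : ℝ} (hc : 0 < c) (hμ : 0 < μ) :
    ∃ δ > 0, ∃ m : ℕ, 0 < m ∧ ∀ C > 0, ∃ R₀ : ℝ, ∀ R ≥ R₀, ∀ f g : G.V → G.V,
      QIp G.len G.len K f g → Measurable f → ∀ i, G.lam i ≠ 0 → ∀ p ∈ G.V0, G.ht p = 0 →
      (p ∈ G.B fun _ => Real.log R + L) → ∀ Y : Set G.V, MeasurableSet Y → 0 < volume Y →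
      volume Y < ⊤ → volume (G.nb Y (c * R)) ≤ ENNReal.ofReal C * volume Y →
      (∀ x ∈ Y, ∀ j ≤ m, ⟪G.lam i, G.ht (f (G.st x (((j : ℝ) / m) • p))) - G.ht (f x)⟫_ℝ ≤ δ * R) →
      (∀ x ∈ Y, ⟪G.lam i, G.ht (f (G.st x p)) - G.ht (f x)⟫_ℝ ≤ -(μ * R)) → False := by
  rcases lt_or_ge K 1 with hK | hK
  · exact ⟨1, one_pos, 1, one_pos, fun _ _ => ⟨0, fun _ _ _ _ q => absurd q.one_le (not_le.2 hK)⟩⟩
  have hK0 : 0 < K := one_pos.trans_le hK
  obtain ⟨Ct, hCt, ht⟩ := G.τ_len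
  obtain ⟨Ch, hCh, hh⟩ := ht_le (M := G.toMdl)
  obtain ⟨_, Λ, -, hΛ, hl⟩ := G.lam_bd
  obtain ⟨Cb, hCb, hb⟩ := G.len_bv
  obtain ⟨δ₂, hδ₂, R₂, h2⟩ := G.close_conj L (ε := μ / (Ct * K)) (by positivity)
  obtain ⟨ρ, hρ, hρc, hρδ⟩ : ∃ ρ > 0, 4 * K * Cb * ρ ≤ c ∧ 4 * K * Cb * ρ ≤ δ₂ := by
    refine ⟨min c δ₂ / (4 * K * Cb), by positivity, ?_⟩
    rw [mul_div_cancel₀ _ (by positivity)]
    exact ⟨min_le_left _ _, min_le_right _ _⟩
  obtain ⟨δ₃, hδ₃, R₃, h3⟩ := FlatC_small G L (ε := ρ / (8 * Ct * K)) (by positivity)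
  obtain ⟨m, hm0, hm⟩ : ∃ m : ℕ, 0 < m ∧ |(1 / m : ℝ)| ≤ δ₃ := by
    obtain ⟨n, hn⟩ := exists_nat_one_div_lt hδ₃
    exact ⟨n + 1, n.succ_pos, by rw [Nat.cast_succ, abs_of_pos (by positivity)]; exact hn.le⟩
  have hm1 : (0 : ℝ) < m := Nat.cast_pos.2 hm0
  refine ⟨ρ / 8, by positivity, m, hm0, fun C hC => ?_⟩
  obtain ⟨C', hC', hcell⟩ := cell (M := G.toMdl) (E := Ht G.k) (L := Ch * K + 1)
    (δ := ρ / (8 * Λ * c)) (by positivity) (by positivity) hC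
  obtain ⟨C₁, hC₁, hcm⟩ := cm (M := G.toMdl) K
  obtain ⟨C₂, hC₂, hnb⟩ := cm_nb (M := G.toMdl) K
  refine Filter.eventually_atTop.1 ?_
  filter_upwards [Filter.eventually_ge_atTop R₂, Filter.eventually_ge_atTop R₃,
    Close_ev hc (8 * K + 2), Close_ev hρ (2 * Λ * Ch + 1), Close_ev hδ₂ (10 * K),
    Close_ev hρ (2 * (4 * (C₂ * (C' * C₁)) * ((2 * m + 3) * Real.exp (Ct * K)))),
    Filter.eventually_ge_atTop 0] with R r2 r3 r4 r5 r6 r7 r0
  intro f g q hf i hi p hp hp0 hpB Y hY hY0 hY1 hYC H1 H2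
  have hin : ∀ (a : Ht G.k) r, ‖a‖ ≤ r → |⟪G.lam i, a⟫_ℝ| ≤ Λ * r := fun a r h =>
    (abs_real_inner_le_norm _ _).trans (mul_le_mul (hl i).1 h (norm_nonneg _) hΛ.le)
  have hd : ∀ x y : G.V, ‖G.ht y - G.ht x‖ ≤ Ch * G.len (x⁻¹ * y) := fun x y => by
    have := hh (x⁻¹ * y)
    rwa [ht_mul, ht_inv, neg_add_eq_sub] at this
  have hn := (isLen_len (M := G.toMdl)).nonneg
  obtain ⟨H, h4, h5⟩ := hcell (fun x => G.ht (f x)) Y (c * R) (by linarith)
    (Len_ht.measurable.comp hf) (fun x y => by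
      have h4 := (hd (f x) (f y)).trans (mul_le_mul_of_nonneg_left (q.lf x y) hCh)
      have h5 := hn (x⁻¹ * y)
      rw [norm_sub_rev]
      linarith) hY hY0 hY1 hYC
  have h6 : ∀ x ∈ {x ∈ Y | ‖G.ht (f x) - H‖ ≤ ρ / (8 * Λ * c) * (c * R)}, x ∈ Y ∧
      |⟪G.lam i, G.ht (f x)⟫_ℝ - ⟪G.lam i, H⟫_ℝ| ≤ ρ / 8 * R := fun x hx => by
    refine ⟨hx.1, ?_⟩
    rw [← inner_sub_right]
    exact (hin _ _ hx.2).trans (le_of_eq (by field_simp))
  generalize {x ∈ Y | ‖G.ht (f x) - H‖ ≤ ρ / (8 * Λ * c) * (c * R)} = Y₁ at h4 h5 h6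
  generalize ⟪G.lam i, H⟫_ℝ = h at h6
  have hΛh := mul_nonneg hΛ.le hCh
  have h7 : ∀ z ∈ G.nb (f '' Y₁) 1, ∀ s : ℝ, |s| ≤ 1 →
      G.len (z⁻¹ * G.st z (s • Real.exp (h + ρ * R) • G.x i)) ≤ Cb * (2 * ρ * R) := by
    rintro z ⟨_, ⟨x, hx, rfl⟩, hz⟩ s hs
    rw [st_eq_mul, inv_mul_cancel_left, map_smul, map_smul, dl_x, smul_smul, smul_smul]
    refine hb _ hi _ _ (by linarith) ?_
    rw [mul_assoc, abs_mul, ← Real.exp_add, abs_of_pos (Real.exp_pos _)]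
    refine (mul_le_of_le_one_left (Real.exp_pos _).le hs).trans (Real.exp_le_exp.2 ?_)
    have h8 := abs_le.1 (hin _ _ ((hd _ _).trans (mul_le_mul_of_nonneg_left hz hCh)))
    have h9 := abs_le.1 (h6 x hx).2
    rw [inner_sub_right] at h8
    rw [inner_neg_right]
    linarith
  have hb0 : 0 ≤ Cb * (2 * ρ * R) := by positivity
  have hc1 := mul_le_mul_of_nonneg_right hρc r0
  have hc2 := mul_le_mul_of_nonneg_right hρδ r0
  have h8 : volume Y₁ ≤ ENNReal.ofReal C₁ * volume (G.nb (f '' Y₁) 1) :=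
    (measure_mono (Set.subset_preimage_image f Y₁)).trans (hcm f g q _)
  have h9 : volume (G.nb (f '' Y₁) (1 + Cb * (2 * ρ * R))) ≤
      ENNReal.ofReal C₂ * (ENNReal.ofReal C' * volume Y₁) :=
    (hnb f g q Y₁ _ (by linarith)).trans (mul_le_mul' le_rfl
      ((measure_mono (nb_mono subset_rfl (by linarith))).trans h5))
  obtain ⟨z, hz, s, hs1, hs2, hz'⟩ := FlatC_rec (Real.exp (h + ρ * R) • G.x i)
    (Ω := G.nb (f '' Y₁) (1 + Cb * (2 * ρ * R))) (C := C₂ * (C' * C₁))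
    (isOpen_nb (f '' Y₁) le_rfl).measurableSet
    (fun z hz s hs => nb_nb _ _ _ ⟨z, hz, h7 z hz s hs⟩) (by positivity)
    (fun h10 => by simp [h10, h4.ne'] at h8)
    ((measure_mono (nb_mono subset_rfl (by linarith))).trans_lt (h9.trans_lt
      (ENNReal.mul_lt_top ENNReal.ofReal_lt_top (ENNReal.mul_lt_top ENNReal.ofReal_lt_top
        ((measure_mono fun x hx => (h6 x hx).1).trans_lt hY1))))).ne
    (by
      refine (h9.trans (mul_le_mul' le_rfl (mul_le_mul' le_rfl h8))).trans (le_of_eq ?_)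
      rw [ENNReal.ofReal_mul hC₂.le, ENNReal.ofReal_mul hC'.le]
      ring)
  have h10 := h7 z hz s hs1
  have h11 : |G.τ i (G.st z (s • Real.exp (h + ρ * R) • G.x i)) - G.τ i z| =
      |s| * Real.exp (h + ρ * R) := by
    rw [τ_st, add_sub_cancel_left, map_smul, map_smul, τ_self, smul_eq_mul, smul_eq_mul, mul_one,
      abs_mul, abs_of_pos (Real.exp_pos _)]
  generalize G.st z (s • Real.exp (h + ρ * R) • G.x i) = z' at hz' h10 h11
  obtain ⟨_, ⟨x, hx, rfl⟩, hz⟩ := hz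
  obtain ⟨_, ⟨x', hx', rfl⟩, hz'⟩ := hz'
  have hρR : 0 ≤ ρ * R := by positivity
  have hCK := mul_le_mul_of_nonneg_left hK hCt.le
  have h12 : ∀ x ∈ Y₁, ∀ z, G.len ((f x)⁻¹ * z) ≤ 1 →
      |G.τ i z - G.τ i (f x)| ≤ Real.exp (h + ρ * R / 2 + Ct * K) := fun x hx z hz => by
    have := abs_le.1 (h6 x hx).2
    exact (ht _ _ 1 i le_rfl hz).trans (Real.exp_le_exp.2 (by linarith))
  have h13 : ∀ (x y : G.V) r, 0 ≤ r → G.len (x⁻¹ * y) ≤ r → |G.τ i (f y) - G.τ i (f x)| ≤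
      Real.exp (⟪G.lam i, G.ht (f x)⟫_ℝ + Ct * (K * r + K)) := fun x y r hr h =>
    ht _ _ _ i (by linarith [mul_nonneg hK0.le hr])
      ((q.lf x y).trans (add_le_add (mul_le_mul_of_nonneg_left h hK0.le) le_rfl))
  have h14 : ∀ x ∈ Y₁, |G.τ i (f (x * p)) - G.τ i (f x)| ≤
      m * Real.exp (h + ρ * R / 2 + Ct * K) := fun x hx => by
    have h15 := FlatC_sum (a := fun j => G.τ i (f (G.st x (((j : ℝ) / m) • p))))
      (b := Real.exp (h + ρ * R / 2 + Ct * K)) m fun j hj => by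
        refine (h13 _ _ (ρ / (8 * Ct * K) * R) (by positivity) ?_).trans (Real.exp_le_exp.2 ?_)
        · rw [Nat.cast_succ, add_div, ← st_smul, ← st_assoc, ← mul_V0 _ (smul_V0 (1 / m : ℝ) hp),
            inv_mul_cancel_left]
          exact h3 R r3 p hpB _ hm
        · have h15 := H1 x (h6 x hx).1 j hj.le
          have h16 := abs_le.1 (h6 x hx).2
          have h17 : Ct * (K * (ρ / (8 * Ct * K) * R)) = ρ * R / 8 := by field_simp
          rw [inner_sub_right] at h15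
          linarith
    simp only [div_self hm1.ne', one_smul, Nat.cast_zero, zero_div, zero_smul, st_zero] at h15
    rwa [mul_V0 x hp]
  have h15 : G.len (x⁻¹ * x') ≤ δ₂ * R := by
    have e1 := Coarse_tri (f x) z (f x')
    have e2 := Coarse_tri z z' (f x')
    have e3 := Coarse_sym z' (f x')
    have e4 := mul_le_mul_of_nonneg_left
      (by linarith : G.len ((f x)⁻¹ * f x') ≤ 2 + Cb * (2 * ρ * R)) hK0.le
    have e5 := q.lg (f x) (f x')
    have e6 := Coarse_tri x (g (f x)) x'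
    have e7 := Coarse_tri (g (f x)) (g (f x')) x'
    have e8 := Coarse_sym x (g (f x))
    have e9 := q.gf x
    have e10 := q.gf x'
    linarith
  have h16 : |G.τ i (f (x' * p)) - G.τ i (f (x * p))| ≤ Real.exp (h + ρ * R / 2 + Ct * K) := by
    refine (h13 _ _ (μ / (Ct * K) * R) (by positivity) ?_).trans (Real.exp_le_exp.2 ?_)
    · rw [mul_inv_rev, mul_assoc, ← mul_assoc x⁻¹, ← mul_assoc]
      exact h2 R r2 p hp hp0 hpB _ h15
    · have e1 := H2 x (h6 x hx).1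
      have e2 := abs_le.1 (h6 x hx).2
      have e3 : Ct * (K * (μ / (Ct * K) * R)) = μ * R := by field_simp
      rw [inner_sub_right, ← mul_V0 x hp] at e1
      linarith
  have h17 : |s| * Real.exp (h + ρ * R) ≤ (2 * m + 3) * Real.exp (h + ρ * R / 2 + Ct * K) := by
    have e1 := abs_le.1 (h12 x hx z hz)
    have e2 := abs_le.1 (h12 x' hx' z' hz')
    have e3 := abs_le.1 (h14 x hx)
    have e4 := abs_le.1 (h14 x' hx')
    have e5 := abs_le.1 h16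
    rw [← h11, abs_le]
    constructor <;> linarith
  have h18 := (mul_le_mul_of_nonneg_right hs2 (Real.exp_pos _).le).trans h17
  rw [show h + ρ * R = h + ρ * R / 2 + ρ * R / 2 by ring, Real.exp_add _ (ρ * R / 2),
    Real.exp_add _ (Ct * K), mul_left_comm, mul_left_comm _ (Real.exp (h + ρ * R / 2))] at h18
  have h19 := le_of_mul_le_mul_left h18 (Real.exp_pos _)
  rw [div_mul_eq_mul_div, one_mul, div_le_iff₀ (by positivity)] at h19
  have h20 := Real.add_one_le_exp (ρ * R / 2)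
  linarith

end Vale.Agent.P188.Geo
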