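import Vale.Agent.P188.SysB
import Vale.Agent.P188.FlatC

/-! Flat moves do not change the height at generic points. -/

namespace Vale.Agent.P188.Sys

open MeasureTheory Filter Mdl
open scoped InnerProductSpace ENNReal

variable {G : Geo} {S : Sys G} {W : S.I → ℝ≥0∞} {A : S.I → Set G.V} {L c : ℝ} {E : S.Ext}
  {z : E.J → G.V}

theorem Flat_reg {G : Geo} {S : Sys G} {W : S.I → ℝ≥0∞} {A P : S.I → Set G.V} {c : ℝ} {E : S.Ext}
    {z : E.J → G.V} (hA : S.Rg W A c) (hz : E.Gn W z) (hm : ∀ᶠ n in E.U, z n ∈ A (E.π n))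
    (hP : ∀ᶠ n in E.U, z n ∈ P (E.π n)) (hPm : ∀ n, MeasurableSet (P n)) :
    ∃ C > 0, ∀ᶠ n in S.U, ∃ Y ⊆ P n, MeasurableSet Y ∧ 0 < volume Y ∧ volume Y < ⊤ ∧
      volume (G.nb Y (c / 2 * S.R n)) ≤ ENNReal.ofReal C * volume Y := by
  obtain ⟨hc, C, hC⟩ := hA
  obtain ⟨κ, hκ, h1⟩ := not_nul_iff.1 (Gen.not_nul (A := fun n => G.nb (A n) 1 ∩ P n) hz
    ((hm.and hP).mono fun n hn => ⟨sub_nb _ zero_le_one hn.1, hn.2⟩))
  refine ⟨(|C| + 1) / κ, by positivity, ?_⟩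
  filter_upwards [hC, h1, S.ev_R (2 / c)] with n h2 h3 h4
  rw [div_le_iff₀ hc] at h4
  have h5 : W n ≠ ⊤ := fun h => by
    rw [h, ENNReal.mul_top (ENNReal.ofReal_pos.2 hκ).ne'] at h3
    exact not_top_lt h3
  have h6 := (measure_mono ((nb_mono Set.inter_subset_left le_rfl).trans
    ((nb_nb (A n) 1 (c / 2 * S.R n)).trans (nb_mono subset_rfl (by linarith))) :
      G.nb (G.nb (A n) 1 ∩ P n) (c / 2 * S.R n) ⊆ G.nb (A n) (c * S.R n))).trans h2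
  refine ⟨_, Set.inter_subset_right, (isOpen_nb _ le_rfl).measurableSet.inter (hPm n),
    zero_le.trans_lt h3, (measure_mono (sub_nb _ (by linarith))).trans_lt
      (h6.trans_lt (ENNReal.mul_lt_top ENNReal.ofReal_lt_top h5.lt_top)),
    h6.trans (le_trans ?_ (mul_le_mul' le_rfl h3.le))⟩
  rw [← mul_assoc, ← ENNReal.ofReal_mul (by positivity), div_mul_cancel₀ _ hκ.ne']
  exact mul_le_mul' (ENNReal.ofReal_le_ofReal ((le_abs_self C).trans (by linarith))) le_rfl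

theorem Flat_rg (hA : S.Rg W A c) (L : ℝ) : ∃ c₁ > 0, ∀ u : S.I → G.V,
    (∀ᶠ n in S.U, u n ∈ S.Lf L n ∧ G.ht (u n) = 0) →
      S.Rg W (fun n => (fun x => G.st x (u n)) '' A n) c₁ := by
  obtain ⟨hc, C, hC⟩ := hA
  obtain ⟨δ, hδ, R₀, h⟩ := G.close_conj L hc
  refine ⟨δ, hδ, fun u hu => ⟨hδ, C, ?_⟩⟩
  filter_upwards [hC, hu, S.ev_R R₀] with n h1 h2 h3
  refine le_trans ?_ h1
  rw [← vol_mul_right (u n)⁻¹ (G.nb (A n) (c * S.R n))]
  refine measure_mono ?_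
  rintro v ⟨_, ⟨x, hx, rfl⟩, hv⟩
  refine ⟨x, hx, ?_⟩
  have h4 := neg_lf h2.1
  have h5 := h _ h3 _ h4.1 (by rw [map_neg, h2.2, neg_zero]) h4.2 _ hv
  simp only [← Geo.mul_V0 x h2.1.1, ← Geo.inv_V0 h2.1.1, inv_inv, mul_inv_rev, mul_assoc,
    mul_inv_cancel_left] at h5
  exact h5

theorem flat_det (hA : S.Rg W A c) (hz : E.Gn W z) (hm : ∀ᶠ n in E.U, z n ∈ A (E.π n))
    {p : S.I → G.V} (hp : ∀ᶠ n in S.U, p n ∈ S.Lf L n ∧ G.ht (p n) = 0) :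
    E.sys.Sm fun n => E.sys.T n (G.st (z n) (p (E.π n))) - E.sys.T n (z n) := by
  obtain ⟨C, hC, hT⟩ := T_lip G
  obtain ⟨C₁, hC₁, hl⟩ := E.sys.lf_len L
  have hK := one_pos.trans_le S.one_le_K
  have hp' := E.h.eventually hp
  have h1 : ∀ s : Set.Icc (0 : ℝ) 1, ∃ w : Ht G.k, ‖w‖ ≤ C * S.K * (C₁ + 1) ∧ E.sys.Sm fun n =>
      (E.sys.T n (G.st (z n) (s.1 • p (E.π n))) - E.sys.T n (z n)) - E.sys.R n • w := fun s => by
    refine exists_lim ?_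
    filter_upwards [hl, hp', E.sys.ev_R 1] with n h1 h2 h3
    have h4 := smul_lf h2.1 (abs_le.2 ⟨by linarith [s.2.1], s.2.2⟩)
    refine (hT E.sys n _ _).trans ?_
    rw [← Geo.mul_V0 _ h4.1, inv_mul_cancel_left, mul_assoc (C * S.K)]
    exact mul_le_mul_of_nonneg_left (by linarith [(h1 _ h4).1]) (by positivity)
  choose φ hφ h1 using h1
  by_cases h2 : φ 1 - φ 0 = 0
  · refine ((h1 1).sub (h1 0)).congr (Eventually.of_forall fun n => ?_)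
    simp only [sub_eq_zero.1 h2, Set.Icc.coe_one, Set.Icc.coe_zero, one_smul, zero_smul, st_zero]
    abel
  exfalso
  obtain ⟨i, hi, hg⟩ : ∃ i, G.lam i ≠ 0 ∧ 0 < ⟪G.lam i, φ 1⟫_ℝ - ⟪G.lam i, φ 0⟫_ℝ := by
    obtain ⟨C₂, -, h3⟩ := G.norm_le
    by_contra h4
    refine h2 (norm_le_zero_iff.1 ((h3 _ 0 le_rfl fun ν hν => ?_).trans (mul_zero _).le))
    obtain ⟨i, h5, rfl⟩ := Geo.mem_Nn hν
    have h6 := le_of_not_gt fun h => h4 ⟨i, h5, h⟩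
    rw [← inner_sub_right] at h6
    rw [Geo.nu, inner_smul_left]
    exact mul_nonpos_of_nonneg_of_nonpos (inv_nonneg.2 (norm_nonneg _)) h6
  have hi' := norm_pos_iff.2 hi
  have h3 : ∀ s s' : Set.Icc (0 : ℝ) 1, ∀ η > 0, ∀ᶠ n in E.U,
      ⟪G.lam i, E.sys.T n (G.st (z n) (s'.1 • p (E.π n))) -
        E.sys.T n (G.st (z n) (s.1 • p (E.π n)))⟫_ℝ ≤
        E.sys.R n * (⟪G.lam i, φ s'⟫_ℝ - ⟪G.lam i, φ s⟫_ℝ + η) := fun s s' η hη => by
    filter_upwards [(h1 s').sub (h1 s) (η / ‖G.lam i‖) (div_pos hη hi')] with n hn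
    have h3 := (real_inner_le_norm (G.lam i) _).trans (mul_le_mul_of_nonneg_left hn hi'.le)
    rw [← mul_assoc, mul_div_cancel₀ _ hi'.ne'] at h3
    simp only [inner_sub_right, inner_smul_right] at h3 ⊢
    linarith
  obtain ⟨c₁, hc₁, hR⟩ := Flat_rg hA L
  obtain ⟨δ, hδ, m, hm0, hcore⟩ := G.flat_core S.K L (half_pos hc₁) (half_pos hg)
  have hm1 : (0 : ℝ) < m := Nat.cast_pos.2 hm0
  obtain ⟨η, hη, hη1, hη2⟩ : ∃ η > 0, η + η ≤ δ ∧
      η + η ≤ (⟪G.lam i, φ 1⟫_ℝ - ⟪G.lam i, φ 0⟫_ℝ) / 2 :=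
    ⟨min _ _ / 2, half_pos (lt_min hδ (half_pos hg)), (add_halves _).le.trans (min_le_left _ _),
      (add_halves _).le.trans (min_le_right _ _)⟩
  have hb : BddAbove (Set.range fun s => ⟪G.lam i, φ s⟫_ℝ) := ⟨_, by
    rintro _ ⟨s, rfl⟩
    exact (real_inner_le_norm _ _).trans (mul_le_mul_of_nonneg_left (hφ s) hi'.le)⟩
  obtain ⟨s₀, h4⟩ := exists_lt_of_lt_ciSup (sub_lt_self (⨆ s, ⟪G.lam i, φ s⟫_ℝ) hη)
  have h5 := le_ciSup hb
  have h6 : |s₀.1| ≤ 1 := abs_le.2 ⟨by linarith [s₀.2.1], s₀.2.2⟩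
  have h7 : ∀ j : Fin (m + 1), s₀.1 + ((j : ℕ) / m : ℝ) * -s₀.1 ∈ Set.Icc (0 : ℝ) 1 := fun j => by
    have h7 := mul_le_mul_of_nonneg_right ((div_le_one hm1).2
      (Nat.cast_le.2 (Nat.lt_succ_iff.1 j.2))) s₀.2.1
    have h8 := mul_nonneg (by positivity : (0 : ℝ) ≤ (j : ℕ) / m) s₀.2.1
    exact ⟨by linarith, by linarith [s₀.2.2]⟩
  have hmT : ∀ n (u : G.V), Measurable fun x => ⟪G.lam i, S.T n (G.st x u) - S.T n x⟫_ℝ :=
    fun n u => measurable_const.inner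
      (((S.measurable_T n).comp (mp_st_right _).measurable).sub (S.measurable_T n))
  obtain ⟨C₂, hC₂, h8⟩ := Flat_reg (P := fun n => (⋂ j : Fin (m + 1), {x | ⟪G.lam i,
      S.T n (G.st x (((j : ℕ) / m : ℝ) • -s₀.1 • p n)) - S.T n x⟫_ℝ ≤ δ * S.R n}) ∩
      {x | ⟪G.lam i, S.T n (G.st x (-s₀.1 • p n)) - S.T n x⟫_ℝ ≤
        -((⟪G.lam i, φ 1⟫_ℝ - ⟪G.lam i, φ 0⟫_ℝ) / 2 * S.R n)})
    (hR (fun n => s₀.1 • p n) (hp.mono fun n hn =>
      ⟨smul_lf hn.1 h6, by rw [map_smul, hn.2, smul_zero]⟩)) (hz.st fun n => s₀.1 • p n)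
    (hm.mono fun n hn => ⟨_, hn, rfl⟩) (by
      filter_upwards [eventually_all.2 fun j => h3 s₀ ⟨_, h7 j⟩ η hη, h3 s₀ 0 η hη,
        E.sys.ev_R 0] with n e1 e2 e3
      refine ⟨Set.mem_iInter.2 fun j => ?_, ?_⟩
      · rw [Set.mem_ofPred_eq, st_assoc, smul_smul, st_smul, mul_comm δ]
        exact (e1 j).trans (mul_le_mul_of_nonneg_left (by linarith [h5 ⟨_, h7 j⟩]) e3)
      · rw [Set.mem_ofPred_eq, st_assoc, st_smul, add_neg_cancel, mul_comm, ← mul_neg]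
        exact e2.trans (mul_le_mul_of_nonneg_left (by linarith [h5 1]) e3))
    fun n => (MeasurableSet.iInter fun j => measurableSet_le (hmT n _) measurable_const).inter
      (measurableSet_le (hmT n _) measurable_const)
  obtain ⟨R₀, hcore⟩ := hcore C₂ hC₂
  obtain ⟨n, ⟨Y, e1, e2, e3, e4, e5⟩, e6, e7⟩ := (h8.and ((S.ev_R R₀).and hp)).exists
  have e8 := smul_lf e7.1 ((abs_neg _).trans_le h6)
  exact hcore _ e6 _ _ (S.q n) (S.mf n) i hi _ e8.1 (by rw [map_smul, e7.2, smul_zero]) e8.2 Y e2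
    e3 e4 e5 (fun x hx j hj => Set.mem_iInter.1 (e1 hx).1 ⟨j, Nat.lt_succ_iff.2 hj⟩)
    fun x hx => (e1 hx).2

theorem flat (hA : S.Rg W A c) (hz : E.Gn W z) (hm : ∀ᶠ n in E.U, z n ∈ A (E.π n))
    {p : E.J → G.V} (hp : ∀ᶠ n in E.U, p n ∈ E.sys.Lf L n ∧ G.ht (p n) = 0) :
    E.sys.Sm fun n => E.sys.T n (G.st (z n) (p n)) - E.sys.T n (z n) := by
  intro ε hε
  obtain ⟨C, hC, hT⟩ := T_lip G
  have hK := one_pos.trans_le S.one_le_K
  obtain ⟨β, R₀, h1⟩ := G.len_small (ε := ε / (4 * (C * S.K))) (by positivity)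
  obtain ⟨m, h2⟩ := cover_Bx G.x (β + L)
  choose q h2 h3 using fun n => h2 (fun _ => Real.log (S.R n) + L)
    {v | v ∈ S.Lf L n ∧ G.ht v = 0} fun v hv => hv.1.2
  replace h2 := fun n j => h2 n j ⟨0, ⟨fun a => map_zero _, zero_mem_Zon⟩, map_zero _⟩
  obtain ⟨j, h4⟩ := Ultrafilter.eventually_exists_iff.1 (hp.mono fun n hn => h3 (E.π n) _ hn)
  filter_upwards [h4, hp, flat_det hA hz hm (Eventually.of_forall fun n => h2 n j) (ε / 2)
    (half_pos hε), E.sys.ev_R R₀, E.sys.ev_R (4 * (C * S.K) / ε)] with n e1 e2 e3 e4 e5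
  have e6 := h1 _ e4 _ (Zon_mono (fun _ => le_of_eq (by ring)) e1)
  have e7 := hT E.sys n (G.st (z n) (q (E.π n) j)) (G.st (z n) (p n))
  have e8 : G.st (z n) (p n) = G.st (z n) (q (E.π n) j) * G.st (-q (E.π n) j) (p n) := by
    rw [Geo.mul_V0 _ (Geo.st_V0 (Geo.neg_V0 (h2 _ j).1.1) e2.1.1), st_assoc, ← st_assoc (q _ j),
      st_neg, zero_st]
  rw [congrArg (fun w => (G.st (z n) (q (E.π n) j))⁻¹ * w) e8, inv_mul_cancel_left] at e7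
  have e9 := mul_le_mul_of_nonneg_left e6 (by positivity : 0 ≤ C * S.K)
  have e10 : C * S.K * (ε / (4 * (C * S.K)) * E.sys.R n) = ε / 4 * E.sys.R n := by field_simp
  rw [div_le_iff₀ hε] at e5
  have e11 := norm_sub_le_norm_sub_add_norm_sub (E.sys.T n (G.st (z n) (p n)))
    (E.sys.T n (G.st (z n) (q (E.π n) j))) (E.sys.T n (z n))
  linarith

/-- on a leaf the image height depends only on the height -/
theorem flat_leaf (hA : S.Rg W A c) (hz : E.Gn W z) {b : Ht G.k}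
    (hm : ∀ᶠ n in E.U, G.st (z n) (G.X (E.sys.R n • b)) ∈ A (E.π n)) {v : E.J → G.V}
    (hv : ∀ᶠ n in E.U, v n ∈ E.sys.Lf L n) (hb : E.sys.Sm fun n => G.ht (v n) - E.sys.R n • b) :
    E.sys.Sm fun n => E.sys.T n (G.st (z n) (v n)) -
      E.sys.T n (G.st (z n) (G.X (E.sys.R n • b))) := by
  obtain ⟨L₁, h1⟩ := X_lf (S := E.sys) (a := fun n => E.sys.R n • b) (C := ‖b‖)
    ((E.sys.ev_R 0).mono fun n hn => by rw [norm_smul, Real.norm_of_nonneg hn, mul_comm])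
  obtain ⟨L₂, h2⟩ := X_lf (S := E.sys) (C := 1) (hb.neg 1 one_pos)
  obtain ⟨L₃, h3⟩ := E.sys.st_lf L₁ L
  obtain ⟨L₄, h4⟩ := E.sys.st_lf L₃ L₂
  have h5 := flat (L := L₄) hA (hz.st fun n => G.X (S.R n • b)) hm
    (p := fun n => G.st (G.st (-G.X (E.sys.R n • b)) (v n)) (G.X (-(G.ht (v n) - E.sys.R n • b))))
    (by
      filter_upwards [h1, h2, hv] with n e1 e2 e3
      refine ⟨h4 n _ (h3 n _ (neg_lf e1) _ e3) _ e2, ?_⟩
      rw [ht_st, ht_st, map_neg, G.ht_X, G.ht_X]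
      abel)
  refine ((sm_X (fun n => G.st (G.st (z n) (G.X (E.sys.R n • b))) (G.st (G.st
    (-G.X (E.sys.R n • b)) (v n)) (G.X (-(G.ht (v n) - E.sys.R n • b))))) hb).add h5).congr
    (Eventually.of_forall fun n => ?_)
  rw [sub_add_sub_cancel, map_neg, st_assoc, st_assoc (G.st _ (v n)), neg_st, st_zero, st_assoc,
    ← st_assoc (G.X _), st_neg, zero_st]

end Vale.Agent.P188.Sys
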