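import Vale.Agent.P188.GADefs

open scoped Pointwise

namespace Vale.Agent.P188

variable {G : Type*} [Group G]

/-- an infinite commutative image gives a surjection onto the integers -/
theorem exists_hom_int [Group.FG G] {Q : Type*} [Monoid Q] (f : G →* Q)
    (hc : ∀ x y, f x * f y = f y * f x) (hi : (Set.range f).Infinite) :
    ∃ ψ : G →* Multiplicative ℤ, Function.Surjective ψ := by
  have h1 : commutator G ≤ f.toHomUnits.ker := Subgroup.commutator_le.2 fun a _ b _ => by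
    rw [MonoidHom.mem_ker, map_commutatorElement, commutatorElement_eq_one_iff_mul_comm]
    exact Units.ext (hc a b)
  have hs : Function.Surjective (Abelianization.of (G := G)) := QuotientGroup.mk'_surjective _
  have h2 : Infinite (Abelianization G) := by
    rw [← not_finite_iff_infinite]
    intro hfin
    refine hi ((Set.finite_range fun q : Abelianization G =>
      (QuotientGroup.lift (commutator G) f.toHomUnits h1 q : Q)).subset ?_)
    rintro _ ⟨g, rfl⟩
    exact ⟨Abelianization.of g, rfl⟩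
  have h3 : Group.FG (Abelianization G) := Group.fg_of_surjective hs
  obtain ⟨ι, j, _, _, p, hp, e, ⟨E⟩⟩ :=
    CommGroup.equiv_free_prod_prod_multiplicative_zmod (Abelianization G)
  rcases isEmpty_or_nonempty j with hj | ⟨⟨j₀⟩⟩
  · have : ∀ i, NeZero (p i ^ e i) := fun i => ⟨pow_ne_zero _ (hp i).ne_zero⟩
    have : Finite (Abelianization G) := Finite.of_equiv _ E.symm.toEquiv
    exact (not_finite (Abelianization G)).elim
  · refine ⟨((Pi.evalMonoidHom _ j₀).comp (MonoidHom.fst _ _)).comp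
      (E.toMonoidHom.comp Abelianization.of), fun n => ?_⟩
    obtain ⟨g, hg⟩ := hs (E.symm (fun _ => n, 1))
    refine ⟨g, ?_⟩
    simp [hg]

/-- maximum principle -/
theorem har_const [DecidableEq G] {S : Finset G} (hS : SGen S) {u : G → ℝ} (hu : Har S u)
    (hf : (Set.range u).Finite) (x : G) : u x = u 1 := by
  obtain ⟨_, ⟨x₀, rfl⟩, h0⟩ := Set.exists_max_image _ id hf ⟨_, 1, rfl⟩
  have h1 : ∀ y, u y ≤ u x₀ := fun y => h0 _ ⟨y, rfl⟩
  have h2 : ∀ y, u y = u x₀ → ∀ s ∈ S, u (y * s) = u x₀ := fun y hy s hs => by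
    have := (Finset.sum_eq_zero_iff_of_nonpos fun s _ =>
      sub_nonpos.2 ((h1 (y * s)).trans hy.ge)).1 (hu y) s hs
    rw [← hy, sub_eq_zero.1 this]
  have h3 : ∀ n : ℕ, ∀ g ∈ S ^ n, u (x₀ * g) = u x₀ := fun n => by
    induction n with
    | zero =>
      intro g hg
      rw [pow_zero, Finset.mem_one] at hg
      rw [hg, mul_one]
    | succ n ih =>
      intro g hg
      obtain ⟨y, hy, s, hs, rfl⟩ := mem_pow_succ hg
      rw [← mul_assoc]
      exact h2 _ (ih y hy) s hs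
  have h4 : ∀ y, u y = u x₀ := fun y => by
    obtain ⟨n, hn⟩ := hS.gen (x₀⁻¹ * y)
    have := h3 n _ hn
    rwa [mul_inv_cancel_left] at this
  rw [h4 x, h4 1]

/-- the action on Lipschitz harmonic functions -/
theorem exists_rep (S : Finset G) : ∃ ρ : G →* Module.End ℂ (LH ℂ S),
    ∀ (g : G) (u : LH ℂ S) (x : G),
      (ρ g u : G → ℂ) x = (u : G → ℂ) (g⁻¹ * x) - (u : G → ℂ) g⁻¹ := by
  have hm : ∀ (g : G) (u : LH ℂ S),
      (fun x => (u : G → ℂ) (g⁻¹ * x) - (u : G → ℂ) g⁻¹) ∈ LH ℂ S := fun g u => by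
    obtain ⟨-, h2, L, h3⟩ := mem_LH.1 u.2
    refine mem_LH.2 ⟨by simp, fun x => ?_, L, fun x s hs => ?_⟩
    · simpa only [sub_sub_sub_cancel_right, mul_assoc] using h2 (g⁻¹ * x)
    · simpa only [sub_sub_sub_cancel_right, mul_assoc] using h3 (g⁻¹ * x) s hs
  obtain ⟨r, hr⟩ : ∃ r : G → Module.End ℂ (LH ℂ S), ∀ (g : G) (u : LH ℂ S) (x : G),
      (r g u : G → ℂ) x = (u : G → ℂ) (g⁻¹ * x) - (u : G → ℂ) g⁻¹ :=
    ⟨fun g =>
      { toFun := fun u => ⟨_, hm g u⟩
        map_add' := fun u v => Subtype.ext (funext fun x => by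
          simp only [Submodule.coe_add, Pi.add_apply]
          ring)
        map_smul' := fun c u => Subtype.ext (funext fun x => by
          simp only [Submodule.coe_smul, Pi.smul_apply, smul_eq_mul, RingHom.id_apply]
          ring) }, fun _ _ _ => rfl⟩
  refine ⟨⟨⟨r, LinearMap.ext fun u => Subtype.ext (funext fun x => ?_)⟩, fun g h =>
    LinearMap.ext fun u => Subtype.ext (funext fun x => ?_)⟩, hr⟩
  · rw [hr, inv_one, one_mul, (mem_LH.1 u.2).1, sub_zero]
    rfl
  · rw [Module.End.mul_apply, hr, hr, hr, hr, mul_inv_rev, mul_assoc]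
    ring

theorem rep_bdd [DecidableEq G] {S : Finset G} (hS : SGen S) [FiniteDimensional ℂ (LH ℂ S)]
    (ρ : G →* Module.End ℂ (LH ℂ S)) (hρ : ∀ (g : G) (u : LH ℂ S) (x : G),
      (ρ g u : G → ℂ) x = (u : G → ℂ) (g⁻¹ * x) - (u : G → ℂ) g⁻¹) : Bdd ρ := by
  intro v φ
  have h1 : Submodule.span ℂ (Set.range fun x : G =>
      (LinearMap.proj x : (G → ℂ) →ₗ[ℂ] ℂ) ∘ₗ (LH ℂ S).subtype) = ⊤ := by
    refine Submodule.span_eq_top_of_ne_zero fun z hz => ?_
    by_contra hn
    refine hz (Subtype.ext (funext fun x => ?_))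
    by_contra hx
    exact hn ⟨_, ⟨x, rfl⟩, hx⟩
  have h2 : φ ∈ Submodule.span ℂ (Set.range fun x : G =>
      (LinearMap.proj x : (G → ℂ) →ₗ[ℂ] ℂ) ∘ₗ (LH ℂ S).subtype) := h1 ▸ Submodule.mem_top
  induction h2 using Submodule.span_induction with
  | mem ψ h =>
    obtain ⟨x, rfl⟩ := h
    obtain ⟨-, -, L, hL⟩ := mem_LH.1 v.2
    obtain ⟨n, hn⟩ := hS.gen x
    refine ⟨L * n, fun g => ?_⟩
    have := lip_pow hL g⁻¹ hn
    rwa [← hρ] at this
  | zero => exact ⟨0, fun g => by simp⟩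
  | add ψ χ _ _ h k =>
    obtain ⟨C, hC⟩ := h
    obtain ⟨E, hE⟩ := k
    exact ⟨C + E, fun g => (norm_add_le _ _).trans (add_le_add (hC g) (hE g))⟩
  | smul c ψ _ h =>
    obtain ⟨C, hC⟩ := h
    refine ⟨‖c‖ * C, fun g => ?_⟩
    rw [LinearMap.smul_apply, norm_smul]
    exact mul_le_mul_of_nonneg_left (hC g) (norm_nonneg c)

end Vale.Agent.P188
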