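import Vale.Agent.P188.GADefs

open scoped Pointwise

namespace Vale.Agent.P188

variable {G : Type*} [Group G] [DecidableEq G] {S : Finset G}

/-- the cutoff function -/
def GACac_chi (S : Finset G) (a R : ℕ) (x : G) : ℝ :=
  ∑ j ∈ Finset.range R, if x ∈ S ^ (a + 1 + j) then 1 else 0

theorem GACac_in (hS : SGen S) {a R : ℕ} {x : G} (hx : x ∈ S ^ (a + 1)) :
    GACac_chi S a R x = R := by
  rw [GACac_chi, Finset.sum_congr rfl fun j _ => if_pos (hS.mono (Nat.le_add_right _ j) hx)]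
  simp

theorem GACac_out (hS : SGen S) {a R : ℕ} {x : G} (hx : x ∉ S ^ (a + R)) :
    GACac_chi S a R x = 0 :=
  Finset.sum_eq_zero fun j hj => if_neg fun h =>
    hx (hS.mono (by have := Finset.mem_range.1 hj; omega) h)

theorem GACac_step {a R : ℕ} (x : G) {s : G} (hs : s ∈ S) :
    GACac_chi S a R x ≤ GACac_chi S a R (x * s) + 1 := by
  have h1 := Finset.sum_range_succ (fun j => if x * s ∈ S ^ (a + 1 + j) then (1 : ℝ) else 0) R
  have h2 := Finset.sum_range_succ' (fun j => if x * s ∈ S ^ (a + 1 + j) then (1 : ℝ) else 0) R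
  have h3 : GACac_chi S a R x ≤
      ∑ j ∈ Finset.range R, if x * s ∈ S ^ (a + 1 + (j + 1)) then (1 : ℝ) else 0 :=
    Finset.sum_le_sum fun j _ => by
      by_cases h : x ∈ S ^ (a + 1 + j)
      · rw [if_pos h, if_pos]
        rw [← add_assoc, pow_succ]
        exact Finset.mul_mem_mul h hs
      · rw [if_neg h]
        positivity
  have h4 : (0 : ℝ) ≤ if x * s ∈ S ^ (a + 1 + 0) then 1 else 0 := by positivity
  have h5 : (if x * s ∈ S ^ (a + 1 + R) then (1 : ℝ) else 0) ≤ 1 := by split_ifs <;> norm_num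
  unfold GACac_chi at *
  linarith

theorem GACac_sq (hS : SGen S) {a R : ℕ} (x : G) {s : G} (hs : s ∈ S) :
    (GACac_chi S a R (x * s) - GACac_chi S a R x) ^ 2 ≤ 1 := by
  have h1 := GACac_step (a := a) (R := R) x hs
  have h2 := GACac_step (a := a) (R := R) (x * s) (hS.inv s hs)
  rw [mul_inv_cancel_right] at h2
  nlinarith

theorem GACac_shift {E F : Finset G} {s : G} (h : ∀ y ∈ E, y * s⁻¹ ∈ F) {g : G → ℝ}
    (hg : ∀ y, y ∉ E → g y = 0) : ∑ x ∈ F, g (x * s) = ∑ y ∈ E, g y := by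
  have h1 : ∑ x ∈ E.image (· * s⁻¹), g (x * s) = ∑ y ∈ E, g y := by
    rw [Finset.sum_image fun x _ y _ e => mul_right_cancel e]
    simp
  rw [← h1]
  refine (Finset.sum_subset (fun x hx => ?_) fun x _ hx => hg _ fun h' => hx ?_).symm
  · obtain ⟨y, hy, rfl⟩ := Finset.mem_image.1 hx
    exact h y hy
  · exact Finset.mem_image.2 ⟨_, h', mul_inv_cancel_right x s⟩

theorem GACac_le (F : Finset G) (s : G) (u : G → ℝ) :
    ∑ x ∈ F, (if x * s ∈ F then u (x * s) ^ 2 else 0) ≤ Sq u F := by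
  rw [← Finset.sum_filter, ← Finset.sum_image (s := F.filter fun x => x * s ∈ F) (g := (· * s))
    (f := fun y => u y ^ 2) fun x _ y _ e => mul_right_cancel e]
  refine Finset.sum_le_sum_of_subset_of_nonneg (fun y hy => ?_) fun _ _ _ => sq_nonneg _
  obtain ⟨x, hx, rfl⟩ := Finset.mem_image.1 hy
  exact (Finset.mem_filter.1 hx).2

theorem GACac_zero (hS : SGen S) {u φ : G → ℝ} (hu : Har S u) {n : ℕ}
    (hφ : ∀ y, y ∉ S ^ n → φ y = 0) :
    ∑ x ∈ S ^ (n + 1), ∑ s ∈ S, (φ (x * s) - φ x) * (u (x * s) - u x) = 0 := by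
  have h1 : ∑ x ∈ S ^ (n + 1), ∑ s ∈ S, φ x * (u (x * s) - u x) = 0 :=
    Finset.sum_eq_zero fun x _ => by rw [← Finset.mul_sum, hu x, mul_zero]
  have h2 : ∑ x ∈ S ^ (n + 1), ∑ s ∈ S, φ (x * s) * (u (x * s) - u x) = 0 := by
    rw [Finset.sum_comm]
    have h3 : ∀ s ∈ S, ∑ x ∈ S ^ (n + 1), φ (x * s) * (u (x * s) - u x) =
        ∑ y ∈ S ^ n, φ y * (u y - u (y * s⁻¹)) := fun s hs => by
      rw [← GACac_shift (F := S ^ (n + 1)) (s := s) (fun y hy => ?_)
        (g := fun y => φ y * (u y - u (y * s⁻¹))) fun y hy => by rw [hφ y hy, zero_mul]]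
      · simp
      · rw [pow_succ]
        exact Finset.mul_mem_mul hy (hS.inv s hs)
    rw [Finset.sum_congr rfl h3, Finset.sum_comm]
    refine Finset.sum_eq_zero fun y _ => ?_
    have h4 : ∑ s ∈ S, (u (y * s⁻¹) - u y) = ∑ s ∈ S, (u (y * s) - u y) :=
      Finset.sum_nbij' (·⁻¹) (·⁻¹) hS.inv hS.inv (fun _ _ => inv_inv _) (fun _ _ => inv_inv _)
        fun _ _ => rfl
    rw [← Finset.mul_sum, ← neg_neg (∑ s ∈ S, (u y - u (y * s⁻¹))), ← Finset.sum_neg_distrib]
    simp only [neg_sub]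
    rw [h4, hu y, neg_zero, mul_zero]
  simp only [sub_mul _ _ (u _ - u _), Finset.sum_sub_distrib, h1, h2, sub_self]

/-- reverse Poincare inequality -/
theorem cacc (hS : SGen S) {u : G → ℝ} (hu : Har S u) (a R : ℕ) :
    (R : ℝ) ^ 2 * En S u (S ^ a) ≤ S.card * Sq u (S ^ (a + R + 1)) := by
  set χ := GACac_chi S a R
  have h0 := GACac_zero hS hu (φ := fun y => χ y ^ 2 * u y) (n := a + R) fun y hy => by
    rw [show χ y = 0 from GACac_out hS hy]
    ring
  have h1 : (R : ℝ) ^ 2 * En S u (S ^ a) =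
      ∑ x ∈ S ^ a, ∑ s ∈ S, (χ (x * s) * u (x * s) - χ x * u x) ^ 2 := by
    rw [En, Finset.mul_sum]
    refine Finset.sum_congr rfl fun x hx => ?_
    rw [Finset.mul_sum]
    refine Finset.sum_congr rfl fun s hs => ?_
    rw [show χ x = R from GACac_in hS (hS.mono (Nat.le_succ a) hx),
      show χ (x * s) = R from GACac_in hS (by rw [pow_succ]; exact Finset.mul_mem_mul hx hs)]
    ring
  have h2 : ∀ x, ∀ s ∈ S, (χ (x * s) * u (x * s) - χ x * u x) ^ 2 ≤
      (χ (x * s) ^ 2 * u (x * s) - χ x ^ 2 * u x) * (u (x * s) - u x) +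
        (u x ^ 2 / 2 + (if x * s ∈ S ^ (a + R + 1) then u (x * s) ^ 2 else 0) / 2) := by
    intro x s hs
    split_ifs with h
    · have h3 : (χ (x * s) - χ x) ^ 2 ≤ 1 := GACac_sq hS x hs
      nlinarith [mul_nonneg (sq_nonneg (χ (x * s) - χ x)) (sq_nonneg (u (x * s) - u x)),
        mul_nonneg (sub_nonneg.2 h3) (add_nonneg (sq_nonneg (u x)) (sq_nonneg (u (x * s))))]
    · rw [show χ (x * s) = 0 from GACac_out hS fun h' => h (hS.mono (Nat.le_succ _) h'),
        show χ x = 0 from GACac_out hS fun h' => h (by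
          rw [pow_succ]; exact Finset.mul_mem_mul h' hs)]
      nlinarith [sq_nonneg (u x)]
  have h3 : ∑ x ∈ S ^ (a + R + 1), ∑ s ∈ S,
      (if x * s ∈ S ^ (a + R + 1) then u (x * s) ^ 2 else 0) ≤ S.card * Sq u (S ^ (a + R + 1)) := by
    rw [Finset.sum_comm, ← nsmul_eq_mul]
    exact Finset.sum_le_card_nsmul _ _ _ fun s _ => GACac_le _ s u
  have h4 : ∑ x ∈ S ^ (a + R + 1), ∑ _s ∈ S, u x ^ 2 = S.card * Sq u (S ^ (a + R + 1)) := by
    simp [Sq, Finset.mul_sum]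
  rw [h1]
  refine (Finset.sum_le_sum_of_subset_of_nonneg (hS.mono (by omega : a ≤ a + R + 1))
    fun _ _ _ => Finset.sum_nonneg fun _ _ => sq_nonneg _).trans
    ((Finset.sum_le_sum fun x _ => Finset.sum_le_sum (h2 x)).trans ?_)
  simp only [Finset.sum_add_distrib, ← Finset.sum_div]
  linarith

end Vale.Agent.P188
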