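import Vale.Agent.P188.Poly
import Vale.Agent.P188.Word

/-! Groups of polynomial growth: working definitions. -/

open scoped Pointwise

namespace Vale.Agent.P188

/-- growth of degree at most `d`, for all finite subsets -/
def PG (G : Type*) [Group G] (d : ℕ) : Prop :=
  ∀ S : Set G, S.Finite → ∃ C : ℝ, ∀ n : ℕ, ((S ^ n).ncard : ℝ) ≤ C * (n + 1) ^ d

/-- symmetric generating sets that contain the unit -/
structure SGen {G : Type*} [Group G] [DecidableEq G] (S : Finset G) : Prop where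
  one : (1 : G) ∈ S
  inv : ∀ s ∈ S, s⁻¹ ∈ S
  gen : ∀ g : G, ∃ n : ℕ, g ∈ S ^ n

section
variable {G : Type*} [Group G] {𝕜 : Type*} [RCLike 𝕜]

/-- harmonic functions -/
def Har (S : Finset G) (u : G → 𝕜) : Prop := ∀ x, ∑ s ∈ S, (u (x * s) - u x) = 0

/-- Lipschitz functions -/
def Lip (S : Finset G) (u : G → 𝕜) : Prop := ∃ L : ℝ, ∀ x, ∀ s ∈ S, ‖u (x * s) - u x‖ ≤ L

/-- Lipschitz harmonic functions that vanish at the unit -/
def LH (𝕜 : Type*) [RCLike 𝕜] (S : Finset G) : Submodule 𝕜 (G → 𝕜) where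
  carrier := {u | u 1 = 0 ∧ Har S u ∧ Lip S u}
  zero_mem' := ⟨rfl, fun x => by simp, 0, fun x s _ => by simp⟩
  add_mem' := by
    rintro u v ⟨h1, h2, L, h3⟩ ⟨k1, k2, M, k3⟩
    refine ⟨by simp [h1, k1], fun x => ?_, L + M, fun x s hs => ?_⟩
    · simp only [Pi.add_apply, add_sub_add_comm, Finset.sum_add_distrib, h2 x, k2 x, add_zero]
    · simp only [Pi.add_apply, add_sub_add_comm]
      exact (norm_add_le _ _).trans (add_le_add (h3 x s hs) (k3 x s hs))
  smul_mem' := by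
    rintro c u ⟨h1, h2, L, h3⟩
    refine ⟨by simp [h1], fun x => ?_, ‖c‖ * L, fun x s hs => ?_⟩
    · simp only [Pi.smul_apply, smul_eq_mul, ← mul_sub, ← Finset.mul_sum, h2 x, mul_zero]
    · simp only [Pi.smul_apply, smul_eq_mul, ← mul_sub, norm_mul]
      exact mul_le_mul_of_nonneg_left (h3 x s hs) (norm_nonneg c)

theorem mem_LH {S : Finset G} {u : G → 𝕜} : u ∈ LH 𝕜 S ↔ u 1 = 0 ∧ Har S u ∧ Lip S u := Iff.rfl

/-- energy on a finite set -/
def En (S : Finset G) (u : G → ℝ) (F : Finset G) : ℝ := ∑ x ∈ F, ∑ s ∈ S, (u (x * s) - u x) ^ 2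

/-- representations with bounded matrix coefficients -/
def Bdd {V : Type*} [AddCommGroup V] [Module ℂ V] (ρ : G →* Module.End ℂ V) : Prop :=
  ∀ (v : V) (φ : V →ₗ[ℂ] ℂ), ∃ C : ℝ, ∀ g, ‖φ (ρ g v)‖ ≤ C

end

/-- sum of squares on a finite set -/
def Sq {G : Type*} (u : G → ℝ) (F : Finset G) : ℝ := ∑ x ∈ F, u x ^ 2

/-- Gram matrices -/
def gram {G : Type*} {D : ℕ} (u : Fin D → G → ℝ) (F : Finset G) : Matrix (Fin D) (Fin D) ℝ :=
  Matrix.of fun i j => ∑ x ∈ F, u i x * u j x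

/-- square summable functions -/
abbrev L2 (G : Type*) : Type _ := lp (fun _ : G => ℝ) 2

section
variable {G : Type*} [Group G] [DecidableEq G] {S : Finset G}

theorem SGen.mono (hS : SGen S) {m n : ℕ} (h : m ≤ n) : S ^ m ⊆ S ^ n :=
  Finset.pow_subset_pow_right hS.one h

theorem SGen.one_mem (hS : SGen S) (n : ℕ) : (1 : G) ∈ S ^ n := Finset.one_mem_pow hS.one

theorem SGen.card_pos (hS : SGen S) (n : ℕ) : 0 < (S ^ n).card :=
  Finset.card_pos.2 ⟨1, hS.one_mem n⟩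

theorem mul_mem_pow {m n : ℕ} {x y : G} (hx : x ∈ S ^ m) (hy : y ∈ S ^ n) : x * y ∈ S ^ (m + n) := by
  rw [pow_add]
  exact Finset.mul_mem_mul hx hy

theorem mem_pow_succ {n : ℕ} {g : G} (h : g ∈ S ^ (n + 1)) : ∃ x ∈ S ^ n, ∃ s ∈ S, x * s = g := by
  rw [pow_succ] at h
  exact Finset.mem_mul.1 h

theorem SGen.inv_mem (hS : SGen S) {n : ℕ} {g : G} (h : g ∈ S ^ n) : g⁻¹ ∈ S ^ n := by
  induction n generalizing g with
  | zero => simpa using h
  | succ n ih =>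
    obtain ⟨x, hx, s, hs, rfl⟩ := mem_pow_succ h
    rw [mul_inv_rev, pow_succ']
    exact Finset.mul_mem_mul (hS.inv s hs) (ih hx)

theorem mem_smul_pow {n : ℕ} {z x : G} : x ∈ z • S ^ n ↔ z⁻¹ * x ∈ S ^ n :=
  Finset.inv_smul_mem_iff.symm

/-- a bound on the increments gives a linear bound on balls -/
theorem lip_pow {𝕜 : Type*} [RCLike 𝕜] {u : G → 𝕜} {L : ℝ}
    (h : ∀ x, ∀ s ∈ S, ‖u (x * s) - u x‖ ≤ L) (x : G) {n : ℕ} {g : G} (hg : g ∈ S ^ n) :
    ‖u (x * g) - u x‖ ≤ L * n := by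
  induction n generalizing g with
  | zero =>
    rw [pow_zero, Finset.mem_one] at hg
    simp [hg]
  | succ n ih =>
    obtain ⟨y, hy, s, hs, rfl⟩ := mem_pow_succ hg
    have h1 := norm_sub_le_norm_sub_add_norm_sub (u (x * y * s)) (u (x * y)) (u x)
    have h2 := h (x * y) s hs
    have h3 := ih hy
    rw [← mul_assoc]
    push_cast
    linarith

theorem PG.card {d : ℕ} (h : PG G d) (S : Finset G) :
    ∃ C : ℝ, 1 ≤ C ∧ ∀ n : ℕ, ((S ^ n).card : ℝ) ≤ C * (n + 1) ^ d := by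
  obtain ⟨C, hC⟩ := h S S.finite_toSet
  refine ⟨max 1 C, le_max_left _ _, fun n => ?_⟩
  have := hC n
  rw [← Finset.coe_pow, Set.ncard_coe_finset] at this
  exact this.trans (mul_le_mul_of_nonneg_right (le_max_right _ _) (by positivity))

end

end Vale.Agent.P188
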