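import Vale.Agent.P188.GADefs

open scoped Pointwise

namespace Vale.Agent.P188

open Matrix

variable {G : Type*} {D : ℕ}

theorem gram_form (u : Fin D → G → ℝ) (F : Finset G) (c : Fin D → ℝ) :
    c ⬝ᵥ gram u F *ᵥ c = Sq (∑ i, c i • u i) F := by
  have h1 : ∀ x, (∑ i, c i • u i) x ^ 2 = ∑ i, ∑ j, c i * (u i x * u j x * c j) := by
    intro x
    rw [Finset.sum_apply, sq, Finset.sum_mul_sum]
    refine Finset.sum_congr rfl fun i _ => Finset.sum_congr rfl fun j _ => ?_
    simp only [Pi.smul_apply, smul_eq_mul]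
    ring
  simp only [dotProduct, mulVec, gram, of_apply, Sq, h1, Finset.sum_mul, Finset.mul_sum]
  rw [Finset.sum_comm (s := F)]
  refine Finset.sum_congr rfl fun i _ => ?_
  rw [Finset.sum_comm (s := F)]

theorem gram_herm (u : Fin D → G → ℝ) (F : Finset G) : (gram u F).IsHermitian := by
  ext i j
  simp only [conjTranspose_apply, gram, of_apply, star_trivial]
  exact Finset.sum_congr rfl fun x _ => mul_comm _ _

variable [Group G] [DecidableEq G] {S : Finset G} {d : ℕ}

/-- coefficient vectors whose combination vanishes on `F` -/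
def gramKer (u : Fin D → G → ℝ) (F : Finset G) : Submodule ℝ (Fin D → ℝ) where
  carrier := {c | ∀ x ∈ F, ∑ i, c i * u i x = 0}
  zero_mem' := fun x _ => by simp
  add_mem' := by
    intro a b ha hb x hx
    simp only [Pi.add_apply, add_mul, Finset.sum_add_distrib, ha x hx, hb x hx, add_zero]
  smul_mem' := by
    intro r a ha x hx
    simp only [Pi.smul_apply, smul_eq_mul, mul_assoc, ← Finset.mul_sum, ha x hx, mul_zero]

theorem gram_posDef (hS : SGen S) {u : Fin D → G → ℝ} (hu : LinearIndependent ℝ u) :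
    ∃ n0 : ℕ, 1 ≤ n0 ∧ ∀ n, n0 ≤ n → (gram u (S ^ n)).PosDef := by
  obtain ⟨n0, hn0⟩ := IsArtinian.monotone_stabilizes (R := ℝ) (M := Fin D → ℝ)
    ⟨fun n => OrderDual.toDual (gramKer u (S ^ n)), fun m n h c hc x hx => hc x (hS.mono h hx)⟩
  refine ⟨n0 + 1, by omega, fun n hn => ?_⟩
  refine PosDef.of_dotProduct_mulVec_pos (gram_herm u _) fun c hc => ?_
  rw [star_trivial, gram_form]
  refine lt_of_le_of_ne (Finset.sum_nonneg fun x _ => sq_nonneg _) fun h0 => hc ?_
  have h1 : c ∈ gramKer u (S ^ n) := by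
    intro x hx
    have h2 := (Finset.sum_eq_zero_iff_of_nonneg fun x _ => sq_nonneg _).1 h0.symm x hx
    have h3 := pow_eq_zero_iff (two_ne_zero) |>.1 h2
    simpa only [Finset.sum_apply, Pi.smul_apply, smul_eq_mul] using h3
  have h2 : ∀ m, n0 ≤ m → gramKer u (S ^ n0) = gramKer u (S ^ m) := fun m hm =>
    congrArg OrderDual.ofDual (hn0 m hm)
  have h3 : ∑ i, c i • u i = 0 := by
    funext x
    obtain ⟨m, hm⟩ := hS.gen x
    have h4 : c ∈ gramKer u (S ^ (max m n0)) := by
      rw [← h2 _ (le_max_right _ _), h2 n (by omega)]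
      exact h1
    simpa only [Finset.sum_apply, Pi.smul_apply, smul_eq_mul, Pi.zero_apply] using
      h4 x (hS.mono (le_max_left _ _) hm)
  funext i
  exact Fintype.linearIndependent_iff.1 hu c h3 i

theorem gram_det_le (hG : PG G d) {u : Fin D → G → ℝ} (hu : ∀ i, Lip S (u i)) :
    ∃ C : ℝ, 1 ≤ C ∧ ∀ n : ℕ, (gram u (S ^ n)).det ≤ C * ((n + 1) ^ (d + 2)) ^ D := by
  obtain ⟨C, hC1, hC⟩ := hG.card S
  choose L hL using hu
  set M : ℝ := ∑ i, (|u i 1| + |L i|) with hM
  have hM0 : 0 ≤ M := Finset.sum_nonneg fun i _ => by positivity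
  have hb : ∀ i (n : ℕ), ∀ x ∈ S ^ n, |u i x| ≤ M * (n + 1) := by
    intro i n x hx
    have h1 := lip_pow (hL i) 1 hx
    rw [one_mul, Real.norm_eq_abs] at h1
    have h2 : |u i 1| + |L i| ≤ M :=
      Finset.single_le_sum (f := fun i => |u i 1| + |L i|) (fun i _ => by positivity)
        (Finset.mem_univ i)
    have h3 := abs_sub_abs_le_abs_sub (u i x) (u i 1)
    have h4 : L i * n ≤ |L i| * n := mul_le_mul_of_nonneg_right (le_abs_self _) (by positivity)
    have h5 : (0 : ℝ) ≤ n := by positivity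
    have h6 := abs_nonneg (u i 1)
    have h7 := abs_nonneg (L i)
    nlinarith [mul_le_mul_of_nonneg_right h2 h5]
  refine ⟨max 1 ((D.factorial : ℝ) * (C * M ^ 2) ^ D), le_max_left _ _, fun n => ?_⟩
  have he : ∀ i j, |gram u (S ^ n) i j| ≤ C * M ^ 2 * (n + 1) ^ (d + 2) := by
    intro i j
    calc |gram u (S ^ n) i j| ≤ ∑ x ∈ S ^ n, |u i x * u j x| := Finset.abs_sum_le_sum_abs _ _
      _ ≤ ∑ _x ∈ S ^ n, (M * (n + 1)) * (M * (n + 1)) := by
        refine Finset.sum_le_sum fun x hx => ?_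
        rw [abs_mul]
        exact mul_le_mul (hb i n x hx) (hb j n x hx) (abs_nonneg _) (by positivity)
      _ = (S ^ n).card * ((M * (n + 1)) * (M * (n + 1))) := by
        rw [Finset.sum_const, nsmul_eq_mul]
      _ ≤ C * (n + 1) ^ d * ((M * (n + 1)) * (M * (n + 1))) :=
        mul_le_mul_of_nonneg_right (hC n) (by positivity)
      _ = C * M ^ 2 * (n + 1) ^ (d + 2) := by ring
  have h1 := Matrix.det_le (abv := AbsoluteValue.abs) he
  rw [Fintype.card_fin, nsmul_eq_mul, AbsoluteValue.abs_apply] at h1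
  calc (gram u (S ^ n)).det ≤ _ := (le_abs_self _).trans h1
    _ = (D.factorial : ℝ) * (C * M ^ 2) ^ D * ((n + 1) ^ (d + 2)) ^ D := by
      rw [mul_pow]
      ring
    _ ≤ _ := mul_le_mul_of_nonneg_right (le_max_right _ _) (by positivity)

omit [DecidableEq G] in
theorem gram_lh_real {N : ℕ} (h : ∀ (D : ℕ) (u : Fin D → G → ℝ), LinearIndependent ℝ u →
    (∀ i, Har S (u i) ∧ Lip S (u i)) → D ≤ N) : Module.Finite ℝ (LH ℝ S) := by
  rw [← Module.rank_lt_aleph0_iff]
  refine lt_of_le_of_lt (rank_le (n := N) fun t ht => ?_) (Cardinal.natCast_lt_aleph0)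
  have h1 : LinearIndependent ℝ fun i : Fin t.card => ((t.equivFin.symm i : LH ℝ S) : G → ℝ) :=
    (ht.comp _ t.equivFin.symm.injective).map' (LH ℝ S).subtype (Submodule.ker_subtype _)
  exact h _ _ h1 fun i => (mem_LH.1 (t.equivFin.symm i : LH ℝ S).2).2

omit [DecidableEq G] in
theorem gram_lh_map {u : G → ℂ} (hu : u ∈ LH ℂ S) (f : ℂ →L[ℝ] ℝ) (hf : ∀ z, ‖f z‖ ≤ ‖z‖) :
    (fun x => f (u x)) ∈ LH ℝ S := by
  obtain ⟨h1, h2, L, h3⟩ := mem_LH.1 hu
  refine mem_LH.2 ⟨by simp only [h1, map_zero], fun x => ?_, L, fun x s hs => ?_⟩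
  · simp only [← map_sub, ← map_sum, h2 x, map_zero]
  · rw [← map_sub]
    exact (hf _).trans (h3 x s hs)

/-- passage from a bound on independent real families to finite complex dimension -/
theorem lh_finite_of_bound {N : ℕ} (h : ∀ (D : ℕ) (u : Fin D → G → ℝ), LinearIndependent ℝ u →
    (∀ i, Har S (u i) ∧ Lip S (u i)) → D ≤ N) : FiniteDimensional ℂ (LH ℂ S) := by
  have h1 := gram_lh_real h
  obtain ⟨t, ht⟩ := (Module.Finite.iff_fg (N := LH ℝ S)).1 h1
  set W : Submodule ℂ (G → ℂ) :=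
    Submodule.span ℂ ((fun (v : G → ℝ) (x : G) => (v x : ℂ)) '' (t : Set (G → ℝ))) with hW
  have h2 : FiniteDimensional ℂ W :=
    FiniteDimensional.span_of_finite ℂ (t.finite_toSet.image _)
  have h3 : ∀ v ∈ LH ℝ S, (fun x => (v x : ℂ)) ∈ W := by
    intro v hv
    rw [← ht] at hv
    induction hv using Submodule.span_induction with
    | mem v hv => exact Submodule.subset_span ⟨v, hv, rfl⟩
    | zero =>
      have : (fun x => (((0 : G → ℝ) x : ℝ) : ℂ)) = 0 := by
        funext x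
        simp
      rw [this]
      exact W.zero_mem
    | add v w _ _ hv hw =>
      have : (fun x => (((v + w) x : ℝ) : ℂ)) = (fun x => (v x : ℂ)) + fun x => (w x : ℂ) := by
        funext x
        simp
      rw [this]
      exact W.add_mem hv hw
    | smul r v _ hv =>
      have : (fun x => (((r • v) x : ℝ) : ℂ)) = (r : ℂ) • fun x => (v x : ℂ) := by
        funext x
        simp
      rw [this]
      exact W.smul_mem _ hv
  refine Submodule.finiteDimensional_of_le (S₂ := W) fun u hu => ?_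
  have h4 := h3 _ (gram_lh_map hu Complex.reCLM fun z => Complex.abs_re_le_norm z)
  have h5 := h3 _ (gram_lh_map hu Complex.imCLM fun z => Complex.abs_im_le_norm z)
  have h6 : u = (fun x => ((Complex.reCLM (u x) : ℝ) : ℂ)) +
      Complex.I • fun x => ((Complex.imCLM (u x) : ℝ) : ℂ) := by
    funext x
    simp only [Pi.add_apply, Pi.smul_apply, smul_eq_mul, Complex.reCLM_apply, Complex.imCLM_apply]
    rw [mul_comm]
    exact (Complex.re_add_im (u x)).symm
  rw [h6]
  exact W.add_mem h4 (W.smul_mem _ h5)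

end Vale.Agent.P188
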