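import Vale.Agent.P188.GADefs

open scoped Pointwise

namespace Vale.Agent.P188

variable {G H : Type*} [Group G] [Group H] {d : ℕ}

theorem GAGrow_len {l : G → ℝ} (hl : IsLen l) {S : Set G} {L : ℝ} (h : ∀ s ∈ S, l s ≤ L) (n : ℕ) :
    ∀ g ∈ S ^ n, l g ≤ L * n := by
  induction n with
  | zero =>
    intro g hg
    rw [pow_zero, Set.mem_one] at hg
    simp [hg, hl.one]
  | succ n ih =>
    intro g hg
    rw [pow_succ] at hg
    obtain ⟨x, hx, s, hs, rfl⟩ := hg
    have := hl.mul x s
    have := ih x hx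
    have := h s hs
    push_cast
    linarith

theorem pg_of_polyGrowth (A : Finset G) (hA : Subgroup.closure (A : Set G) = ⊤)
    (h : PolyGrowth A) : ∃ d, PG G d := by
  obtain ⟨C, d, h⟩ := h
  refine ⟨d, fun S hS => ?_⟩
  obtain ⟨L0, -, hL0⟩ := Word_bdd hS (wr A)
  obtain ⟨L, hL⟩ := exists_nat_ge L0
  refine ⟨max C 0 * (L + 1) ^ d, fun n => ?_⟩
  have hsub : S ^ n ⊆ {g : G | wl A g ≤ L * n} := fun g hg => by
    have := GAGrow_len (isLen_wr hA) (fun s hs => (hL0 s hs).trans hL) n g hg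
    unfold wr at this
    exact_mod_cast this
  have hfin : {g : G | wl A g ≤ L * n}.Finite := by
    refine (finite_ball hA ((L * n : ℕ) : ℝ)).subset fun g hg => ?_
    show (wl A g : ℝ) ≤ ((L * n : ℕ) : ℝ)
    exact_mod_cast hg
  have h1 : ((S ^ n).ncard : ℝ) ≤ ({g : G | wl A g ≤ L * n}.ncard : ℝ) := by
    exact_mod_cast Set.ncard_le_ncard hsub hfin
  have h2 := h (L * n)
  have h3 : (((L * n : ℕ) : ℝ) + 1) ^ d ≤ ((L + 1) * (n + 1) : ℝ) ^ d := by
    refine pow_le_pow_left₀ (by positivity) ?_ d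
    push_cast
    nlinarith [Nat.cast_nonneg (α := ℝ) L, Nat.cast_nonneg (α := ℝ) n]
  calc ((S ^ n).ncard : ℝ) ≤ max C 0 * (((L * n : ℕ) : ℝ) + 1) ^ d :=
        h1.trans (h2.trans (mul_le_mul_of_nonneg_right (le_max_left _ _) (by positivity)))
    _ ≤ max C 0 * ((L + 1) * (n + 1) : ℝ) ^ d := mul_le_mul_of_nonneg_left h3 (le_max_right _ _)
    _ = _ := by rw [mul_pow, mul_assoc]

theorem PG.of_injective (h : PG G d) (f : H →* G) (hf : Function.Injective f) : PG H d := by
  intro S hS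
  obtain ⟨C, hC⟩ := h (f '' S) (hS.image f)
  refine ⟨C, fun n => ?_⟩
  have := hC n
  rwa [← Set.image_pow, Set.ncard_image_of_injective _ hf] at this

theorem PG.subgroup (h : PG G d) (K : Subgroup G) : PG K d :=
  h.of_injective K.subtype Subtype.val_injective

theorem exists_sgen [DecidableEq G] [Group.FG G] : ∃ S : Finset G, SGen S := by
  obtain ⟨A, hA⟩ := Group.fg_def.1 (inferInstance : Group.FG G)
  have h1 : (1 : G) ∈ insert 1 (A ∪ A⁻¹) := Finset.mem_insert_self _ _
  have h2 : ∀ s ∈ insert 1 (A ∪ A⁻¹), s⁻¹ ∈ insert 1 (A ∪ A⁻¹) := by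
    intro s hs
    simp only [Finset.mem_insert, Finset.mem_union, Finset.mem_inv', inv_inv, inv_eq_one] at hs ⊢
    tauto
  refine ⟨insert 1 (A ∪ A⁻¹), h1, h2, fun g => ?_⟩
  obtain ⟨l, -, hl, rfl⟩ := exists_word hA g
  refine ⟨l.length, ?_⟩
  induction l with
  | nil => simp
  | cons a l ih =>
    rw [List.prod_cons, List.length_cons, pow_succ']
    refine Finset.mul_mem_mul ?_ (ih fun x hx => hl x (List.mem_cons_of_mem _ hx))
    have := hl a List.mem_cons_self
    simp only [Finset.mem_insert, Finset.mem_union, Finset.mem_inv']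
    exact Or.inr this

theorem PG.finite [Group.FG G] (h : PG G 0) : Finite G := by
  classical
  obtain ⟨S, hS⟩ := exists_sgen (G := G)
  obtain ⟨C, -, hC⟩ := h.card S
  by_contra hinf
  rw [not_finite_iff_infinite] at hinf
  obtain ⟨k, hk⟩ := exists_nat_gt C
  obtain ⟨F, hF⟩ := Infinite.exists_subset_card_eq G k
  choose m hm using hS.gen
  have hsub : F ⊆ S ^ F.sup m := fun g hg => hS.mono (Finset.le_sup hg) (hm g)
  have h1 := Finset.card_le_card hsub
  have h2 := hC (F.sup m)
  rw [pow_zero, mul_one] at h2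
  have h3 : (k : ℝ) ≤ ((S ^ F.sup m).card : ℝ) := by exact_mod_cast hF ▸ h1
  linarith

theorem PG.ker (h : PG G (d + 1)) (ψ : G →* Multiplicative ℤ) (hψ : Function.Surjective ψ) :
    PG ψ.ker d := by
  classical
  intro S hS
  lift S to Finset ψ.ker using hS
  obtain ⟨g, hg⟩ := hψ (Multiplicative.ofAdd 1)
  set T : Finset G := insert g (insert 1 (S.image fun x : ψ.ker => (x : G))) with hT
  obtain ⟨C, hC1, hC⟩ := h.card T
  refine ⟨C * 2 ^ (d + 1), fun n => ?_⟩
  rw [← Finset.coe_pow, Set.ncard_coe_finset]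
  have h1T : (1 : G) ∈ T := by simp [hT]
  have hy : ∀ (m : ℕ), ∀ y ∈ S ^ m, (y : G) ∈ T ^ m := by
    intro m
    induction m with
    | zero =>
      intro y hy
      rw [pow_zero, Finset.mem_one] at hy
      simp [hy]
    | succ m ih =>
      intro y hy
      obtain ⟨x, hx, s, hs, rfl⟩ := mem_pow_succ hy
      rw [pow_succ]
      refine Finset.mul_mem_mul (ih x hx) ?_
      simp only [hT, Finset.mem_insert, Finset.mem_image]
      exact Or.inr (Or.inr ⟨s, hs, rfl⟩)
  have hcard : (Finset.range (n + 1) ×ˢ (S ^ n)).card ≤ (T ^ (n + n)).card := by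
    refine Finset.card_le_card_of_injOn (fun p => g ^ p.1 * (p.2 : G)) ?_ ?_
    · intro p hp
      have hp' := Finset.mem_product.1 hp
      have h1 : g ^ p.1 ∈ T ^ n :=
        Finset.pow_subset_pow_right h1T (Nat.lt_succ_iff.1 (Finset.mem_range.1 hp'.1))
          (Finset.pow_mem_pow (by simp [hT]))
      exact mul_mem_pow h1 (hy n _ hp'.2)
    · intro p _ p' _ e
      have e0 : g ^ p.1 * (p.2 : G) = g ^ p'.1 * (p'.2 : G) := e
      have e1 := congrArg ψ e0
      have k1 : ψ (p.2 : G) = 1 := p.2.2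
      have k2 : ψ (p'.2 : G) = 1 := p'.2.2
      rw [map_mul, map_mul, k1, k2, map_pow, map_pow, hg, mul_one, mul_one] at e1
      have e2 : p.1 = p'.1 := by
        have := congrArg Multiplicative.toAdd e1
        simpa using this
      rw [e2] at e0
      exact Prod.ext e2 (Subtype.ext (mul_left_cancel e0))
  rw [Finset.card_product, Finset.card_range] at hcard
  have h2 : ((n : ℝ) + 1) * ((S ^ n).card : ℝ) ≤ ((T ^ (n + n)).card : ℝ) := by
    exact_mod_cast hcard
  have h3 := hC (n + n)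
  have h4 : (((n + n : ℕ) : ℝ) + 1) ^ (d + 1) ≤ (2 * (n + 1) : ℝ) ^ (d + 1) := by
    refine pow_le_pow_left₀ (by positivity) ?_ _
    push_cast
    linarith
  have h5 := mul_le_mul_of_nonneg_left h4 (by linarith : 0 ≤ C)
  have h6 : C * (2 * (n + 1) : ℝ) ^ (d + 1) = (n + 1) * (C * 2 ^ (d + 1) * (n + 1) ^ d) := by
    rw [mul_pow, pow_succ ((n : ℝ) + 1)]; ring
  exact le_of_mul_le_mul_left (h2.trans (h3.trans (h5.trans h6.le))) (by positivity)

theorem GAGrow_big (C : ℝ) (d : ℕ) : ∃ r : ℕ, C * ((r : ℝ) + 1) ^ d < 2 ^ r := by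
  have h := tendsto_pow_const_div_const_pow_of_one_lt d (r := (2 : ℝ)) (by norm_num)
  have h2 := (h.comp (Filter.tendsto_add_atTop_nat 1)).const_mul (2 * C)
  rw [mul_zero] at h2
  obtain ⟨r, hr⟩ := (h2.eventually (gt_mem_nhds one_pos)).exists
  refine ⟨r, ?_⟩
  simp only [Function.comp_apply] at hr
  rw [← mul_div_assoc, div_lt_one (by positivity), pow_succ] at hr
  push_cast at hr
  linarith

theorem GAGrow_mw (h : PG G d) (g x : G) : ∃ r, ¬Set.InjOn (mw g x) {e | e.length = r} := by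
  classical
  obtain ⟨C, -, hC⟩ := h.card {g * x, g}
  obtain ⟨r, hr⟩ := GAGrow_big C d
  refine ⟨r, fun hi => ?_⟩
  have hm : ∀ e : List Bool, mw g x e ∈ ({g * x, g} : Finset G) ^ e.length := by
    intro e
    induction e with
    | nil => simp [mw]
    | cons b e ih =>
      have : mw g x (b :: e) = (if b then g * x else g) * mw g x e := by simp [mw]
      rw [this, List.length_cons, pow_succ']
      refine Finset.mul_mem_mul ?_ ih
      cases b <;> simp
  have hcard : (Finset.univ : Finset (Fin r → Bool)).card ≤ (({g * x, g} : Finset G) ^ r).card := by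
    refine Finset.card_le_card_of_injOn (fun f => mw g x (List.ofFn f)) (fun f _ => ?_) ?_
    · have := hm (List.ofFn f)
      rwa [List.length_ofFn] at this
    · intro f _ f' _ e
      exact List.ofFn_injective (hi (by simp) (by simp) e)
  rw [Finset.card_univ, Fintype.card_fun, Fintype.card_bool, Fintype.card_fin] at hcard
  have h2 : (2 : ℝ) ^ r ≤ ((({g * x, g} : Finset G) ^ r).card : ℝ) := by exact_mod_cast hcard
  linarith [hC r]

theorem PG.fg_ker [Group.FG G] (h : PG G d) (ψ : G →* Multiplicative ℤ)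
    (hψ : Function.Surjective ψ) : Group.FG ψ.ker := by
  classical
  obtain ⟨A, hA⟩ := Group.fg_def.1 (inferInstance : Group.FG G)
  obtain ⟨g, hg⟩ := hψ (Multiplicative.ofAdd 1)
  rw [Group.fg_iff_subgroup_fg]
  refine fg_of_milnor (g := g) (B := A.image fun a => a * g ^ (-(ψ a).toAdd)) ψ.ker ?_ ?_ ?_
  · intro y hy
    obtain ⟨a, -, rfl⟩ := Finset.mem_image.1 (Finset.mem_coe.1 hy)
    show ψ _ = 1
    rw [map_mul, map_zpow, hg]
    apply Multiplicative.toAdd.injective
    simp
  · rw [eq_top_iff, ← hA, Subgroup.closure_le]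
    intro a ha
    have h1 : a * g ^ (-(ψ a).toAdd) ∈ Subgroup.closure
        (insert g ((A.image fun a => a * g ^ (-(ψ a).toAdd) : Finset G) : Set G)) :=
      Subgroup.subset_closure (Or.inr (Finset.mem_coe.2 (Finset.mem_image.2 ⟨a, ha, rfl⟩)))
    have h2 : g ^ (ψ a).toAdd ∈ Subgroup.closure
        (insert g ((A.image fun a => a * g ^ (-(ψ a).toAdd) : Finset G) : Set G)) :=
      Subgroup.zpow_mem _ (Subgroup.subset_closure (Set.mem_insert g _)) (ψ a).toAdd
    simpa using Subgroup.mul_mem _ h1 h2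
  · intro x _
    obtain ⟨r, hr⟩ := GAGrow_mw h g x
    obtain ⟨s, hs⟩ := GAGrow_mw h g⁻¹ x
    exact milnor hr hs

end Vale.Agent.P188
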