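import Vale.Agent.P188.GADefs

open scoped Pointwise

namespace Vale.Agent.P188

variable {G : Type*} [Group G] [DecidableEq G] {S : Finset G}
  {E : Type*} [NormedAddCommGroup E] [InnerProductSpace ℝ E]

/-- almost harmonic normalised functions -/
def GAHarAK (S : Finset G) (ε : ℝ) : Set (G → ℝ) :=
  {u | u 1 = 0} ∩ (⋂ x, ⋂ s ∈ S, {u | |u (x * s) - u x| ≤ 1}) ∩
    (⋂ x, {u | |∑ s ∈ S, (u (x * s) - u x)| ≤ ε}) ∩ ⋃ s ∈ S, {u | u s = 1}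

omit [DecidableEq G] in
theorem GAHarA_mem {ε : ℝ} {u : G → ℝ} : u ∈ GAHarAK S ε ↔ u 1 = 0 ∧
    (∀ x, ∀ s ∈ S, |u (x * s) - u x| ≤ 1) ∧ (∀ x, |∑ s ∈ S, (u (x * s) - u x)| ≤ ε) ∧
      ∃ s ∈ S, u s = 1 := by
  simp [GAHarAK, and_assoc]

omit [DecidableEq G] in
theorem GAHarA_closed (ε : ℝ) : IsClosed (GAHarAK S ε) := by
  refine (((isClosed_eq (by fun_prop) continuous_const).inter (isClosed_iInter fun x =>
    isClosed_iInter fun s => isClosed_iInter fun _ => isClosed_le (by fun_prop)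
      continuous_const)).inter (isClosed_iInter fun x => isClosed_le (by fun_prop)
        continuous_const)).inter ?_
  exact S.finite_toSet.isClosed_biUnion fun s _ => isClosed_eq (by fun_prop) continuous_const

theorem GAHarA_compact (hS : SGen S) (ε : ℝ) : IsCompact (GAHarAK S ε) := by
  choose n hn using hS.gen
  refine (isCompact_univ_pi fun x => isCompact_Icc (a := -(n x : ℝ)) (b := n x)).of_isClosed_subset
    (GAHarA_closed ε) fun u hu x _ => ?_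
  obtain ⟨h1, h2, -⟩ := GAHarA_mem.1 hu
  have := lip_pow (𝕜 := ℝ) (L := 1) h2 1 (hn x)
  rw [h1, one_mul, one_mul, sub_zero] at this
  exact abs_le.1 this

theorem GAHarA_ne (hS : SGen S) (π : G →* (E ≃ₗᵢ[ℝ] E))
    (h : ∀ η > (0 : ℝ), ∃ φ : E, ‖∑ s ∈ S, (π s φ - φ)‖ ^ 2 < η * ∑ s ∈ S, ‖π s φ - φ‖ ^ 2)
    {ε : ℝ} (hε : 0 < ε) : (GAHarAK S ε).Nonempty := by
  have hc : (0 : ℝ) < S.card := Nat.cast_pos.2 (Finset.card_pos.2 ⟨1, hS.one⟩)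
  obtain ⟨φ, hφ⟩ := h (ε ^ 2 / S.card) (by positivity)
  obtain ⟨s0, hs0, hm⟩ := S.exists_max_image (fun s => ‖π s φ - φ‖) ⟨1, hS.one⟩
  obtain ⟨w, hw⟩ : ∃ w, w = π s0 φ - φ := ⟨_, rfl⟩
  simp only [← hw] at hm
  have h1 : ‖∑ s ∈ S, (π s φ - φ)‖ ^ 2 < (ε * ‖w‖) ^ 2 := by
    refine hφ.trans_le ((mul_le_mul_of_nonneg_left (Finset.sum_le_card_nsmul S _ (‖w‖ ^ 2)
      fun s hs => pow_le_pow_left₀ (norm_nonneg _) (hm s hs) 2) (by positivity)).trans_eq ?_)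
    rw [nsmul_eq_mul]
    field_simp
  have h2 : ‖∑ s ∈ S, (π s φ - φ)‖ < ε * ‖w‖ := lt_of_pow_lt_pow_left₀ 2 (by positivity) h1
  have h3 : 0 < ‖w‖ := (mul_pos_iff_of_pos_left hε).1 ((norm_nonneg _).trans_lt h2)
  have h4 : ∀ x s, inner ℝ (π (x * s) φ - φ) w / ‖w‖ ^ 2 - inner ℝ (π x φ - φ) w / ‖w‖ ^ 2 =
      inner ℝ (π x (π s φ - φ)) w / ‖w‖ ^ 2 := fun x s => by
    rw [← sub_div, ← inner_sub_left, map_mul, map_sub, sub_sub_sub_cancel_right]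
    rfl
  have h5 : ∀ x v c, ‖v‖ ≤ c * ‖w‖ → |inner ℝ (π x v) w / ‖w‖ ^ 2| ≤ c := fun x v c hv => by
    rw [abs_div, abs_sq, div_le_iff₀ (by positivity), sq, ← mul_assoc]
    refine (abs_real_inner_le_norm _ _).trans ?_
    rw [LinearIsometryEquiv.norm_map]
    exact mul_le_mul_of_nonneg_right hv h3.le
  refine ⟨fun x => inner ℝ (π x φ - φ) w / ‖w‖ ^ 2, GAHarA_mem.2
    ⟨by simp, fun x s hs => ?_, fun x => ?_, s0, hs0, ?_⟩⟩
  · rw [h4]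
    exact h5 _ _ _ (by simpa using hm s hs)
  · simp only [h4]
    rw [← Finset.sum_div, ← sum_inner, ← map_sum]
    exact h5 _ _ _ h2.le
  · rw [← hw, real_inner_self_eq_norm_sq, div_self (by positivity)]

theorem har_of_vectors (hS : SGen S) (π : G →* (E ≃ₗᵢ[ℝ] E))
    (h : ∀ η > (0 : ℝ), ∃ φ : E, ‖∑ s ∈ S, (π s φ - φ)‖ ^ 2 < η * ∑ s ∈ S, ‖π s φ - φ‖ ^ 2) :
    ∃ u ∈ LH ℝ S, u ≠ 0 := by
  obtain ⟨u, hu⟩ := IsCompact.nonempty_iInter_of_sequence_nonempty_isCompact_isClosed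
    (fun j : ℕ => GAHarAK S (1 / ((j : ℝ) + 1)))
    (fun j u hu => by
      obtain ⟨h1, h2, h3, h4⟩ := GAHarA_mem.1 hu
      exact GAHarA_mem.2 ⟨h1, h2, fun x => (h3 x).trans (Nat.one_div_le_one_div j.le_succ), h4⟩)
    (fun j => GAHarA_ne hS π h Nat.one_div_pos_of_nat) (GAHarA_compact hS _)
    fun j => GAHarA_closed _
  have hu' := fun j => GAHarA_mem.1 (Set.mem_iInter.1 hu j)
  obtain ⟨h1, h2, -, s, -, h4⟩ := hu' 0
  refine ⟨u, ⟨h1, fun x => ?_, 1, h2⟩, fun e => by simp [e] at h4⟩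
  by_contra hne
  obtain ⟨j, hj⟩ := exists_nat_one_div_lt (abs_pos.2 hne)
  exact hj.not_ge ((hu' j).2.2.1 x)

end Vale.Agent.P188
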