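import Vale.Agent.P188.GADefs

open scoped Pointwise

namespace Vale.Agent.P188

variable {G : Type*} [Group G] [DecidableEq G] {S : Finset G}
  {E : Type*} [NormedAddCommGroup E] [InnerProductSpace ℝ E]

theorem GAHarB_abs (T : E → E) (hsub : ∀ a b, T (a - b) = T a - T b)
    (hsym : ∀ a b, inner ℝ (T a) b = inner ℝ a (T b)) (h0 : ∀ a, 0 ≤ inner ℝ (T a) a)
    (h1 : ∀ a, inner ℝ (T a) a ≤ ‖a‖ ^ 2) {θ : ℝ} (hθ : 0 < θ) (hθ1 : θ ≤ 1)
    (h2 : ∀ a, θ * inner ℝ (T a) a ≤ ‖T a‖ ^ 2) (f : ℕ → E)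
    (hf : ∀ n, f (n + 1) = f n - T (f n)) :
    (∀ n, inner ℝ (T (f n)) (f n) ≤ inner ℝ (T (f 0)) (f 0) * (1 - θ) ^ n) ∧
      ∀ n m, ‖f n‖ ^ 2 ≤ ‖f (n + m)‖ ^ 2 + 2 / θ * inner ℝ (T (f n)) (f n) := by
  have hs : ∀ n, inner ℝ (T (f (n + 1))) (f (n + 1)) ≤ (1 - θ) * inner ℝ (T (f n)) (f n) := by
    intro n
    have a1 := h1 (T (f n))
    have a2 := h2 (f n)
    have a3 : inner ℝ (T (T (f n))) (f n) = ‖T (f n)‖ ^ 2 := by
      rw [hsym, real_inner_self_eq_norm_sq]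
    rw [hf, hsub, inner_sub_left, inner_sub_right, inner_sub_right, a3,
      real_inner_self_eq_norm_sq]
    linarith
  have hn : ∀ n, ‖f n‖ ^ 2 ≤ ‖f (n + 1)‖ ^ 2 + 2 * inner ℝ (T (f n)) (f n) := by
    intro n
    rw [hf, norm_sub_sq_real, real_inner_comm]
    have := sq_nonneg ‖T (f n)‖
    linarith
  refine ⟨fun n => ?_, fun n m => ?_⟩
  · induction n with
    | zero => simp
    | succ n ih =>
      have := mul_le_mul_of_nonneg_left ih (sub_nonneg.2 hθ1)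
      rw [pow_succ]
      linarith [hs n]
  · have key : θ * ‖f n‖ ^ 2 + 2 * inner ℝ (T (f (n + m))) (f (n + m)) ≤
        θ * ‖f (n + m)‖ ^ 2 + 2 * inner ℝ (T (f n)) (f n) := by
      induction m with
      | zero => simp
      | succ m ih =>
        have a1 := mul_le_mul_of_nonneg_left (hn (n + m)) hθ.le
        have a2 := hs (n + m)
        rw [← add_assoc]
        linarith
    have a1 := h0 (f (n + m))
    have e : ‖f (n + m)‖ ^ 2 + 2 / θ * inner ℝ (T (f n)) (f n) =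
        (θ * ‖f (n + m)‖ ^ 2 + 2 * inner ℝ (T (f n)) (f n)) / θ := by field_simp
    rw [e, le_div_iff₀ hθ]
    linarith

theorem GAHarB_sym (hS : SGen S) (π : G →* (E ≃ₗᵢ[ℝ] E)) (a b : E) :
    ∑ s ∈ S, inner ℝ (π s a) b = ∑ s ∈ S, inner ℝ a (π s b) := by
  refine Finset.sum_nbij' (fun s => s⁻¹) (fun s => s⁻¹) (fun s hs => hS.inv s hs)
    (fun s hs => hS.inv s hs) (fun s _ => inv_inv s) (fun s _ => inv_inv s) fun s _ => ?_
  have e : π s (π s⁻¹ b) = b := by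
    have h : (π s * π s⁻¹) b = b := by
      rw [← map_mul, mul_inv_cancel, map_one]
      rfl
    exact h
  rw [← (π s).inner_map_map a, e]

/-- exponential decay along the lazy walk when there is a gap -/
theorem walk_decay (hS : SGen S) (π : G →* (E ≃ₗᵢ[ℝ] E)) {η : ℝ} (hη : 0 < η)
    (h : ∀ φ : E, η * ∑ s ∈ S, ‖π s φ - φ‖ ^ 2 ≤ ‖∑ s ∈ S, (π s φ - φ)‖ ^ 2) (f : ℕ → E)
    (hf : ∀ n, f (n + 1) = f n + (2 * S.card : ℝ)⁻¹ • ∑ s ∈ S, (π s (f n) - f n)) :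
    ∃ C q : ℝ, 0 ≤ C ∧ 0 ≤ q ∧ q < 1 ∧ (∀ n, ∑ s ∈ S, ‖π s (f n) - f n‖ ^ 2 ≤ C * q ^ n) ∧
      ∀ n m, ‖f n‖ ^ 2 ≤ ‖f (n + m)‖ ^ 2 + C * q ^ n := by
  have hN : (0 : ℝ) < S.card := Nat.cast_pos.2 (Finset.card_pos.2 ⟨1, hS.one⟩)
  set N : ℝ := (S.card : ℝ) with hNdef
  obtain ⟨T, hT⟩ : ∃ T : E → E, ∀ a, T a = -((2 * N)⁻¹ • ∑ s ∈ S, (π s a - a)) := ⟨_, fun _ => rfl⟩
  have hin : ∀ a b, inner ℝ (T a) b =
      -((2 * N)⁻¹ * (∑ s ∈ S, inner ℝ (π s a) b - N * inner ℝ a b)) := by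
    intro a b
    rw [hT, inner_neg_left, real_inner_smul_left, sum_inner]
    simp only [inner_sub_left, Finset.sum_sub_distrib, Finset.sum_const, nsmul_eq_mul, hNdef]
  have hen : ∀ a, ∑ s ∈ S, ‖π s a - a‖ ^ 2 = 4 * N * inner ℝ (T a) a := by
    intro a
    simp only [norm_sub_sq_real, LinearIsometryEquiv.norm_map, Finset.sum_add_distrib,
      Finset.sum_sub_distrib, Finset.sum_const, nsmul_eq_mul, ← Finset.mul_sum]
    rw [hin, real_inner_self_eq_norm_sq, ← hNdef]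
    field_simp
    ring
  have h0 : ∀ a, 0 ≤ inner ℝ (T a) a := by
    intro a
    have h1 : 0 ≤ 4 * N * inner ℝ (T a) a := by
      rw [← hen]
      exact Finset.sum_nonneg fun s _ => sq_nonneg _
    exact nonneg_of_mul_nonneg_right h1 (by positivity)
  have hθ : 0 < min (η / N) (1 / 2) := lt_min (by positivity) (by norm_num)
  have hθ2 : min (η / N) (1 / 2) ≤ 1 / 2 := min_le_right _ _
  have hsub : ∀ a b, T (a - b) = T a - T b := by
    intro a b
    rw [hT, hT, hT, neg_sub_neg, ← smul_sub, ← smul_neg, ← Finset.sum_sub_distrib,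
      ← Finset.sum_neg_distrib]
    refine congrArg _ (Finset.sum_congr rfl fun s _ => ?_)
    rw [map_sub]
    abel
  have hsym : ∀ a b, inner ℝ (T a) b = inner ℝ a (T b) := by
    intro a b
    rw [real_inner_comm (T b) a, hin, hin, GAHarB_sym hS π a b, real_inner_comm a b]
    simp only [real_inner_comm a]
  have h1 : ∀ a, inner ℝ (T a) a ≤ ‖a‖ ^ 2 := by
    intro a
    have h1 : ∑ s ∈ S, ‖π s a - a‖ ^ 2 ≤ ∑ _s ∈ S, (2 * ‖a‖) ^ 2 := by
      refine Finset.sum_le_sum fun s _ => pow_le_pow_left₀ (norm_nonneg _) ?_ 2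
      have := norm_sub_le (π s a) a
      rw [LinearIsometryEquiv.norm_map] at this
      linarith
    rw [hen, Finset.sum_const, nsmul_eq_mul, ← hNdef] at h1
    refine le_of_mul_le_mul_left ?_ (show 0 < 4 * N by positivity)
    linarith
  have h2 : ∀ a, min (η / N) (1 / 2) * inner ℝ (T a) a ≤ ‖T a‖ ^ 2 := by
    intro a
    refine (mul_le_mul_of_nonneg_right (min_le_left _ _) (h0 a)).trans ?_
    have h1 := h a
    have e : ‖∑ s ∈ S, (π s a - a)‖ = 2 * N * ‖T a‖ := by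
      rw [hT, norm_neg, norm_smul, Real.norm_of_nonneg (by positivity)]
      field_simp
    rw [hen, e] at h1
    rw [div_mul_eq_mul_div, div_le_iff₀ hN]
    refine le_of_mul_le_mul_left ?_ (show 0 < 4 * N by positivity)
    linarith
  obtain ⟨k1, k2⟩ := GAHarB_abs T hsub hsym h0 h1 hθ (by linarith) h2 f
    fun n => by rw [hf, hT, sub_neg_eq_add]
  set θ := min (η / N) (1 / 2)
  have e0 := h0 (f 0)
  have hq : 0 ≤ 1 - θ := by linarith
  refine ⟨(4 * N + 2 / θ) * inner ℝ (T (f 0)) (f 0), 1 - θ, by positivity, hq, by linarith,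
    fun n => ?_, fun n m => ?_⟩
  · have a1 := mul_le_mul_of_nonneg_left (k1 n) (show 0 ≤ 4 * N by positivity)
    have a2 : 0 ≤ 2 / θ * (inner ℝ (T (f 0)) (f 0) * (1 - θ) ^ n) := by positivity
    rw [hen]
    linarith
  · have a1 := mul_le_mul_of_nonneg_left (k1 n) (show 0 ≤ 2 / θ by positivity)
    have a2 : 0 ≤ 4 * N * (inner ℝ (T (f 0)) (f 0) * (1 - θ) ^ n) := by positivity
    linarith [k2 n m]

end Vale.Agent.P188
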