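import Vale.Agent.P188.GADefs

open scoped Pointwise

namespace Vale.Agent.P188

variable {G : Type*} [Group G]

theorem GAHarC_mem (g : G) (f : L2 G) : Memℓp (fun x : G => f (x * g)) 2 := by
  have h := (lp.memℓp f).summable (by norm_num : 0 < (2 : ENNReal).toReal)
  refine memℓp_gen ?_
  exact (Equiv.mulRight g).summable_iff.2 h

/-- translation of a square summable function -/
noncomputable def GAHarC_tr (g : G) (f : L2 G) : L2 G := ⟨fun x => f (x * g), GAHarC_mem g f⟩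

theorem GAHarC_tr_apply (g : G) (f : L2 G) (x : G) : GAHarC_tr g f x = f (x * g) := rfl

theorem GAHarC_norm (g : G) (f : L2 G) : ‖GAHarC_tr g f‖ = ‖f‖ := by
  have hp : 0 < (2 : ENNReal).toReal := by norm_num
  rw [lp.norm_eq_tsum_rpow hp, lp.norm_eq_tsum_rpow hp]
  congr 1
  exact (Equiv.mulRight g).tsum_eq (fun x => ‖f x‖ ^ (2 : ENNReal).toReal)

/-- translation as a linear isometry -/
noncomputable def GAHarC_iso (g : G) : L2 G ≃ₗᵢ[ℝ] L2 G where
  toFun := GAHarC_tr g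
  invFun := GAHarC_tr g⁻¹
  map_add' f h := by ext x; rfl
  map_smul' c f := by ext x; rfl
  left_inv f := by ext x; simp [GAHarC_tr_apply]
  right_inv f := by ext x; simp [GAHarC_tr_apply]
  norm_map' := GAHarC_norm g

theorem GAHarC_iso_apply (g : G) (f : L2 G) (x : G) : GAHarC_iso g f x = f (x * g) := rfl

/-- the right regular representation -/
theorem exists_reg : ∃ π : G →* (L2 G ≃ₗᵢ[ℝ] L2 G),
    ∀ (g : G) (f : L2 G) (x : G), π g f x = f (x * g) := by
  refine ⟨MonoidHom.mk' GAHarC_iso fun g h => ?_, fun g f x => rfl⟩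
  ext f x
  change f (x * (g * h)) = f (x * g * h)
  rw [mul_assoc]

theorem GAHarC_sum_le (f : L2 G) (F : Finset G) : ∑ x ∈ F, f x ^ 2 ≤ ‖f‖ ^ 2 := by
  have hp : 0 < (2 : ENNReal).toReal := by norm_num
  have := lp.sum_rpow_le_norm_rpow hp f F
  simpa using this

theorem l2_lower (f : L2 G) (F : Finset G) (h1 : ∑ x ∈ F, f x = 1) :
    1 ≤ F.card * ‖f‖ ^ 2 := by
  have h2 := sq_sum_le_card_mul_sum_sq (s := F) (f := fun x => f x)
  rw [h1, one_pow] at h2
  exact h2.trans (mul_le_mul_of_nonneg_left (GAHarC_sum_le f F) (Nat.cast_nonneg _))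

theorem GAHarC_norm_sq (f : L2 G) (F : Finset G) (h : ∀ x, x ∉ F → f x = 0) :
    ‖f‖ ^ 2 = ∑ x ∈ F, f x ^ 2 := by
  have hp : 0 < (2 : ENNReal).toReal := by norm_num
  have h1 := lp.hasSum_norm hp f
  have h2 : HasSum (fun x => ‖f x‖ ^ (2 : ENNReal).toReal)
      (∑ x ∈ F, ‖f x‖ ^ (2 : ENNReal).toReal) :=
    hasSum_sum_of_ne_finset_zero fun x hx => by simp [h x hx]
  simpa using h1.unique h2

theorem l2_upper [DecidableEq G] [Infinite G] {S : Finset G} (hS : SGen S) {ε : ℝ} (hε : 0 < ε) :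
    ∃ L : ℝ, 0 ≤ L ∧ ∀ (f : L2 G) (F : Finset G) (t : ℝ), 0 ≤ t → (∀ x, 0 ≤ f x) →
      (∀ x, x ∉ F → f x = 0) → ∑ x ∈ F, f x = 1 → (∀ x, ∀ s ∈ S, |f (x * s) - f x| ≤ t) →
      ‖f‖ ^ 2 ≤ ε + L * t := by
  obtain ⟨k, hk⟩ := exists_nat_gt (1 / ε)
  obtain ⟨Y, hY⟩ := Infinite.exists_subset_card_eq G k
  choose n hn using hS.gen
  set n0 := Y.sup n with hn0
  have hYn : ∀ y ∈ Y, y ∈ S ^ n0 := fun y hy => hS.mono (Finset.le_sup hy) (hn y)
  refine ⟨n0, Nat.cast_nonneg _, fun f F t ht hf hF h1 hL => ?_⟩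
  have hFne : F.Nonempty := by
    rw [Finset.nonempty_iff_ne_empty]
    rintro rfl
    simp at h1
  obtain ⟨x0, hx0, hmax⟩ := F.exists_max_image (fun x => f x) hFne
  have h2 : ‖f‖ ^ 2 ≤ f x0 := by
    rw [GAHarC_norm_sq f F hF]
    calc ∑ x ∈ F, f x ^ 2 ≤ ∑ x ∈ F, f x0 * f x := Finset.sum_le_sum fun x hx => by
          rw [sq]; exact mul_le_mul_of_nonneg_right (hmax x hx) (hf x)
      _ = f x0 := by rw [← Finset.mul_sum, h1, mul_one]
  have h3 : ∑ y ∈ Y, f (x0 * y) ≤ 1 := by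
    rw [← Finset.sum_image (f := fun x => f x) (g := fun y => x0 * y)
      (fun a _ b _ hab => mul_left_cancel hab), ← h1,
      ← Finset.sum_filter_add_sum_filter_not (Y.image fun y => x0 * y) (fun x => x ∈ F)]
    have h4 : ∑ x ∈ (Y.image fun y => x0 * y).filter (fun x => ¬ x ∈ F), f x = 0 :=
      Finset.sum_eq_zero fun x hx => hF x (Finset.mem_filter.1 hx).2
    rw [h4, add_zero]
    exact Finset.sum_le_sum_of_subset_of_nonneg (fun x hx => (Finset.mem_filter.1 hx).2)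
      fun x _ _ => hf x
  have h5 : ∃ y ∈ Y, f (x0 * y) ≤ ε := by
    by_contra hcon
    simp only [not_exists, not_and, not_le] at hcon
    have h6 : (k : ℝ) * ε ≤ ∑ y ∈ Y, f (x0 * y) := by
      have := Finset.card_nsmul_le_sum Y (fun y => f (x0 * y)) ε fun y hy => (hcon y hy).le
      rwa [hY, nsmul_eq_mul] at this
    rw [div_lt_iff₀ hε] at hk
    linarith
  obtain ⟨y, hy, hyε⟩ := h5
  have h7 := lip_pow (𝕜 := ℝ) (u := fun x => f x) (L := t) hL x0 (hYn y hy)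
  have h8 := (abs_le.1 h7).1
  linarith

end Vale.Agent.P188
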