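import Vale.Agent.P188.GAHarA
import Vale.Agent.P188.GAHarB
import Vale.Agent.P188.GAHarC

open scoped Pointwise

namespace Vale.Agent.P188

variable {G : Type*} [Group G] [DecidableEq G] {S : Finset G} {d : ℕ}

theorem harD_shift (hS : SGen S) {u : G → ℝ} {n : ℕ} (h0 : ∀ x, x ∉ S ^ n → u x = 0) {s : G}
    (hs : s ∈ S) : ∑ x ∈ S ^ (n + 1), u (x * s) = ∑ x ∈ S ^ n, u x := by
  rw [← Finset.sum_image (s := S ^ (n + 1)) (g := fun x => x * s) (f := u)
    (fun x _ y _ e => mul_right_cancel e)]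
  refine (Finset.sum_subset (fun y hy => ?_) fun y _ hy => h0 y hy).symm
  refine Finset.mem_image.2 ⟨y * s⁻¹, ?_, by simp⟩
  rw [pow_succ]
  exact Finset.mul_mem_mul hy (hS.inv s hs)

theorem harD_walk (hS : SGen S) {u : ℕ → G → ℝ} (h0 : ∀ x, u 0 x = if x = 1 then 1 else 0)
    (h1 : ∀ n x, u (n + 1) x = u n x + (2 * S.card : ℝ)⁻¹ * ∑ s ∈ S, (u n (x * s) - u n x))
    (n : ℕ) : (∀ x, 0 ≤ u n x) ∧ (∀ x, x ∉ S ^ n → u n x = 0) ∧ ∑ x ∈ S ^ n, u n x = 1 := by
  have hN : (0 : ℝ) < S.card := by exact_mod_cast Finset.card_pos.2 ⟨1, hS.one⟩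
  have h2 : ∀ n x, u (n + 1) x = u n x / 2 + (2 * S.card : ℝ)⁻¹ * ∑ s ∈ S, u n (x * s) := by
    intro n x
    rw [h1, Finset.sum_sub_distrib, Finset.sum_const, nsmul_eq_mul]
    field_simp
    ring
  induction n with
  | zero =>
    refine ⟨fun x => ?_, fun x hx => ?_, ?_⟩
    · rw [h0]
      split_ifs <;> norm_num
    · rw [pow_zero, Finset.mem_one] at hx
      rw [h0, if_neg hx]
    · rw [pow_zero, ← Finset.singleton_one, Finset.sum_singleton, h0, if_pos rfl]
  | succ n ih =>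
    obtain ⟨i1, i2, i3⟩ := ih
    refine ⟨fun x => ?_, fun x hx => ?_, ?_⟩
    · rw [h2]
      have a1 := i1 x
      have a2 : 0 ≤ ∑ s ∈ S, u n (x * s) := Finset.sum_nonneg fun s _ => i1 _
      positivity
    · rw [h2, i2 x fun h => hx (hS.mono (Nat.le_succ n) h), Finset.sum_eq_zero, mul_zero, zero_div,
        add_zero]
      intro s hs
      refine i2 _ fun h => hx ?_
      have a1 := Finset.mul_mem_mul h (hS.inv s hs)
      rwa [mul_inv_cancel_right, ← pow_succ] at a1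
    · simp only [h2]
      rw [Finset.sum_add_distrib, ← Finset.sum_div, ← Finset.mul_sum, Finset.sum_comm,
        ← Finset.sum_subset (hS.mono (Nat.le_succ n)) fun y _ hy => i2 y hy,
        Finset.sum_congr rfl fun s hs => harD_shift hS i2 hs, i3, Finset.sum_const, nsmul_eq_mul]
      field_simp
      ring

/-- there is a nonconstant Lipschitz harmonic function -/
theorem exists_har [Infinite G] (hS : SGen S) (hG : PG G d) : ∃ u ∈ LH ℝ S, u ≠ 0 := by
  obtain ⟨π, hπ⟩ := exists_reg (G := G)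
  refine har_of_vectors hS π fun η hη => ?_
  by_contra hc
  push Not at hc
  let f : ℕ → L2 G := fun n => Nat.rec (lp.single 2 1 1)
    (fun _ g => g + (2 * S.card : ℝ)⁻¹ • ∑ s ∈ S, (π s g - g)) n
  have hf : ∀ n, f (n + 1) = f n + (2 * S.card : ℝ)⁻¹ • ∑ s ∈ S, (π s (f n) - f n) := fun n => rfl
  have hf0 : f 0 = lp.single 2 1 1 := rfl
  clear_value f
  obtain ⟨C, q, hC, hq0, hq1, a1, a2⟩ := walk_decay hS π hη hc f hf
  have hw := harD_walk hS (u := fun n x => f n x) (fun x => by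
      rw [hf0, lp.single_apply, Pi.single_apply]) (fun n x => by
      rw [hf, lp.coeFn_add, Pi.add_apply, lp.coeFn_smul, Pi.smul_apply, smul_eq_mul, lp.coeFn_sum,
        Finset.sum_apply]
      simp only [lp.coeFn_sub, Pi.sub_apply, hπ])
  have hinc : ∀ n x, ∀ s ∈ S, |f n (x * s) - f n x| ≤ √(C * q ^ n) := by
    intro n x s hs
    have b1 := lp.norm_apply_le_norm (by norm_num : (2 : ENNReal) ≠ 0) (π s (f n) - f n) x
    rw [lp.coeFn_sub, Pi.sub_apply, hπ, Real.norm_eq_abs] at b1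
    refine b1.trans (Real.le_sqrt_of_sq_le (le_trans ?_ (a1 n)))
    exact Finset.single_le_sum (f := fun s => ‖π s (f n) - f n‖ ^ 2) (fun _ _ => by positivity) hs
  have hq : Filter.Tendsto (fun n : ℕ => q ^ n) Filter.atTop (nhds 0) :=
    tendsto_pow_atTop_nhds_zero_of_lt_one hq0 hq1
  have hn : ∀ n, ‖f n‖ ^ 2 ≤ C * q ^ n := by
    intro n
    refine le_of_forall_pos_le_add fun ε hε => ?_
    obtain ⟨L, -, hL⟩ := l2_upper hS hε
    have b1 : Filter.Tendsto (fun m : ℕ => ε + L * √(C * q ^ (m + n)) + C * q ^ n) Filter.atTop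
        (nhds (ε + L * √(C * 0) + C * q ^ n)) :=
      ((((hq.comp (Filter.tendsto_add_atTop_nat n)).const_mul C).sqrt.const_mul L).const_add
        ε).add_const _
    have b2 := ge_of_tendsto' b1 (b := ‖f n‖ ^ 2) fun m => by
      have b3 := a2 n m
      rw [add_comm n m] at b3
      have b4 := hL (f (m + n)) (S ^ (m + n)) _ (Real.sqrt_nonneg _) (hw _).1 (hw _).2.1
        (hw _).2.2 (hinc _)
      linarith
    rw [mul_zero, Real.sqrt_zero, mul_zero, add_zero] at b2
    linarith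
  obtain ⟨D, hD, hD'⟩ := hG.card S
  rcases hq0.eq_or_lt with rfl | hq0'
  · have b1 := l2_lower (f 1) (S ^ 1) (hw 1).2.2
    have b2 := hn 1
    rw [pow_one (0 : ℝ), mul_zero] at b2
    have b3 : ((S ^ 1).card : ℝ) * ‖f 1‖ ^ 2 ≤ 0 :=
      mul_nonpos_of_nonneg_of_nonpos (Nat.cast_nonneg _) b2
    linarith
  have b1 : Filter.Tendsto (fun n : ℕ => D * C / q * (((n + 1 : ℕ) : ℝ) ^ d * q ^ (n + 1)))
      Filter.atTop (nhds (D * C / q * 0)) :=
    ((tendsto_pow_const_mul_const_pow_of_abs_lt_one d (r := q)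
      (by rwa [abs_of_nonneg hq0])).comp (Filter.tendsto_add_atTop_nat 1)).const_mul _
  have b2 := ge_of_tendsto' b1 (b := 1) fun n => by
    have b3 := l2_lower (f n) (S ^ n) (hw n).2.2
    refine b3.trans ((mul_le_mul (hD' n) (hn n) (by positivity) (by positivity)).trans
      (le_of_eq ?_))
    push_cast
    field_simp
    ring
  rw [mul_zero] at b2
  linarith

end Vale.Agent.P188
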