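import Vale.Agent.P188.GADefs

open scoped Pointwise

namespace Vale.Agent.P188

open Matrix

theorem GALa_spec {D : ℕ} {M : Matrix (Fin D) (Fin D) ℝ} (hM : M.IsHermitian) :
    ∃ (W : Matrix (Fin D) (Fin D) ℝ) (lam : Fin D → ℝ), Wᵀ * W = 1 ∧ Wᵀ * M * W = diagonal lam := by
  refine ⟨hM.eigenvectorUnitary, hM.eigenvalues, ?_, ?_⟩
  · have h := Unitary.coe_star_mul_self hM.eigenvectorUnitary
    rwa [star_eq_conjTranspose, conjTranspose_eq_transpose_of_trivial] at h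
  · have h := hM.conjStarAlgAut_star_eigenvectorUnitary
    rw [Unitary.conjStarAlgAut_apply, Unitary.coe_star, star_star, star_eq_conjTranspose,
      conjTranspose_eq_transpose_of_trivial] at h
    exact h

theorem GALa_form {D : ℕ} (P M : Matrix (Fin D) (Fin D) ℝ) (y : Fin D → ℝ) :
    (P *ᵥ y) ⬝ᵥ M *ᵥ (P *ᵥ y) = y ⬝ᵥ (Pᵀ * M * P) *ᵥ y := by
  rw [← mulVec_mulVec, ← mulVec_mulVec, dotProduct_mulVec y Pᵀ, vecMul_transpose]

theorem GALa_diag {D : ℕ} (lam y : Fin D → ℝ) :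
    y ⬝ᵥ diagonal lam *ᵥ y = ∑ i, lam i * y i ^ 2 := by
  refine Finset.sum_congr rfl fun i _ => ?_
  rw [mulVec_diagonal]
  ring

theorem GALa_sim {D : ℕ} {A B : Matrix (Fin D) (Fin D) ℝ} (hA : A.PosDef) (hB : B.IsHermitian) :
    ∃ (P : Matrix (Fin D) (Fin D) ℝ) (lam : Fin D → ℝ),
      Pᵀ * A * P = 1 ∧ Pᵀ * B * P = diagonal lam := by
  obtain ⟨W, e, hW, he⟩ := GALa_spec hA.isHermitian
  have hpos : ∀ i, 0 < e i := by
    have hinj : Function.Injective W.mulVec := fun x y h => by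
      have h1 := congrArg (Wᵀ *ᵥ ·) h
      simpa only [mulVec_mulVec, hW, one_mulVec] using h1
    have h1 := hA.conjTranspose_mul_mul_same hinj
    rw [conjTranspose_eq_transpose_of_trivial, he] at h1
    exact posDef_diagonal_iff.1 h1
  obtain ⟨Q, hQ⟩ : ∃ Q : Matrix (Fin D) (Fin D) ℝ, Qᵀ * A * Q = 1 := by
    refine ⟨W * diagonal fun i => (√(e i))⁻¹, ?_⟩
    rw [transpose_mul, diagonal_transpose]
    calc (diagonal fun i => (√(e i))⁻¹) * Wᵀ * A * (W * diagonal fun i => (√(e i))⁻¹)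
        = (diagonal fun i => (√(e i))⁻¹) * (Wᵀ * A * W) * diagonal fun i => (√(e i))⁻¹ := by
          simp only [Matrix.mul_assoc]
      _ = 1 := by
          rw [he, diagonal_mul_diagonal, diagonal_mul_diagonal, ← diagonal_one]
          refine congrArg diagonal (funext fun i => ?_)
          have h1 := Real.mul_self_sqrt (hpos i).le
          have h2 := (Real.sqrt_pos.2 (hpos i)).ne'
          field_simp
          linarith
  have hB' : (Qᵀ * B * Q).IsHermitian := by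
    have h := isHermitian_conjTranspose_mul_mul Q hB
    rwa [conjTranspose_eq_transpose_of_trivial] at h
  obtain ⟨V, lam, hV, hl⟩ := GALa_spec hB'
  refine ⟨Q * V, lam, ?_, ?_⟩
  · rw [transpose_mul, ← hV]
    calc Vᵀ * Qᵀ * A * (Q * V) = Vᵀ * (Qᵀ * A * Q) * V := by simp only [Matrix.mul_assoc]
      _ = Vᵀ * V := by rw [hQ, Matrix.mul_one]
  · rw [transpose_mul, ← hl]
    simp only [Matrix.mul_assoc]

theorem det_ratio {D : ℕ} {A B : Matrix (Fin D) (Fin D) ℝ} (hA : A.PosDef) (hB : B.IsHermitian)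
    (hAB : ∀ x, x ⬝ᵥ A *ᵥ x ≤ x ⬝ᵥ B *ᵥ x) {c : ℝ} (hc : 1 ≤ c) (U : Submodule ℝ (Fin D → ℝ))
    (hU : ∀ x ∈ U, c * (x ⬝ᵥ A *ᵥ x) ≤ x ⬝ᵥ B *ᵥ x) :
    c ^ Module.finrank ℝ U * A.det ≤ B.det := by
  obtain ⟨P, lam, hP, hl⟩ := GALa_sim hA hB
  have fA : ∀ y, (P *ᵥ y) ⬝ᵥ A *ᵥ (P *ᵥ y) = ∑ i, 1 * y i ^ 2 := fun y => by
    rw [GALa_form, hP, ← diagonal_one, GALa_diag]
  have fB : ∀ y, (P *ᵥ y) ⬝ᵥ B *ᵥ (P *ᵥ y) = ∑ i, lam i * y i ^ 2 := fun y => by
    rw [GALa_form, hl, GALa_diag]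
  have h1 : ∀ i, 1 ≤ lam i := fun i => by
    have h := hAB (P *ᵥ Pi.single i 1)
    rw [fA, fB] at h
    simpa [Pi.single_apply] using h
  have hinv : P * (Pᵀ * A) = 1 := mul_eq_one_comm.1 hP
  let g : U →ₗ[ℝ] ({i // c ≤ lam i} → ℝ) :=
    LinearMap.funLeft ℝ ℝ Subtype.val ∘ₗ (Pᵀ * A).mulVecLin ∘ₗ U.subtype
  have hg : Function.Injective g := by
    refine (injective_iff_map_eq_zero g).2 fun x hx => ?_
    obtain ⟨y, hy⟩ : ∃ y, y = (Pᵀ * A) *ᵥ (x : Fin D → ℝ) := ⟨_, rfl⟩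
    have hxy : (x : Fin D → ℝ) = P *ᵥ y := by rw [hy, mulVec_mulVec, hinv, one_mulVec]
    have h0 : ∀ i, c ≤ lam i → y i = 0 := fun i hi => by
      rw [hy]
      exact congrFun hx ⟨i, hi⟩
    have h2 := hU x x.2
    rw [hxy, fA, fB, Finset.mul_sum, ← sub_nonpos, ← Finset.sum_sub_distrib] at h2
    have h3 : ∀ i ∈ Finset.univ, 0 ≤ c * (1 * y i ^ 2) - lam i * y i ^ 2 := fun i _ => by
      rcases le_or_gt c (lam i) with hi | hi
      · simp [h0 i hi]
      · nlinarith [sq_nonneg (y i)]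
    have h4 := (Finset.sum_eq_zero_iff_of_nonneg h3).1 (le_antisymm h2 (Finset.sum_nonneg h3))
    have h5 : y = 0 := funext fun i => by
      rcases le_or_gt c (lam i) with hi | hi
      · exact h0 i hi
      · have h6 : (c - lam i) * y i ^ 2 = 0 := by linarith [h4 i (Finset.mem_univ _)]
        exact pow_eq_zero_iff two_ne_zero |>.1
          ((mul_eq_zero.1 h6).resolve_left (sub_pos.2 hi).ne')
    exact Subtype.ext (by rw [hxy, h5, mulVec_zero]; rfl)
  have hr := LinearMap.finrank_le_finrank_of_injective hg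
  rw [Module.finrank_fintype_fun_eq_card, Fintype.card_subtype] at hr
  have hprod : c ^ Module.finrank ℝ U ≤ ∏ i, lam i := by
    refine (pow_le_pow_right₀ hc hr).trans ?_
    rw [← Finset.prod_const, Finset.prod_filter]
    refine Finset.prod_le_prod (fun i _ => ?_) fun i _ => ?_
    · split_ifs <;> linarith
    · split_ifs with h
      · exact h
      · exact h1 i
  have d1 := congrArg det hP
  have d2 := congrArg det hl
  rw [det_mul, det_mul, det_transpose] at d1 d2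
  rw [det_one] at d1
  rw [det_diagonal] at d2
  have d3 : B.det = (∏ i, lam i) * A.det := by
    rw [← d2]
    linear_combination (-B.det) * d1
  rw [d3]
  exact mul_le_mul_of_nonneg_right hprod hA.det_pos.le

end Vale.Agent.P188
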