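import Vale.Agent.P188.GALoc
import Vale.Agent.P188.GALa
import Vale.Agent.P188.GAGram

open scoped Pointwise

namespace Vale.Agent.P188

variable {G : Type*} [Group G] [DecidableEq G] {S : Finset G} {d : ℕ}

theorem gakl_exp {a b t : ℝ} (ha : 0 < a) (hb : 0 < b) (h : Real.log a - Real.log b ≤ t) :
    a ≤ Real.exp t * b := by
  rw [← Real.exp_log ha, ← Real.exp_log hb, ← Real.exp_add]
  exact Real.exp_le_exp.2 (by linarith)

theorem gakl_log {n0 : ℕ} (h : 1 ≤ n0) (k e : ℕ) {C a : ℝ} (hC : 1 ≤ C) (ha : 0 < a)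
    (h1 : a ≤ C * (((n0 * 8 ^ k : ℕ) : ℝ) + 1) ^ e) :
    Real.log a ≤ Real.log C + e * (Real.log (2 * n0) + k * Real.log 8) := by
  have h0 : (1 : ℝ) ≤ n0 := by exact_mod_cast h
  have h8 : (1 : ℝ) ≤ 8 ^ k := one_le_pow₀ (by norm_num)
  have h2 : (((n0 * 8 ^ k : ℕ) : ℝ) + 1) ≤ 2 * n0 * 8 ^ k := by
    push_cast
    nlinarith
  have h3 := h1.trans (mul_le_mul_of_nonneg_left
    (pow_le_pow_left₀ (by positivity) h2 e) (by linarith))
  refine (Real.log_le_log ha h3).trans (le_of_eq ?_)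
  rw [Real.log_mul (by positivity) (by positivity), Real.log_pow,
    Real.log_mul (by positivity) (by positivity), Real.log_pow]

omit [DecidableEq G] in
theorem gakl_har {D : ℕ} {u : Fin D → G → ℝ} (hu : ∀ i, Har S (u i)) (c : Fin D → ℝ) :
    Har S (∑ i, c i • u i) := by
  intro x
  simp only [Finset.sum_apply, Pi.smul_apply, smul_eq_mul, ← Finset.sum_sub_distrib, ← mul_sub]
  rw [Finset.sum_comm]
  refine Finset.sum_eq_zero fun i _ => ?_
  rw [← Finset.mul_sum, hu i x, mul_zero]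

omit [Group G] [DecidableEq G] in
theorem gakl_sq (v : G → ℝ) {F F' : Finset G} (h : F ⊆ F') : Sq v F ≤ Sq v F' :=
  Finset.sum_le_sum_of_subset_of_nonneg h fun _ _ _ => sq_nonneg _

omit [Group G] [DecidableEq G] in
theorem gakl_ratio {D : ℕ} {u : Fin D → G → ℝ} {F F' : Finset G} (h : F ⊆ F')
    (hF : (gram u F).PosDef) {c : ℝ} (hc : 1 ≤ c) (U : Submodule ℝ (Fin D → ℝ))
    (hU : ∀ a ∈ U, c * Sq (∑ i, a i • u i) F ≤ Sq (∑ i, a i • u i) F') :
    c ^ Module.finrank ℝ U * (gram u F).det ≤ (gram u F').det := by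
  refine det_ratio hF (gram_herm u F') (fun a => ?_) hc U fun a ha => ?_
  · rw [gram_form, gram_form]
    exact gakl_sq _ h
  · rw [gram_form, gram_form]
    exact hU a ha

omit [Group G] [DecidableEq G] in
theorem gakl_ker {D : ℕ} (u : Fin D → G → ℝ) (Z : Finset G) (F : G → Finset G) :
    ∃ U : Submodule ℝ (Fin D → ℝ), D ≤ Module.finrank ℝ U + Z.card ∧
      ∀ a ∈ U, ∀ z ∈ Z, ∑ x ∈ F z, (∑ i, a i • u i) x = 0 := by
  let Λ : (Fin D → ℝ) →ₗ[ℝ] (Z → ℝ) :=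
    { toFun := fun a z => ∑ x ∈ F z, (∑ i, a i • u i) x
      map_add' := fun a b => by
        funext z
        simp only [Pi.add_apply, add_smul, Finset.sum_add_distrib]
      map_smul' := fun t a => by
        funext z
        simp only [Pi.smul_apply, smul_eq_mul, Finset.sum_apply, RingHom.id_apply, Finset.mul_sum,
          mul_assoc] }
  refine ⟨LinearMap.ker Λ, ?_, fun a ha z hz => congrFun (LinearMap.mem_ker.1 ha) ⟨z, hz⟩⟩
  have h1 := LinearMap.finrank_range_add_finrank_ker Λ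
  have h2 := Submodule.finrank_le (LinearMap.range Λ)
  simp only [Module.finrank_fintype_fun_eq_card, Fintype.card_fin, Fintype.card_coe] at h1 h2
  omega

/-- one good scale bounds the dimension -/
theorem gakl_scale (hS : SGen S) {D : ℕ} {u : Fin D → G → ℝ} (hu : ∀ i, Har S (u i)) {ρ w : ℕ}
    (hρ : 1 ≤ ρ) (hw : 1 ≤ w) {K J : ℝ} (hK : 1 < K) (hw' : 8 * K ^ 4 * S.card ≤ 64 ^ w)
    (h1 : ((S ^ (8 * ρ)).card : ℝ) ≤ K * (S ^ ρ).card)
    (h2 : ((S ^ (8 * (ρ * 8 ^ w))).card : ℝ) ≤ J * (S ^ ρ).card)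
    (hp : (gram u (S ^ (ρ * 8 ^ w))).PosDef)
    (h3 : (gram u (S ^ (8 * (ρ * 8 ^ w)))).det ≤ K ^ D * (gram u (S ^ (ρ * 8 ^ w))).det) :
    (D : ℝ) ≤ 2 * J := by
  have h8 : 8 ^ 1 ≤ 8 ^ w := Nat.pow_le_pow_right (by norm_num) hw
  have hR : 6 * ρ ≤ ρ * 8 ^ w := by nlinarith
  obtain ⟨Z, hZ, hZ'⟩ := kl_local hS hR (by omega) h1
  have hc : (0 : ℝ) < (S ^ ρ).card := by exact_mod_cast hS.card_pos ρ
  have hZJ : (Z.card : ℝ) ≤ J := by
    refine le_of_mul_le_mul_right (le_trans ?_ h2) hc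
    exact_mod_cast hZ
  obtain ⟨U, hU, hU'⟩ := gakl_ker u Z fun z => z • S ^ (2 * ρ)
  have hS0 : (0 : ℝ) < S.card := by exact_mod_cast Finset.card_pos.2 ⟨1, hS.one⟩
  have hρ0 : (0 : ℝ) < ρ := by exact_mod_cast hρ
  have hK0 : 0 < K := by linarith
  have h4 := gakl_ratio (c := K ^ 2) (hS.mono (by omega : ρ * 8 ^ w ≤ 8 * (ρ * 8 ^ w))) hp
    (one_le_pow₀ hK.le) U fun a ha => by
      have h5 := hZ' _ (gakl_har hu a) (hU' a ha)
      have h6 : 0 ≤ Sq (∑ i, a i • u i) (S ^ (ρ * 8 ^ w)) :=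
        Finset.sum_nonneg fun _ _ => sq_nonneg _
      have h7 : ((ρ * 8 ^ w : ℕ) : ℝ) ^ 2 = ρ ^ 2 * 64 ^ w := by
        push_cast
        rw [mul_pow, ← pow_mul, mul_comm w 2, pow_mul]
        norm_num
      rw [h7] at h5
      refine le_of_mul_le_mul_left (a := 8 * K ^ 2 * S.card * ρ ^ 2) (le_trans ?_ h5)
        (by positivity)
      have h9 := mul_le_mul_of_nonneg_right
        (mul_le_mul_of_nonneg_left hw' (sq_nonneg (ρ : ℝ))) h6
      refine le_trans (le_of_eq ?_) h9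
      ring
  have h5 : (K ^ 2) ^ Module.finrank ℝ U ≤ K ^ D := le_of_mul_le_mul_right (h4.trans h3) hp.det_pos
  rw [← pow_mul, pow_le_pow_iff_right₀ hK] at h5
  have h6 : D ≤ 2 * Z.card := by omega
  have h7 : (D : ℝ) ≤ 2 * Z.card := by exact_mod_cast h6
  linarith

/-- the theorem of Kleiner -/
theorem kleiner (hS : SGen S) (hG : PG G d) : ∃ N : ℕ, ∀ (D : ℕ) (u : Fin D → G → ℝ),
    LinearIndependent ℝ u → (∀ i, Har S (u i) ∧ Lip S (u i)) → D ≤ N := by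
  obtain ⟨C1, hC1, hc1⟩ := hG.card S
  have hl8 : 0 < Real.log 8 := Real.log_pos (by norm_num)
  obtain ⟨γ, hγ⟩ : ∃ γ : ℝ, γ = 2 * (d * Real.log 8) + (d + 2 : ℕ) * Real.log 8 + 1 := ⟨_, rfl⟩
  have hγ0 : 0 < γ := by
    rw [hγ]
    positivity
  have hK : 1 < Real.exp γ := Real.one_lt_exp_iff.2 hγ0
  obtain ⟨w0, hw0⟩ := pow_unbounded_of_one_lt (8 * Real.exp γ ^ 4 * S.card)
    (by norm_num : (1 : ℝ) < 64)
  have hw : 8 * Real.exp γ ^ 4 * S.card ≤ 64 ^ (w0 + 1) :=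
    hw0.le.trans (pow_le_pow_right₀ (by norm_num) (Nat.le_succ _))
  refine ⟨⌈2 * Real.exp ((((w0 + 1 : ℕ) : ℝ) + 1) * γ)⌉₊, fun D u hu hu' => ?_⟩
  rcases Nat.eq_zero_or_pos D with rfl | hD
  · exact Nat.zero_le _
  have hD' : (1 : ℝ) ≤ D := by exact_mod_cast hD
  obtain ⟨n0, hn0, hp⟩ := gram_posDef hS hu
  obtain ⟨C2, hC2, hc2⟩ := gram_det_le hG fun i => (hu' i).2
  have hle : ∀ k, n0 ≤ n0 * 8 ^ k := fun k => Nat.le_mul_of_pos_right _ (by positivity)
  have hp' : ∀ k, (gram u (S ^ (n0 * 8 ^ k))).PosDef := fun k => hp _ (hle k)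
  have hcard : ∀ n, (0 : ℝ) < (S ^ n).card := fun n => by exact_mod_cast hS.card_pos n
  have hsub : ∀ {k l : ℕ}, k ≤ l → S ^ (n0 * 8 ^ k) ⊆ S ^ (n0 * 8 ^ l) := fun h =>
    hS.mono (Nat.mul_le_mul_left _ (Nat.pow_le_pow_right (by norm_num) h))
  have l1 := Real.log_nonneg hC1
  have l2 := Real.log_nonneg hC2
  have l3 : 0 ≤ Real.log (2 * n0) := by
    have : (1 : ℝ) ≤ n0 := by exact_mod_cast hn0
    exact Real.log_nonneg (by linarith)
  obtain ⟨k, k1, k2, k3⟩ := scale (x := fun k => Real.log (S ^ (n0 * 8 ^ k)).card)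
    (y := fun k => Real.log (gram u (S ^ (n0 * 8 ^ k))).det / D) (α := d * Real.log 8)
    (β := (d + 2 : ℕ) * Real.log 8)
    (c := Real.log C1 + Real.log C2 + (d + 2 : ℕ) * Real.log (2 * n0))
    (fun k l h => Real.log_le_log (hcard _) (by exact_mod_cast Finset.card_le_card (hsub h)))
    (fun k l h => by
      refine div_le_div_of_nonneg_right (Real.log_le_log (hp' k).det_pos ?_) (by linarith)
      have := gakl_ratio (hsub h) (hp' k) le_rfl ⊥ fun a _ => by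
        rw [one_mul]
        exact gakl_sq _ (hsub h)
      simpa using this)
    (by positivity) (by positivity)
    (fun k => by
      have := gakl_log hn0 k d hC1 (hcard _) (hc1 _)
      push_cast
      nlinarith)
    (fun k => by
      have h1 := hc2 (n0 * 8 ^ k)
      rw [← pow_mul] at h1
      have h2 := gakl_log hn0 k _ hC2 (hp' k).det_pos h1
      rw [div_le_iff₀ (by linarith)]
      have h3 := mul_le_mul_of_nonneg_left hD' l2
      have h4 := mul_nonneg l1 (zero_le_one.trans hD')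
      push_cast at h2 ⊢
      nlinarith) (w0 + 1)
  rw [← hγ] at k1 k2 k3
  have e1 : n0 * 8 ^ (k + 1) = 8 * (n0 * 8 ^ k) := by ring
  have e2 : n0 * 8 ^ (k + (w0 + 1)) = n0 * 8 ^ k * 8 ^ (w0 + 1) := by ring
  have e3 : n0 * 8 ^ (k + (w0 + 1) + 1) = 8 * (n0 * 8 ^ k * 8 ^ (w0 + 1)) := by ring
  have q2 := hp' (k + (w0 + 1))
  have q3 := hp' (k + (w0 + 1) + 1)
  simp only [e1, e2, e3] at k1 k2 k3 q2 q3
  have h3 := gakl_scale hS (fun i => (hu' i).1) (hn0.trans (hle k)) (Nat.le_add_left 1 w0) hK hw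
    (gakl_exp (hcard _) (hcard _) k1) (gakl_exp (hcard _) (hcard _) k3) q2 (by
      rw [← Real.exp_nat_mul]
      refine gakl_exp q3.det_pos q2.det_pos ?_
      rw [← sub_div, div_le_iff₀ (by linarith)] at k2
      linarith)
  exact_mod_cast h3.trans (Nat.le_ceil _)

end Vale.Agent.P188
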