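import Vale.Agent.P188.GAPoin
import Vale.Agent.P188.GACac

open scoped Pointwise

namespace Vale.Agent.P188

theorem galoc_cover {G : Type*} [DecidableEq G] {F Z : Finset G} {B : G → Finset G} {e : G → ℝ}
    (he : ∀ x, 0 ≤ e x) (h : ∀ x ∈ F, ∃ z ∈ Z, x ∈ B z) :
    ∑ x ∈ F, e x ≤ ∑ z ∈ Z, ∑ x ∈ B z, e x := by
  calc ∑ x ∈ F, e x ≤ ∑ x ∈ F, ∑ z ∈ Z, if x ∈ B z then e x else 0 := by
        refine Finset.sum_le_sum fun x hx => ?_
        obtain ⟨z, hz, hxz⟩ := h x hx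
        have := Finset.single_le_sum (f := fun z => if x ∈ B z then e x else 0)
          (fun z _ => by split_ifs; exacts [he x, le_rfl]) hz
        simpa only [if_pos hxz] using this
    _ = ∑ z ∈ Z, ∑ x ∈ F, if x ∈ B z then e x else 0 := Finset.sum_comm
    _ ≤ ∑ z ∈ Z, ∑ x ∈ B z, e x := by
        refine Finset.sum_le_sum fun z _ => ?_
        rw [← Finset.sum_filter]
        exact Finset.sum_le_sum_of_subset_of_nonneg (fun x hx => (Finset.mem_filter.1 hx).2)
          fun x _ _ => he x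

theorem galoc_overlap {G : Type*} [DecidableEq G] {F Z : Finset G} {B : G → Finset G} {e : G → ℝ}
    {K : ℝ} (he : ∀ x, 0 ≤ e x) (h : ∀ z ∈ Z, B z ⊆ F)
    (hK : ∀ x, ((Z.filter fun z => x ∈ B z).card : ℝ) ≤ K) :
    ∑ z ∈ Z, ∑ x ∈ B z, e x ≤ K * ∑ x ∈ F, e x := by
  calc ∑ z ∈ Z, ∑ x ∈ B z, e x = ∑ z ∈ Z, ∑ x ∈ F, if x ∈ B z then e x else 0 := by
        refine Finset.sum_congr rfl fun z hz => ?_
        rw [← Finset.sum_filter]
        refine Finset.sum_congr ?_ fun _ _ => rfl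
        ext x
        rw [Finset.mem_filter]
        exact ⟨fun hx => ⟨h z hz hx, hx⟩, fun hx => hx.2⟩
    _ = ∑ x ∈ F, ∑ z ∈ Z, if x ∈ B z then e x else 0 := Finset.sum_comm
    _ ≤ K * ∑ x ∈ F, e x := by
        rw [Finset.mul_sum]
        refine Finset.sum_le_sum fun x _ => ?_
        rw [← Finset.sum_filter, Finset.sum_const, nsmul_eq_mul]
        exact mul_le_mul_of_nonneg_right (hK x) (he x)

variable {G : Type*} [Group G] [DecidableEq G] {S : Finset G}

theorem kl_local (hS : SGen S) {ρ R : ℕ} (h : 6 * ρ ≤ R) (hR : 1 ≤ R) {K : ℝ}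
    (hK : ((S ^ (8 * ρ)).card : ℝ) ≤ K * (S ^ ρ).card) :
    ∃ Z : Finset G, Z.card * (S ^ ρ).card ≤ (S ^ (8 * R)).card ∧ ∀ u : G → ℝ, Har S u →
      (∀ z ∈ Z, ∑ x ∈ z • S ^ (2 * ρ), u x = 0) →
      (R : ℝ) ^ 2 * Sq u (S ^ R) ≤ 8 * K ^ 2 * S.card * ρ ^ 2 * Sq u (S ^ (8 * R)) := by
  obtain ⟨Z, hZ, hc, hcov, hov⟩ := cover hS ρ R
  have hcard : ∀ {m n : ℕ}, m ≤ n → ((S ^ m).card : ℝ) ≤ (S ^ n).card := fun hmn =>
    Nat.cast_le.2 (Finset.card_le_card (hS.mono hmn))
  have hpos : ∀ n : ℕ, (0 : ℝ) < (S ^ n).card := fun n => Nat.cast_pos.2 (hS.card_pos n)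
  have hK0 : 0 ≤ K := by
    have h1 := hpos (8 * ρ)
    have h2 := hpos ρ
    by_contra hn
    have : K * ((S ^ ρ).card : ℝ) < 0 := mul_neg_of_neg_of_pos (not_le.1 hn) h2
    linarith
  refine ⟨Z, hc.trans (Finset.card_le_card (hS.mono (by omega))), fun u hu h0 => ?_⟩
  have hEn : ∀ F : Finset G, 0 ≤ En S u F := fun F =>
    Finset.sum_nonneg fun x _ => Finset.sum_nonneg fun s _ => sq_nonneg _
  have a1 : Sq u (S ^ R) ≤ ∑ z ∈ Z, Sq u (z • S ^ (2 * ρ)) :=
    galoc_cover (B := fun z => z • S ^ (2 * ρ)) (fun x => sq_nonneg (u x)) hcov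
  have a2 : ∀ z ∈ Z, Sq u (z • S ^ (2 * ρ)) ≤ 8 * ρ ^ 2 * K * En S u (z • S ^ (6 * ρ)) := by
    intro z hz
    have hp := poin hS u z (2 * ρ) (h0 z hz)
    rw [show 3 * (2 * ρ) = 6 * ρ by ring] at hp
    have h4 : ((S ^ (2 * (2 * ρ))).card : ℝ) ≤ K * (S ^ (2 * ρ)).card :=
      (hcard (by omega)).trans (hK.trans (mul_le_mul_of_nonneg_left (hcard (by omega)) hK0))
    refine le_of_mul_le_mul_left ?_ (hpos (2 * ρ))
    refine hp.trans ?_
    have h5 := mul_le_mul_of_nonneg_left h4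
      (mul_nonneg (by positivity : (0 : ℝ) ≤ 8 * ρ ^ 2) (hEn (z • S ^ (6 * ρ))))
    push_cast
    linarith
  have a3 : ∑ z ∈ Z, En S u (z • S ^ (6 * ρ)) ≤ K * En S u (S ^ (2 * R)) := by
    refine galoc_overlap (B := fun z => z • S ^ (6 * ρ))
      (e := fun x => ∑ s ∈ S, (u (x * s) - u x) ^ 2)
      (fun x => Finset.sum_nonneg fun s _ => sq_nonneg _) (fun z hz x hx => ?_) fun x => ?_
    · have := mul_mem_pow (hZ hz) (mem_smul_pow.1 hx)
      rw [mul_inv_cancel_left] at this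
      exact hS.mono (by omega) this
    · refine le_of_mul_le_mul_right ?_ (hpos ρ)
      have h6 : (((Z.filter fun z => x ∈ z • S ^ (6 * ρ)).card : ℝ)) * (S ^ ρ).card ≤
          (S ^ (7 * ρ)).card := by exact_mod_cast hov x
      exact h6.trans ((hcard (by omega)).trans hK)
  have a4 : (R : ℝ) ^ 2 * En S u (S ^ (2 * R)) ≤ S.card * Sq u (S ^ (8 * R)) := by
    refine (cacc hS hu (2 * R) R).trans (mul_le_mul_of_nonneg_left ?_ (Nat.cast_nonneg _))
    exact Finset.sum_le_sum_of_subset_of_nonneg (hS.mono (by omega)) fun x _ _ => sq_nonneg _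
  have a5 : Sq u (S ^ R) ≤ 8 * ρ ^ 2 * K * (K * En S u (S ^ (2 * R))) := by
    refine a1.trans ((Finset.sum_le_sum a2).trans ?_)
    rw [← Finset.mul_sum]
    exact mul_le_mul_of_nonneg_left a3 (by positivity)
  calc (R : ℝ) ^ 2 * Sq u (S ^ R) ≤ R ^ 2 * (8 * ρ ^ 2 * K * (K * En S u (S ^ (2 * R)))) :=
        mul_le_mul_of_nonneg_left a5 (by positivity)
    _ = 8 * K ^ 2 * ρ ^ 2 * (R ^ 2 * En S u (S ^ (2 * R))) := by ring
    _ ≤ 8 * K ^ 2 * ρ ^ 2 * (S.card * Sq u (S ^ (8 * R))) :=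
        mul_le_mul_of_nonneg_left a4 (by positivity)
    _ = _ := by ring

theorem scale {x y : ℕ → ℝ} (hx : Monotone x) (hy : Monotone y) {α β c : ℝ} (hα : 0 ≤ α)
    (hβ : 0 ≤ β) (h1 : ∀ k, x k ≤ α * k + c) (h2 : ∀ k, y k ≤ β * k + c) (w : ℕ) :
    ∃ k, x (k + 1) - x k ≤ 2 * α + β + 1 ∧ y (k + w + 1) - y (k + w) ≤ 2 * α + β + 1 ∧
      x (k + w + 1) - x k ≤ (w + 1) * (2 * α + β + 1) := by
  by_contra hcon
  have hw : (0 : ℝ) < w + 1 := by positivity
  set γ := 2 * α + β + 1 with hγ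
  let P : ℕ → ℝ := fun k => (w + 1) * (x k + y (k + w)) + ∑ j ∈ Finset.range (w + 1), x (k + j)
  have tel : ∀ k, ∑ j ∈ Finset.range (w + 1), x (k + 1 + j) =
      ∑ j ∈ Finset.range (w + 1), x (k + j) + (x (k + w + 1) - x k) := by
    intro k
    have e1 := Finset.sum_range_succ (fun j => x (k + j)) (w + 1)
    have e2 := Finset.sum_range_succ' (fun j => x (k + j)) (w + 1)
    have e3 : ∑ j ∈ Finset.range (w + 1), x (k + (j + 1)) =
        ∑ j ∈ Finset.range (w + 1), x (k + 1 + j) :=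
      Finset.sum_congr rfl fun j _ => by rw [add_assoc, add_comm 1 j]
    simp only [add_zero] at e2
    rw [e3] at e2
    rw [← add_assoc] at e1
    linarith
  have step : ∀ k, P k + (w + 1) * γ ≤ P (k + 1) := by
    intro k
    have m1 : x k ≤ x (k + 1) := hx (by omega)
    have m2 : y (k + w) ≤ y (k + w + 1) := hy (by omega)
    have m3 : x k ≤ x (k + w + 1) := hx (by omega)
    have e : P (k + 1) - P k = (w + 1) * (x (k + 1) - x k) + (w + 1) * (y (k + w + 1) - y (k + w)) +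
        (x (k + w + 1) - x k) := by
      simp only [P, tel k, show k + 1 + w = k + w + 1 by ring]
      ring
    have n1 := mul_nonneg hw.le (sub_nonneg.2 m1)
    have n2 := mul_nonneg hw.le (sub_nonneg.2 m2)
    by_cases c1 : x (k + 1) - x k ≤ γ
    · by_cases c2 : y (k + w + 1) - y (k + w) ≤ γ
      · have c3 : ¬ x (k + w + 1) - x k ≤ (w + 1) * γ := fun c3 => hcon ⟨k, c1, c2, c3⟩
        linarith [not_le.1 c3]
      · have := mul_le_mul_of_nonneg_left (not_le.1 c2).le hw.le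
        linarith
    · have := mul_le_mul_of_nonneg_left (not_le.1 c1).le hw.le
      linarith
  have low : ∀ k : ℕ, P 0 + k * ((w + 1) * γ) ≤ P k := by
    intro k
    induction k with
    | zero => simp
    | succ k ih =>
      have := step k
      push_cast
      linarith
  have up : ∀ k : ℕ, P k ≤ (w + 1) * ((2 * α + β) * k + (α + β) * w + 3 * c) := by
    intro k
    have s1 : ∑ j ∈ Finset.range (w + 1), x (k + j) ≤ (w + 1) * (α * (k + w) + c) := by
      have := Finset.sum_le_card_nsmul (Finset.range (w + 1)) (fun j => x (k + j))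
        (α * (k + w) + c) fun j hj => by
          have hj' : j ≤ w := Nat.lt_succ_iff.1 (Finset.mem_range.1 hj)
          have := (hx (Nat.add_le_add_left hj' k)).trans (h1 (k + w))
          push_cast at this
          exact this
      rw [Finset.card_range, nsmul_eq_mul] at this
      push_cast at this
      exact this
    have s2 := h1 k
    have s3 := h2 (k + w)
    push_cast at s3
    have s4 := mul_le_mul_of_nonneg_left (add_le_add s2 s3) hw.le
    simp only [P]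
    linarith
  obtain ⟨k, hk⟩ := exists_nat_gt ((α + β) * w + 3 * c - P 0 / (w + 1))
  have f1 := (low k).trans (up k)
  have f2 := mul_lt_mul_of_pos_left hk hw
  rw [mul_sub, mul_div_cancel₀ _ hw.ne'] at f2
  rw [hγ] at f1
  linarith

end Vale.Agent.P188
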