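import Vale.Agent.P188.GADefs

open scoped Pointwise

namespace Vale.Agent.P188

variable {G : Type*} [Group G] [DecidableEq G] {S : Finset G}

omit [DecidableEq G] in
theorem gapoin_mono (u : G → ℝ) {F F' : Finset G} (h : F ⊆ F') : En S u F ≤ En S u F' :=
  Finset.sum_le_sum_of_subset_of_nonneg h fun _ _ _ => Finset.sum_nonneg fun _ _ => sq_nonneg _

omit [DecidableEq G] in
theorem gapoin_nonneg (u : G → ℝ) (F : Finset G) : 0 ≤ En S u F :=
  Finset.sum_nonneg fun _ _ => Finset.sum_nonneg fun _ _ => sq_nonneg _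

theorem gapoin_step (u : G → ℝ) (F T : Finset G) {g s : G} (hs : s ∈ S)
    (hT : ∀ x ∈ F, x * g ∈ T) :
    ∑ x ∈ F, (u (x * g * s) - u (x * g)) ^ 2 ≤ En S u T := by
  have h1 : ∑ x ∈ F, (u (x * g * s) - u (x * g)) ^ 2 ≤
      ∑ x ∈ F, ∑ t ∈ S, (u (x * g * t) - u (x * g)) ^ 2 :=
    Finset.sum_le_sum fun x _ =>
      Finset.single_le_sum (f := fun t => (u (x * g * t) - u (x * g)) ^ 2)
        (fun _ _ => sq_nonneg _) hs
  have h2 : ∑ x ∈ F, ∑ t ∈ S, (u (x * g * t) - u (x * g)) ^ 2 =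
      En S u (F.image fun x => x * g) := by
    unfold En
    rw [Finset.sum_image (fun x _ y _ h => mul_right_cancel h)]
  have h3 : (F.image fun x => x * g) ⊆ T := by
    intro y hy
    obtain ⟨x, hx, rfl⟩ := Finset.mem_image.1 hy
    exact hT x hx
  exact h1.trans (h2.le.trans (gapoin_mono u h3))

theorem poin_shift (hS : SGen S) (u : G → ℝ) (F : Finset G) {k : ℕ} {g : G} (hg : g ∈ S ^ k) :
    ∑ x ∈ F, (u (x * g) - u x) ^ 2 ≤ k ^ 2 * En S u (F * S ^ k) := by
  induction k generalizing g with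
  | zero =>
    rw [pow_zero, Finset.mem_one] at hg
    simp [hg]
  | succ k ih =>
    obtain ⟨y, hy, s, hs, rfl⟩ := mem_pow_succ hg
    have hsub : F * S ^ k ⊆ F * S ^ (k + 1) :=
      Finset.mul_subset_mul_left (hS.mono (Nat.le_succ k))
    have hb : ∑ x ∈ F, (u (x * y * s) - u (x * y)) ^ 2 ≤ En S u (F * S ^ (k + 1)) :=
      gapoin_step u F _ hs fun x hx => hsub (Finset.mul_mem_mul hx hy)
    have hE := gapoin_nonneg (S := S) u (F * S ^ (k + 1))
    rcases Nat.eq_zero_or_pos k with rfl | hk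
    · rw [pow_zero, Finset.mem_one] at hy
      subst hy
      simpa using hb
    · have ha : ∑ x ∈ F, (u (x * y) - u x) ^ 2 ≤ k ^ 2 * En S u (F * S ^ (k + 1)) :=
        (ih hy).trans (mul_le_mul_of_nonneg_left (gapoin_mono u hsub) (by positivity))
      have hk' : (0 : ℝ) < k := by exact_mod_cast hk
      have hc : (k : ℝ) * ∑ x ∈ F, (u (x * (y * s)) - u x) ^ 2 ≤
          (k + 1) * ∑ x ∈ F, (u (x * y) - u x) ^ 2 +
            k * (k + 1) * ∑ x ∈ F, (u (x * y * s) - u (x * y)) ^ 2 := by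
        rw [Finset.mul_sum, Finset.mul_sum, Finset.mul_sum, ← Finset.sum_add_distrib]
        refine Finset.sum_le_sum fun x _ => ?_
        rw [← mul_assoc]
        nlinarith [sq_nonneg ((u (x * y) - u x) - k * (u (x * y * s) - u (x * y)))]
      have h1 := mul_le_mul_of_nonneg_left ha (by positivity : (0 : ℝ) ≤ k + 1)
      have h2 := mul_le_mul_of_nonneg_left hb (by positivity : (0 : ℝ) ≤ k * (k + 1))
      refine le_of_mul_le_mul_left ?_ hk'
      push_cast
      nlinarith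

omit [Group G] [DecidableEq G] in
theorem gapoin_var (u : G → ℝ) (B : Finset G) (h0 : ∑ x ∈ B, u x = 0) :
    ∑ x ∈ B, ∑ y ∈ B, (u y - u x) ^ 2 = 2 * (B.card * Sq u B) := by
  have h1 : ∀ x, ∑ y ∈ B, (u y - u x) ^ 2 = Sq u B + B.card * u x ^ 2 := by
    intro x
    have : ∀ y, (u y - u x) ^ 2 = u y ^ 2 - 2 * u x * u y + u x ^ 2 := fun y => by ring
    simp only [this, Finset.sum_add_distrib, Finset.sum_sub_distrib, ← Finset.mul_sum, h0,
      Finset.sum_const, nsmul_eq_mul, Sq]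
    ring
  simp only [h1, Finset.sum_add_distrib, ← Finset.mul_sum, Finset.sum_const, nsmul_eq_mul]
  unfold Sq
  ring

/-- Poincare inequality on balls -/
theorem poin (hS : SGen S) (u : G → ℝ) (z : G) (r : ℕ) (h0 : ∑ x ∈ z • S ^ r, u x = 0) :
    ((S ^ r).card : ℝ) * Sq u (z • S ^ r) ≤
      2 * r ^ 2 * (S ^ (2 * r)).card * En S u (z • S ^ (3 * r)) := by
  have hv := gapoin_var u _ h0
  rw [Finset.card_smul_finset] at hv
  have h1 : ∀ x ∈ z • S ^ r, ∑ y ∈ z • S ^ r, (u y - u x) ^ 2 ≤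
      ∑ g ∈ S ^ (2 * r), (u (x * g) - u x) ^ 2 := by
    intro x hx
    have h2 : ∑ g ∈ S ^ (2 * r), (u (x * g) - u x) ^ 2 =
        ∑ y ∈ (S ^ (2 * r)).image fun g => x * g, (u y - u x) ^ 2 := by
      rw [Finset.sum_image (fun a _ b _ h => mul_left_cancel h)]
    rw [h2]
    refine Finset.sum_le_sum_of_subset_of_nonneg (fun y hy => ?_) fun _ _ _ => sq_nonneg _
    refine Finset.mem_image.2 ⟨x⁻¹ * y, ?_, by simp⟩
    have := mul_mem_pow (hS.inv_mem (mem_smul_pow.1 hx)) (mem_smul_pow.1 hy)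
    rw [two_mul]
    simpa [mul_assoc] using this
  have hsub : (z • S ^ r) * S ^ (2 * r) ⊆ z • S ^ (3 * r) := by
    intro y hy
    obtain ⟨a, ha, b, hb, rfl⟩ := Finset.mem_mul.1 hy
    have := mul_mem_pow (mem_smul_pow.1 ha) hb
    rw [mem_smul_pow, ← mul_assoc, show 3 * r = r + 2 * r by ring]
    exact this
  have h3 : ∀ g ∈ S ^ (2 * r), ∑ x ∈ z • S ^ r, (u (x * g) - u x) ^ 2 ≤
      ((2 * r : ℕ) : ℝ) ^ 2 * En S u (z • S ^ (3 * r)) := fun g hg =>
    (poin_shift hS u _ hg).trans (mul_le_mul_of_nonneg_left (gapoin_mono u hsub) (by positivity))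
  have h4 := Finset.sum_le_sum h1
  rw [hv, Finset.sum_comm] at h4
  have h5 := h4.trans (Finset.sum_le_sum h3)
  rw [Finset.sum_const, nsmul_eq_mul] at h5
  push_cast at h5
  nlinarith

theorem gapoin_pack (ρ : ℕ) (Z T : Finset G)
    (hZ : ∀ a ∈ Z, ∀ b ∈ Z, a ≠ b → Disjoint (a • S ^ ρ) (b • S ^ ρ))
    (hT : ∀ z ∈ Z, z • S ^ ρ ⊆ T) : Z.card * (S ^ ρ).card ≤ T.card := by
  have h1 : (Z.biUnion fun z => z • S ^ ρ).card = ∑ z ∈ Z, (z • S ^ ρ).card :=
    Finset.card_biUnion fun a ha b hb hab => hZ a ha b hb hab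
  simp only [Finset.card_smul_finset, Finset.sum_const, smul_eq_mul] at h1
  rw [← h1]
  exact Finset.card_le_card (Finset.biUnion_subset.2 hT)

/-- covering by few balls with bounded overlap -/
theorem cover (hS : SGen S) (ρ R : ℕ) : ∃ Z : Finset G, Z ⊆ S ^ R ∧
    Z.card * (S ^ ρ).card ≤ (S ^ (R + ρ)).card ∧
    (∀ x ∈ S ^ R, ∃ z ∈ Z, x ∈ z • S ^ (2 * ρ)) ∧
    ∀ x, (Z.filter fun z => x ∈ z • S ^ (6 * ρ)).card * (S ^ ρ).card ≤ (S ^ (7 * ρ)).card := by
  classical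
  obtain ⟨Z, hZ, hmax⟩ := Finset.exists_max_image
    ((S ^ R).powerset.filter fun Z : Finset G =>
      ∀ a ∈ Z, ∀ b ∈ Z, a ≠ b → Disjoint (a • S ^ ρ) (b • S ^ ρ)) Finset.card ⟨∅, by simp⟩
  obtain ⟨hZ1, hZ2⟩ := Finset.mem_filter.1 hZ
  rw [Finset.mem_powerset] at hZ1
  refine ⟨Z, hZ1, gapoin_pack ρ Z _ hZ2 fun z hz y hy => ?_, fun x hx => ?_, fun x => ?_⟩
  · simpa using mul_mem_pow (hZ1 hz) (mem_smul_pow.1 hy)
  · by_contra hcon
    push Not at hcon
    have hxZ : x ∉ Z := fun h => hcon x h (by simpa [mem_smul_pow] using hS.one_mem _)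
    have hd : ∀ z ∈ Z, Disjoint (x • S ^ ρ) (z • S ^ ρ) := by
      intro z hz
      refine Finset.disjoint_left.2 fun y hy1 hy2 => hcon z hz ?_
      have := mul_mem_pow (mem_smul_pow.1 hy2) (hS.inv_mem (mem_smul_pow.1 hy1))
      rw [mem_smul_pow, two_mul]
      simpa [mul_assoc] using this
    have hin : insert x Z ∈ (S ^ R).powerset.filter fun Z : Finset G =>
        ∀ a ∈ Z, ∀ b ∈ Z, a ≠ b → Disjoint (a • S ^ ρ) (b • S ^ ρ) := by
      refine Finset.mem_filter.2 ⟨Finset.mem_powerset.2 (Finset.insert_subset hx hZ1), ?_⟩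
      intro a ha b hb hab
      rcases Finset.mem_insert.1 ha with rfl | ha'
      · rcases Finset.mem_insert.1 hb with rfl | hb'
        · exact absurd rfl hab
        · exact hd b hb'
      · rcases Finset.mem_insert.1 hb with rfl | hb'
        · exact (hd a ha').symm
        · exact hZ2 a ha' b hb' hab
    have := hmax _ hin
    rw [Finset.card_insert_of_notMem hxZ] at this
    omega
  · have h1 := gapoin_pack ρ (Z.filter fun z => x ∈ z • S ^ (6 * ρ)) (x • S ^ (7 * ρ))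
      (fun a ha b hb hab => hZ2 a (Finset.mem_filter.1 ha).1 b (Finset.mem_filter.1 hb).1 hab)
      (fun z hz y hy => by
        have := mul_mem_pow (hS.inv_mem (mem_smul_pow.1 (Finset.mem_filter.1 hz).2))
          (mem_smul_pow.1 hy)
        rw [mem_smul_pow, show 7 * ρ = 6 * ρ + ρ by ring]
        simpa [mul_assoc] using this)
    rwa [Finset.card_smul_finset] at h1

end Vale.Agent.P188
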