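import Vale.Agent.P188.GADefs

open scoped Pointwise

namespace Vale.Agent.P188

variable {G : Type*} [Group G] {d : ℕ}

/-- words in the short elements -/
def gashaW (h : ℕ → G) : ℕ → List ℕ → G
  | _, [] => 1
  | k, i :: l => h k ^ i * gashaW h (k + 1) l

theorem gasha_mem {S : Set G} {h : ℕ → G} (hh : ∀ k, h k ∈ S ^ 4 ^ k) (M : ℕ) (l : List ℕ) :
    ∀ k, (∀ i ∈ l, i < M) → ∃ n, n + M * 4 ^ k ≤ M * 4 ^ (k + l.length) ∧ gashaW h k l ∈ S ^ n := by
  induction l with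
  | nil => exact fun k _ => ⟨0, by simp, by simp [gashaW]⟩
  | cons i l ih =>
    intro k hl
    obtain ⟨n, h1, h2⟩ := ih (k + 1) fun j hj => hl j (List.mem_cons_of_mem _ hj)
    have hi := hl i List.mem_cons_self
    refine ⟨4 ^ k * i + n, ?_, ?_⟩
    · have e : k + (i :: l).length = k + 1 + l.length := by simp only [List.length_cons]; omega
      have h3 : 4 ^ k * i ≤ M * 4 ^ k := by rw [mul_comm]; exact Nat.mul_le_mul_right _ hi.le
      rw [e]
      rw [pow_succ, ← mul_assoc] at h1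
      omega
    · rw [pow_add, pow_mul]
      exact Set.mul_mem_mul (Set.pow_mem_pow (hh k)) h2

theorem gasha_fin {S : Set G} (hS : S.Finite) (n : ℕ) : (S ^ n).Finite := by
  induction n with
  | zero => rw [pow_zero]; exact Set.finite_one
  | succ n ih => rw [pow_succ]; exact ih.mul hS

section
variable {A : Type*} [NormedRing A] {r : G →* A} {C : ℝ}

theorem gasha_mul (hC : ∀ g, ‖r g‖ ≤ C) (x y : G) :
    ‖r (x * y) - 1‖ ≤ C * ‖r y - 1‖ + ‖r x - 1‖ := by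
  have e : r (x * y) - 1 = r x * (r y - 1) + (r x - 1) := by
    rw [map_mul, mul_sub, mul_one]; abel
  rw [e]
  have h1 := norm_mul_le (r x) (r y - 1)
  have h2 := mul_le_mul_of_nonneg_right (hC x) (norm_nonneg (r y - 1))
  exact (norm_add_le _ _).trans (by linarith)

theorem gasha_pow (hC : ∀ g, ‖r g‖ ≤ C) (g : G) (j : ℕ) :
    ‖r (g ^ j) - 1‖ ≤ C * j * ‖r g - 1‖ := by
  induction j with
  | zero => simp
  | succ j ih =>
    have := gasha_mul hC (g ^ j) g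
    rw [pow_succ]
    push_cast
    linarith

theorem gasha_W (hC : ∀ g, ‖r g‖ ≤ C) (h1 : 1 ≤ C) {M : ℕ} (hM : 1 ≤ M) {θ : ℝ}
    (hθ : 16 * C ^ 2 * M * θ = 1) {h : ℕ → G}
    (hs : ∀ k, ‖r (h (k + 1)) - 1‖ ≤ θ * ‖r (h k) - 1‖) (l : List ℕ) :
    ∀ k, (∀ i ∈ l, i < M) → ‖r (gashaW h k l) - 1‖ ≤ 2 * C * M * ‖r (h k) - 1‖ := by
  induction l with
  | nil =>
    intro k _
    simp only [gashaW, map_one, sub_self, norm_zero]
    positivity
  | cons i l ih =>
    intro k hl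
    have a1 := ih (k + 1) fun j hj => hl j (List.mem_cons_of_mem _ hj)
    have hi : (i : ℝ) ≤ M := by exact_mod_cast (hl i List.mem_cons_self).le
    have hM' : (1 : ℝ) ≤ M := by exact_mod_cast hM
    have a2 := gasha_mul hC (h k ^ i) (gashaW h (k + 1) l)
    have a3 := gasha_pow hC (h k) i
    have a0 := norm_nonneg (r (h k) - 1)
    have a4 : C * i * ‖r (h k) - 1‖ ≤ C * M * ‖r (h k) - 1‖ := by gcongr
    have a5 : C * ‖r (gashaW h (k + 1) l) - 1‖ ≤ C * (2 * C * M * (θ * ‖r (h k) - 1‖)) :=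
      mul_le_mul_of_nonneg_left (a1.trans (mul_le_mul_of_nonneg_left (hs k) (by positivity)))
        (by positivity)
    have a6 : C * (2 * C * M * (θ * ‖r (h k) - 1‖)) = ‖r (h k) - 1‖ / 8 := by
      have : C * (2 * C * M * (θ * ‖r (h k) - 1‖)) = 16 * C ^ 2 * M * θ * ‖r (h k) - 1‖ / 8 := by
        ring
      rw [this, hθ, one_mul]
    have a7 : 1 * 1 * ‖r (h k) - 1‖ ≤ C * M * ‖r (h k) - 1‖ := by gcongr
    change ‖r (h k ^ i * gashaW h (k + 1) l) - 1‖ ≤ _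
    linarith

theorem gasha_div (hC : ∀ g, ‖r g‖ ≤ C) (x y : G) :
    ‖r (x * y⁻¹) - 1‖ ≤ C * (‖r x - 1‖ + ‖r y - 1‖) := by
  have e : r (x * y⁻¹) - 1 = ((r x - 1) - (r y - 1)) * r y⁻¹ := by
    rw [sub_sub_sub_cancel_right, sub_mul, ← map_mul, ← map_mul, mul_inv_cancel, map_one]
  rw [e, mul_comm C]
  exact (norm_mul_le _ _).trans (mul_le_mul (norm_sub_le _ _) (hC _) (norm_nonneg _)
    (by positivity))

variable [NormedAlgebra ℂ A]

theorem gasha_lin (hC : ∀ g, ‖r g‖ ≤ C) (g : G) (t : ℕ) :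
    ‖r (g ^ t) - 1 - (t : ℂ) • (r g - 1)‖ ≤ C * t ^ 2 * ‖r g - 1‖ ^ 2 := by
  have h0 : 0 ≤ C := (norm_nonneg _).trans (hC 1)
  induction t with
  | zero => simp
  | succ t ih =>
    have e : r (g ^ (t + 1)) - 1 - ((t + 1 : ℕ) : ℂ) • (r g - 1) =
        (r (g ^ t) - 1 - (t : ℂ) • (r g - 1)) + (r (g ^ t) - 1) * (r g - 1) := by
      rw [pow_succ, map_mul, Nat.cast_succ, add_smul, one_smul, sub_mul, mul_sub, mul_one, one_mul]
      abel
    rw [e]
    have a1 := norm_mul_le (r (g ^ t) - 1) (r g - 1)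
    have a2 := mul_le_mul_of_nonneg_right (gasha_pow hC g t) (norm_nonneg (r g - 1))
    have a3 : 0 ≤ C * (t + 1) * ‖r g - 1‖ ^ 2 := by positivity
    refine (norm_add_le _ _).trans ?_
    push_cast
    nlinarith

theorem gasha_low (hC : ∀ g, ‖r g‖ ≤ C) (g : G) {t M : ℕ} (h1 : 1 ≤ t) (h2 : t ≤ M)
    (hs : C * M * ‖r g - 1‖ ≤ 1 / 2) : ‖r g - 1‖ / 2 ≤ ‖r (g ^ t) - 1‖ := by
  have h0 : 0 ≤ C := (norm_nonneg _).trans (hC 1)
  have a1 := gasha_lin hC g t
  have a2 := norm_sub_norm_le ((t : ℂ) • (r g - 1)) (r (g ^ t) - 1)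
  rw [norm_sub_rev ((t : ℂ) • (r g - 1)), norm_smul, Complex.norm_natCast] at a2
  have t1 : (1 : ℝ) ≤ t := by exact_mod_cast h1
  have t2 : (t : ℝ) ≤ M := by exact_mod_cast h2
  have a0 := norm_nonneg (r g - 1)
  have a3 : C * t * ‖r g - 1‖ ≤ C * M * ‖r g - 1‖ := by gcongr
  have a4 := mul_le_mul_of_nonneg_right (a3.trans hs) (show 0 ≤ t * ‖r g - 1‖ by positivity)
  have a5 := mul_le_mul_of_nonneg_right t1 a0
  nlinarith

theorem gasha_inj (hC : ∀ g, ‖r g‖ ≤ C) (h1 : 1 ≤ C) {M : ℕ} (hM : 1 ≤ M) {θ : ℝ}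
    (hθ : 16 * C ^ 2 * M * θ = 1) {h : ℕ → G} (hne : ∀ k, r (h k) ≠ 1)
    (hb : ∀ k, ‖r (h k) - 1‖ ≤ θ)
    (hs : ∀ k, ‖r (h (k + 1)) - 1‖ ≤ θ * ‖r (h k) - 1‖) (l : List ℕ) :
    ∀ (l' : List ℕ) (k : ℕ), l.length = l'.length → (∀ i ∈ l, i < M) → (∀ i ∈ l', i < M) →
      gashaW h k l = gashaW h k l' → l = l' := by
  have hM' : (1 : ℝ) ≤ M := by exact_mod_cast hM
  have key : ∀ (k i j : ℕ) (l l' : List ℕ), j < i → i < M → (∀ i ∈ l, i < M) → (∀ i ∈ l', i < M) →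
      h k ^ i * gashaW h (k + 1) l = h k ^ j * gashaW h (k + 1) l' → False := by
    intro k i j l l' hji hi hl hl' e
    obtain ⟨t, rfl⟩ := Nat.exists_eq_add_of_lt hji
    rw [add_assoc, pow_add, mul_assoc, mul_right_inj, ← eq_mul_inv_iff_mul_eq] at e
    have a0 : 0 < ‖r (h k) - 1‖ := norm_pos_iff.2 (sub_ne_zero.2 (hne k))
    have hθ0 : 0 ≤ θ := a0.le.trans (hb k)
    have a1 : C * M * ‖r (h k) - 1‖ ≤ 1 / 2 := by
      have b1 : C * M * ‖r (h k) - 1‖ ≤ C * M * θ := mul_le_mul_of_nonneg_left (hb k) (by positivity)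
      have b2 : 1 * (C * M * θ) ≤ C * (C * M * θ) := mul_le_mul_of_nonneg_right h1 (by positivity)
      nlinarith
    have a2 := gasha_low hC (h k) (show 1 ≤ t + 1 by omega) (show t + 1 ≤ M by omega) a1
    have a3 := gasha_div hC (gashaW h (k + 1) l') (gashaW h (k + 1) l)
    have a4 := gasha_W hC h1 hM hθ hs l (k + 1) hl
    have a5 := gasha_W hC h1 hM hθ hs l' (k + 1) hl'
    have a6 := mul_le_mul_of_nonneg_left (hs k) (show 0 ≤ 2 * C * M by positivity)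
    rw [← e] at a3
    have a7 : C * (‖r (gashaW h (k + 1) l') - 1‖ + ‖r (gashaW h (k + 1) l) - 1‖) ≤
        C * (2 * (2 * C * M * (θ * ‖r (h k) - 1‖))) :=
      mul_le_mul_of_nonneg_left (by linarith) (by positivity)
    have a8 : C * (2 * (2 * C * M * (θ * ‖r (h k) - 1‖))) = ‖r (h k) - 1‖ / 4 := by
      have : C * (2 * (2 * C * M * (θ * ‖r (h k) - 1‖))) =
          16 * C ^ 2 * M * θ * ‖r (h k) - 1‖ / 4 := by ring
      rw [this, hθ, one_mul]
    linarith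
  induction l with
  | nil =>
    intro l' k e _ _ _
    exact (List.length_eq_zero_iff.1 e.symm).symm
  | cons i l ih =>
    intro l' k e hl hl' he
    rcases l' with _ | ⟨j, l'⟩
    · simp at e
    have m1 : ∀ x ∈ l, x < M := fun x hx => hl x (List.mem_cons_of_mem _ hx)
    have m2 : ∀ x ∈ l', x < M := fun x hx => hl' x (List.mem_cons_of_mem _ hx)
    change h k ^ i * gashaW h (k + 1) l = h k ^ j * gashaW h (k + 1) l' at he
    rcases lt_trichotomy i j with c | c | c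
    · exact (key k j i l' l c (hl' j List.mem_cons_self) m2 m1 he.symm).elim
    · subst c
      rw [ih l' (k + 1) (by simpa using e) m1 m2 (mul_left_cancel he)]
    · exact (key k i j l l' c (hl i List.mem_cons_self) m1 m2 he).elim

end

/-- a rapidly shrinking sequence of short elements forces fast growth -/
theorem sh_count (hG : PG G d) {A : Type*} [NormedRing A] [NormedAlgebra ℂ A] (r : G →* A)
    {C : ℝ} (hC : ∀ g, ‖r g‖ ≤ C) : ∃ θ > (0 : ℝ), ∀ (S : Set G) (h : ℕ → G), S.Finite →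
      (1 : G) ∈ S → (∀ k, h k ∈ S ^ 4 ^ k) → (∀ k, r (h k) ≠ 1) → ‖r (h 0) - 1‖ ≤ θ →
      (∀ k, ‖r (h (k + 1)) - 1‖ ≤ θ * ‖r (h k) - 1‖) → False := by
  classical
  have hC' : ∀ g, ‖r g‖ ≤ max 1 C := fun g => (hC g).trans (le_max_right _ _)
  have h1 : 1 ≤ max 1 C := le_max_left _ _
  generalize max 1 C = K at hC' h1
  obtain ⟨M, hMd⟩ : ∃ M : ℕ, M = 2 * 4 ^ d := ⟨_, rfl⟩
  have hM : 1 ≤ M := by
    have : 0 < 4 ^ d := by positivity
    omega
  have hM' : (1 : ℝ) ≤ M := by exact_mod_cast hM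
  refine ⟨1 / (16 * K ^ 2 * M), by positivity, fun S h hS hS1 hh hne h0 hs => ?_⟩
  have hθ : 16 * K ^ 2 * M * (1 / (16 * K ^ 2 * M)) = 1 := by field_simp
  have hθ1 : 1 / (16 * K ^ 2 * M) ≤ 1 := by
    rw [div_le_one (by positivity)]
    have : 1 ≤ K ^ 2 := one_le_pow₀ h1
    nlinarith
  generalize 1 / (16 * K ^ 2 * M) = θ at h0 hs hθ hθ1
  have hb : ∀ k, ‖r (h k) - 1‖ ≤ θ := by
    intro k
    induction k with
    | zero => exact h0
    | succ k ih =>
      have := mul_le_mul_of_nonneg_right hθ1 (norm_nonneg (r (h k) - 1))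
      linarith [hs k]
  obtain ⟨C', hC2⟩ := hG S hS
  obtain ⟨m, hm⟩ := pow_unbounded_of_one_lt (max C' 0 * (2 * M : ℝ) ^ d) (one_lt_two (α := ℝ))
  have hl : ∀ f : Fin m → Fin M, ∀ i ∈ List.ofFn (fun j => (f j : ℕ)), i < M := by
    intro f i hi
    obtain ⟨j, rfl⟩ := List.mem_ofFn.1 hi
    exact (f j).2
  have hinj : Function.Injective fun f : Fin m → Fin M =>
      gashaW h 0 (List.ofFn fun j => (f j : ℕ)) := by
    intro f g e
    have := List.ofFn_injective (gasha_inj hC' h1 hM hθ hne hb hs _ _ 0 (by simp) (hl f) (hl g) e)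
    exact funext fun j => Fin.ext (congrFun this j)
  have hsub : ((Finset.univ.image fun f : Fin m → Fin M =>
      gashaW h 0 (List.ofFn fun j => (f j : ℕ)) : Finset G) : Set G) ⊆ S ^ (M * 4 ^ m) := by
    intro x hx
    obtain ⟨f, -, rfl⟩ := Finset.mem_image.1 (Finset.mem_coe.1 hx)
    obtain ⟨n, n1, n2⟩ := gasha_mem hh M _ 0 (hl f)
    rw [List.length_ofFn, zero_add] at n1
    exact Set.pow_subset_pow_right hS1 (by omega) n2
  have c1 := Set.ncard_le_ncard hsub (gasha_fin hS _)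
  rw [Set.ncard_coe_finset, Finset.card_image_of_injective _ hinj, Finset.card_univ,
    Fintype.card_fun, Fintype.card_fin, Fintype.card_fin] at c1
  have c2 : (M : ℝ) ^ m ≤ max C' 0 * (((M * 4 ^ m : ℕ) : ℝ) + 1) ^ d := by
    refine le_trans (by exact_mod_cast c1) ((hC2 _).trans ?_)
    exact mul_le_mul_of_nonneg_right (le_max_left _ _) (by positivity)
  have c3 : (((M * 4 ^ m : ℕ) : ℝ) + 1) ^ d ≤ (2 * M : ℝ) ^ d * (4 ^ d) ^ m := by
    rw [← pow_mul, mul_comm d m, pow_mul, ← mul_pow]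
    refine pow_le_pow_left₀ (by positivity) ?_ d
    have : (1 : ℝ) ≤ 4 ^ m := one_le_pow₀ (by norm_num)
    push_cast
    nlinarith
  have c4 : (M : ℝ) ^ m = 2 ^ m * (4 ^ d) ^ m := by
    rw [← mul_pow, hMd]; push_cast; rfl
  have c5 := c2.trans (mul_le_mul_of_nonneg_left c3 (le_max_right _ _))
  rw [c4, ← mul_assoc] at c5
  exact absurd (le_of_mul_le_mul_right c5 (by positivity)) (not_le.2 hm)

end Vale.Agent.P188
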