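import Vale.Agent.P188.GAShA
import Vale.Agent.P188.GAGrow

open scoped Pointwise

namespace Vale.Agent.P188

variable {G : Type*} [Group G] {d : ℕ}

/-- a finitely generated subgroup is generated by a finite part of any symmetric generating set -/
theorem gashb_fin {U : Set G} (h1 : (1 : G) ∈ U) (hU : ∀ g ∈ U, g⁻¹ ∈ U)
    (hfg : (Subgroup.closure U).FG) : ∃ S : Set G, S.Finite ∧ S ⊆ U ∧ (1 : G) ∈ S ∧
      (∀ g ∈ S, g⁻¹ ∈ S) ∧ Subgroup.closure S = Subgroup.closure U := by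
  have key : ∀ x ∈ Subgroup.closure U, ∃ T : Set G, T.Finite ∧ T ⊆ U ∧ x ∈ Subgroup.closure T := by
    intro x hx
    induction hx using Subgroup.closure_induction with
    | mem x hx => exact ⟨{x}, Set.finite_singleton x, by simpa using hx,
        Subgroup.subset_closure rfl⟩
    | one => exact ⟨∅, Set.finite_empty, Set.empty_subset _, one_mem _⟩
    | mul x y _ _ hx hy =>
      obtain ⟨T, a, b, c⟩ := hx
      obtain ⟨T', a', b', c'⟩ := hy
      exact ⟨T ∪ T', a.union a', Set.union_subset b b',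
        mul_mem (Subgroup.closure_mono Set.subset_union_left c)
          (Subgroup.closure_mono Set.subset_union_right c')⟩
    | inv x _ hx =>
      obtain ⟨T, a, b, c⟩ := hx
      exact ⟨T, a, b, inv_mem c⟩
  obtain ⟨B, hB, hBf⟩ := (Subgroup.fg_iff _).1 hfg
  have hBU : ∀ x ∈ B, x ∈ Subgroup.closure U := fun x hx => hB ▸ Subgroup.subset_closure hx
  choose! T hT using key
  have hfin : (⋃ x ∈ B, T x).Finite := hBf.biUnion fun x hx => (hT x (hBU x hx)).1
  have hsub : (⋃ x ∈ B, T x) ⊆ U := Set.iUnion₂_subset fun x hx => (hT x (hBU x hx)).2.1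
  have hS : insert 1 ((⋃ x ∈ B, T x) ∪ (⋃ x ∈ B, T x)⁻¹) ⊆ U := by
    rintro g (rfl | hg | hg)
    · exact h1
    · exact hsub hg
    · simpa using hU _ (hsub (Set.mem_inv.1 hg))
  refine ⟨insert 1 ((⋃ x ∈ B, T x) ∪ (⋃ x ∈ B, T x)⁻¹), (hfin.union hfin.inv).insert _, hS,
    Set.mem_insert _ _, ?_, le_antisymm (Subgroup.closure_mono hS) ?_⟩
  · rintro g (rfl | hg | hg)
    · simp
    · exact Or.inr (Or.inr (Set.inv_mem_inv.2 hg))
    · exact Or.inr (Or.inl (Set.mem_inv.1 hg))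
  · rw [← hB, Subgroup.closure_le]
    intro x hx
    refine Subgroup.closure_mono ?_ (hT x (hBU x hx)).2.2
    intro g hg
    exact Or.inr (Or.inl (Set.mem_biUnion hx hg))

/-- elements close to the unit generate a subgroup of finite index -/
theorem gashb_index {A : Type*} [NormedRing A] [NormedAlgebra ℂ A] [FiniteDimensional ℂ A]
    (r : G →* A) {C : ℝ} (hC0 : 0 < C) (hC : ∀ g, ‖r g‖ ≤ C) {ε : ℝ} (hε : 0 < ε) :
    (Subgroup.closure {g : G | ‖r g - 1‖ ≤ ε ∧ ‖r g⁻¹ - 1‖ ≤ ε}).FiniteIndex := by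
  have : ProperSpace A := FiniteDimensional.proper ℂ A
  have htb : TotallyBounded (Set.range r) := by
    refine (isCompact_closedBall (0 : A) C).totallyBounded.subset ?_
    rintro _ ⟨g, rfl⟩
    simpa using hC g
  obtain ⟨t, ht, htf, hcov⟩ := Metric.finite_approx_of_totallyBounded htb (ε / C) (by positivity)
  choose! φ hφ using fun y (hy : y ∈ t) => ht hy
  set H := Subgroup.closure {g : G | ‖r g - 1‖ ≤ ε ∧ ‖r g⁻¹ - 1‖ ≤ ε} with hH
  have : Finite t := htf
  have hest : ∀ a b : G, ‖r a - r b‖ < ε / C → ‖r (b⁻¹ * a) - 1‖ ≤ ε := by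
    intro a b hab
    have e : r (b⁻¹ * a) - 1 = r b⁻¹ * (r a - r b) := by
      rw [mul_sub, ← map_mul, ← map_mul, inv_mul_cancel, map_one]
    rw [e]
    calc ‖r b⁻¹ * (r a - r b)‖ ≤ ‖r b⁻¹‖ * ‖r a - r b‖ := norm_mul_le _ _
      _ ≤ C * (ε / C) := mul_le_mul (hC _) hab.le (norm_nonneg _) hC0.le
      _ = ε := by field_simp
  have : Finite (G ⧸ H) := by
    refine Finite.of_surjective (fun y : t => (QuotientGroup.mk (φ y) : G ⧸ H)) ?_
    intro q
    obtain ⟨g, rfl⟩ := QuotientGroup.mk_surjective q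
    obtain ⟨y, hy, hgy⟩ := Set.mem_iUnion₂.1 (hcov ⟨g, rfl⟩)
    refine ⟨⟨y, hy⟩, QuotientGroup.eq.2 (Subgroup.subset_closure ⟨?_, ?_⟩)⟩
    · refine hest _ _ ?_
      rw [hφ y hy]
      simpa [dist_eq_norm] using hgy
    · rw [mul_inv_rev, inv_inv]
      refine hest _ _ ?_
      rw [hφ y hy, norm_sub_rev]
      simpa [dist_eq_norm] using hgy
  exact Subgroup.finiteIndex_of_finite_quotient

/-- the commutator estimate -/
theorem gashb_comm {A : Type*} [NormedRing A] (r : G →* A) {C : ℝ} (hC : ∀ g, ‖r g‖ ≤ C)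
    {ε : ℝ} {s h : G} (hs : ‖r s - 1‖ ≤ ε) :
    ‖r (s * h * s⁻¹ * h⁻¹) - 1‖ ≤ 2 * C ^ 2 * ε * ‖r h - 1‖ := by
  have hC0 : 0 ≤ C := (norm_nonneg _).trans (hC 1)
  have hε : 0 ≤ ε := (norm_nonneg _).trans hs
  have e : r (s * h * s⁻¹ * h⁻¹) - 1 =
      ((r s - 1) * (r h - 1) - (r h - 1) * (r s - 1)) * r s⁻¹ * r h⁻¹ := by
    have e1 : (r s - 1) * (r h - 1) - (r h - 1) * (r s - 1) = r s * r h - r h * r s := by
      noncomm_ring
    rw [e1, sub_mul, sub_mul]
    simp only [← map_mul]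
    simp
  have b1 : ‖(r s - 1) * (r h - 1) - (r h - 1) * (r s - 1)‖ ≤ 2 * ε * ‖r h - 1‖ := by
    have a1 := norm_sub_le ((r s - 1) * (r h - 1)) ((r h - 1) * (r s - 1))
    have a2 := norm_mul_le (r s - 1) (r h - 1)
    have a3 := norm_mul_le (r h - 1) (r s - 1)
    have a4 := mul_le_mul_of_nonneg_right hs (norm_nonneg (r h - 1))
    nlinarith
  rw [e]
  calc _ ≤ ‖(r s - 1) * (r h - 1) - (r h - 1) * (r s - 1)‖ * ‖r s⁻¹‖ * ‖r h⁻¹‖ :=
        norm_mul₃_le
    _ ≤ (2 * ε * ‖r h - 1‖) * C * C := by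
        gcongr
        · exact hC _
        · exact hC _
    _ = _ := by ring

theorem gashb_commute {A : Type*} [Monoid A] (r : G →* A) {S : Set G} {h : G}
    (hS : ∀ s ∈ S, r s * r h = r h * r s) : ∀ y ∈ Subgroup.closure S, r y * r h = r h * r y := by
  intro y hy
  induction hy using Subgroup.closure_induction with
  | mem x hx => exact hS x hx
  | one => simp
  | mul x y _ _ hx hy => rw [map_mul, mul_assoc, hy, ← mul_assoc, hx, mul_assoc]
  | inv x _ hx =>
    have e1 : r x⁻¹ * r x = 1 := by rw [← map_mul, inv_mul_cancel, map_one]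
    have e2 : r x * r x⁻¹ = 1 := by rw [← map_mul, mul_inv_cancel, map_one]
    calc r x⁻¹ * r h = r x⁻¹ * r h * (r x * r x⁻¹) := by rw [e2, mul_one]
      _ = r x⁻¹ * (r h * r x) * r x⁻¹ := by simp only [mul_assoc]
      _ = r x⁻¹ * (r x * r h) * r x⁻¹ := by rw [hx]
      _ = (r x⁻¹ * r x) * r h * r x⁻¹ := by simp only [mul_assoc]
      _ = r h * r x⁻¹ := by rw [e1, one_mul]

theorem sh_core [Group.FG G] (hG : PG G d) {A : Type*} [NormedRing A] [NormedAlgebra ℂ A]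
    [FiniteDimensional ℂ A] (τ : A →ₗ[ℂ] ℂ) (hτ : ∀ a b, τ (a * b) = τ (b * a)) (h1 : τ 1 ≠ 0)
    (r : G →* A) {C : ℝ} (hC : ∀ g, ‖r g‖ ≤ C) :
    ∃ H : Subgroup G, H.FiniteIndex ∧ ((∀ x ∈ H, ∀ y ∈ H, r x * r y = r y * r x) ∨
      ∃ h ∈ H, (∀ y ∈ H, r h * r y = r y * r h) ∧ ∀ c : ℂ, r h ≠ c • (1 : A)) := by
  obtain ⟨θ, hθ, hcount⟩ := sh_count hG r hC
  have hC' : ∀ g, ‖r g‖ ≤ max 1 C := fun g => (hC g).trans (le_max_right _ _)
  set D := max 1 C with hD
  have hD1 : 1 ≤ D := le_max_left _ _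
  have hcont : Continuous τ := τ.continuous_of_finiteDimensional
  obtain ⟨δ, hδ, hδτ⟩ : ∃ δ > (0 : ℝ), ∀ a : A, ‖a - 1‖ ≤ δ → τ a ≠ 0 := by
    have hev : ∀ᶠ a in nhds (1 : A), τ a ≠ 0 := hcont.continuousAt.eventually_ne h1
    obtain ⟨δ, hδ, hb⟩ := Metric.eventually_nhds_iff.1 hev
    refine ⟨δ / 2, by positivity, fun a ha => hb ?_⟩
    rw [dist_eq_norm]
    linarith
  obtain ⟨ε, hε, hεδ, hεθ, hε1, hε2⟩ : ∃ ε > (0 : ℝ), ε ≤ δ ∧ ε ≤ θ ∧ 2 * D ^ 2 * ε ≤ θ ∧
      2 * D ^ 2 * ε ≤ 1 := by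
    have hp : 0 < 2 * D ^ 2 := by positivity
    have hm : 0 < min θ 1 := lt_min hθ one_pos
    refine ⟨min δ (min θ (min θ 1 / (2 * D ^ 2))), by positivity, min_le_left _ _,
      (min_le_right _ _).trans (min_le_left _ _), ?_, ?_⟩
    · have := (min_le_right δ _).trans (min_le_right θ (min θ 1 / (2 * D ^ 2)))
      rw [le_div_iff₀ hp] at this
      have h2 := min_le_left θ 1
      linarith
    · have := (min_le_right δ _).trans (min_le_right θ (min θ 1 / (2 * D ^ 2)))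
      rw [le_div_iff₀ hp] at this
      have h2 := min_le_right θ 1
      linarith
  have hidx := gashb_index r (lt_of_lt_of_le one_pos hD1) hC' hε
  set U : Set G := {g : G | ‖r g - 1‖ ≤ ε ∧ ‖r g⁻¹ - 1‖ ≤ ε} with hU
  have hfg : (Subgroup.closure U).FG :=
    (Group.fg_iff_subgroup_fg _).1 (Subgroup.fg_of_index_ne_zero _)
  obtain ⟨S, hSf, hSU, hS1, hSi, hSH⟩ := gashb_fin (U := U) (by simp [hU, hε.le])
    (fun g hg => ⟨hg.2, by simpa using hg.1⟩) hfg
  refine ⟨Subgroup.closure U, hidx, ?_⟩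
  rw [← hSH]
  by_contra hcon
  rw [not_or] at hcon
  obtain ⟨hc1, hc2⟩ := hcon
  have hSinv : S⁻¹ = S := by
    ext g
    exact ⟨fun hg => by simpa using hSi _ (Set.mem_inv.1 hg), fun hg => Set.mem_inv.2 (hSi g hg)⟩
  have hpi : ∀ (n : ℕ) (g : G), g ∈ S ^ n → g⁻¹ ∈ S ^ n := by
    intro n g hg
    rw [← hSinv, inv_pow]
    exact Set.inv_mem_inv.2 hg
  let P : ℕ → G → Prop := fun k h => h ∈ Subgroup.closure S ∧ h ∈ S ^ 4 ^ k ∧ ‖r h - 1‖ ≤ ε ∧
    ∃ s ∈ S, r s * r h ≠ r h * r s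
  have h0 : ∃ h, P 0 h := by
    by_contra hn
    refine hc1 fun x hx y hy => ?_
    refine gashb_commute r (fun s hs => ?_) x hx
    refine (gashb_commute r (fun s' hs' => ?_) y hy).symm
    by_contra hne
    exact hn ⟨s, Subgroup.subset_closure hs, by simpa using hs, (hSU hs).1, s', hs', hne⟩
  have hstep : ∀ k h, P k h → ∃ h', P (k + 1) h' ∧ ‖r h' - 1‖ ≤ θ * ‖r h - 1‖ := by
    rintro k h ⟨hH, hp, hn, s, hs, hne⟩
    have hb := gashb_comm r hC' (h := h) (hSU hs).1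
    have hsH : s ∈ Subgroup.closure S := Subgroup.subset_closure hs
    have hH' : s * h * s⁻¹ * h⁻¹ ∈ Subgroup.closure S :=
      mul_mem (mul_mem (mul_mem hsH hH) (inv_mem hsH)) (inv_mem hH)
    refine ⟨s * h * s⁻¹ * h⁻¹, ⟨hH', ?_, ?_, ?_⟩,
      hb.trans (mul_le_mul_of_nonneg_right hε1 (norm_nonneg _))⟩
    · have hm : s * h * s⁻¹ * h⁻¹ ∈ S ^ (1 + 4 ^ k + 1 + 4 ^ k) := by
        rw [pow_add, pow_add, pow_add, pow_one]
        exact Set.mul_mem_mul (Set.mul_mem_mul (Set.mul_mem_mul hs hp) (hSi s hs)) (hpi _ _ hp)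
      refine Set.pow_subset_pow_right hS1 ?_ hm
      have : 1 ≤ 4 ^ k := Nat.one_le_pow _ _ (by norm_num)
      rw [pow_succ]
      omega
    · have := mul_le_mul_of_nonneg_right hε2 (norm_nonneg (r h - 1))
      linarith
    · by_contra hall
      push Not at hall
      have hcm := gashb_commute r hall
      have hex : ∃ c : ℂ, r (s * h * s⁻¹ * h⁻¹) = c • (1 : A) := by
        by_contra hno
        push Not at hno
        exact hc2 ⟨_, hH', fun y hy => (hcm y hy).symm, hno⟩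
      obtain ⟨c, hc⟩ := hex
      have e1 : r s * r h * r s⁻¹ = c • r h := by
        have : r (s * h * s⁻¹ * h⁻¹) * r h = c • r h := by rw [hc, smul_mul_assoc, one_mul]
        rw [← this]
        simp only [← map_mul]
        simp
      have e2 : τ (r h) = c * τ (r h) := by
        have := congrArg τ e1
        rw [hτ, ← mul_assoc, ← map_mul r, inv_mul_cancel, map_one, one_mul, map_smul,
          smul_eq_mul] at this
        exact this
      have hc1' : c = 1 := by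
        have hne0 := hδτ (r h) (hn.trans hεδ)
        exact (mul_right_cancel₀ hne0 (by rw [one_mul]; exact e2)).symm
      rw [hc1', one_smul] at e1
      apply hne
      rw [← e1, mul_assoc (r s * r h), ← map_mul r s⁻¹, inv_mul_cancel, map_one, mul_one, e1]
  choose! f hf using hstep
  obtain ⟨x0, hx0⟩ := h0
  let h : ℕ → G := fun k => Nat.rec x0 (fun k x => f k x) k
  have hP : ∀ k, P k (h k) := by
    intro k
    induction k with
    | zero => exact hx0
    | succ k ih => exact (hf k _ ih).1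
  refine hcount S h hSf hS1 (fun k => (hP k).2.1) (fun k hk => ?_) ((hP 0).2.2.1.trans hεθ)
    fun k => (hf k _ (hP k)).2
  obtain ⟨s, -, hne⟩ := (hP k).2.2.2
  exact hne (by rw [hk, mul_one, one_mul])

end Vale.Agent.P188
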