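import Vale.Agent.P188.GAShB

open scoped Pointwise

namespace Vale.Agent.P188

variable {G : Type*} [Group G] {d : ℕ}

theorem shc_mat [Group.FG G] (hG : PG G d) {n : ℕ} (hn : n ≠ 0)
    (r : G →* Matrix (Fin n) (Fin n) ℂ) (hr : ∀ i j, ∃ C : ℝ, ∀ g, ‖r g i j‖ ≤ C) :
    ∃ H : Subgroup G, H.FiniteIndex ∧ ((∀ x ∈ H, ∀ y ∈ H, r x * r y = r y * r x) ∨
      ∃ h ∈ H, (∀ y ∈ H, r h * r y = r y * r h) ∧
        ∀ c : ℂ, r h ≠ c • (1 : Matrix (Fin n) (Fin n) ℂ)) := by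
  letI : NormedRing (Matrix (Fin n) (Fin n) ℂ) := Matrix.linftyOpNormedRing
  letI : NormedAlgebra ℂ (Matrix (Fin n) (Fin n) ℂ) := Matrix.linftyOpNormedAlgebra
  choose C hC using hr
  refine sh_core hG (Matrix.traceLinearMap (Fin n) ℂ ℂ) (fun a b => ?_) ?_ r
    (C := ∑ i, ∑ j, C i j * ‖(Matrix.single i j (1 : ℂ) : Matrix (Fin n) (Fin n) ℂ)‖) (fun g => ?_)
  · simpa using Matrix.trace_mul_comm a b
  · simpa using hn
  · have e : r g = ∑ i, ∑ j, r g i j • (Matrix.single i j (1 : ℂ) : Matrix (Fin n) (Fin n) ℂ) := by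
      conv_lhs => rw [Matrix.matrix_eq_sum_single (r g)]
      simp
    rw [e]
    refine (norm_sum_le _ _).trans (Finset.sum_le_sum fun i _ => ?_)
    refine (norm_sum_le _ _).trans (Finset.sum_le_sum fun j _ => ?_)
    rw [norm_smul]
    exact mul_le_mul_of_nonneg_right (hC i j g) (norm_nonneg _)

theorem sh_step [Group.FG G] (hG : PG G d) {V : Type*} [AddCommGroup V] [Module ℂ V]
    [FiniteDimensional ℂ V] (ρ : G →* Module.End ℂ V) (hρ : Bdd ρ) :
    ∃ H : Subgroup G, H.FiniteIndex ∧ ((∀ x ∈ H, ∀ y ∈ H, ρ x * ρ y = ρ y * ρ x) ∨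
      ∃ W : Submodule ℂ V, W ≠ ⊥ ∧ W ≠ ⊤ ∧ ∀ x ∈ H, ∀ v ∈ W, ρ x v ∈ W) := by
  rcases subsingleton_or_nontrivial V with hV | hV
  · exact ⟨⊤, inferInstance, Or.inl fun x _ y _ => LinearMap.ext fun v => Subsingleton.elim _ _⟩
  let b := Module.finBasis ℂ V
  let e := LinearMap.toMatrixAlgEquiv b
  let r : G →* Matrix (Fin (Module.finrank ℂ V)) (Fin (Module.finrank ℂ V)) ℂ :=
    (e : Module.End ℂ V →* _).comp ρ
  have hr : ∀ g, r g = e (ρ g) := fun g => rfl
  obtain ⟨H, hH, h⟩ := shc_mat hG Module.finrank_pos.ne' r (fun i j => by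
    obtain ⟨C, hC⟩ := hρ (b j) (b.coord i)
    refine ⟨C, fun g => ?_⟩
    rw [hr, LinearMap.toMatrixAlgEquiv_apply]
    exact hC g)
  have key : ∀ x y, r x * r y = r y * r x → ρ x * ρ y = ρ y * ρ x := fun x y hxy => by
    apply e.injective
    rw [map_mul, map_mul]
    exact hxy
  refine ⟨H, hH, ?_⟩
  rcases h with h | ⟨h, -, hc, hs⟩
  · exact Or.inl fun x hx y hy => key x y (h x hx y hy)
  right
  obtain ⟨c, hc'⟩ := Module.End.exists_eigenvalue (ρ h)
  refine ⟨(ρ h).eigenspace c, hc', fun ht => hs c ?_, fun x hx v hv => ?_⟩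
  · have : ρ h = c • (1 : Module.End ℂ V) := LinearMap.ext fun v => by
      have hv : v ∈ (ρ h).eigenspace c := ht ▸ Submodule.mem_top
      simpa using Module.End.mem_eigenspace_iff.1 hv
    rw [hr, this, map_smul, map_one]
  · rw [Module.End.mem_eigenspace_iff] at hv ⊢
    have := congrArg (fun f : Module.End ℂ V => f v) (key h x (hc x hx))
    simp only [Module.End.mul_apply] at this
    rw [this, hv, map_smul]

end Vale.Agent.P188
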