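import Vale.Agent.P188.GAShC

open scoped Pointwise

namespace Vale.Agent.P188

universe u v

theorem gashd_comm {H M : Type*} [Group H] [Monoid M] (f : H →* M) {x y : H}
    (h : f x * f y = f y * f x) : f (x * y * x⁻¹ * y⁻¹) = 1 := by
  have e : f (x * y * x⁻¹ * y⁻¹) = f (y * x * x⁻¹ * y⁻¹) := by
    simp only [map_mul, h]
  rw [e]
  simp

theorem gashd_comm' {H M : Type*} [Group H] [Monoid M] (f : H →* M) {x y : H}
    (h : f (x * y * x⁻¹ * y⁻¹) = 1) : f x * f y = f y * f x := by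
  have e : x * y = (x * y * x⁻¹ * y⁻¹) * (y * x) := by group
  rw [← map_mul, e, map_mul, h, one_mul, map_mul]

theorem gashd_unip {G : Type*} [Group G] {V : Type*} [AddCommGroup V] [Module ℂ V]
    (ρ : G →* Module.End ℂ V) (hρ : Bdd ρ) (W : Submodule ℂ V) (c : G)
    (h1 : ∀ w ∈ W, ρ c w = w) (h2 : ∀ v, ρ c v - v ∈ W) : ρ c = 1 := by
  refine LinearMap.ext fun v => ?_
  have hp : ∀ n : ℕ, ρ (c ^ n) v = v + (n : ℂ) • (ρ c v - v) := by
    intro n
    induction n with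
    | zero => simp
    | succ n ih =>
      rw [pow_succ', map_mul, Module.End.mul_apply, ih, map_add, map_smul, h1 _ (h2 v)]
      push_cast
      rw [add_smul, one_smul]
      abel
  have hz : ρ c v - v = 0 := by
    rw [← Module.forall_dual_apply_eq_zero_iff ℂ]
    intro φ
    obtain ⟨C, hC⟩ := hρ v φ
    by_contra hne
    have hpos : 0 < ‖φ (ρ c v - v)‖ := norm_pos_iff.2 hne
    obtain ⟨n, hn⟩ := exists_nat_gt ((C + ‖φ v‖) / ‖φ (ρ c v - v)‖)
    rw [div_lt_iff₀ hpos] at hn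
    have h3 := hC (c ^ n)
    rw [hp, map_add, map_smul] at h3
    have h4 : ‖(n : ℂ) • φ (ρ c v - v)‖ = n * ‖φ (ρ c v - v)‖ := by
      rw [norm_smul, Complex.norm_natCast]
    have h5 := norm_sub_le (φ v + (n : ℂ) • φ (ρ c v - v)) (φ v)
    rw [add_sub_cancel_left, h4] at h5
    linarith
  rw [Module.End.one_apply]
  exact sub_eq_zero.1 hz

/-- restriction to an invariant subspace -/
def gashdSub {G : Type*} [Group G] {V : Type*} [AddCommGroup V] [Module ℂ V]
    (ρ : G →* Module.End ℂ V) (H : Subgroup G) (W : Submodule ℂ V)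
    (hW : ∀ x ∈ H, ∀ v ∈ W, ρ x v ∈ W) : H →* Module.End ℂ W where
  toFun x := (ρ x.1).restrict (hW x.1 x.2)
  map_one' := by
    refine LinearMap.ext fun w => Subtype.ext ?_
    simp [LinearMap.restrict_apply]
  map_mul' x y := by
    refine LinearMap.ext fun w => Subtype.ext ?_
    simp [LinearMap.restrict_apply]

theorem gashdSub_apply {G : Type*} [Group G] {V : Type*} [AddCommGroup V] [Module ℂ V]
    (ρ : G →* Module.End ℂ V) (H : Subgroup G) (W : Submodule ℂ V)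
    (hW : ∀ x ∈ H, ∀ v ∈ W, ρ x v ∈ W) (x : H) (w : W) :
    (gashdSub ρ H W hW x w : V) = ρ x.1 w.1 := rfl

/-- the action on the quotient by an invariant subspace -/
def gashdQuo {G : Type*} [Group G] {V : Type*} [AddCommGroup V] [Module ℂ V]
    (ρ : G →* Module.End ℂ V) (H : Subgroup G) (W : Submodule ℂ V)
    (hW : ∀ x ∈ H, ∀ v ∈ W, ρ x v ∈ W) : H →* Module.End ℂ (V ⧸ W) where
  toFun x := W.mapQ W (ρ x.1) (hW x.1 x.2)
  map_one' := by
    refine LinearMap.ext fun w => ?_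
    obtain ⟨v, rfl⟩ := W.mkQ_surjective w
    simp [Submodule.mapQ_apply]
  map_mul' x y := by
    refine LinearMap.ext fun w => ?_
    obtain ⟨v, rfl⟩ := W.mkQ_surjective w
    simp [Submodule.mapQ_apply]

theorem gashdQuo_apply {G : Type*} [Group G] {V : Type*} [AddCommGroup V] [Module ℂ V]
    (ρ : G →* Module.End ℂ V) (H : Subgroup G) (W : Submodule ℂ V)
    (hW : ∀ x ∈ H, ∀ v ∈ W, ρ x v ∈ W) (x : H) (v : V) :
    gashdQuo ρ H W hW x (W.mkQ v) = W.mkQ (ρ x.1 v) := rfl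

theorem gashd_aux {d : ℕ} (n : ℕ) : ∀ (G : Type u) [Group G] [Group.FG G], PG G d →
    ∀ (V : Type v) [AddCommGroup V] [Module ℂ V] [FiniteDimensional ℂ V],
      Module.finrank ℂ V < n → ∀ ρ : G →* Module.End ℂ V, Bdd ρ →
      ∃ H : Subgroup G, H.FiniteIndex ∧ ∀ x ∈ H, ∀ y ∈ H, ρ x * ρ y = ρ y * ρ x := by
  induction n with
  | zero =>
    intro G _ _ _ V _ _ _ h
    exact absurd h (Nat.not_lt_zero _)
  | succ n ih =>
    intro G _ _ hG V _ _ _ hV ρ hρ
    obtain ⟨H, hH, h | ⟨W, hb, ht, hW⟩⟩ := sh_step hG ρ hρ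
    · exact ⟨H, hH, h⟩
    have r1 : Module.finrank ℂ W < Module.finrank ℂ V := Submodule.finrank_lt ht
    have r0 : 0 < Module.finrank ℂ W := by
      rcases Nat.eq_zero_or_pos (Module.finrank ℂ W) with h0 | h0
      · exact absurd (Submodule.finrank_eq_zero.1 h0) hb
      · exact h0
    have r2 := W.finrank_quotient_add_finrank
    have b1 : Bdd (gashdSub ρ H W hW) := by
      intro w φ
      obtain ⟨ψ, hψ⟩ := LinearMap.exists_extend φ
      obtain ⟨C, hC⟩ := hρ w.1 ψ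
      refine ⟨C, fun g => ?_⟩
      rw [← hψ]
      exact hC g.1
    have b2 : Bdd (gashdQuo ρ H W hW) := by
      intro w φ
      obtain ⟨v, rfl⟩ := W.mkQ_surjective w
      obtain ⟨C, hC⟩ := hρ v (φ.comp W.mkQ)
      exact ⟨C, fun g => hC g.1⟩
    obtain ⟨H1, f1, c1⟩ := ih H (hG.subgroup H) W (by omega) _ b1
    obtain ⟨H2, f2, c2⟩ := ih H (hG.subgroup H) (V ⧸ W) (by omega) _ b2
    refine ⟨(H1 ⊓ H2).map H.subtype, Poly_fi_map _, ?_⟩
    rintro _ ⟨x, hx, rfl⟩ _ ⟨y, hy, rfl⟩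
    have e1 := gashd_comm _ (c1 x hx.1 y hy.1)
    have e2 := gashd_comm _ (c2 x hx.2 y hy.2)
    refine gashd_comm' (ρ.comp H.subtype) (x := x) (y := y) ?_
    refine gashd_unip ρ hρ W (x * y * x⁻¹ * y⁻¹ : H).1 ?_ ?_
    · intro w hw
      have := gashdSub_apply ρ H W hW (x * y * x⁻¹ * y⁻¹) ⟨w, hw⟩
      rw [e1] at this
      exact this.symm
    · intro v
      have := gashdQuo_apply ρ H W hW (x * y * x⁻¹ * y⁻¹) v
      rw [e2, Module.End.one_apply] at this
      exact (Submodule.Quotient.eq W).1 this.symm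

variable {G : Type*} [Group G] {d : ℕ}

/-- bounded representations of groups of polynomial growth are virtually commutative -/
theorem shalom [Group.FG G] (hG : PG G d) {V : Type*} [AddCommGroup V] [Module ℂ V]
    [FiniteDimensional ℂ V] (ρ : G →* Module.End ℂ V) (hρ : Bdd ρ) :
    ∃ H : Subgroup G, H.FiniteIndex ∧ ∀ x ∈ H, ∀ y ∈ H, ρ x * ρ y = ρ y * ρ x :=
  gashd_aux _ G hG V (Nat.lt_succ_self _) ρ hρ

end Vale.Agent.P188
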