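import Vale.Agent.P188.GAKl
import Vale.Agent.P188.GAHarD
import Vale.Agent.P188.GAShD
import Vale.Agent.P188.GAAb
import Vale.Agent.P188.GAGrow

open scoped Pointwise

namespace Vale.Agent.P188

variable {G : Type*} [Group G] {d : ℕ}

theorem gavirt_mem {S : Finset G} {u : G → ℝ} (hu : u ∈ LH ℝ S) :
    (fun x => (u x : ℂ)) ∈ LH ℂ S := by
  obtain ⟨h1, h2, L, h3⟩ := hu
  refine ⟨by simp [h1], fun x => ?_, L, fun x s hs => ?_⟩
  · show ∑ s ∈ S, ((u (x * s) : ℂ) - u x) = 0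
    exact_mod_cast h2 x
  · rw [← Complex.ofReal_sub, Complex.norm_real]
    exact h3 x s hs

theorem gavirt_range (K : Subgroup G) [K.FiniteIndex] {u : G → ℝ}
    (h : ∀ k ∈ K, ∀ x, u (k * x) = u k + u x) (hf : (Set.range fun k : K => u k).Finite) :
    (Set.range u).Finite := by
  have h1 : (Set.range fun q : G ⧸ K => u (Quotient.out q)⁻¹).Finite := Set.finite_range _
  refine (hf.add h1).subset ?_
  rintro _ ⟨x, rfl⟩
  obtain ⟨k, hk⟩ := QuotientGroup.mk_out_eq_mul K x⁻¹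
  refine ⟨u k, ⟨k, rfl⟩, _, ⟨(x⁻¹ : G), rfl⟩, ?_⟩
  simp only
  rw [← h k k.2, hk]
  simp

theorem virt_onto_int [Group.FG G] [Infinite G] (hG : PG G d) :
    ∃ H : Subgroup G, H.FiniteIndex ∧ ∃ ψ : H →* Multiplicative ℤ, Function.Surjective ψ := by
  classical
  obtain ⟨S, hS⟩ := exists_sgen (G := G)
  obtain ⟨u, hu, hu0⟩ := exists_har hS hG
  obtain ⟨N, hN⟩ := kleiner hS hG
  have hfd := lh_finite_of_bound hN
  obtain ⟨ρ, hρ⟩ := exists_rep S
  obtain ⟨H, hH, hc⟩ := shalom hG ρ (rep_bdd hS ρ hρ)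
  by_cases hi : (Set.range (ρ.comp H.subtype)).Infinite
  · exact ⟨H, hH, exists_hom_int (ρ.comp H.subtype) (fun x y => hc x x.2 y y.2) hi⟩
  have hfin : Finite (ρ.comp H.subtype).toHomUnits.range := by
    have := (Set.not_infinite.1 hi).to_subtype
    refine Finite.of_injective (fun a : (ρ.comp H.subtype).toHomUnits.range =>
      (⟨(a.1 : Module.End ℂ (LH ℂ S)), ?_⟩ : Set.range (ρ.comp H.subtype))) ?_
    · obtain ⟨x, hx⟩ := a.2
      exact ⟨x, by rw [← hx]; rfl⟩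
    · intro a b hab
      exact Subtype.ext (Units.ext (congrArg Subtype.val hab))
  have hK0 : (ρ.comp H.subtype).toHomUnits.ker.FiniteIndex := Subgroup.finiteIndex_ker _
  obtain ⟨K, hK, hK1⟩ : ∃ K : Subgroup G, K.FiniteIndex ∧ ∀ k ∈ K, ρ k = 1 := by
    refine ⟨_, Poly_fi_map (ρ.comp H.subtype).toHomUnits.ker, ?_⟩
    rintro _ ⟨k, hk, rfl⟩
    exact congrArg Units.val (MonoidHom.mem_ker.1 hk)
  have hadd : ∀ k ∈ K, ∀ x, u (k * x) = u k + u x := by
    intro k hk x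
    have h1 := hρ k⁻¹ ⟨_, gavirt_mem hu⟩ x
    rw [hK1 _ (K.inv_mem hk), inv_inv] at h1
    have h2 : ((u x : ℝ) : ℂ) = u (k * x) - u k := h1
    have h3 : u x = u (k * x) - u k := by exact_mod_cast h2
    linarith
  let f : K →* Multiplicative ℝ :=
    { toFun := fun k => Multiplicative.ofAdd (u k)
      map_one' := congrArg Multiplicative.ofAdd hu.1
      map_mul' := fun a b => congrArg Multiplicative.ofAdd (hadd a a.2 b) }
  by_cases hj : (Set.range f).Infinite
  · exact ⟨K, hK, exists_hom_int f (fun x y => mul_comm _ _) hj⟩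
  refine absurd (funext fun x => ?_) hu0
  exact (har_const hS hu.2.1 (gavirt_range K hadd (Set.not_infinite.1 hj)) x).trans hu.1

end Vale.Agent.P188
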