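import Vale.Agent.P188.SysD

/-! Negligible families and generic points. -/

namespace Vale.Agent.P188

open MeasureTheory Filter
open scoped ENNReal

variable {I J L Ω Ω' Ω'' : Type} [MeasureSpace Ω] [MeasureSpace Ω'] [MeasureSpace Ω'']
  {U : Filter I} {U' : Filter J} {U'' : Filter L} {W W' : I → ℝ≥0∞} {A B : I → Set Ω}
  {π : J → I} {z : J → Ω}

theorem GenB_small (C : ℝ) {κ : ℝ} (hκ : 0 < κ) :
    ∃ κ' > 0, ENNReal.ofReal C * ENNReal.ofReal κ' ≤ ENNReal.ofReal κ := by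
  have h : 0 < |C| + 1 := by positivity
  refine ⟨κ / (|C| + 1), by positivity, ?_⟩
  rw [mul_comm, ← ENNReal.ofReal_mul (by positivity), div_mul_eq_mul_div]
  refine ENNReal.ofReal_le_ofReal ((div_le_iff₀ h).2 ?_)
  nlinarith [le_abs_self C]

theorem GenB_empty : Nul U W fun _ => (∅ : Set Ω) := fun _ _ => by simp

theorem Nul.mono (h : Nul U W B) (hAB : ∀ᶠ n in U, A n ⊆ B n) : Nul U W A := fun κ hκ =>
  (h κ hκ).mp (hAB.mono fun _ h1 h2 => (measure_mono h1).trans h2)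

theorem Nul.union (h : Nul U W A) (h' : Nul U W B) : Nul U W fun n => A n ∪ B n := fun κ hκ => by
  filter_upwards [h _ (half_pos hκ), h' _ (half_pos hκ)] with n h1 h2
  refine (measure_union_le _ _).trans ((add_le_add h1 h2).trans_eq ?_)
  rw [← add_mul, ← ENNReal.ofReal_add (half_pos hκ).le (half_pos hκ).le, add_halves]

theorem Nul.iUnion {κ : Type} [Finite κ] {A : κ → I → Set Ω} (h : ∀ j, Nul U W (A j)) :
    Nul U W fun n => ⋃ j, A j n := by
  classical
  have := Fintype.ofFinite κ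
  have h1 : ∀ s : Finset κ, Nul U W fun n => ⋃ j ∈ s, A j n := fun s => by
    induction s using Finset.induction_on with
    | empty => simpa using GenB_empty
    | insert a s _ ih => simpa using (h a).union ih
  simpa using h1 Finset.univ

theorem Nul.of_le (h : Nul U W A) {C : ℝ} (hW : ∀ᶠ n in U, W n ≤ ENNReal.ofReal C * W' n) :
    Nul U W' A := fun κ hκ => by
  obtain ⟨κ', h1, h2⟩ := GenB_small C hκ
  filter_upwards [h κ' h1, hW] with n h3 h4
  refine h3.trans ((mul_le_mul_right h4 _).trans ?_)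
  rw [← mul_assoc, mul_comm _ (ENNReal.ofReal C)]
  exact mul_le_mul_left h2 _

theorem Nul.of_vol {B : I → Set Ω'} (h : Nul U W A) {C : ℝ}
    (hB : ∀ᶠ n in U, volume (B n) ≤ ENNReal.ofReal C * volume (A n)) : Nul U W B := fun κ hκ => by
  obtain ⟨κ', h1, h2⟩ := GenB_small C hκ
  filter_upwards [h κ' h1, hB] with n h3 h4
  refine h4.trans ((mul_le_mul_right h3 _).trans ?_)
  rw [← mul_assoc]
  exact mul_le_mul_left h2 _

theorem Nul.pull (h : Nul U W A) (hπ : Tendsto π U' U) :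
    Nul U' (fun n => W (π n)) fun n => A (π n) := fun κ hκ => hπ.eventually (h κ hκ)

theorem Nul.of_pull {U : Ultrafilter I} [U'.NeBot] (hπ : Tendsto π U' U)
    (h : Nul U' (fun n => W (π n)) fun n => A (π n)) : Nul U W A := fun κ hκ => by
  by_contra h1
  obtain ⟨n, h2, h3⟩ := ((hπ.eventually (Ultrafilter.eventually_not.2 h1)).and (h κ hκ)).exists
  exact h2 h3

theorem not_nul_iff {U : Ultrafilter I} : ¬Nul U W A ↔
    ∃ κ > 0, ∀ᶠ n in U, ENNReal.ofReal κ * W n < volume (A n) := by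
  simp only [Nul, not_forall, ← Ultrafilter.eventually_not, not_le, exists_prop, gt_iff_lt]

theorem not_nul_self [U.NeBot] (h : ∀ᶠ n in U, volume (A n) ≠ 0 ∧ volume (A n) ≠ ⊤) :
    ¬Nul U (fun n => volume (A n)) A := fun h1 => by
  obtain ⟨n, ⟨h2, h3⟩, h4⟩ := (h.and (h1 (1 / 2) (by norm_num))).exists
  refine h4.not_gt ?_
  conv_rhs => rw [← one_mul (volume (A n))]
  exact ENNReal.mul_lt_mul_left h2 h3 (ENNReal.ofReal_lt_one.2 (by norm_num))

theorem exists_gen {U : Ultrafilter I} (h : ¬Nul U W A) : ∃ U' : Ultrafilter (I × Ω),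
    Tendsto Prod.fst (U' : Filter (I × Ω)) U ∧ Gen U W (U' : Filter (I × Ω)) Prod.fst Prod.snd ∧
      ∀ᶠ q : I × Ω in U', q.2 ∈ A q.1 := by
  let F : Filter (I × Ω) :=
    { sets := {S | ∃ N : I → Set Ω, Nul (U : Filter I) W N ∧ ∀ᶠ n in (U : Filter I),
        ∀ x ∈ A n, x ∉ N n → (n, x) ∈ S}
      univ_sets := ⟨_, GenB_empty, by simp⟩
      sets_of_superset := fun ⟨N, h1, h2⟩ hS => ⟨N, h1, h2.mono fun n h x a b => hS (h x a b)⟩
      inter_sets := fun ⟨N, h1, h2⟩ ⟨N', h3, h4⟩ => ⟨_, h1.union h3, (h2.and h4).mono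
        fun n h x a b => ⟨h.1 x a fun c => b (Or.inl c), h.2 x a fun c => b (Or.inr c)⟩⟩ }
  have : F.NeBot := ⟨fun e => by
    obtain ⟨N, h1, h2⟩ : ∅ ∈ F := empty_mem_iff_bot.2 e
    exact h (h1.mono (h2.mono fun n h x a => by_contra (h x a)))⟩
  have hF := Ultrafilter.of_le F
  exact ⟨Ultrafilter.of F, fun s hs => hF ⟨_, GenB_empty, mem_of_superset hs fun n h _ _ _ => h⟩,
    fun N hN => hF ⟨N, hN, Eventually.of_forall fun n x _ b => b⟩,
    hF ⟨_, GenB_empty, Eventually.of_forall fun n x a _ => a⟩⟩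

theorem Gen.not_nul [U'.NeBot] (hz : Gen U W U' π z) (h : ∀ᶠ n in U', z n ∈ A (π n)) :
    ¬Nul U W A := fun h1 =>
  let ⟨_, h2, h3⟩ := ((hz A h1).and h).exists
  h2 h3

theorem Gen.of_le (hz : Gen U W U' π z) {C : ℝ}
    (hW : ∀ᶠ n in U, W' n ≤ ENNReal.ofReal C * W n) : Gen U W' U' π z := fun A h => hz A (h.of_le hW)

theorem Gen.comp (hz : Gen U W U' π z) {π' : L → J} (h : Tendsto π' U'' U') :
    Gen U W U'' (fun n => π (π' n)) fun n => z (π' n) := fun A hA => h.eventually (hz A hA)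

theorem Gen.base {π' : L → J} {z : L → Ω} (hπ : Tendsto π U' U)
    (hz : Gen U' (fun n => W (π n)) U'' π' z) : Gen U W U'' (fun n => π (π' n)) z := fun A hA =>
  hz (fun n => A (π n)) (hA.pull hπ)

theorem Gen.map (hz : Gen U W U' π z) {Ψ : I → Ω → Ω'}
    (h : ∀ n, MeasurePreserving (Ψ n) volume volume) : Gen U W U' π fun n => Ψ (π n) (z n) :=
  fun A hA => hz (fun n => Ψ n ⁻¹' A n) fun κ hκ => (hA κ hκ).mono fun n h1 =>
    ((Measure.le_map_apply (h n).aemeasurable _).trans_eq (by rw [(h n).map_eq])).trans h1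

variable [SFinite (volume : Measure Ω)] [SFinite (volume : Measure Ω')]

theorem Gen.fst {z : J → Ω × Ω'} {D : I → Set Ω'} (hπ : Tendsto π U' U)
    (hz : Gen U (fun n => W n * volume (D n)) U' π z) (hD : ∀ᶠ n in U', (z n).2 ∈ D (π n)) :
    Gen U W U' π fun n => (z n).1 := fun A hA => by
  have h : Nul U (fun n => W n * volume (D n)) fun n => A n ×ˢ D n := fun κ hκ =>
    (hA κ hκ).mono fun n h => by
      rw [Measure.volume_eq_prod, Measure.prod_prod, ← mul_assoc]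
      exact mul_le_mul_left h _
  filter_upwards [hz _ h, hD] with n h1 h2 h3 using h1 ⟨h3, h2⟩

theorem not_nul_prod {U : Ultrafilter I} {D : I → Set Ω'} (h : ¬Nul U W A)
    (hD : ∀ᶠ n in U, volume (D n) ≠ 0 ∧ volume (D n) ≠ ⊤) :
    ¬Nul U (fun n => W n * volume (D n)) fun n => A n ×ˢ D n := fun h1 => h fun κ hκ => by
  filter_upwards [h1 κ hκ, hD] with n h2 h3
  rwa [Measure.volume_eq_prod, Measure.prod_prod, ← mul_assoc,
    ENNReal.mul_le_mul_iff_left h3.1 h3.2] at h2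

/-- sections of a negligible set at a generic point -/
theorem Gen.sec (hz : Gen U W U' π z) (hπ : Tendsto π U' U) {D : I → Set Ω'}
    (hD : ∀ᶠ n in U, volume (D n) ≠ 0 ∧ volume (D n) ≠ ⊤) {P : I → Set (Ω × Ω')}
    (hP : ∀ n, MeasurableSet (P n)) (h : Nul U (fun n => W n * volume (D n)) P) :
    Nul U' (fun n => volume (D (π n))) fun n => {ω | (z n, ω) ∈ P (π n)} := fun κ hκ => by
  have h1 : Nul U W fun n => {x | ENNReal.ofReal κ * volume (D n) < volume {ω | (x, ω) ∈ P n}} :=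
    fun κ' hκ' => by
      filter_upwards [h _ (mul_pos hκ hκ'), hD] with n h2 h3
      have h4 := mul_meas_ge_le_lintegral₀ (μ := (volume : Measure Ω))
        (measurable_measure_prodMk_left (ν := volume) (hP n)).aemeasurable
        (ENNReal.ofReal κ * volume (D n))
      rw [← Measure.prod_apply (hP n), ← Measure.volume_eq_prod] at h4
      have h5 := h4.trans h2
      rw [ENNReal.ofReal_mul hκ.le, show ENNReal.ofReal κ * ENNReal.ofReal κ' *
        (W n * volume (D n)) = ENNReal.ofReal κ * volume (D n) * (ENNReal.ofReal κ' * W n) by ring,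
        ENNReal.mul_le_mul_iff_right (mul_ne_zero (ENNReal.ofReal_pos.2 hκ).ne' h3.1)
          (ENNReal.mul_ne_top ENNReal.ofReal_ne_top h3.2)] at h5
      refine le_trans (measure_mono fun x hx => ?_) h5
      exact LT.lt.le (b := volume {ω | (x, ω) ∈ P n}) hx
  exact (hz _ h1).mono fun n h => not_lt.1 h

/-- a generic point moved by a generic parameter is generic -/
theorem Gen.avg (hz : Gen U W U' π z) (hπ : Tendsto π U' U) (hA : ∀ᶠ n in U', z n ∈ A (π n))
    (hAm : ∀ n, MeasurableSet (A n)) {D : I → Set Ω'} (hDm : ∀ n, MeasurableSet (D n))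
    (hD : ∀ᶠ n in U, volume (D n) ≠ 0 ∧ volume (D n) ≠ ⊤) {Ψ : I → Ω × Ω' → Ω''}
    (hΨ : ∀ n, Measurable (Ψ n)) (hW : ∀ᶠ n in U, W' n ≠ 0 ∧ W' n ≠ ⊤) {C : ℝ}
    (h : ∀ᶠ n in U, ∀ N, MeasurableSet N →
      volume {q : Ω × Ω' | q.1 ∈ A n ∧ q.2 ∈ D n ∧ Ψ n q ∈ N} * W' n ≤
        ENNReal.ofReal C * volume N * W n * volume (D n))
    {π' : L → J} (hπ' : Tendsto π' U'' U') {ω : L → Ω'}
    (hω : Gen U' (fun n => volume (D (π n))) U'' π' ω) (hω' : ∀ᶠ n in U'', ω n ∈ D (π (π' n))) :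
    Gen U W' U'' (fun n => π (π' n)) fun n => Ψ (π (π' n)) (z (π' n), ω n) := fun N hN => by
  have h1 := hz.sec hπ hD (P := fun n => {q | q.1 ∈ A n ∧ q.2 ∈ D n ∧
      Ψ n q ∈ toMeasurable volume (N n)}) (fun n => (measurable_fst (hAm n)).inter
    ((measurable_snd (hDm n)).inter (hΨ n (measurableSet_toMeasurable _ _)))) fun κ hκ => by
      obtain ⟨κ', h1, h2⟩ := GenB_small C hκ
      filter_upwards [hN κ' h1, h, hW] with n h3 h4 h5
      have h6 := h4 _ (measurableSet_toMeasurable volume (N n))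
      rw [measure_toMeasurable] at h6
      rw [← ENNReal.mul_le_mul_iff_left h5.1 h5.2]
      refine h6.trans ?_
      calc _ ≤ ENNReal.ofReal C * (ENNReal.ofReal κ' * W' n) * W n * volume (D n) := by gcongr
        _ = ENNReal.ofReal C * ENNReal.ofReal κ' * (W n * volume (D n)) * W' n := by ring
        _ ≤ _ := by gcongr
  filter_upwards [hω _ h1, hω', hπ'.eventually hA] with n h2 h3 h4 h5 using
    h2 ⟨h4, h3, subset_toMeasurable _ _ h5⟩

/-- the same without change of the weight -/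
theorem Gen.avg' (hz : Gen U W U' π z) (hπ : Tendsto π U' U) {D : I → Set Ω'}
    (hDm : ∀ n, MeasurableSet (D n)) (hD : ∀ᶠ n in U, volume (D n) ≠ 0 ∧ volume (D n) ≠ ⊤)
    {Ψ : I → Ω × Ω' → Ω''} (hΨ : ∀ n, Measurable (Ψ n)) {C : ℝ}
    (h : ∀ n N, MeasurableSet N → volume {q : Ω × Ω' | q.2 ∈ D n ∧ Ψ n q ∈ N} ≤
      ENNReal.ofReal C * volume N * volume (D n))
    {π' : L → J} (hπ' : Tendsto π' U'' U') {ω : L → Ω'}
    (hω : Gen U' (fun n => volume (D (π n))) U'' π' ω) (hω' : ∀ᶠ n in U'', ω n ∈ D (π (π' n))) :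
    Gen U W U'' (fun n => π (π' n)) fun n => Ψ (π (π' n)) (z (π' n), ω n) := fun N hN => by
  have h1 := hz.sec hπ hD (P := fun n => {q | q.2 ∈ D n ∧ Ψ n q ∈ toMeasurable volume (N n)})
    (fun n => (measurable_snd (hDm n)).inter (hΨ n (measurableSet_toMeasurable _ _)))
    fun κ hκ => by
      obtain ⟨κ', h1, h2⟩ := GenB_small C hκ
      filter_upwards [hN κ' h1] with n h3
      have h6 := h n _ (measurableSet_toMeasurable volume (N n))
      rw [measure_toMeasurable] at h6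
      refine h6.trans ?_
      calc _ ≤ ENNReal.ofReal C * (ENNReal.ofReal κ' * W n) * volume (D n) := by gcongr
        _ = ENNReal.ofReal C * ENNReal.ofReal κ' * (W n * volume (D n)) := by ring
        _ ≤ _ := by gcongr
  filter_upwards [hω _ h1, hω'] with n h2 h3 h5 using h2 ⟨h3, subset_toMeasurable _ _ h5⟩

/-- from all deterministic parameters to most parameters -/
theorem Gen.fub {U : Ultrafilter I} (hz : Gen U W U' π z) (hπ : Tendsto π U' U)
    {D : I → Set Ω'} (hDm : ∀ n, MeasurableSet (D n))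
    (hD : ∀ᶠ n in U, volume (D n) ≠ 0 ∧ volume (D n) ≠ ⊤) {P : I → Set (Ω × Ω')}
    (hP : ∀ n, MeasurableSet (P n))
    (h : ∀ ω : I → Ω', (∀ᶠ n in U, ω n ∈ D n) → Nul U W fun n => {x | (x, ω n) ∈ P n}) :
    Nul U' (fun n => volume (D (π n))) fun n => {ω ∈ D (π n) | (z n, ω) ∈ P (π n)} := by
  have hm : ∀ n, MeasurableSet {q : Ω × Ω' | q.2 ∈ D n ∧ q ∈ P n} := fun n =>
    (measurable_snd (hDm n)).inter (hP n)
  refine hz.sec hπ hD hm (by_contra fun h1 => ?_)
  obtain ⟨κ, hκ, h2⟩ := not_nul_iff.1 h1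
  have h3 : ∀ᶠ n in U, ∃ ω ∈ D n, ENNReal.ofReal κ * W n < volume {x | (x, ω) ∈ P n} :=
    h2.mono fun n h2 => by_contra fun h3 => h2.not_ge (by
      rw [Measure.volume_eq_prod, Measure.prod_apply_symm (hm n), ← mul_assoc,
        ← setLIntegral_const, ← lintegral_indicator (hDm n)]
      refine lintegral_mono fun ω => ?_
      by_cases hω : ω ∈ D n
      · rw [Set.indicator_of_mem hω]
        exact (measure_mono fun x hx => hx.2).trans (not_lt.1 fun h4 => h3 ⟨ω, hω, h4⟩)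
      · exact (measure_mono (t := ∅) fun x hx => hω hx.1).trans (by simp))
  obtain ⟨_, ω₀, -⟩ := h3.exists
  have : Nonempty Ω' := ⟨ω₀⟩
  obtain ⟨ω, h4⟩ := h3.choice
  exact not_nul_iff.2 ⟨κ, hκ, h4.mono fun n h => h.2⟩ (h ω (h4.mono fun n h => h.1))

omit [SFinite (volume : Measure Ω)] in
theorem Sys.exists_ext {G : Geo} (S : Sys G) {W : S.I → ℝ≥0∞} {A : S.I → Set Ω}
    (h : ¬Nul S.U W A) : ∃ (E : S.Ext) (z : E.J → Ω), E.Gn W z ∧ ∀ᶠ n in E.U, z n ∈ A (E.π n) :=
  let ⟨U', h1, h2, h3⟩ := exists_gen h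
  ⟨⟨_, U', Prod.fst, h1⟩, Prod.snd, h2, h3⟩

end Vale.Agent.P188
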