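import Vale.Agent.P188.BoxD

/-! Every model carries geometric data. -/

namespace Vale.Agent.P188

open scoped InnerProductSpace

theorem GeoEx_gen {V : Type} [AddCommGroup V] [Module ℝ V] {N : ℕ} (b : Fin N → V)
    (hb : Submodule.span ℝ (Set.range b) = ⊤) (C : Submodule ℝ V) :
    ∃ (n : ℕ) (ix : Fin n → Fin N) (τ : Fin n → V →ₗ[ℝ] ℝ),
      (∀ i j, τ i (b (ix j)) = if i = j then 1 else 0) ∧ (∀ i, ∀ v ∈ C, τ i v = 0) ∧
      C ⊔ Submodule.span ℝ (Set.range fun i => b (ix i)) = ⊤ := by
  classical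
  obtain ⟨κ, a, ha, hs, hl⟩ := exists_linearIndependent' ℝ (C.mkQ ∘ b)
  have : Finite κ := Finite.of_injective a ha
  obtain ⟨n, ⟨e⟩⟩ := Finite.exists_equiv_fin κ
  have ht : Submodule.span ℝ (Set.range ((C.mkQ ∘ b) ∘ a)) = ⊤ := by
    rw [hs, Set.range_comp, ← Submodule.map_span, hb, Submodule.map_top, Submodule.range_mkQ]
  let B := Module.Basis.mk hl ht.ge
  refine ⟨n, fun i => a (e.symm i), fun i => B.coord (e.symm i) ∘ₗ C.mkQ, fun i j => ?_,
    fun i v hv => ?_, ?_⟩
  · have e1 : C.mkQ (b (a (e.symm j))) = B (e.symm j) := (Module.Basis.mk_apply hl ht.ge _).symm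
    rw [LinearMap.comp_apply, e1, Module.Basis.coord_apply, Module.Basis.repr_self,
      Finsupp.single_apply]
    simp only [EmbeddingLike.apply_eq_iff_eq, eq_comm]
  · rw [LinearMap.comp_apply, Submodule.mkQ_apply, (Submodule.Quotient.mk_eq_zero C).2 hv,
      map_zero]
  · rw [← Submodule.map_mkQ_eq_top, Submodule.map_span, ← Set.range_comp, ← ht]
    exact congrArg _ (e.symm.surjective.range_comp ((C.mkQ ∘ b) ∘ a))

namespace Mdl

variable {M : Mdl}

/-- the bracket as a bilinear map -/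
noncomputable def GeoExB (M : Mdl) : M.V →ₗ[ℝ] M.V →ₗ[ℝ] M.V :=
  LinearMap.mk₂ ℝ M.br
    (fun x y z => by rw [br_swap, br_add, br_swap x, br_swap y, neg_add])
    (fun c x y => by rw [br_swap, br_smul, br_swap x, smul_neg])
    br_add br_smul

theorem GeoExB_apply (x y : M.V) : M.GeoExB x y = M.br x y := rfl

theorem GeoEx_lie {ι : Type} (x : ι → M.V) {u v : M.V}
    (hu : u ∈ Submodule.span ℝ (Set.range (yw x))) (hv : v ∈ Submodule.span ℝ (Set.range (yw x))) :
    M.br u v ∈ Submodule.span ℝ (Set.range (yw x)) := by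
  set W := Submodule.span ℝ (Set.range (yw x)) with hW
  have h1 : ∀ i, ∀ v ∈ W, M.br (x i) v ∈ W := by
    intro i
    have : W ≤ W.comap (M.GeoExB (x i)) := by
      refine Submodule.span_le.2 ?_
      rintro _ ⟨l, rfl⟩
      cases l with
      | nil => exact (W.comap (M.GeoExB (x i))).zero_mem
      | cons j l => exact Submodule.subset_span ⟨i :: j :: l, rfl⟩
    exact fun v hv => this hv
  have h2 : ∀ l, ∀ v ∈ W, M.br (yw x l) v ∈ W := by
    intro l
    induction l with
    | nil =>
      intro v _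
      have : M.GeoExB 0 v = 0 := by rw [map_zero, LinearMap.zero_apply]
      exact (GeoExB_apply 0 v ▸ this) ▸ W.zero_mem
    | cons i l ih =>
      cases l with
      | nil => exact h1 i
      | cons j l =>
        intro v hv
        have e : yw x (i :: j :: l) = M.br (x i) (yw x (j :: l)) := rfl
        rw [e, br_jac]
        exact W.sub_mem (h1 i _ (ih v hv)) (ih _ (h1 i v hv))
  have : W ≤ W.comap (M.GeoExB.flip v) := by
    refine Submodule.span_le.2 ?_
    rintro _ ⟨l, rfl⟩
    exact h2 l v hv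
  exact this hu

theorem GeoEx_J (k : ℕ) (u : M.V) {v : M.V} (hv : M.em v ∈ M.F.J k) :
    M.em (M.br u v) ∈ M.F.J (k + 1) := by
  rw [em_br]
  refine (M.F.J (k + 1)).sub_mem ?_ (M.F.mul k 1 _ _ hv (em_mem u))
  rw [add_comm]
  exact M.F.mul 1 k _ _ (em_mem u) hv

theorem GeoEx_span {ι : Type} (x : ι → M.V)
    (h : Submodule.span ℝ {z | ∃ u v, z = M.br u v} ⊔ Submodule.span ℝ (Set.range x) = ⊤) :
    Submodule.span ℝ (Set.range (yw x)) = ⊤ := by
  set W := Submodule.span ℝ (Set.range (yw x)) with hW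
  have key : ∀ k, W ⊔ (M.F.J (k + 1)).comap M.em = ⊤ := by
    intro k
    induction k with
    | zero => exact eq_top_iff.2 fun v _ => Submodule.mem_sup_right (em_mem v)
    | succ k ih =>
      rw [eq_top_iff, ← h]
      refine sup_le (Submodule.span_le.2 ?_) (le_sup_of_le_left (Submodule.span_le.2 ?_))
      · rintro _ ⟨u, v, rfl⟩
        obtain ⟨w, hw, c, hc, rfl⟩ := Submodule.mem_sup.1 (ih.ge (Submodule.mem_top (x := u)))
        obtain ⟨w', hw', c', hc', rfl⟩ := Submodule.mem_sup.1 (ih.ge (Submodule.mem_top (x := v)))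
        have e : M.br (w + c) (w' + c') = M.br w w' + (M.br w c' - M.br (w' + c') c) := by
          rw [← GeoExB_apply (w + c), map_add M.GeoExB, LinearMap.add_apply, GeoExB_apply,
            GeoExB_apply, br_add, br_swap c]
          abel
        rw [e]
        exact Submodule.add_mem_sup (GeoEx_lie x hw hw')
          (((M.F.J (k + 1 + 1)).comap M.em).sub_mem (GeoEx_J _ w hc') (GeoEx_J _ _ hc))
      · rintro _ ⟨i, rfl⟩
        exact Submodule.subset_span ⟨[i], rfl⟩
  have h0 : (M.F.J (M.F.d + 1)).comap M.em ≤ W := by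
    intro v hv
    have h1 := M.F.anti _ hv
    rw [M.F.bot, Submodule.mem_bot, ← map_zero M.em] at h1
    rw [em_inj h1]
    exact W.zero_mem
  rw [← key M.F.d, sup_eq_left.2 h0]

open Classical in
/-- the projection to the part of weight zero -/
noncomputable def GeoExP (M : Mdl) : M.V →ₗ[ℝ] M.V where
  toFun v := fun i => if M.w i = 0 then v i else 0
  map_add' u v := by
    ext i
    change (if M.w i = 0 then u i + v i else 0) =
      (if M.w i = 0 then u i else 0) + if M.w i = 0 then v i else 0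
    split_ifs
    · rfl
    · exact (add_zero _).symm
  map_smul' c v := by
    ext i
    change (if M.w i = 0 then c * v i else 0) = c * if M.w i = 0 then v i else 0
    split_ifs
    · rfl
    · exact (mul_zero _).symm

open Classical in
theorem GeoExP_ap (v : M.V) (i : Fin M.N) : M.GeoExP v i = if M.w i = 0 then v i else 0 := rfl

theorem GeoEx_ht (v : M.V) : M.ht (M.GeoExP v) = M.ht v := by
  rw [Nil_sum (M.GeoExP v)]
  conv_rhs => rw [Nil_sum v]
  rw [map_sum, map_sum]
  refine Finset.sum_congr rfl fun i _ => ?_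
  rw [map_smul, map_smul, GeoExP_ap]
  split_ifs with k
  · rfl
  · have : M.ht (M.bv i) = 0 := M.t_w i k
    rw [this, smul_zero, smul_zero]

theorem GeoEx_dl (a : Ht M.k) (v : M.V) : M.dl a (M.GeoExP v) = M.GeoExP v := by
  ext i
  rw [dl_ap, GeoExP_ap]
  split_ifs with k
  · rw [k, inner_zero_left, Real.exp_zero, one_mul]
  · exact mul_zero _

end Mdl

open Mdl in
theorem exists_geo (M : Mdl) : ∃ G : Geo, G.toMdl = M := by
  obtain ⟨n, ix, τ, h1, h2, h3⟩ := GeoEx_gen M.bv (eq_top_iff.2 fun v _ => by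
    rw [Nil_sum v]
    exact Submodule.sum_mem _ fun i _ =>
      Submodule.smul_mem _ _ (Submodule.subset_span ⟨i, rfl⟩))
    (Submodule.span ℝ {z | ∃ u v, z = M.br u v})
  obtain ⟨g, hg⟩ := M.ht.exists_rightInverse_of_surjective (LinearMap.range_eq_top.2 ht_surj)
  exact ⟨{
    toMdl := M
    n := n
    ix := ix
    span := GeoEx_span _ h3
    τ := τ
    τ_x := h1
    τ_br := fun i u v => h2 i _ (Submodule.subset_span ⟨u, v, rfl⟩)
    X := M.GeoExP ∘ₗ g
    ht_X := fun a => (GeoEx_ht (g a)).trans (LinearMap.congr_fun hg a)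
    dl_X := fun a b => GeoEx_dl a (g b) }, rfl⟩

end Vale.Agent.P188
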