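import Vale.Agent.P188.Defs

/-! A Euclidean structure that is invariant under the linear symmetries of a bounded set. -/

namespace Vale.Agent.P188

open MeasureTheory
open scoped InnerProductSpace

theorem GeoOr_root {k : ℕ} (B : LinearMap.BilinForm ℝ (Ht k)) (hs : ∀ u v, B u v = B v u)
    (hp : ∀ v, v ≠ 0 → 0 < B v v) : ∃ L : Ht k ≃ₗ[ℝ] Ht k, ∀ v, ‖L v‖ ^ 2 = B v v := by
  obtain ⟨b0, hb0⟩ := LinearMap.BilinForm.exists_orthogonal_basis (B := B) ⟨hs⟩
  let b := b0.reindex (finCongr (finrank_euclideanSpace_fin (𝕜 := ℝ) (n := k)))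
  have hb : ∀ i j, i ≠ j → B (b i) (b j) = 0 := fun i j h => by
    simp only [b, Module.Basis.reindex_apply]
    exact hb0 fun e => h ((Equiv.injective _) e)
  let L0 : Ht k →ₗ[ℝ] Ht k :=
    { toFun := fun v => WithLp.toLp 2 fun i => √(B (b i) (b i)) * b.repr v i
      map_add' := fun u v => by ext i; simp [mul_add]
      map_smul' := fun c v => by ext i; simp [mul_left_comm] }
  have hL : ∀ v, ‖L0 v‖ ^ 2 = B v v := fun v => by
    rw [EuclideanSpace.real_norm_sq_eq]
    conv_rhs => rw [← b.sum_repr v]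
    simp only [map_sum, map_smul, LinearMap.sum_apply, LinearMap.smul_apply, smul_eq_mul]
    refine Finset.sum_congr rfl fun i _ => ?_
    rw [Finset.sum_eq_single i (fun j _ h => by rw [hb j i h, mul_zero]) (by simp)]
    change (√(B (b i) (b i)) * b.repr v i) ^ 2 = _
    rw [mul_pow, Real.sq_sqrt (hp _ (b.ne_zero i)).le]
    ring
  refine ⟨LinearEquiv.ofInjectiveEndo L0 ((injective_iff_map_eq_zero _).2 fun v hv => ?_), hL⟩
  by_contra h
  have := hp v h
  rw [← hL, hv] at this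
  simp at this

theorem GeoOr_form {k : ℕ} (S : Set (Ht k)) {r R : ℝ} (hr : 0 < r)
    (h1 : ∀ v, ‖v‖ ≤ r → v ∈ S) (h2 : ∀ v ∈ S, ‖v‖ ≤ R) :
    ∃ L : Ht k ≃ₗ[ℝ] Ht k, ∀ σ : Ht k ≃ₗ[ℝ] Ht k, (∀ v, σ v ∈ S ↔ v ∈ S) →
      ∀ v, ‖L (σ v)‖ = ‖L v‖ := by
  let P : Set (Ht k) := {χ | ∀ v ∈ S, ⟪χ, v⟫_ℝ ≤ 1}
  have hR : 0 ≤ R := (norm_nonneg _).trans (h2 0 (h1 0 (by simpa using hr.le)))
  have hc : IsClosed P := by
    simp only [P, Set.ofPred_forall]
    exact isClosed_iInter fun v => isClosed_iInter fun _ =>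
      isClosed_le (continuous_id.inner continuous_const) continuous_const
  have hK : IsCompact P := by
    refine (isCompact_closedBall (0 : Ht k) r⁻¹).of_isClosed_subset hc fun χ hχ => ?_
    rw [mem_closedBall_zero_iff]
    rcases eq_or_ne χ 0 with rfl | h0
    · simpa using hr.le
    have hn : 0 < ‖χ‖ := norm_pos_iff.2 h0
    have := hχ ((r / ‖χ‖) • χ) (h1 _ (by
      rw [norm_smul, Real.norm_of_nonneg (by positivity), div_mul_cancel₀ _ hn.ne']))
    rw [real_inner_smul_right, real_inner_self_eq_norm_sq, sq, ← mul_assoc,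
      div_mul_cancel₀ _ hn.ne'] at this
    rw [inv_eq_one_div, le_div_iff₀ hr, mul_comm]
    exact this
  have hb : Metric.ball (0 : Ht k) (R + 1)⁻¹ ⊆ P := fun χ hχ v hv => by
    rw [mem_ball_zero_iff] at hχ
    refine (real_inner_le_norm _ _).trans ?_
    calc ‖χ‖ * ‖v‖ ≤ (R + 1)⁻¹ * (R + 1) :=
          mul_le_mul hχ.le ((h2 v hv).trans (by linarith)) (norm_nonneg _) (by positivity)
      _ = 1 := inv_mul_cancel₀ (by positivity)
  have hF : ∀ u v : Ht k, Continuous fun χ : Ht k => ⟪χ, u⟫_ℝ * ⟪χ, v⟫_ℝ := fun u v =>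
    (continuous_id.inner continuous_const).mul (continuous_id.inner continuous_const)
  have hI : ∀ u v : Ht k, IntegrableOn (fun χ : Ht k => ⟪χ, u⟫_ℝ * ⟪χ, v⟫_ℝ) P := fun u v =>
    (hF u v).continuousOn.integrableOn_compact hK
  let B : LinearMap.BilinForm ℝ (Ht k) := LinearMap.mk₂ ℝ
    (fun u v => ∫ χ in P, ⟪χ, u⟫_ℝ * ⟪χ, v⟫_ℝ)
    (fun u u' v => by
      simp only [inner_add_right, add_mul]; exact integral_add (hI _ _) (hI _ _))
    (fun c u v => by
      simp only [real_inner_smul_right, mul_assoc, smul_eq_mul]; exact integral_const_mul _ _)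
    (fun u v v' => by
      simp only [inner_add_right, mul_add]; exact integral_add (hI _ _) (hI _ _))
    (fun c u v => by
      simp only [real_inner_smul_right, mul_left_comm _ c, smul_eq_mul]
      exact integral_const_mul _ _)
  have hB : ∀ u v, B u v = ∫ χ in P, ⟪χ, u⟫_ℝ * ⟪χ, v⟫_ℝ := fun _ _ => rfl
  obtain ⟨L, hL⟩ := GeoOr_root B (fun u v => by simp only [hB, mul_comm]) fun v hv => by
    rw [hB, setIntegral_pos_iff_support_of_nonneg_ae
      (Filter.Eventually.of_forall fun χ => mul_self_nonneg _) (hI v v)]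
    refine lt_of_lt_of_le ?_ (measure_mono (Set.inter_subset_inter_right _ hb))
    refine ((hF v v).isOpen_support.inter Metric.isOpen_ball).measure_pos _ ?_
    have hn : 0 < ‖v‖ := norm_pos_iff.2 hv
    refine ⟨((R + 1)⁻¹ / (2 * ‖v‖)) • v, ?_, ?_⟩
    · rw [Function.mem_support, real_inner_smul_left, real_inner_self_eq_norm_sq]
      positivity
    · rw [mem_ball_zero_iff, norm_smul, Real.norm_of_nonneg (by positivity), div_mul_eq_mul_div,
        mul_div_mul_right _ _ hn.ne']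
      exact half_lt_self (by positivity)
  refine ⟨L, fun σ hσ v => ?_⟩
  let A : Ht k →ₗ[ℝ] Ht k := LinearMap.adjoint (σ : Ht k →ₗ[ℝ] Ht k)
  have hA : ∀ χ u, ⟪A χ, u⟫_ℝ = ⟪χ, σ u⟫_ℝ := fun χ u => LinearMap.adjoint_inner_left _ _ _
  have hd : LinearMap.det A ≠ 0 := by
    refine (LinearMap.isUnit_det A ((LinearMap.isUnit_iff_ker_eq_bot A).2
      (LinearMap.ker_eq_bot'.2 fun χ h => ?_))).ne_zero
    have := hA χ (σ.symm χ)
    rw [h, inner_zero_left, σ.apply_symm_apply] at this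
    exact inner_self_eq_zero.1 this.symm
  have hP : A ⁻¹' P = P := by
    ext χ
    refine ⟨fun h u hu => ?_, fun h u hu => ?_⟩
    · have := h (σ.symm u) ((hσ _).1 (by rwa [σ.apply_symm_apply]))
      rwa [hA, σ.apply_symm_apply] at this
    · rw [hA]; exact h _ ((hσ _).2 hu)
  have hv : ENNReal.ofReal |(LinearMap.det A)⁻¹| = 1 := by
    have := Measure.addHaar_preimage_linearMap volume hd P
    rw [hP] at this
    have h0 : volume P ≠ 0 :=
      (lt_of_lt_of_le (Metric.measure_ball_pos _ _ (by positivity)) (measure_mono hb)).ne'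
    exact ((ENNReal.mul_left_inj h0 hK.measure_lt_top.ne).1 ((one_mul _).trans this)).symm
  have hm : Measure.map A volume = volume := by
    rw [Measure.map_linearMap_addHaar_eq_smul_addHaar _ hd, hv, one_smul]
  have e : B (σ v) (σ v) = B v v := by
    rw [hB, hB]
    conv_rhs => rw [← hm, setIntegral_map hc.measurableSet (hF v v).aestronglyMeasurable
      A.continuous_of_finiteDimensional.aemeasurable, hP]
    simp only [hA]
  rw [← hL, ← hL] at e
  exact (pow_left_inj₀ (norm_nonneg _) (norm_nonneg _) two_ne_zero).1 e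

end Vale.Agent.P188
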