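import Vale.Agent.P188.Hh
import Vale.Agent.P188.GeoOrXA

/-! A scalar product on the heights that is invariant under the symmetries of the exponent. -/

namespace Vale.Agent.P188

open Pointwise
open scoped InnerProductSpace

/-- the same model with another scalar product on the heights -/
noncomputable def GeoOrM (M : Mdl) (L : Ht M.k ≃ₗ[ℝ] Ht M.k) : Mdl :=
  { M with
    w := fun i => LinearMap.adjoint (L.symm : Ht M.k →ₗ[ℝ] Ht M.k) (M.w i)
    D := fun a => M.D (L.symm a)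
    D_e := fun a x => by simp only [LinearMap.adjoint_inner_left]; exact M.D_e _ x
    t := (L : Ht M.k →ₗ[ℝ] Ht M.k) ∘ₗ M.t
    t_surj := L.surjective.comp M.t_surj
    t_lie := fun x y z h => by rw [LinearMap.comp_apply, M.t_lie x y z h, map_zero]
    t_w := fun i h => by
      rw [LinearMap.comp_apply, M.t_w i fun e => h (by rw [e, map_zero]), map_zero]
    uni := by rw [← map_sum, M.uni, map_zero]
    eff := fun a h => by
      simp only [LinearMap.adjoint_inner_left] at h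
      exact L.symm.map_eq_zero_iff.1 (M.eff _ h) }

theorem GeoOr_w (M : Mdl) (L : Ht M.k ≃ₗ[ℝ] Ht M.k) (i : Fin M.N) (a : Ht (GeoOrM M L).k) :
    ⟪(GeoOrM M L).w i, a⟫_ℝ = ⟪M.w i, L.symm a⟫_ℝ :=
  LinearMap.adjoint_inner_left (L.symm : Ht M.k →ₗ[ℝ] Ht M.k) a (M.w i)

theorem GeoOr_dl (M : Mdl) (L : Ht M.k ≃ₗ[ℝ] Ht M.k) (a : Ht M.k) (x : M.V) :
    (GeoOrM M L).dl a x = M.dl (L.symm a) x :=
  funext fun i => congrArg (fun r => Real.exp r * x i) (GeoOr_w M L i a)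

theorem GeoOr_mul (M : Mdl) (L : Ht M.k ≃ₗ[ℝ] Ht M.k) (x y : M.V) :
    (show (GeoOrM M L).V from x) * (show (GeoOrM M L).V from y) = (x * y : M.V) := by
  change M.st x ((GeoOrM M L).dl (L (M.ht x)) y) = M.st x (M.dl (M.ht x) y)
  rw [GeoOr_dl, L.symm_apply_apply]

theorem GeoOr_yw (M : Mdl) (L : Ht M.k ≃ₗ[ℝ] Ht M.k) {ι : Type} (x : ι → M.V) (l : List ι) :
    Mdl.yw (M := GeoOrM M L) x l = Mdl.yw x l := by
  induction l with
  | nil => rfl
  | cons i l ih =>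
    cases l with
    | nil => rfl
    | cons j l => exact congrArg (M.br (x i)) ih

theorem GeoOr_len {M M' : Mdl} (φ : M.V →* M'.V) (h : ∀ x, ‖φ x‖ = ‖x‖) (x : M.V) :
    M'.len (φ x) ≤ M.len x := by
  obtain ⟨n, e, hx⟩ := Mdl.Len_nat x
  rw [e, Mdl.len_le_iff]
  have h1 : φ '' M.U ⊆ M'.U := by
    rintro _ ⟨y, hy, rfl⟩
    exact ⟨(h y).trans_lt hy.1, by rw [← map_inv, h]; exact hy.2⟩
  refine Set.pow_subset_pow_left h1 ?_
  rw [← Set.image_pow]
  exact Set.mem_image_of_mem _ hx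

/-- the same geometric data with another scalar product on the heights -/
noncomputable def GeoOrG (G : Geo) (L : Ht G.k ≃ₗ[ℝ] Ht G.k) : Geo where
  toMdl := GeoOrM G.toMdl L
  n := G.n
  ix := G.ix
  span := by
    have := G.span
    rwa [← funext (GeoOr_yw G.toMdl L _)] at this
  τ := G.τ
  τ_x := G.τ_x
  τ_br := G.τ_br
  X := G.X ∘ₗ (L.symm : Ht G.k →ₗ[ℝ] Ht G.k)
  ht_X := fun a => (congrArg L (G.ht_X (L.symm a))).trans (L.apply_symm_apply a)
  dl_X := fun a b => (GeoOr_dl G.toMdl L a _).trans (G.dl_X _ _)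

theorem GeoOr_h (G : Geo) (L : Ht G.k ≃ₗ[ℝ] Ht G.k) (c : Fin G.n → ℝ) :
    (GeoOrG G L).h c = G.h c := by
  have e : Mdl.yw (M := GeoOrM G.toMdl L) G.x = Mdl.yw G.x := funext (GeoOr_yw G.toMdl L _)
  change Mdl.hh (M := GeoOrM G.toMdl L) G.x c = Mdl.hh G.x c
  unfold Mdl.hh
  rw [e]
  rfl

theorem GeoOr_hJ (G : Geo) (J : Finset (Ht G.k)) (v : Ht G.k) (hJ : (J : Set (Ht G.k)) = {0, v}) :
    G.hJ J = G.h fun i => max 0 ⟪G.lam i, v⟫_ℝ := by
  refine congrArg G.h (funext fun i => ?_)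
  change ‖G.lam i‖ * sSup _ = _
  rw [hJ, Set.image_pair, csSup_pair, inner_zero_right, mul_max_of_nonneg _ _ (norm_nonneg _),
    mul_zero, ← real_inner_smul_left, ← Geo.lam_eq]

open Classical in
theorem GeoOr_inv (G : Geo) (σ : Ht G.k ≃ₗ[ℝ] Ht G.k)
    (hσ : ∀ J : Finset (Ht G.k), J.Nonempty → G.hJ (J.image σ) = G.hJ J) (u : Ht G.k) :
    (G.h fun i => max 0 ⟪G.lam i, σ u⟫_ℝ) = G.h fun i => max 0 ⟪G.lam i, u⟫_ℝ := by
  have h := hσ {0, u} (by simp)
  rwa [GeoOr_hJ _ _ (σ u) (by simp), GeoOr_hJ _ _ u (by simp)] at h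

theorem GeoOr_set (G : Geo) : ∃ r R : ℝ, 0 < r ∧
    (∀ v, ‖v‖ ≤ r → G.h (fun i => max 0 ⟪G.lam i, v⟫_ℝ) ≤ 1) ∧
    ∀ v, G.h (fun i => max 0 ⟪G.lam i, v⟫_ℝ) ≤ 1 → ‖v‖ ≤ R := by
  obtain ⟨l, Λ, hl, hΛ, hb⟩ := G.lam_bd
  obtain ⟨C, hC, hn⟩ := G.norm_le
  have h0 : G.h (fun _ => 0) = 0 := by
    simpa using Geo.h_smul (G := G) (fun _ => 0) le_rfl
  have hp : (0 : ℝ) < G.N * G.F.d + 1 := by positivity
  refine ⟨(Λ * (G.N * G.F.d + 1))⁻¹, C * l⁻¹, by positivity, fun v hv => ?_, fun v hv => ?_⟩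
  · have h1 := Geo.h_add (G := G) (fun _ => 0) (inv_pos.2 hp).le
    simp only [h0, zero_add] at h1
    refine (Geo.h_mono fun i => ?_).trans (h1.trans ?_)
    · refine max_le (inv_pos.2 hp).le ((real_inner_le_norm _ _).trans ?_)
      refine (mul_le_mul (hb i).1 hv (norm_nonneg _) hΛ.le).trans_eq ?_
      rw [mul_inv, mul_inv_cancel_left₀ hΛ.ne']
    · rw [mul_inv_le_iff₀ hp]; linarith
  · refine hn v _ (inv_pos.2 hl).le fun ν hν => ?_
    obtain ⟨i, hi, rfl⟩ := Geo.mem_Nn hν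
    have h1 := Geo.h_strict (G := G) (c := fun _ => 0) (c' := fun i => max 0 ⟪G.lam i, v⟫_ℝ)
      (fun i => le_max_left _ _) i
    rw [h0, zero_add, sub_zero] at h1
    have h2 : ‖G.lam i‖ * ⟪G.nu i, v⟫_ℝ ≤ 1 := by
      rw [← real_inner_smul_left, ← Geo.lam_eq]
      exact (le_max_right _ _).trans (h1.trans hv)
    rcases le_total ⟪G.nu i, v⟫_ℝ 0 with h | h
    · exact h.trans (inv_pos.2 hl).le
    · rw [inv_eq_one_div, le_div_iff₀ hl, mul_comm]
      exact (mul_le_mul_of_nonneg_right ((hb i).2 hi) h).trans h2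

theorem exists_orth (G : Geo) : ∃ G' : Geo, G'.Orth ∧
    ∃ (K : ℝ) (f : G.V → G'.V) (g : G'.V → G.V), QIp G.len G'.len K f g := by
  obtain ⟨r, R, hr, h1, h2⟩ := GeoOr_set G
  obtain ⟨L, hL⟩ := GeoOr_form {v | G.h (fun i => max 0 ⟪G.lam i, v⟫_ℝ) ≤ 1} hr h1 h2
  let f : G.V →* (GeoOrG G L).V := MonoidHom.mk' (fun x => x) fun x y =>
    (GeoOr_mul G.toMdl L x y).symm
  let g : (GeoOrG G L).V →* G.V := MonoidHom.mk' (fun x => x) fun x y =>
    GeoOr_mul G.toMdl L x y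
  refine ⟨GeoOrG G L, fun σ hσ v => ?_, 1, f, g, le_rfl, fun x y => ?_, fun x y => ?_,
    fun x => ?_, fun x => ?_⟩
  · have e : ∀ u : Ht (GeoOrG G L).k, ((GeoOrG G L).h fun i => max 0 ⟪(GeoOrG G L).lam i, u⟫_ℝ) =
        G.h fun i => max 0 ⟪G.lam i, L.symm u⟫_ℝ := fun u =>
      (GeoOr_h G L _).trans (congrArg G.h (funext fun i =>
        congrArg (max 0) (GeoOr_w G.toMdl L _ u)))
    have := hL (L.trans (LinearEquiv.trans σ L.symm)) (fun u => by
      have h := ((e _).symm.trans (GeoOr_inv _ σ hσ (L u))).trans (e _)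
      rw [L.symm_apply_apply] at h
      exact Iff.of_eq (congrArg (· ≤ (1 : ℝ)) h)) (L.symm v)
    have e1 := L.apply_symm_apply v
    exact ((congrArg norm ((L.apply_symm_apply _).trans (congrArg σ e1))).symm.trans this).trans
      (congrArg norm e1)
  · rw [← map_inv, ← map_mul, one_mul]
    exact (GeoOr_len f (fun _ => rfl) _).trans (le_add_of_nonneg_right zero_le_one)
  · rw [← map_inv, ← map_mul, one_mul]
    exact (GeoOr_len g (fun _ => rfl) _).trans (le_add_of_nonneg_right zero_le_one)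
  · change G.len (x⁻¹ * x) ≤ 1
    rw [inv_mul_cancel, Mdl.isLen_len.one]; exact zero_le_one
  · change (GeoOrG G L).len (x⁻¹ * x) ≤ 1
    rw [inv_mul_cancel, Mdl.isLen_len.one]; exact zero_le_one

end Vale.Agent.P188
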