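import Vale.Agent.P188.Nil

/-! The solvable group of a model and its word length. -/

namespace Vale.Agent.P188.Mdl

open Pointwise

variable {M : Mdl}

noncomputable instance : Group M.V where
  mul x y := M.st x (M.dl (M.ht x) y)
  one := 0
  inv x := -M.dl (-M.ht x) x
  mul_assoc x y z := by
    change M.st (M.st x (M.dl (M.ht x) y)) (M.dl (M.ht (M.st x (M.dl (M.ht x) y))) z) =
      M.st x (M.dl (M.ht x) (M.st y (M.dl (M.ht y) z)))
    rw [st_assoc, dl_st, dl_dl, ht_st, ht_dl]
  one_mul x := by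
    change M.st 0 (M.dl (M.ht 0) x) = x
    rw [zero_st, map_zero, dl_zero]
  mul_one x := by
    change M.st x (M.dl (M.ht x) 0) = x
    rw [map_zero, st_zero]
  inv_mul_cancel x := by
    change M.st (-M.dl (-M.ht x) x) (M.dl (M.ht (-M.dl (-M.ht x) x)) x) = 0
    rw [map_neg, ht_dl, neg_st]

theorem mul_def (x y : M.V) : x * y = M.st x (M.dl (M.ht x) y) := rfl

theorem one_def : (1 : M.V) = 0 := rfl

theorem inv_def (x : M.V) : x⁻¹ = -M.dl (-M.ht x) x := rfl

theorem ht_mul (x y : M.V) : M.ht (x * y) = M.ht x + M.ht y := by rw [mul_def, ht_st, ht_dl]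

theorem ht_inv (x : M.V) : M.ht x⁻¹ = -M.ht x := by rw [inv_def, map_neg, ht_dl]

theorem st_eq_mul (x y : M.V) : M.st x y = x * M.dl (-M.ht x) y := by
  rw [mul_def, dl_dl, add_neg_cancel, dl_zero]

variable (M) in
/-- an open symmetric generating set -/
def U : Set M.V := {x | ‖x‖ < 1 ∧ ‖x⁻¹‖ < 1}

variable (M) in
/-- the word length of the model -/
noncomputable def len (x : M.V) : ℝ := (sInf {n : ℕ | x ∈ M.U ^ n} : ℕ)

variable (M) in
/-- the `r`-neighbourhood of a set -/
def nb (A : Set M.V) (r : ℝ) : Set M.V := {y | ∃ x ∈ A, M.len (x⁻¹ * y) ≤ r}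

end Vale.Agent.P188.Mdl
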