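import Vale.Agent.P188.GeoB

/-! The volume exponent. -/

namespace Vale.Agent.P188

open MeasureTheory
open scoped InnerProductSpace

namespace Mdl

variable {M : Mdl} {ι : Type} [Finite ι] {x : ι → M.V}

/-- sets of words that form a basis -/
def HhB (x : ι → M.V) (B : Finset (List ι)) : Prop :=
  B ⊆ ws ι M.F.d ∧ B.card = M.N ∧ LinearIndependent ℝ (fun l : B => yw x l.1)

/-- parallelepipeds -/
def HhP (x : ι → M.V) (B : Finset (List ι)) (r : List ι → ℝ) : Set M.V :=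
  {v | ∃ t : List ι → ℝ, (∀ l ∈ B, |t l| ≤ Real.exp (r l)) ∧ v = ∑ l ∈ B, t l • yw x l}

theorem Hh_rank (M : Mdl) : Module.finrank ℝ M.V = M.N := Module.finrank_fin_fun ℝ

theorem Hh_basis {B : Finset (List ι)} (h : HhB x B) :
    ∃ b : Module.Basis B ℝ M.V, ∀ l : B, b l = yw x l.1 :=
  ⟨basisOfLinearIndependentOfCardEqFinrank' _ h.2.2 (by rw [Hh_rank, ← h.2.1, Fintype.card_coe]),
    fun l => by rw [coe_basisOfLinearIndependentOfCardEqFinrank']⟩

theorem Hh_fin (x : ι → M.V) : {B | HhB x B}.Finite :=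
  (ws ι M.F.d).powerset.finite_toSet.subset fun _ hB => Finset.mem_powerset.2 hB.1

theorem Hh_ex (hx : Submodule.span ℝ (Set.range (yw x)) = ⊤) : ∃ B, HhB x B := by
  obtain ⟨s, h1, -, h2, h3⟩ := exists_linearIndepOn_extension (K := ℝ) (v := yw x)
    (linearIndepOn_empty ℝ _) (Set.empty_subset (ws ι M.F.d : Set (List ι)))
  lift s to Finset (List ι) using (ws ι M.F.d).finite_toSet.subset h1
  have h4 : ⊤ ≤ Submodule.span ℝ (Set.range fun l : s => yw x l.1) := by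
    rw [← hx, Submodule.span_le]
    rintro _ ⟨l, rfl⟩
    by_cases h : l.length < M.F.d
    · refine Submodule.span_mono ?_ (h2 ⟨l, BoxA_ws.2 h, rfl⟩)
      rintro _ ⟨m, hm, rfl⟩
      exact ⟨⟨m, hm⟩, rfl⟩
    · rw [yw_long x (not_lt.1 h)]
      exact Submodule.zero_mem _
  refine ⟨s, h1, ?_, h3⟩
  rw [← Hh_rank, Module.finrank_eq_card_basis (Module.Basis.mk (v := fun l : s => yw x l.1) h3 h4),
    Fintype.card_coe]

theorem hh_spec (hx : Submodule.span ℝ (Set.range (yw x)) = ⊤) (c : ι → ℝ) :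
    IsGreatest {r | ∃ B ⊆ ws ι M.F.d, B.card = M.N ∧
      LinearIndependent ℝ (fun l : B => yw x l.1) ∧ r = ∑ l ∈ B, cw c l} (hh x c) := by
  obtain ⟨B₀, h₀⟩ := Hh_ex hx
  have h1 : {r | ∃ B ⊆ ws ι M.F.d, B.card = M.N ∧
      LinearIndependent ℝ (fun l : B => yw x l.1) ∧ r = ∑ l ∈ B, cw c l}.Finite :=
    ((Hh_fin x).image fun B => ∑ l ∈ B, cw c l).subset fun _ ⟨B, a1, a2, a3, a4⟩ =>
      ⟨B, ⟨a1, a2, a3⟩, a4.symm⟩
  exact ⟨Set.Nonempty.csSup_mem ⟨_, B₀, h₀.1, h₀.2.1, h₀.2.2, rfl⟩ h1,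
    fun r hr => le_csSup h1.bddAbove hr⟩

theorem Hh_opt (hx : Submodule.span ℝ (Set.range (yw x)) = ⊤) (c : ι → ℝ) :
    ∃ B, HhB x B ∧ hh x c = ∑ l ∈ B, cw c l := by
  obtain ⟨B, h1, h2, h3, h4⟩ := (hh_spec hx c).1
  exact ⟨B, ⟨h1, h2, h3⟩, h4⟩

theorem Hh_le (hx : Submodule.span ℝ (Set.range (yw x)) = ⊤) (c : ι → ℝ) {B : Finset (List ι)}
    (h : HhB x B) : ∑ l ∈ B, cw c l ≤ hh x c := (hh_spec hx c).2 ⟨B, h.1, h.2.1, h.2.2, rfl⟩

theorem Hh_par {κ : Type} [Fintype κ] (b : Module.Basis κ ℝ M.V) : ∃ C : ℝ, ∀ r : κ → ℝ,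
    volume {v | ∀ j, |b.repr v j| ≤ Real.exp (r j)} = ENNReal.ofReal (Real.exp (∑ j, r j + C)) := by
  have h1 := Measure.isAddLeftInvariant_eq_smul (volume.map b.equivFunL) (volume : Measure (κ → ℝ))
  have h2 := Measure.addHaarScalarFactor_pos_of_isAddHaarMeasure (volume.map b.equivFunL)
    (volume : Measure (κ → ℝ))
  generalize Measure.addHaarScalarFactor (volume.map b.equivFunL) (volume : Measure (κ → ℝ)) = k
    at h1 h2
  refine ⟨Real.log k + ∑ _j : κ, Real.log 2, fun r => ?_⟩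
  have h3 : {v | ∀ j, |b.repr v j| ≤ Real.exp (r j)} =
      b.equivFunL ⁻¹' Set.Icc (fun j => -Real.exp (r j)) fun j => Real.exp (r j) := by
    ext v
    simp only [Set.mem_ofPred_eq, Set.mem_preimage, Set.mem_Icc, Pi.le_def, abs_le, forall_and]
    rfl
  rw [h3, ← Measure.map_apply b.equivFunL.continuous.measurable measurableSet_Icc, h1,
    Measure.smul_apply, Real.volume_Icc_pi, ← ENNReal.ofReal_prod_of_nonneg
      fun j _ => by linarith [Real.exp_pos (r j)], ENNReal.smul_def, smul_eq_mul,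
    ← ENNReal.ofReal_coe_nnreal, ← ENNReal.ofReal_mul k.coe_nonneg, add_left_comm,
    ← Finset.sum_add_distrib, Real.exp_add, Real.exp_log (by exact_mod_cast h2), Real.exp_sum]
  congr 2
  refine Finset.prod_congr rfl fun j _ => ?_
  rw [Real.exp_add, Real.exp_log two_pos]
  ring

theorem Hh_vol {B : Finset (List ι)} (h : HhB x B) : ∃ C : ℝ, ∀ r : List ι → ℝ,
    volume (HhP x B r) = ENNReal.ofReal (Real.exp (∑ l ∈ B, r l + C)) := by
  classical
  obtain ⟨b, hb⟩ := Hh_basis h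
  obtain ⟨C, hC⟩ := Hh_par b
  refine ⟨C, fun r => ?_⟩
  rw [← Finset.sum_coe_sort, ← hC]
  congr 1
  ext v
  constructor
  · rintro ⟨t, h1, rfl⟩ j
    rw [← Finset.sum_coe_sort]
    simp only [← hb, Module.Basis.repr_sum_self]
    exact h1 _ j.2
  · intro hv
    refine ⟨fun l => if h : l ∈ B then b.repr v ⟨l, h⟩ else 0, fun l hl => ?_, ?_⟩
    · simp only [dif_pos hl]
      exact hv ⟨l, hl⟩
    · rw [← Finset.sum_coe_sort]
      refine (b.sum_repr v).symm.trans (Finset.sum_congr rfl fun l _ => ?_)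
      simp only [dif_pos l.2, hb]

theorem Hh_sub {B : Finset (List ι)} (h : HhB x B) {r : List ι → ℝ} {c : ι → ℝ}
    (hr : ∀ l ∈ B, r l ≤ cw c l) : HhP x B r ⊆ Bx x c := by
  classical
  rintro _ ⟨t, h1, rfl⟩
  have e : ∑ l ∈ B, t l • yw x l = ∑ l ∈ ws ι M.F.d, (if l ∈ B then t l else 0) • yw x l := by
    rw [← Finset.sum_subset h.1 fun l _ hl => by simp [hl]]
    exact Finset.sum_congr rfl fun l hl => by rw [if_pos hl]
  rw [e]
  refine BoxA_intro _ (fun l _ _ _ => ?_) fun l hl => absurd trivial hl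
  split_ifs with hl
  · exact (h1 l hl).trans (Real.exp_le_exp.2 (hr l hl))
  · simpa using (Real.exp_pos _).le

theorem Hh_low (x : ι → M.V) : ∃ C, 0 ≤ C ∧ ∀ B, HhB x B → ∀ r : List ι → ℝ,
    ENNReal.ofReal (Real.exp (∑ l ∈ B, r l - C)) ≤ volume (HhP x B r) := by
  have h : ∀ B ∈ {B | HhB x B}, ∀ᶠ C in Filter.atTop, ∀ r : List ι → ℝ,
      ENNReal.ofReal (Real.exp (∑ l ∈ B, r l - C)) ≤ volume (HhP x B r) := fun B hB => by
    obtain ⟨C, hC⟩ := Hh_vol hB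
    filter_upwards [Filter.eventually_ge_atTop (-C)] with C' hC' r
    rw [hC]
    exact ENNReal.ofReal_le_ofReal (Real.exp_le_exp.2 (by linarith))
  exact ((Filter.eventually_ge_atTop 0).and ((Filter.eventually_all_finite (Hh_fin x)).2 h)).exists

theorem Hh_exch (hx : Submodule.span ℝ (Set.range (yw x)) = ⊤) {c : ι → ℝ} {B : Finset (List ι)}
    (h : HhB x B) (ho : hh x c = ∑ l ∈ B, cw c l) {b : Module.Basis B ℝ M.V}
    (hb : ∀ l : B, b l = yw x l.1) {m : List ι} (hm : m ∈ ws ι M.F.d) {l : B}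
    (h0 : b.repr (yw x m) l ≠ 0) : cw c m ≤ cw c l.1 := by
  classical
  have h1 : yw x m ∉ Submodule.span ℝ (yw x '' (B.erase l.1 : Set (List ι))) := by
    intro hs
    have : Submodule.span ℝ (yw x '' (B.erase l.1 : Set (List ι))) ≤ LinearMap.ker (b.coord l) := by
      rw [Submodule.span_le]
      rintro _ ⟨n, hn, rfl⟩
      have hn' := Finset.mem_erase.1 hn
      have e := hb ⟨n, hn'.2⟩
      change b.repr (yw x n) l = 0
      rw [← e, b.repr_self, Finsupp.single_eq_of_ne]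
      exact fun h => hn'.1 (congrArg Subtype.val h).symm
    exact h0 (this hs)
  have h2 : m ∉ B.erase l.1 := fun hm' => h1 (Submodule.subset_span ⟨m, hm', rfl⟩)
  have h3 : LinearIndepOn ℝ (yw x) (B : Set (List ι)) := h.2.2
  have h4 := (h3.mono (Finset.coe_subset.2 (Finset.erase_subset l.1 B))).insert h1
  rw [← Finset.coe_insert] at h4
  have h5 := Hh_le hx c (B := insert m (B.erase l.1))
    ⟨Finset.insert_subset hm ((Finset.erase_subset _ _).trans h.1), by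
      rw [Finset.card_insert_of_notMem h2, Finset.card_erase_add_one l.2, h.2.1], h4⟩
  rw [Finset.sum_insert h2, ho, ← Finset.add_sum_erase B _ l.2] at h5
  linarith

theorem Hh_up (hx : Submodule.span ℝ (Set.range (yw x)) = ⊤) {B : Finset (List ι)} (h : HhB x B) :
    ∃ A : ℝ, ∀ c, hh x c = ∑ l ∈ B, cw c l → Bx x c ⊆ HhP x B fun l => cw c l + A := by
  classical
  obtain ⟨b, hb⟩ := Hh_basis h
  refine ⟨∑ l, ∑ m ∈ ws ι M.F.d, |b.repr (yw x m) l|, fun c ho v hv => ?_⟩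
  refine ⟨fun l => if h : l ∈ B then b.repr v ⟨l, h⟩ else 0, fun l hl => ?_, ?_⟩
  · obtain ⟨t, h1, -, rfl⟩ := BoxA_elim hv
    simp only [dif_pos hl, map_sum, map_smul, Finsupp.finsetSum_apply, Finsupp.smul_apply,
      smul_eq_mul]
    refine (Finset.abs_sum_le_sum_abs _ _).trans ?_
    have h2 : ∑ m ∈ ws ι M.F.d, |b.repr (yw x m) ⟨l, hl⟩| ≤
        ∑ l, ∑ m ∈ ws ι M.F.d, |b.repr (yw x m) l| :=
      Finset.single_le_sum (f := fun l => ∑ m ∈ ws ι M.F.d, |b.repr (yw x m) l|)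
        (fun _ _ => Finset.sum_nonneg fun _ _ => abs_nonneg _) (Finset.mem_univ _)
    have h3 := Real.add_one_le_exp (∑ l, ∑ m ∈ ws ι M.F.d, |b.repr (yw x m) l|)
    rw [Real.exp_add]
    refine le_trans ?_ (mul_le_mul_of_nonneg_left (h2.trans (by linarith)) (Real.exp_pos _).le)
    rw [Finset.mul_sum]
    refine Finset.sum_le_sum fun m hm => ?_
    by_cases h0 : b.repr (yw x m) ⟨l, hl⟩ = 0
    · simp [h0]
    · rw [abs_mul]
      exact mul_le_mul_of_nonneg_right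
        ((h1 m).trans (Real.exp_le_exp.2 (Hh_exch hx h ho hb hm h0))) (abs_nonneg _)
  · rw [← Finset.sum_coe_sort]
    refine (b.sum_repr v).symm.trans (Finset.sum_congr rfl fun l _ => ?_)
    simp only [dif_pos l.2, hb]

theorem vol_Bx (hx : Submodule.span ℝ (Set.range (yw x)) = ⊤) : ∃ C, 0 ≤ C ∧ ∀ c,
    ENNReal.ofReal (Real.exp (hh x c - C)) ≤ volume (Bx x c) ∧
      volume (Bx x c) ≤ ENNReal.ofReal (Real.exp (hh x c + C)) := by
  obtain ⟨C₀, h0, hC₀⟩ := Hh_low x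
  have h : ∀ B ∈ {B | HhB x B}, ∀ᶠ C in Filter.atTop, ∀ c, hh x c = ∑ l ∈ B, cw c l →
      volume (Bx x c) ≤ ENNReal.ofReal (Real.exp (hh x c + C)) := fun B hB => by
    obtain ⟨C, hC⟩ := Hh_vol hB
    obtain ⟨A, hA⟩ := Hh_up hx hB
    filter_upwards [Filter.eventually_ge_atTop (∑ _l ∈ B, A + C)] with C' hC' c ho
    refine (measure_mono (hA c ho)).trans ?_
    rw [hC, Finset.sum_add_distrib, ho]
    exact ENNReal.ofReal_le_ofReal (Real.exp_le_exp.2 (by linarith))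
  obtain ⟨C, h1, h2⟩ := ((Filter.eventually_ge_atTop C₀).and
    ((Filter.eventually_all_finite (Hh_fin x)).2 h)).exists
  refine ⟨C, h0.trans h1, fun c => ?_⟩
  obtain ⟨B, hB, ho⟩ := Hh_opt hx c
  refine ⟨le_trans ?_ ((hC₀ B hB (cw c)).trans (measure_mono (Hh_sub hB fun _ _ => le_rfl))),
    h2 B hB c ho⟩
  exact ENNReal.ofReal_le_ofReal (Real.exp_le_exp.2 (by linarith))

end Mdl

namespace Geo

variable {G : Geo} {c c' : Fin G.n → ℝ}

theorem vol_B (G : Geo) : ∃ C, 0 ≤ C ∧ ∀ c,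
    ENNReal.ofReal (Real.exp (G.h c - C)) ≤ volume (G.B c) ∧
      volume (G.B c) ≤ ENNReal.ofReal (Real.exp (G.h c + C)) := Mdl.vol_Bx span_x

theorem h_mono (h : c ≤ c') : G.h c ≤ G.h c' := by
  obtain ⟨B, hB, ho⟩ := Mdl.Hh_opt span_x c
  exact ho.le.trans ((Finset.sum_le_sum fun l _ => Mdl.BoxA_cw_le fun i _ => h i).trans
    (Mdl.Hh_le span_x c' hB))

theorem h_strict (h : c ≤ c') (i : Fin G.n) : G.h c + (c' i - c i) ≤ G.h c' := by
  obtain ⟨B, hB, ho⟩ := Mdl.Hh_opt span_x c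
  obtain ⟨b, hb⟩ := Mdl.Hh_basis hB
  have h1 : [i] ∈ B := by
    by_contra hn
    have h2 : G.τ i = 0 := b.ext fun l => by
      rw [hb]
      exact τ_yw i fun e => hn (e ▸ l.2)
    have := τ_self (G := G) i
    rw [h2] at this
    exact zero_ne_one this
  have h2 := Finset.single_le_sum (f := fun l => cw c' l - cw c l)
    (fun l _ => sub_nonneg.2 (Mdl.BoxA_cw_le fun i _ => h i)) h1
  have h3 := Mdl.Hh_le span_x c' hB
  rw [Finset.sum_sub_distrib, ← ho] at h2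
  simp only [cw, List.map_cons, List.map_nil, List.sum_cons, List.sum_nil, add_zero] at h2 h3
  unfold Geo.h
  linarith

theorem h_add (c : Fin G.n → ℝ) {β : ℝ} (hβ : 0 ≤ β) :
    G.h (fun i => c i + β) ≤ G.h c + G.N * G.F.d * β := by
  obtain ⟨B, hB, ho⟩ := Mdl.Hh_opt span_x fun i => c i + β
  have h1 := Mdl.Hh_le span_x c hB
  have h2 : ∑ l ∈ B, cw (fun i => c i + β) l ≤ ∑ l ∈ B, (cw c l + G.F.d * β) := by
    refine Finset.sum_le_sum fun l hl => ?_
    rw [Mdl.BoxA_cw_add c fun _ => β, Mdl.BoxA_cw_const]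
    have : (l.length : ℝ) ≤ G.F.d := by exact_mod_cast (Mdl.BoxA_ws.1 (hB.1 hl)).le
    nlinarith
  rw [Finset.sum_add_distrib, Finset.sum_const, hB.2.1, nsmul_eq_mul] at h2
  unfold Geo.h
  linarith

theorem Hh_cw_mul (c : Fin G.n → ℝ) (r : ℝ) (l : List (Fin G.n)) :
    cw (fun i => r * c i) l = r * cw c l := by
  induction l with
  | nil => simp [cw]
  | cons i l ih => rw [Mdl.BoxA_cw_cons, Mdl.BoxA_cw_cons, ih, mul_add]

theorem h_smul (c : Fin G.n → ℝ) {r : ℝ} (hr : 0 ≤ r) : G.h (fun i => r * c i) = r * G.h c := by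
  obtain ⟨B, hB, ho⟩ := Mdl.Hh_opt span_x c
  obtain ⟨B', hB', ho'⟩ := Mdl.Hh_opt span_x fun i => r * c i
  have h1 := Mdl.Hh_le span_x (fun i => r * c i) hB
  have h2 := mul_le_mul_of_nonneg_left (Mdl.Hh_le span_x c hB') hr
  simp only [Hh_cw_mul, ← Finset.mul_sum] at h1 ho'
  unfold Geo.h
  rw [← ho] at h1
  rw [← ho'] at h2
  exact le_antisymm h2 h1

theorem Hh_wt {κ : Type} [Fintype κ] (b : Module.Basis κ ℝ G.V) (u : κ → Ht G.k)
    (hu : ∀ a j, G.dl a (b j) = Real.exp ⟪u j, a⟫_ℝ • b j) (φ : Ht G.k → ℝ) :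
    ∑ j, φ (u j) = ∑ j, φ (G.w j) := by
  classical
  let e0 : Module.Basis (Fin G.N) ℝ G.V := Pi.basisFun ℝ (Fin G.N)
  let e := b.indexEquiv e0
  have h1 := (e0.isUnit_det (b.reindex e)).ne_zero
  rw [Module.Basis.det_apply, Matrix.det_apply] at h1
  obtain ⟨σ, -, hσ⟩ := Finset.exists_ne_zero_of_sum_ne_zero h1
  have h2 := Finset.prod_ne_zero_iff.1 (right_ne_zero_of_smul hσ)
  have h3 : ∀ i, u (e.symm i) = G.w (σ i) := fun i => by
    have k1 : b (e.symm i) (σ i) ≠ 0 := by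
      have := h2 i (Finset.mem_univ i)
      rwa [Module.Basis.toMatrix_apply, Module.Basis.reindex_apply] at this
    refine ext_inner_right ℝ fun a => ?_
    have k2 := congrFun (hu a (e.symm i)) (σ i)
    exact (Real.exp_injective (mul_right_cancel₀ k1 k2)).symm
  rw [← Equiv.sum_comp e.symm, ← Equiv.sum_comp σ fun j => φ (G.w j)]
  simp only [h3]

theorem Hh_cw_la (a : Ht G.k) (l : List (Fin G.n)) :
    cw (G.la a) l = ⟪(l.map G.lam).sum, a⟫_ℝ := by
  induction l with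
  | nil => simp [cw]
  | cons i l ih => rw [Mdl.BoxA_cw_cons, ih, List.map_cons, List.sum_cons, inner_add_left]; rfl

theorem Hh_sum {B : Finset (List (Fin G.n))} (hB : Mdl.HhB G.x B) (a : Ht G.k) (φ : ℝ → ℝ) :
    ∑ l ∈ B, φ (cw (G.la a) l) = ∑ j, φ ⟪G.w j, a⟫_ℝ := by
  obtain ⟨b, hb⟩ := Mdl.Hh_basis hB
  rw [← Hh_wt b (fun l => (l.1.map G.lam).sum) (fun a l => by
    rw [hb, ← Hh_cw_la]
    exact Mdl.dl_yw dl_x a l.1) fun p => φ ⟪p, a⟫_ℝ, ← Finset.sum_coe_sort]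
  simp only [Hh_cw_la]

theorem h_shift (c : Fin G.n → ℝ) (a : Ht G.k) : G.h (fun i => c i + G.la a i) = G.h c := by
  have key : ∀ B, Mdl.HhB G.x B →
      ∑ l ∈ B, cw (fun i => c i + G.la a i) l = ∑ l ∈ B, cw c l := fun B hB => by
    have := Hh_sum hB a id
    simp only [id, ← sum_inner, G.uni, inner_zero_left] at this
    simp only [Mdl.BoxA_cw_add c (G.la a), Finset.sum_add_distrib, this, add_zero]
  obtain ⟨B, hB, ho⟩ := Mdl.Hh_opt span_x c
  obtain ⟨B', hB', ho'⟩ := Mdl.Hh_opt span_x fun i => c i + G.la a i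
  exact le_antisymm (ho'.le.trans ((key B' hB').le.trans (Mdl.Hh_le span_x c hB')))
    (ho.le.trans ((key B hB).ge.trans (Mdl.Hh_le span_x _ hB)))

/-- the weights of a homogeneous basis -/
theorem sum_wt {κ : Type} [Fintype κ] (b : Module.Basis κ ℝ G.V) (u : κ → Ht G.k)
    (hu : ∀ a j, G.dl a (b j) = Real.exp ⟪u j, a⟫_ℝ • b j) (φ : Ht G.k → ℝ) :
    ∑ j, φ (u j) = ∑ j, φ (G.w j) := Hh_wt b u hu φ

theorem vol_inter (G : Geo) : ∃ C, 0 ≤ C ∧ ∀ (c : Fin G.n → ℝ) (b : Ht G.k),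
    ENNReal.ofReal (Real.exp (G.h c - G.hp b - C)) ≤
      volume (G.B c ∩ G.B fun i => c i + G.la b i) := by
  obtain ⟨C, h0, hC⟩ := Mdl.Hh_low G.x
  refine ⟨C, h0, fun c b => ?_⟩
  obtain ⟨B, hB, ho⟩ := Mdl.Hh_opt span_x c
  have h1 := hC B hB fun l => cw c l - max (-cw (G.la b) l) 0
  rw [Finset.sum_sub_distrib, Hh_sum hB b fun s => max (-s) 0, ← ho] at h1
  refine h1.trans (measure_mono (Set.subset_inter (Mdl.Hh_sub hB fun l _ => ?_)
    (Mdl.Hh_sub hB fun l _ => ?_)))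
  · linarith [le_max_right (-cw (G.la b) l) 0]
  · rw [Mdl.BoxA_cw_add c (G.la b)]
    linarith [le_max_left (-cw (G.la b) l) 0]

end Geo

end Vale.Agent.P188
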