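import Vale.Agent.P188.CntW
import Vale.Agent.P188.Meas

/-! A horizontal part times a cell at the facet fills the box evenly. -/

namespace Vale.Agent.P188.Geo

open Mdl MeasureTheory
open scoped InnerProductSpace

variable {G : Geo} {ν : Ht G.k}

theorem Inter_mst {M : Mdl} {S : Type} [MeasurableSpace S] {f g : S → M.V} (hf : Measurable f)
    (hg : Measurable g) : Measurable fun a => M.st (f a) (g a) :=
  Measurable.comp (g := fun q : M.V × M.V => M.st q.1 q.2) (f := fun a => (f a, g a))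
    continuous_st.measurable (hf.prodMk hg)

theorem Inter_ton {M : Mdl} {K D P N : Set M.V} (hK : MeasurableSet K) (hD : MeasurableSet D)
    (hP : MeasurableSet P) (hN : MeasurableSet N) (y : M.V) {V T : ENNReal} (hV : V ≠ ⊤)
    (h : ∀ k g, volume {u | u ∈ K ∧ M.st (-M.st (M.st y u) k) g ∈ P} * V ≤ T) :
    (volume.prod (volume.prod volume)) {q : M.V × M.V × M.V | q.1 ∈ K ∧ q.2 ∈ D ×ˢ P ∧
      M.st (M.st (M.st y q.1) q.2.1) q.2.2 ∈ N} * V ≤ T * (volume D * volume N) := by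
  have h0 : Measurable fun q : M.V × M.V × M.V => M.st (M.st y q.1) q.2.1 :=
    Inter_mst (Inter_mst measurable_const measurable_fst) measurable_snd.fst
  have h1 : MeasurableSet {q : M.V × M.V × M.V | q.1 ∈ K ∧ q.2 ∈ D ×ˢ P ∧
      M.st (M.st (M.st y q.1) q.2.1) q.2.2 ∈ N} :=
    (measurable_fst hK).inter ((measurable_snd (hD.prod hP)).inter
      (Inter_mst h0 measurable_snd.snd hN))
  have h2 : MeasurableSet {q : M.V × M.V × M.V | q.1 ∈ K ∧ q.2 ∈ D ×ˢ N ∧
      M.st (-M.st (M.st y q.1) q.2.1) q.2.2 ∈ P} :=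
    (measurable_fst hK).inter ((measurable_snd (hD.prod hN)).inter
      (Inter_mst h0.neg measurable_snd.snd hP))
  have h3 : (volume.prod (volume.prod volume)) {q : M.V × M.V × M.V | q.1 ∈ K ∧ q.2 ∈ D ×ˢ P ∧
      M.st (M.st (M.st y q.1) q.2.1) q.2.2 ∈ N} = (volume.prod (volume.prod volume))
        {q : M.V × M.V × M.V | q.1 ∈ K ∧ q.2 ∈ D ×ˢ N ∧
          M.st (-M.st (M.st y q.1) q.2.1) q.2.2 ∈ P} := by
    rw [Measure.prod_apply h1, Measure.prod_apply h2]
    refine lintegral_congr fun u => ?_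
    rw [Measure.prod_apply (measurable_prodMk_left h1),
      Measure.prod_apply (measurable_prodMk_left h2)]
    refine lintegral_congr fun k => ?_
    refine Eq.trans ?_ (vol_st_left (M.st (M.st y u) k) _)
    refine congrArg _ (Set.ext fun v => ?_)
    have h4 : ∀ z : M.V, M.st (-z) (M.st z v) = v := fun z => by rw [← st_assoc, neg_st, zero_st]
    simp only [Set.mem_preimage, Set.mem_ofPred_eq, Set.mem_prod, h4]
    tauto
  rw [h3, Measure.prod_apply_symm h2, ← lintegral_mul_const' _ _ hV, ← Measure.prod_prod,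
    ← setLIntegral_const, ← lintegral_indicator (hD.prod hN)]
  refine lintegral_mono fun z => ?_
  by_cases hz : z ∈ D ×ˢ N
  · rw [Set.indicator_of_mem hz]
    exact le_trans (mul_le_mul' (measure_mono fun u hu => And.intro hu.1 hu.2.2) le_rfl)
      (h z.1 z.2)
  · have h4 : (fun u => (u, z)) ⁻¹' {q : M.V × M.V × M.V | q.1 ∈ K ∧ q.2 ∈ D ×ˢ N ∧
        M.st (-M.st (M.st y q.1) q.2.1) q.2.2 ∈ P} = ∅ :=
      Set.eq_empty_of_forall_notMem fun u hu => hz hu.2.1
    simp only [h4, measure_empty, zero_mul, zero_le]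

theorem Inter_sub (A : G.Adapt ν) {K : Set G.V} (hK : IsCompact K) (hc : Convex ℝ K)
    (hs : ∀ v ∈ K, -v ∈ K) {v v' : G.V} (hv : v ∈ K) (hv' : v' ∈ K) {j : Fin G.N}
    (h : ∀ i < j, A.z.repr (v' - v) i = 0) : |A.z.repr (v' - v) j| ≤ 2 * wid A.z K j := by
  have h1 : (1 / 2 : ℝ) • (v' - v) ∈ K := by
    rw [sub_eq_add_neg, smul_add]
    exact hc hv' (hs v hv) (by norm_num) (by norm_num) (by norm_num)
  have h2 := le_wid A.z hK h1 (j := j) fun i hi => by
    rw [map_smul, Finsupp.smul_apply, h i hi, smul_zero]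
  rw [map_smul, Finsupp.smul_apply, smul_eq_mul, abs_mul, abs_of_pos one_half_pos] at h2
  linarith

theorem Inter_low (A : G.Adapt ν) : ∃ C₁, 1 ≤ C₁ ∧
    ∀ (c c₀ : Fin G.n → ℝ) (a : Ht G.k) (l β : ℝ), 0 ≤ l → 0 ≤ β →
      G.Top ν (fun i => c i - l) a (C₁ * (l + 1)) → (∀ i, G.par ν i → c i ≤ c₀ i + β) →
      (∀ i, ¬G.par ν i → c i + G.F.d * β ≤ c₀ i) → ∀ v ∈ G.B c, v ∈ Id G.x (G.par ν) →
        v ∈ (G.B fun i => c i + 1) ∩ G.B fun i => c₀ i + 1 := by
  obtain ⟨C, hC, h1⟩ := norm_of_mem G.x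
  obtain ⟨C', hC', h2⟩ := absorb G.x (G.par ν)
  refine ⟨C + C' + 1, by linarith, fun c c₀ a l β hl hβ hT h3 h4 v hv hI => ?_⟩
  obtain ⟨k, hk, q, hq, rfl⟩ := Bx_split (G.par ν) hv
  have h5 : q ∈ Id G.x (G.par ν) := by
    have := sub_mem hI (IZ_sub_Id hk)
    rwa [add_sub_cancel_left] at this
  have h6 : G.dl a (G.dl (-a) q) = q := by rw [dl_dl, add_neg_cancel, dl_zero]
  have h7 : G.dl (-a) q ∈ SZ G.x (G.par ν) fun _ => l := by
    refine (dl_mem_Zon dl_x a).1 ?_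
    rw [h6]
    refine Zon_le (fun w hw i hi => ?_) hq
    have := hT.1 i (hw i hi)
    linarith
  have h8 : G.dl (-a) q ∈ Id G.x (G.par ν) := (A.mem_iff _).2 fun i hi => by
    rw [A.repr_dl, (A.mem_iff _).1 h5 i hi, mul_zero]
  have h9 : ∀ i, ¬G.par ν i → C * (l + 1) + C' ≤ c i - ⟪G.lam i, a⟫_ℝ := fun i hi => by
    have h10 := hT.2 i hi
    have h11 := mul_nonneg hC' hl
    linarith
  have h10 := h2 (fun i => c i - ⟪G.lam i, a⟫_ℝ) _ (fun i => by
    by_cases hi : G.par ν i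
    · have := hT.1 i hi
      linarith
    · exact le_trans (by positivity) (h9 i hi)) h9 _ h8
      (h1 l hl _ (Zon_sub (fun _ _ => trivial) h7))
  have h11 := (dl_mem_Zon dl_x a).2 h10
  rw [h6] at h11
  have h12 : k + q ∈ IZ G.x (G.par ν) fun i => c i + 1 :=
    add_mem_Zon hk (Zon_mono (fun i => (sub_add_cancel _ _).le) h11)
  refine ⟨Zon_sub (fun _ _ => trivial) h12, Zon_sub (fun _ _ => trivial)
    (IZ_shift hβ (fun i hi => ?_) (fun i hi => ?_) h12)⟩
  · have := h3 i hi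
    linarith
  · have := h4 i hi
    linarith

theorem Inter_cell (A : G.Adapt ν) : ∃ C, 0 ≤ C ∧ ∀ (c : Fin G.n → ℝ) (y k g u u' : G.V),
    G.st (-G.st (G.st y u) k) g ∈ G.B c → G.st (-G.st (G.st y u') k) g ∈ G.B c →
      ∀ j : Fin G.N, (∀ i < j, A.z.repr (u' - u) i = 0) →
        |A.z.repr (u' - u) j| ≤ Real.exp (G.F.d * C) * wid A.z (G.B c) j := by
  obtain ⟨C, hC, h⟩ := st_Bx G.x
  refine ⟨C, hC, fun c y k g u u' hu hu' j hj => ?_⟩
  have h1 := h c _ hu _ (neg_mem_Zon hu')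
  have h2 : G.st (G.st (-G.st (G.st y u) k) g) (-G.st (-G.st (G.st y u') k) g) =
      G.st (G.st (-k) (G.st (-u) u')) (- -k) := by
    rw [neg_st_rev (-G.st (G.st y u') k), neg_neg, neg_neg, st_assoc, ← st_assoc g, st_neg,
      zero_st, st_assoc y, st_assoc y, st_neg_st, neg_st_rev, st_assoc, st_assoc, st_assoc]
  have h3 := A.st_sub hj
  have h4 := A.conj (-k) (p := G.st (-u) u') (j := j) fun i hi => (h3 i hi.le).trans (hj i hi)
  rw [h2] at h1
  rw [← h3 j le_rfl, ← h4 j le_rfl]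
  exact (le_wid A.z isCompact_Zon h1 fun i hi =>
    (h4 i hi.le).trans ((h3 i hi.le).trans (hj i hi))).trans (wid_add A c hC j)

theorem inter (hν : ν ∈ G.Nn) : ∃ C₁, 1 ≤ C₁ ∧ ∀ L ≥ (0 : ℝ), ∃ C > 0,
    ∀ (c c₀ : Fin G.n → ℝ) (a : Ht G.k) (l β : ℝ), 0 ≤ l → 0 ≤ β →
      G.Top ν (fun i => c i - l) a (C₁ * (l + 1)) → (∀ i, G.par ν i → c i ≤ c₀ i + β) →
      (∀ i, ¬G.par ν i → c i + G.F.d * β ≤ c₀ i) → ∀ (y : G.V) (D N : Set G.V),
        MeasurableSet D → MeasurableSet N →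
        (volume.prod (volume.prod volume)) {q : G.V × G.V × G.V |
          q.1 ∈ (G.B fun i => c i + 1) ∩ (G.B fun i => c₀ i + 1) ∧
          q.2 ∈ D ×ˢ (G.B fun i => G.la a i + l - L) ∧
          G.st (G.st (G.st y q.1) q.2.1) q.2.2 ∈ N} * volume (G.B c) ≤
        ENNReal.ofReal C * volume N * volume ((G.B fun i => c i + 1) ∩ G.B fun i => c₀ i + 1) *
          (volume.prod volume) (D ×ˢ G.B fun i => G.la a i + l - L) := by
  obtain ⟨A⟩ := exists_adapt hν
  obtain ⟨C₁, hC₁, h1⟩ := Inter_low A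
  obtain ⟨C₂, hC₂, h2⟩ := Inter_cell A
  obtain ⟨Cu, hCu, hu⟩ := flag_up volume A.z
  obtain ⟨Cl, hCl, hl⟩ := flag_low volume A.z
  refine ⟨C₁, hC₁, fun L hL => ?_⟩
  obtain ⟨Q, hQ, hQ1, hQ2⟩ : ∃ Q : ℝ, 0 < Q ∧ 4 * Real.exp (G.F.d * L) ≤ Q ∧
      2 * Real.exp (G.F.d * C₂) ≤ Q :=
    ⟨_ + _, by positivity, le_add_of_nonneg_right (by positivity),
      le_add_of_nonneg_left (by positivity)⟩
  refine ⟨Cu * Cu * Q ^ G.N / (Cl * Cl), by positivity,
    fun c c₀ a l β hl0 hβ hT h3 h4 y D N hD hN => ?_⟩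
  have h5 := h1 c c₀ a l β hl0 hβ hT h3 h4
  have hK : IsCompact ((G.B fun i => c i + 1) ∩ G.B fun i => c₀ i + 1) :=
    isCompact_Zon.inter isCompact_Zon
  have hKc : Convex ℝ ((G.B fun i => c i + 1) ∩ G.B fun i => c₀ i + 1) :=
    convex_Zon.inter convex_Zon
  have hK0 : (0 : G.V) ∈ (G.B fun i => c i + 1) ∩ G.B fun i => c₀ i + 1 :=
    ⟨zero_mem_Zon, zero_mem_Zon⟩
  have hKs : ∀ v ∈ (G.B fun i => c i + 1) ∩ G.B fun i => c₀ i + 1,
      -v ∈ (G.B fun i => c i + 1) ∩ G.B fun i => c₀ i + 1 := fun v hv =>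
    ⟨neg_mem_Zon hv.1, neg_mem_Zon hv.2⟩
  generalize ((G.B fun i => c i + 1) ∩ G.B fun i => c₀ i + 1) = K at h5 hK hKc hK0 hKs ⊢
  have h6 : ∀ j : Fin G.N, j.val < A.m → wid A.z (G.B c) j ≤
      Real.exp (G.F.d * L) * wid A.z (G.B fun i => G.la a i + l - L) j := fun j hj =>
    (wid_top A (fun i hi => by
      have := hT.1 i hi
      unfold la
      linarith) hj).trans (wid_add A _ hL j)
  generalize (fun i => G.la a i + l - L) = c' at h6 ⊢
  have h7 : ∀ j : Fin G.N, ¬j.val < A.m → wid A.z (G.B c) j ≤ wid A.z K j := fun j hj =>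
    wid_le A.z (wid_nonneg _ _ _) fun v hv h8 => le_wid A.z hK (h5 v hv ((A.mem_iff v).2
      fun i hi => h8 i (Fin.lt_def.2 (by omega)))) h8
  have hP : IsCompact (G.B c') := isCompact_Zon
  have hB : IsCompact (G.B c) := isCompact_Zon
  have hw := wid_nonneg A.z
  refine (Inter_ton hK.measurableSet hD hP.measurableSet hN y hB.measure_lt_top.ne
    (T := ENNReal.ofReal (Cu * Cu * Q ^ G.N / (Cl * Cl)) * (volume K * volume (G.B c')))
    fun k g => ?_).trans (le_of_eq (by rw [Measure.prod_prod]; ring))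
  have h8 := hu {u | u ∈ K ∧ G.st (-G.st (G.st y u) k) g ∈ G.B c'}
    (fun j => if j.val < A.m then 2 * wid A.z K j else Real.exp (G.F.d * C₂) * wid A.z (G.B c') j)
    (hK.measurableSet.inter (Inter_mst (Inter_mst (Inter_mst measurable_const measurable_id)
      measurable_const).neg measurable_const hP.measurableSet))
    (fun j => by
      have := hw K j
      have := hw (G.B c') j
      split_ifs <;> positivity)
    fun v hv v' hv' j hj => by
      split_ifs
      · exact Inter_sub A hK hKc hKs hv.1 hv'.1 hj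
      · exact h2 c' y k g v v' hv.2 hv'.2 j hj
  have h9 := hu (G.B c) (fun j => 2 * wid A.z (G.B c) j) hB.measurableSet
    (fun j => mul_nonneg zero_le_two (hw _ j)) fun v hv v' hv' j hj =>
      Inter_sub A hB convex_Zon (fun _ => neg_mem_Zon) hv hv' hj
  refine (mul_le_mul' h8 h9).trans (le_trans ?_ (mul_le_mul' le_rfl (mul_le_mul'
    (hl K hK hKc hK0 hKs) (hl _ hP convex_Zon zero_mem_Zon fun _ => neg_mem_Zon))))
  have h10 : ∀ S, 0 ≤ ∏ j, wid A.z S j := fun S => Finset.prod_nonneg fun j _ => hw S j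
  rw [← ENNReal.ofReal_mul' (mul_nonneg hCu.le
      (Finset.prod_nonneg fun j _ => mul_nonneg zero_le_two (hw _ j))),
    ← ENNReal.ofReal_mul (mul_nonneg hCl.le (h10 _)), ← ENNReal.ofReal_mul (by positivity)]
  refine ENNReal.ofReal_le_ofReal ?_
  have h11 : Cu * Cu * Q ^ G.N / (Cl * Cl) * ((Cl * ∏ j, wid A.z K j) *
      (Cl * ∏ j, wid A.z (G.B c') j)) =
        Cu * Cu * ∏ j : Fin G.N, Q * (wid A.z K j * wid A.z (G.B c') j) := by
    rw [Finset.prod_mul_distrib, Finset.prod_mul_distrib, Finset.prod_const, Finset.card_univ,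
      Fintype.card_fin]
    field_simp
  rw [h11, mul_mul_mul_comm, ← Finset.prod_mul_distrib]
  refine mul_le_mul_of_nonneg_left (Finset.prod_le_prod (fun j _ => ?_) fun j _ => ?_)
    (by positivity)
  · have := hw K j
    have := hw (G.B c') j
    have := hw (G.B c) j
    split_ifs <;> positivity
  · have h12 := mul_nonneg (hw K j) (hw (G.B c') j)
    split_ifs with hj
    · have h13 := mul_le_mul_of_nonneg_left (h6 j hj) (hw K j)
      have h14 := mul_le_mul_of_nonneg_right hQ1 h12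
      linarith
    · have h13 := mul_le_mul_of_nonneg_left (h7 j hj)
        (mul_nonneg (Real.exp_pos (G.F.d * C₂)).le (hw (G.B c') j))
      have h14 := mul_le_mul_of_nonneg_right hQ2 h12
      linarith

end Vale.Agent.P188.Geo
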