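import Vale.Agent.P188.Dual

/-! The height is short along most lines at the given scale. -/

namespace Vale.Agent.P188.Sys

open MeasureTheory Filter Mdl
open scoped InnerProductSpace ENNReal

variable {G : Geo} {S : Sys G} {W : S.I → ℝ≥0∞} {A : S.I → Set G.V} {c : ℝ}

theorem Lip_markov {Ω : Type} [MeasurableSpace Ω] (μ : Measure Ω) {m : ℕ} (hm : 0 < m)
    {B : ℕ → Set Ω} (hB : ∀ j, MeasurableSet (B j)) {b : ℝ≥0∞} (hb : ∀ j, μ (B j) ≤ b) {η : ℝ}
    {T : Set Ω} (hT : ∀ x ∈ T, η * m ≤ ∑ j ∈ Finset.range m, (B j).indicator (fun _ => (1 : ℝ)) x) :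
    ENNReal.ofReal η * μ T ≤ b := by
  have hf : ∀ j, Measurable ((B j).indicator fun _ => (1 : ℝ≥0∞)) := fun j =>
    measurable_const.indicator (hB j)
  have h1 := mul_meas_ge_le_lintegral₀ (μ := μ)
    (f := fun x => ∑ j ∈ Finset.range m, (B j).indicator (fun _ => (1 : ℝ≥0∞)) x)
    (Finset.measurable_sum _ fun j _ => hf j).aemeasurable (ENNReal.ofReal (η * m))
  have h2 : μ T ≤ μ {x | ENNReal.ofReal (η * m) ≤
      ∑ j ∈ Finset.range m, (B j).indicator (fun _ => (1 : ℝ≥0∞)) x} := by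
    refine measure_mono fun x hx => (ENNReal.ofReal_le_ofReal (hT x hx)).trans_eq ?_
    rw [ENNReal.ofReal_sum_of_nonneg fun j _ => Set.indicator_nonneg (fun _ _ => zero_le_one) x]
    refine Finset.sum_congr rfl fun j _ => ?_
    by_cases h : x ∈ B j <;> simp [h]
  rw [lintegral_finsetSum _ fun j _ => hf j] at h1
  have h3 : ∑ j ∈ Finset.range m, ∫⁻ x, (B j).indicator (fun _ => (1 : ℝ≥0∞)) x ∂μ ≤ m * b := by
    refine (Finset.sum_le_sum (g := fun _ => b) fun j _ => ?_).trans_eq (by simp)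
    rw [lintegral_indicator_const (hB j), one_mul]
    exact hb j
  have h4 := ((mul_le_mul_right h2 _).trans h1).trans h3
  rw [mul_comm η, ENNReal.ofReal_mul (Nat.cast_nonneg m), ENNReal.ofReal_natCast, mul_assoc] at h4
  exact (ENNReal.mul_le_mul_iff_right (by simpa using hm.ne') (by simp)).1 h4

theorem Lip_blow (hO : G.Orth) (hA : S.Rg W A c) (v : Ht G.k) {δ κ : ℝ} (hδ : 0 < δ)
    (hκ : 0 < κ) : ∃ l : ℕ, ∀ᶠ n in S.U, volume {x ∈ G.nb (A n) (c / (8 * S.K ^ 2) * S.R n) |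
      (‖v‖ + δ) * (S.R n / 2 ^ l) ≤ ‖S.T n (G.st x (G.X ((S.R n / 2 ^ l) • v))) - S.T n x‖} ≤
        ENNReal.ofReal κ * W n := by
  have hK := S.one_le_K
  have hc := hA.1
  have h𝒱 : ((hyperfilter ℕ : Ultrafilter ℕ) : Filter ℕ) ≤ atTop := Nat.hyperfilter_le_atTop
  have lift : ∀ {p : S.I → Prop}, (∀ᶠ n in S.U, p n) →
      ∀ᶠ q : S.I × ℕ in (S.blow (hyperfilter ℕ)).U, p q.1 := fun h =>
    (eventually_bind S.U _ _).2 (Eventually.of_forall fun _ => h)
  have h1 : (S.blow (hyperfilter ℕ)).Tan (fun q => W q.1)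
      fun q => G.nb (A q.1) (c / (8 * S.K ^ 2) * S.R q.1) := by
    refine (tan_blow hA h𝒱).mono (lift (p := fun n => G.nb (A n) (c / (8 * S.K ^ 2) * S.R n) ⊆
      G.nb (A n) (c / 2 * S.R n)) ?_)
    filter_upwards [S.ev_R 0] with n hn
    refine nb_mono subset_rfl (mul_le_mul_of_nonneg_right ?_ hn)
    exact div_le_div_of_nonneg_left hc.le two_pos (by nlinarith)
  have h2 : (S.blow (hyperfilter ℕ)).symm.Tan (fun q => W q.1)
      fun q => S.f q.1 '' G.nb (A q.1) (c / (8 * S.K ^ 2) * S.R q.1) := by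
    refine (tan_blow hA.symm h𝒱).mono (lift (p := fun n =>
      S.f n '' G.nb (A n) (c / (8 * S.K ^ 2) * S.R n) ⊆
        G.nb (S.f n '' A n) (c / (2 * S.K) / 2 * S.R n)) ?_)
    filter_upwards [S.ev_R (8 * S.K ^ 2 / c)] with n hn
    rintro _ ⟨x, ⟨a, ha, hx⟩, rfl⟩
    refine ⟨_, ⟨a, ha, rfl⟩, ((S.q n).lf a x).trans ?_⟩
    have k1 := mul_le_mul_of_nonneg_left hx (zero_le_one.trans hK)
    have k2 : S.K * (c / (8 * S.K ^ 2) * S.R n) = c / (8 * S.K) * S.R n := by field_simp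
    have k3 : c / (2 * S.K) / 2 * S.R n = 2 * (c / (8 * S.K) * S.R n) := by field_simp; ring
    have k4 : c / (8 * S.K) * (8 * S.K ^ 2 / c) ≤ c / (8 * S.K) * S.R n :=
      mul_le_mul_of_nonneg_left hn (by positivity)
    have k5 : c / (8 * S.K) * (8 * S.K ^ 2 / c) = S.K := by field_simp
    linarith
  exact ((eventually_bind S.U _ _).1 (tan_lip hO h1 h2 v hδ κ hκ)).exists

theorem lip (hO : G.Orth) (hA : S.Rg W A c) : ∃ c' > 0, ∀ v : Ht G.k, ‖v‖ ≤ c' → ∀ ε > 0,
    Nul S.U W fun n => {x ∈ A n |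
      (‖v‖ + ε) * S.R n ≤ ‖S.T n (G.st x (G.X (S.R n • v))) - S.T n x‖} := by
  have hK := S.one_le_K
  have hc := hA.1
  obtain ⟨C0, hC0, h0⟩ := T_lip G
  obtain ⟨C1, hC1, h1⟩ := G.len_line
  obtain ⟨C2, hC2, h2⟩ := G.len_X
  obtain ⟨c1, hc1, hc1'⟩ : ∃ c1, c1 = c / (8 * S.K ^ 2) ∧ 0 < c1 := ⟨_, rfl, by positivity⟩
  refine ⟨c1 / (2 * C2), by positivity, fun v hv ε hε κ hκ => ?_⟩
  obtain ⟨M, hM, hM'⟩ : ∃ M, M = C0 * S.K * (C1 * (‖v‖ + 1) + 1) ∧ 0 < M :=
    ⟨_, rfl, by positivity⟩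
  have hη : 0 < ε / (2 * M) := by positivity
  obtain ⟨l, hl⟩ := Lip_blow hO hA v (half_pos hε) (mul_pos hη hκ)
  rw [← hc1] at hl
  filter_upwards [hl, S.ev_R (2 ^ l), S.ev_R (2 * C2 / c1), S.ev_R (1 / c1)] with n hn r1 r2 r3
  obtain ⟨m, hm, hm'⟩ : ∃ m : ℕ, (m : ℝ) = 2 ^ l ∧ 0 < m := ⟨2 ^ l, by simp, by positivity⟩
  have hm0 : (0 : ℝ) < m := by exact_mod_cast hm'
  rw [← hm] at hn r1
  obtain ⟨h, hh⟩ : ∃ h, h = S.R n / m := ⟨_, rfl⟩
  rw [← hh] at hn
  have hR : S.R n = m * h := by rw [hh]; field_simp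
  have hh1 : 1 ≤ h := by rw [hh, le_div_iff₀ hm0]; linarith
  rw [div_le_iff₀ hc1'] at r2 r3
  obtain ⟨Bad, hBad⟩ : ∃ Bad, Bad = {x ∈ G.nb (A n) (c1 * S.R n) |
    (‖v‖ + ε / 2) * h ≤ ‖S.T n (G.st x (G.X (h • v))) - S.T n x‖} := ⟨_, rfl⟩
  rw [← hBad] at hn
  have cst : ∀ u : G.V, Measurable fun x => G.st x u := fun u =>
    (continuous_st.comp (continuous_id.prodMk continuous_const)).measurable
  have mBad : MeasurableSet Bad := by
    rw [hBad]
    exact (isOpen_nb _ (by linarith)).measurableSet.inter (measurableSet_le measurable_const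
      (((S.measurable_T n).comp (cst _)).sub (S.measurable_T n)).norm)
  have key := Lip_markov volume hm' (B := fun j => {x | G.st x (G.X ((j * h) • v)) ∈ Bad})
    (fun j => cst _ mBad) (fun j => (vol_st_right _ _).trans_le hn) (η := ε / (2 * M))
    (T := {x ∈ A n | (‖v‖ + ε) * S.R n ≤ ‖S.T n (G.st x (G.X (S.R n • v))) - S.T n x‖}) (by
      rintro x ⟨hx, hx'⟩
      obtain ⟨y, hy⟩ : ∃ y : ℕ → G.V, y = fun j : ℕ => G.st x (G.X ((j * h) • v)) := ⟨_, rfl⟩
      have y0 : ∀ j : ℕ, y j = G.st x (G.X ((j * h) • v)) := fun j => by rw [hy]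
      have y1 : ∀ j : ℕ, y (j + 1) = G.st (y j) (G.X (h • v)) := fun j => by
        rw [y0, y0, st_assoc, map_smul, map_smul, map_smul, st_smul]
        push_cast
        rw [add_mul, one_mul]
      have y2 : ∀ j ∈ Finset.range m, ‖S.T n (y (j + 1)) - S.T n (y j)‖ ≤ (‖v‖ + ε / 2) * h +
          M * h * {x | G.st x (G.X ((j * h) • v)) ∈ Bad}.indicator (fun _ => (1 : ℝ)) x := by
        intro j hj
        by_cases hb : G.st x (G.X ((j * h) • v)) ∈ Bad
        · rw [Set.indicator_of_mem (s := {x | G.st x (G.X ((j * h) • v)) ∈ Bad}) hb, mul_one]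
          refine (h0 S n _ _).trans (le_add_of_nonneg_of_le (by positivity) ?_)
          have k1 := h1 x v (j * h) (((j + 1 : ℕ) : ℝ) * h)
          have k2 : |((j + 1 : ℕ) : ℝ) * h - j * h| = h := by
            push_cast
            rw [add_mul, one_mul, add_sub_cancel_left, abs_of_nonneg (by linarith)]
          rw [k2, ← y0, ← y0] at k1
          have k3 : C1 * (h * ‖v‖ + 1) ≤ C1 * ((‖v‖ + 1) * h) :=
            mul_le_mul_of_nonneg_left (by linarith) hC1.le
          rw [hM, mul_assoc (C0 * S.K)]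
          exact mul_le_mul_of_nonneg_left (by linarith) (by positivity)
        · rw [Set.indicator_of_notMem (s := {x | G.st x (G.X ((j * h) • v)) ∈ Bad}) hb, mul_zero,
            add_zero, y1]
          rw [← y0, hBad] at hb
          refine (not_le.1 fun k => hb ⟨⟨x, hx, ?_⟩, k⟩).le
          rw [y0, ← Geo.mul_V0 _ (Geo.X_V0 _), inv_mul_cancel_left]
          refine (h2 _).trans ?_
          have k1 : (j : ℝ) ≤ m := by exact_mod_cast (Finset.mem_range.1 hj).le
          have k2 : ‖((j : ℝ) * h) • v‖ ≤ S.R n * (c1 / (2 * C2)) := by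
            rw [norm_smul, Real.norm_of_nonneg (by positivity), hR]
            exact mul_le_mul (mul_le_mul_of_nonneg_right k1 (by linarith)) hv (norm_nonneg _)
              (by positivity)
          have k3 := mul_le_mul_of_nonneg_left k2 hC2.le
          have k4 : C2 * (S.R n * (c1 / (2 * C2))) = S.R n * c1 / 2 := by field_simp
          linarith
      have y3 := (norm_sum_le _ _).trans (Finset.sum_le_sum y2)
      rw [Finset.sum_range_sub (fun j => S.T n (y j)), y0, y0, ← hR, Finset.sum_add_distrib,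
        Finset.sum_const, ← Finset.mul_sum, Finset.card_range, nsmul_eq_mul] at y3
      simp only [Nat.cast_zero, zero_mul, zero_smul, map_zero, st_zero] at y3
      have y4 := hx'.trans y3
      rw [hR] at y4
      rw [div_mul_eq_mul_div, div_le_iff₀ (by positivity)]
      refine le_of_mul_le_mul_left ?_ (zero_lt_one.trans_le hh1)
      linarith)
  rw [ENNReal.ofReal_mul hη.le, mul_assoc] at key
  exact (ENNReal.mul_le_mul_iff_right (by simpa using hη) (by simp)).1 key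

end Vale.Agent.P188.Sys
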