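import Vale.Agent.P188.Mac
import Vale.Agent.P188.Lip
import Vale.Agent.P188.Ball

/-! The height is affine on generic leaves. -/

namespace Vale.Agent.P188.Sys

open MeasureTheory Filter Mdl
open scoped InnerProductSpace ENNReal

variable {G : Geo} {S : Sys G} {y : S.I → G.V} {γ γ' : Ht G.k → ℝ} {E : S.Ext} {z : E.J → G.V}

theorem Leaf_eq {a a' : S.I → Ht G.k} {w w' : Ht G.k} (h : S.Sm fun n => a n - S.R n • w)
    (h' : S.Sm fun n => a' n - S.R n • w') (h'' : S.Sm fun n => a' n - a n) : w = w' := by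
  have := ((h''.add h).sub h').congr (b := fun n => S.R n • (w' - w))
    (Eventually.of_forall fun n => by rw [smul_sub]; abel)
  exact (sub_eq_zero.1 this.eq_zero).symm

theorem Leaf_open (γ : Ht G.k → ℝ) : IsOpen (G.It γ) := by
  have : G.It γ = ⋂ ν ∈ G.Nn, {a | ⟪ν, a⟫_ℝ < γ ν} := by
    ext a
    simp [Geo.It]
  rw [this]
  exact isOpen_biInter_finset fun ν _ =>
    isOpen_lt (continuous_const.inner continuous_id) continuous_const

theorem Leaf_convex (γ : Ht G.k → ℝ) : Convex ℝ (G.It γ) := by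
  have : G.It γ = ⋂ ν ∈ G.Nn, {a | ⟪ν, a⟫_ℝ < γ ν} := by
    ext a
    simp [Geo.It]
  rw [this]
  exact convex_iInter₂ fun ν _ => convex_halfSpace_lt (innerₗ _ ν).isLinear _

theorem Leaf_Rb (S : Sys G) {b : Ht G.k} {C : ℝ} (h : ‖b‖ ≤ C) :
    ∀ᶠ n in S.U, ‖S.R n • b‖ ≤ C * S.R n := by
  filter_upwards [S.ev_R 0] with n hn
  rw [norm_smul, Real.norm_of_nonneg hn, mul_comm]
  exact mul_le_mul_of_nonneg_right h hn

/-- vertical moves stay in a box, uniformly -/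
theorem Leaf_box {z : S.I → G.V} (hγ : ∀ ν ∈ G.Nn, 0 < γ ν) (hm : S.In y γ z) (C₀ : ℝ) :
    ∃ L, ∀ b : Ht G.k, ‖b‖ ≤ C₀ → ∀ᶠ n in S.U,
      G.st (z n) (G.X (S.R n • b)) ∈ G.bx (y n) (G.ty (S.R n) γ L) := by
  obtain ⟨L₀, h0⟩ := hm
  obtain ⟨L₁, -, h1⟩ := G.Close_Xl C₀
  obtain ⟨C, -, hC⟩ := st_Bx G.x
  refine ⟨max L₀ L₁ + C, fun b hb => ?_⟩
  filter_upwards [h0, S.ev_R 1, Leaf_Rb S hb, lf_sub (S := S) (fun ν hν => (hγ ν hν).le) L₁] with
    n h2 h3 h4 h5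
  have h6 := h5 ⟨Geo.X_V0 _, h1 _ h3 _ h4⟩
  have h7 := hC _ _
    (Geo.B_mono (Geo.ty_mono (by linarith) (fun _ _ => le_rfl) (le_max_left L₀ L₁)) h2) _
    (Geo.B_mono (Geo.ty_mono (by linarith) (fun _ _ => le_rfl) (le_max_right L₀ L₁)) h6)
  rw [st_assoc] at h7
  refine Geo.B_mono (fun i => le_of_eq ?_) h7
  simp only [Geo.ty]
  ring

/-- the point of the leaf at height `b` lies in the region around `a` -/
theorem Leaf_reg {z : S.I → G.V} {a₀ a b : Ht G.k} {r : ℝ}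
    (h0 : S.Sm fun n => G.ht (z n) - S.R n • a₀) (hb : b ∈ Metric.ball a r) :
    ∀ᶠ n in S.U, ‖G.ht (G.st (z n) (G.X (S.R n • (b - a₀)))) - S.R n • a‖ ≤ r * S.R n := by
  rw [mem_ball_iff_norm] at hb
  filter_upwards [h0 _ (sub_pos.2 hb), Leaf_Rb S (le_refl ‖b - a‖)] with n h1 h2
  have e : G.ht (G.st (z n) (G.X (S.R n • (b - a₀)))) - S.R n • a =
      (G.ht (z n) - S.R n • a₀) + S.R n • (b - a) := by
    rw [ht_st, G.ht_X, smul_sub, smul_sub]
    abel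
  rw [e]
  linarith [norm_add_le (G.ht (z n) - S.R n • a₀) (S.R n • (b - a))]

/-- the image height on the leaf depends only on the height -/
theorem Leaf_key (hγ : ∀ ν ∈ G.Nn, 0 < γ ν) (hz : E.Gn (S.Wv γ) z)
    (hm : E.sys.In (fun n => y (E.π n)) γ z) {a₀ b w : Ht G.k}
    (h0 : E.sys.Sm fun n => G.ht (z n) - E.sys.R n • a₀) (hb : b ∈ G.It γ)
    (hw : E.sys.Sm fun n => E.sys.T n (G.st (z n) (G.X (E.sys.R n • (b - a₀)))) - E.sys.R n • w)
    {L : ℝ} {v : E.J → G.V} (hv : ∀ᶠ n in E.U, v n ∈ E.sys.Lf L n)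
    (hv' : E.sys.Sm fun n => G.ht (v n) - E.sys.R n • (b - a₀)) :
    E.sys.Sm fun n => E.sys.T n (G.st (z n) (v n)) - E.sys.R n • w := by
  obtain ⟨r, hr, c, -, hA⟩ := rg_box G hb
  obtain ⟨L', hL⟩ := Leaf_box hγ hm ‖b - a₀‖
  have h1 := flat_leaf (hA S y L') hz (b := b - a₀)
    ((hL _ le_rfl).and (Leaf_reg h0 (Metric.mem_ball_self hr))) hv hv'
  exact (h1.add hw).congr (Eventually.of_forall fun n => by abel)

theorem Leaf_step (hγ : ∀ ν ∈ G.Nn, 0 < γ ν) (hz : E.Gn (S.Wv γ) z)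
    (hm : E.sys.In (fun n => y (E.π n)) γ z) {a₀ b v w w' : Ht G.k}
    (h0 : E.sys.Sm fun n => G.ht (z n) - E.sys.R n • a₀) (hb : b + v ∈ G.It γ)
    (hw : E.sys.Sm fun n => E.sys.T n (G.st (z n) (G.X (E.sys.R n • (b - a₀)))) - E.sys.R n • w)
    (hw' : E.sys.Sm fun n =>
      E.sys.T n (G.st (z n) (G.X (E.sys.R n • (b + v - a₀)))) - E.sys.R n • w') :
    E.sys.Sm fun n => E.sys.T n (G.st (G.st (z n) (G.X (E.sys.R n • (b - a₀))))
      (G.X (E.sys.R n • v))) - E.sys.T n (G.st (z n) (G.X (E.sys.R n • (b - a₀)))) -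
        E.sys.R n • (w' - w) := by
  obtain ⟨L₁, h1⟩ := X_lf (Leaf_Rb E.sys (le_refl ‖b - a₀‖))
  obtain ⟨L₂, h2⟩ := X_lf (Leaf_Rb E.sys (le_refl ‖v‖))
  obtain ⟨L, hL⟩ := E.sys.st_lf L₁ L₂
  have h3 := Leaf_key hγ hz hm h0 hb hw' (L := L)
    (v := fun n => G.st (G.X (E.sys.R n • (b - a₀))) (G.X (E.sys.R n • v)))
    ((h1.and h2).mono fun n hn => hL n _ hn.1 _ hn.2)
    ((sm_of_bdd (a := fun _ => 0) (C := 0) (Eventually.of_forall fun n => by simp)).congr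
      (Eventually.of_forall fun n => by
        rw [ht_st, G.ht_X, G.ht_X, ← smul_add, add_sub_right_comm b v a₀, sub_self]))
  refine (h3.sub hw).congr (Eventually.of_forall fun n => ?_)
  beta_reduce
  rw [st_assoc, smul_sub (E.sys.R n) w']
  abel

theorem Leaf_affine (hO : G.Orth) (hγ : ∀ ν ∈ G.Nn, 0 < γ ν) (hz : E.Gn (S.Wv γ) z)
    (hm : E.sys.In (fun n => y (E.π n)) γ z) {a₀ : Ht G.k}
    (h0 : E.sys.Sm fun n => G.ht (z n) - E.sys.R n • a₀) {Φ : Ht G.k → Ht G.k}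
    (hΦ : ∀ b, E.sys.Sm fun n =>
      E.sys.T n (G.st (z n) (G.X (E.sys.R n • (b - a₀)))) - E.sys.R n • Φ b) :
    ∃ σ ∈ G.Sig, ∃ o, ∀ a ∈ G.It γ, Φ a = σ a + o := by
  refine G.affine_of_star (Leaf_open γ) (Leaf_convex γ).isPreconnected
    ⟨0, fun ν hν => by simpa using hγ ν hν⟩ fun a ha => ?_
  obtain ⟨r₀, hr₀, c, hc, hA⟩ := rg_box G ha
  obtain ⟨L, hL⟩ := Leaf_box hγ hm (‖a - a₀‖ + r₀)
  obtain ⟨c₁, hc₁, hlip⟩ := lip hO (hA S y L)
  obtain ⟨C₀, hC₀, hcnt⟩ := cnt_gen G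
  obtain ⟨r₁, hr₁, hball⟩ := Metric.isOpen_iff.1 (Leaf_open γ) a ha
  obtain ⟨r, hr, e0, e1, e2, e3⟩ : ∃ r > 0, r ≤ r₀ ∧ 2 * r ≤ r₁ ∧ 2 * r ≤ c₁ ∧ r ≤ c / C₀ :=
    ⟨min (min r₀ (r₁ / 2)) (min (c₁ / 2) (c / C₀)), by positivity,
      (min_le_left _ _).trans (min_le_left _ _),
      by linarith [(min_le_left (min r₀ (r₁ / 2)) (min (c₁ / 2) (c / C₀))).trans (min_le_right _ _)],
      by linarith [(min_le_right (min r₀ (r₁ / 2)) (min (c₁ / 2) (c / C₀))).trans (min_le_left _ _)],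
      (min_le_right _ _).trans (min_le_right _ _)⟩
  have hg : ∀ b, E.Gn (S.Wv γ) fun n => G.st (z n) (G.X (E.sys.R n • (b - a₀))) := fun b =>
    hz.st fun n => G.X (S.R n • (b - a₀))
  have hin : ∀ b ∈ Metric.ball a r, ∀ᶠ n in E.U, G.st (z n) (G.X (E.sys.R n • (b - a₀))) ∈
      {x ∈ G.bx (y (E.π n)) (G.ty (S.R (E.π n)) γ L) |
        ‖G.ht x - S.R (E.π n) • a‖ ≤ r₀ * S.R (E.π n)} := by
    intro b hb
    have hb' := Metric.ball_subset_ball e0 hb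
    refine (hL _ ?_).and (Leaf_reg h0 hb')
    rw [mem_ball_iff_norm] at hb'
    linarith [norm_sub_le_norm_sub_add_norm_sub b a a₀]
  have hit : ∀ b ∈ Metric.ball a r, ∀ v : Ht G.k, ‖v‖ ≤ r → b + v ∈ G.It γ := by
    intro b hb v hv
    refine hball ?_
    rw [mem_ball_iff_norm] at hb ⊢
    rw [add_sub_right_comm]
    linarith [norm_add_le (b - a) v]
  refine ⟨r, hr, fun b' hb' b hb => le_of_forall_pos_le_add fun ε hε => ?_,
    fun b hb J hJ β hβ => ?_⟩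
  · have h1 : ‖b' - b‖ ≤ c₁ := by
      rw [mem_ball_iff_norm] at hb'
      rw [mem_ball_iff_norm'] at hb
      linarith [norm_sub_le_norm_sub_add_norm_sub b' a b]
    have h2 := hg b _ (hlip _ h1 _ (half_pos hε))
    have h3 := Leaf_step hγ hz hm h0 (b := b) (v := b' - b)
      (by simpa using hit b' hb' 0 (by simpa using hr.le)) (hΦ b) (hΦ _) _ (half_pos hε)
    obtain ⟨n, ⟨k1, k2⟩, k3, k4⟩ := ((h2.and h3).and ((hin b hb).and (E.sys.ev_R 1))).exists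
    have k5 := not_le.1 fun h => k1 ⟨k3, h⟩
    rw [add_sub_cancel] at k2
    have k6 : 0 < E.sys.R n := by linarith
    refine le_of_mul_le_mul_right ?_ k6
    have k7 : ‖Φ b' - Φ b‖ * E.sys.R n = ‖E.sys.R n • (Φ b' - Φ b)‖ := by
      rw [norm_smul, Real.norm_of_nonneg k6.le, mul_comm]
    have k8 := (norm_sub_norm_le _ _).trans ((norm_sub_rev _ _).trans_le k2)
    change _ < (‖b' - b‖ + ε / 2) * E.sys.R n at k5
    change ‖E.sys.T n _ - E.sys.T n _‖ < _ at k5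
    rw [k7]
    linarith
  · refine hcnt S _ _ c E _ (hA S y L) (hg b) (hin b hb) J β (fun v hv => (hJ v hv).trans e3)
      fun v hv s hs ν hν ε hε => ?_
    have h1 : ‖s • v‖ ≤ r := by
      have h2 : ‖v‖ ≤ r := by
        rcases Finset.mem_insert.1 hv with rfl | hv
        · simpa using hr.le
        · exact hJ v hv
      rw [norm_smul, Real.norm_of_nonneg hs.1]
      exact (mul_le_of_le_one_left (norm_nonneg _) hs.2).trans h2
    filter_upwards [Leaf_step hγ hz hm h0 (hit b hb _ h1) (hΦ b) (hΦ _) _ hε, E.sys.ev_R 0] with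
      n k1 k2
    have k3 := mul_le_mul_of_nonneg_left (hβ v hv s hs ν hν) k2
    have k4 := (real_inner_le_norm ν _).trans
      (mul_le_mul_of_nonneg_left k1 (norm_nonneg ν))
    rw [Geo.norm_Nn hν, inner_sub_right, inner_smul_right] at k4
    rw [mul_smul]
    linarith

theorem Leaf_X (G : Geo) (K : ℝ) : ∃ C > 0, ∀ S : Sys G, S.K = K → ∀ n x d,
    ‖S.T n (G.st x (G.X d)) - S.T n x‖ ≤ C * (‖d‖ + 1) := by
  obtain ⟨C, hC, h1⟩ := T_lip G
  obtain ⟨D, hD, h2⟩ := G.len_X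
  refine ⟨C * (|K| + 1) * (D + 1), by positivity, fun S hS n x d => (h1 S n _ _).trans ?_⟩
  rw [← Geo.mul_V0 x (Geo.X_V0 d), inv_mul_cancel_left, mul_assoc (C * (|K| + 1))]
  have h3 := S.one_le_K
  have h4 := (isLen_len (M := G.toMdl)).nonneg (G.X d)
  refine mul_le_mul (mul_le_mul_of_nonneg_left ?_ hC.le) ?_ (by linarith) (by positivity)
  · linarith [le_abs_self K]
  · linarith [h2 d, norm_nonneg d]

theorem exists_par (hO : G.Orth) (hγ : ∀ ν ∈ G.Nn, 0 < γ ν) (hy : S.Bd y)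
    (hz : E.Gn (S.Wv γ) z) (hm : E.sys.In (fun n => y (E.π n)) γ z) :
    ∃ σ ∈ G.Sig, ∃ o, E.sys.Par z γ σ o := by
  obtain ⟨Cz, hCz⟩ := (hy.pull E).of_in hm
  obtain ⟨a₀, -, h0⟩ := exists_lim (hCz.mono fun n hn => hn.1)
  have hex : ∀ b, ∃ w, E.sys.Sm fun n =>
      E.sys.T n (G.st (z n) (G.X (E.sys.R n • (b - a₀)))) - E.sys.R n • w := by
    intro b
    obtain ⟨L, hL⟩ := Leaf_box hγ hm ‖b - a₀‖
    obtain ⟨C, hC⟩ := (hy.pull E).of_in ⟨L, hL _ le_rfl⟩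
    obtain ⟨w, -, hw⟩ := exists_lim (hC.mono fun n hn => hn.2)
    exact ⟨w, hw⟩
  choose Φ hΦ using hex
  obtain ⟨σ, hσ, o, ho⟩ := Leaf_affine hO hγ hz hm h0 hΦ
  refine ⟨σ, hσ, o, fun L ε hε => ?_⟩
  by_contra hn
  rw [← Ultrafilter.eventually_not] at hn
  have hn' := hn.mono fun n h => by
    push Not at h
    exact h
  obtain ⟨v, hv⟩ := hn'.choice
  obtain ⟨Cv, -, hCv⟩ := E.sys.lf_len L
  have hb : ∀ᶠ n in E.U, ‖G.ht (G.st (z n) (v n))‖ ≤ (Cz + Cv) * E.sys.R n := by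
    filter_upwards [hCz, hCv, hv] with n k1 k2 k3
    rw [ht_st]
    linarith [norm_add_le (G.ht (z n)) (G.ht (v n)), k1.1, (k2 _ k3.1).2]
  obtain ⟨a, -, ha⟩ := exists_lim (S := E.sys) hb
  have hcl : a ∈ G.Cl γ := fun ν hν => le_of_forall_pos_le_add fun δ hδ => by
    obtain ⟨n, ⟨k1, k2⟩, k3⟩ := (((ha δ hδ).and hv).and (E.sys.ev_R 1)).exists
    have k6 : 0 < E.sys.R n := by linarith
    have k4 := mul_le_mul_of_nonneg_left (k2.2.1 ν hν) k6.le
    rw [inner_smul_right, mul_inv_cancel_left₀ k6.ne'] at k4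
    have k5 := (real_inner_le_norm ν _).trans
      (mul_le_mul_of_nonneg_left ((norm_sub_rev _ _).trans_le k1) (norm_nonneg ν))
    rw [Geo.norm_Nn hν, inner_sub_right, inner_smul_right] at k5
    refine le_of_mul_le_mul_left ?_ k6
    linarith
  obtain ⟨C, hC, hX⟩ := Leaf_X G S.K
  obtain ⟨t, ht, ht1, ht2⟩ : ∃ t > 0, t ≤ 1 ∧ (C + 1) * (t * ‖a‖) ≤ ε / 4 := by
    refine ⟨min 1 (ε / 4 / ((C + 1) * (‖a‖ + 1))), by positivity, min_le_left _ _, ?_⟩
    have h1 := (le_div_iff₀ (by positivity)).1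
      (min_le_right 1 (ε / 4 / ((C + 1) * (‖a‖ + 1))))
    have h2 : 0 < min 1 (ε / 4 / ((C + 1) * (‖a‖ + 1))) := by positivity
    nlinarith [mul_pos h2 (add_pos hC one_pos)]
  have hit : (1 - t) • a ∈ G.It γ := fun ν hν => by
    rw [inner_smul_right]
    nlinarith [mul_le_mul_of_nonneg_left (hcl ν hν) (sub_nonneg.2 ht1), mul_pos ht (hγ ν hν)]
  have hd : ∀ δ > 0, ∀ᶠ n in E.U, ‖E.sys.R n • (1 - t) • a - G.ht (G.st (z n) (v n))‖ ≤
      (t * ‖a‖ + δ) * E.sys.R n := by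
    intro δ hδ
    filter_upwards [ha δ hδ, Leaf_Rb E.sys (le_refl ‖t • a‖)] with n k1 k2
    have e : E.sys.R n • (1 - t) • a - G.ht (G.st (z n) (v n)) =
        -((G.ht (G.st (z n) (v n)) - E.sys.R n • a) + E.sys.R n • t • a) := by
      rw [sub_smul, one_smul, smul_sub]
      abel
    rw [norm_smul t, Real.norm_of_nonneg ht.le] at k2
    rw [e, norm_neg]
    linarith [norm_add_le (G.ht (G.st (z n) (v n)) - E.sys.R n • a) (E.sys.R n • t • a)]
  obtain ⟨L₁, h1⟩ := X_lf (S := E.sys) (hd 1 one_pos)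
  obtain ⟨L₂, h2⟩ := E.sys.st_lf L L₁
  have h3 := Leaf_key hγ hz hm h0 hit (hΦ _) (L := L₂)
    (v := fun n => G.st (v n) (G.X (E.sys.R n • (1 - t) • a - G.ht (G.st (z n) (v n)))))
    ((hv.and h1).mono fun n hn => h2 n _ hn.1.1 _ hn.2)
    (h0.neg.congr (Eventually.of_forall fun n => by
      rw [ht_st, G.ht_X, ht_st, smul_sub (E.sys.R n)]
      abel))
  rw [ho _ hit] at h3
  obtain ⟨n, ⟨k1, k2⟩, k3, k4⟩ := ((hv.and (h3 _ (show 0 < ε / 4 by positivity))).and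
    ((hd _ (show 0 < ε / 4 / (C + 1) by positivity)).and
      (E.sys.SysB_ev C (show 0 < ε / 4 by positivity)))).exists
  have k0 : 0 ≤ E.sys.R n := by
    by_contra h
    nlinarith [mul_pos hε (neg_pos.2 (not_le.1 h))]
  beta_reduce at k2
  rw [← st_assoc] at k2
  have k5 := hX E.sys rfl n (G.st (z n) (v n)) (E.sys.R n • (1 - t) • a - G.ht (G.st (z n) (v n)))
  have k6 := k1.2.2
  generalize G.st (z n) (v n) = x at k2 k3 k5 k6
  generalize E.sys.T n (G.st x _) = p at k2 k5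
  have e : E.sys.T n x - σ (G.ht x) - E.sys.R n • o = (p - E.sys.R n • (σ ((1 - t) • a) + o)) -
      (p - E.sys.T n x) + σ (E.sys.R n • (1 - t) • a - G.ht x) := by
    rw [map_sub, map_smul σ (E.sys.R n), smul_add]
    abel
  have k7 := (norm_add_le _ _).trans (add_le_add (norm_sub_le
    (p - E.sys.R n • (σ ((1 - t) • a) + o)) (p - E.sys.T n x))
    (σ.norm_map (E.sys.R n • (1 - t) • a - G.ht x)).le)
  rw [← e] at k7
  have k8 := mul_le_mul_of_nonneg_left k3 (add_pos hC one_pos).le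
  have k9 : (C + 1) * ((t * ‖a‖ + ε / 4 / (C + 1)) * E.sys.R n) =
      ((C + 1) * (t * ‖a‖)) * E.sys.R n + ε / 4 * E.sys.R n := by
    field_simp
  have k10 := mul_le_mul_of_nonneg_right ht2 k0
  linarith

theorem Coh.par (hO : G.Orth) (hγ : ∀ ν ∈ G.Nn, 0 < γ ν) (hy : S.Bd y)
    {σ : Ht G.k ≃ₗᵢ[ℝ] Ht G.k} {o : Ht G.k} (h : S.Coh y γ σ o) (hz : E.Gn (S.Wv γ) z)
    (hm : E.sys.In (fun n => y (E.π n)) γ z) : E.sys.Par z γ σ o := by
  obtain ⟨σ', -, o', hp⟩ := exists_par hO hγ hy hz hm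
  obtain ⟨rfl, rfl⟩ := Geo.eq_of_Cl (σ := σ) (σ' := σ') (o := o) (o' := o') hγ fun a ha =>
    Leaf_eq (h.gen hz hm ha) (hp.pr ((hy.pull E).of_in hm) ha)
      (sm_of_bdd (C := 0) (Eventually.of_forall fun n => by simp))
  exact hp

/-- a short letter does not move the projection to a height above it -/
theorem Leaf_close {x : S.I → G.V} (hx : S.Bd x) {L : ℝ} {i : Fin G.n} (hi : G.lam i ≠ 0)
    {s : S.I → ℝ} (hs : ∀ᶠ n in S.U, |s n| ≤ Real.exp (G.ty (S.R n) γ' L i)) {b : Ht G.k}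
    (hb : γ' (G.nu i) ≤ ⟪G.nu i, b⟫_ℝ) : S.Sm fun n =>
      S.T n (G.pr (S.R n • b) (G.st (x n) (s n • G.x i))) - S.T n (G.pr (S.R n • b) (x n)) := by
  obtain ⟨C, hC⟩ := hx
  refine sm_of_len fun ε hε => ?_
  obtain ⟨δ, hδ, R₀, h⟩ := G.close_cell (‖b‖ + C) hε
  filter_upwards [hC, hs, S.ev_R R₀, S.ev_R 1, Leaf_Rb S (le_refl ‖b‖), S.ev_log 1 (half_pos hδ),
    S.SysB_ev L (half_pos hδ)] with n k1 k2 k3 k4 k5 k6 k7
  refine h _ k3 _ _ (by linarith [norm_sub_le (S.R n • b) (G.ht (x n)), k1.1]) _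
    (Geo.x_mem (k2.trans (Real.exp_le_exp.2 ?_)))
  have e : G.la (S.R n • b) i = S.R n * (‖G.lam i‖ * ⟪G.nu i, b⟫_ℝ) := by
    rw [Geo.la, inner_smul_right, ← real_inner_smul_left (G.nu i), ← Geo.lam_eq]
  have k8 := mul_le_mul_of_nonneg_left (mul_le_mul_of_nonneg_left hb (norm_nonneg (G.lam i)))
    (show 0 ≤ S.R n by linarith)
  simp only [e, Geo.sz, if_neg hi, Geo.ty, Geo.cs]
  linarith

/-- letters that are strictly smaller than the box -/
theorem hyp_of_lt (hO : G.Orth) {μ : ℝ} (hμ : 0 < μ) (hγ : G.Ok γ μ) (hy : S.Bd y)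
    (h : ∀ ν ∈ G.Nn, γ' ν < γ ν) : S.Hyp y γ γ' := by
  intro L i s hs a ha ε hε
  by_contra hn
  obtain ⟨E, x, hx, hm⟩ := S.exists_ext hn
  have hp := hγ.pos hμ
  have hle : ∀ ν ∈ G.Nn, γ' ν ≤ γ ν := fun ν hν => (h ν hν).le
  have hs' : ∀ᶠ n in E.U, |s (E.π n)| ≤ Real.exp (G.ty (E.sys.R n) γ' L i) := E.h.eventually hs
  have m0 : E.sys.In (fun n => y (E.π n)) γ x := ⟨L, hm.mono fun n hn => hn.1⟩
  have m1 : E.sys.In (fun n => y (E.π n)) γ fun n => G.st (x n) (s (E.π n) • G.x i) := by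
    refine In.trans (S := E.sys) m0 (in_st (S := E.sys) (L := L) x ?_)
    filter_upwards [hs', E.sys.ev_R 0] with n k1 k2
    exact Geo.B_mono (Geo.ty_mono k2 hle le_rfl) (Geo.x_mem k1)
  have b0 := (hy.pull E).of_in m0
  have b1 := (hy.pull E).of_in m1
  obtain ⟨σ, -, o, p0⟩ := exists_par hO hp hy hx m0
  have p1 : E.sys.Par (fun n => G.st (x n) (s (E.π n) • G.x i)) γ σ o := by
    by_cases hi : G.lam i = 0
    · refine p0.leaf (L := L) (hs'.mono fun n hn => ⟨Geo.smul_V0 _ (Geo.x_V0 hi), Geo.x_mem ?_⟩)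
      simpa only [Geo.ty, Geo.cs, hi, norm_zero, zero_mul, mul_zero, zero_add] using hn
    · obtain ⟨σ', -, o', p1⟩ := exists_par hO hp hy (hx.st fun n => s n • G.x i) m1
      have hν := Geo.nu_mem hi
      obtain ⟨t, ht, t1, t2⟩ : ∃ t > 0, t < μ ∧ t < γ (G.nu i) - γ' (G.nu i) := by
        have h1 := lt_min hμ (sub_pos.2 (h _ hν))
        exact ⟨_, half_pos h1, (half_lt_self h1).trans_le (min_le_left _ _),
          (half_lt_self h1).trans_le (min_le_right _ _)⟩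
      have ho : IsOpen (G.It γ ∩ {b | γ' (G.nu i) < ⟪G.nu i, b⟫_ℝ}) :=
        (Leaf_open γ).inter (isOpen_lt continuous_const (continuous_const.inner continuous_id))
      have hmem : (γ (G.nu i) - t) • G.nu i ∈ G.It γ ∩ {b | γ' (G.nu i) < ⟪G.nu i, b⟫_ℝ} := by
        refine ⟨fun ν hν' => ?_, ?_⟩
        · by_cases e : ν = G.nu i
          · rw [e, Geo.Sig_self hν]
            linarith
          · have k1 := (hγ _ hν).2 ν hν' e
            have k2 := abs_real_inner_le_norm ν (G.nu i)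
            rw [Geo.norm_Nn hν, Geo.norm_Nn hν'] at k2
            rw [sub_smul, inner_sub_right, inner_smul_right ν _ t]
            nlinarith [(abs_le.1 k2).1]
        · change _ < ⟪G.nu i, _⟫_ℝ
          rw [Geo.Sig_self hν]
          linarith
      have key := Geo.ball_ext (σ := σ) (σ' := σ') (o := o) (o' := o')
        (Filter.mem_of_superset (ho.mem_nhds hmem) fun b hb =>
          Leaf_eq (p0.pr b0 fun ν hν => (hb.1 ν hν).le) (p1.pr b1 fun ν hν => (hb.1 ν hν).le)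
            (Leaf_close b0 hi hs' (le_of_lt hb.2)))
      obtain ⟨rfl, rfl⟩ := Geo.eq_of_Cl hp fun a _ => key a
      exact p1
  have ha' := Geo.Cl_mono hle ha
  obtain ⟨n, ⟨k1, k2⟩, k3⟩ := ((hm.and (((p0.pr b0 ha').sub (p1.pr b1 ha')) _
    (half_pos hε))).and (E.sys.ev_R 1)).exists
  beta_reduce at k2
  rw [sub_sub_sub_cancel_right] at k2
  have k4 := k1.2.trans k2
  change ε * E.sys.R n ≤ _ at k4
  nlinarith

end Vale.Agent.P188.Sys
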