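import Vale.Agent.P188.Grp

/-! Topology, measure and length on the model. -/

namespace Vale.Agent.P188.Mdl

open Pointwise MeasureTheory

variable {M : Mdl}

theorem Len_ht : Continuous M.ht := M.ht.continuous_of_finiteDimensional

instance : IsTopologicalGroup M.V :=
  { continuous_mul := contDiff_st.continuous.comp (continuous_fst.prodMk
      (continuous_dl.comp ((Len_ht.comp continuous_fst).prodMk continuous_snd)))
    continuous_inv := (continuous_dl.comp (Len_ht.neg.prodMk continuous_id)).neg }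

theorem isOpen_U : IsOpen M.U :=
  (isOpen_lt continuous_norm continuous_const).inter
    (isOpen_lt continuous_inv.norm continuous_const)

theorem Len_one : (1 : M.V) ∈ M.U := by
  refine ⟨?_, ?_⟩
  · rw [one_def, norm_zero]; exact one_pos
  · rw [inv_one, one_def, norm_zero]; exact one_pos

theorem Len_inv {x : M.V} {n : ℕ} (h : x ∈ M.U ^ n) : x⁻¹ ∈ M.U ^ n := by
  have e : M.U⁻¹ = M.U := Set.ext fun y => by
    rw [Set.mem_inv]
    exact ⟨fun h => ⟨by simpa using h.2, h.1⟩, fun h => ⟨h.2, by simpa using h.1⟩⟩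
  rw [← e, inv_pow]
  exact Set.inv_mem_inv.2 h

theorem Len_open {n : ℕ} (hn : 1 ≤ n) : IsOpen (M.U ^ n) := by
  obtain ⟨k, rfl⟩ := Nat.exists_eq_add_of_le' hn
  rw [pow_succ]
  exact isOpen_U.mul_left

theorem Len_ex (x : M.V) : ∃ n, x ∈ M.U ^ n := by
  let H : Subgroup M.V :=
    { carrier := {x | ∃ n, x ∈ M.U ^ n}
      one_mem' := ⟨1, by rw [pow_one]; exact Len_one⟩
      mul_mem' := fun ⟨m, hm⟩ ⟨n, hn⟩ => ⟨m + n, by rw [pow_add]; exact Set.mul_mem_mul hm hn⟩
      inv_mem' := fun ⟨n, hn⟩ => ⟨n, Len_inv hn⟩ }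
  have ho : IsOpen (H : Set M.V) := H.isOpen_of_mem_nhds (g := 1)
    (Filter.mem_of_superset (isOpen_U.mem_nhds Len_one) fun y hy => ⟨1, by rwa [pow_one]⟩)
  have := IsClopen.eq_univ ⟨H.isClosed_of_isOpen ho, ho⟩ ⟨1, H.one_mem⟩
  exact (this ▸ Set.mem_univ x : x ∈ (H : Set M.V))

theorem Len_nat (x : M.V) : ∃ n : ℕ, M.len x = n ∧ x ∈ M.U ^ n :=
  ⟨_, rfl, Nat.sInf_mem (Len_ex x)⟩

theorem len_le_iff (x : M.V) (n : ℕ) : M.len x ≤ n ↔ x ∈ M.U ^ n := by
  rw [len, Nat.cast_le]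
  exact ⟨fun h => Set.pow_subset_pow_right Len_one h (Nat.sInf_mem (Len_ex x)),
    fun h => Nat.sInf_le h⟩

theorem Len_real (x : M.V) {r : ℝ} (hr : 0 ≤ r) : M.len x ≤ r ↔ x ∈ M.U ^ ⌊r⌋₊ := by
  rw [← len_le_iff, len, Nat.cast_le, Nat.le_floor_iff hr]

theorem isLen_len : IsLen M.len := by
  have h0 : ∀ x : M.V, 0 ≤ M.len x := fun x => Nat.cast_nonneg _
  have hi : ∀ x : M.V, M.len x⁻¹ ≤ M.len x := fun x => by
    obtain ⟨n, e, h⟩ := Len_nat x
    rw [e]; exact (len_le_iff _ _).2 (Len_inv h)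
  refine ⟨le_antisymm ?_ (h0 _), h0, fun x => le_antisymm (hi x) (by simpa using hi x⁻¹),
    fun x y => ?_⟩
  · simpa using (len_le_iff (1 : M.V) 0).2 (by simp)
  · obtain ⟨m, e, h⟩ := Len_nat x
    obtain ⟨n, e', h'⟩ := Len_nat y
    rw [e, e', ← Nat.cast_add, len_le_iff, pow_add]
    exact Set.mul_mem_mul h h'

theorem isOpen_nb (A : Set M.V) {r : ℝ} (hr : 1 ≤ r) : IsOpen (M.nb A r) := by
  have e : M.nb A r = ⋃ x ∈ A, (fun y => x⁻¹ * y) ⁻¹' (M.U ^ ⌊r⌋₊) := by
    ext y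
    simp only [nb, Set.mem_ofPred_eq, Set.mem_iUnion, Set.mem_preimage, exists_prop,
      Len_real _ (zero_le_one.trans hr)]
  rw [e]
  exact isOpen_biUnion fun x _ =>
    (Len_open (Nat.le_floor (by simpa using hr))).preimage (continuous_const.mul continuous_id)

theorem measurable_len : Measurable M.len := by
  refine measurable_of_Iic fun r => ?_
  rcases lt_or_ge r 0 with hr | hr
  · have : M.len ⁻¹' Set.Iic r = ∅ := Set.eq_empty_of_forall_notMem fun x hx =>
      absurd ((isLen_len.nonneg x).trans hx) (not_le.2 hr)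
    rw [this]; exact MeasurableSet.empty
  have : M.len ⁻¹' Set.Iic r = M.U ^ ⌊r⌋₊ := Set.ext fun x => Len_real x hr
  rw [this]
  rcases Nat.eq_zero_or_pos ⌊r⌋₊ with h | h
  · rw [h, pow_zero]; exact isClosed_singleton.measurableSet
  · exact (Len_open h).measurableSet

theorem bdd_of_len (r : ℝ) : ∃ C, ∀ x : M.V, M.len x ≤ r → ‖x‖ ≤ C := by
  have := FiniteDimensional.proper_real M.V
  have hc : ∀ n : ℕ, IsCompact ((Metric.closedBall (0 : M.V) 1) ^ n) := fun n => by
    induction n with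
    | zero => rw [pow_zero]; exact isCompact_singleton
    | succ n ih => rw [pow_succ]; exact ih.mul (isCompact_closedBall _ _)
  obtain ⟨C, hC⟩ := (hc ⌊r⌋₊).isBounded.exists_norm_le
  refine ⟨C, fun x hx => hC x (Set.pow_subset_pow_left (fun y hy => ?_)
    ((Len_real x ((isLen_len.nonneg x).trans hx)).1 hx))⟩
  exact mem_closedBall_zero_iff.2 hy.1.le

theorem len_of_bdd (C : ℝ) : ∃ r, ∀ x : M.V, ‖x‖ ≤ C → M.len x ≤ r := by
  have := FiniteDimensional.proper_real M.V
  obtain ⟨n, hn⟩ := (isCompact_closedBall (0 : M.V) C).elim_directed_cover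
    (fun n : ℕ => M.U ^ (n + 1)) (fun n => Len_open (Nat.le_add_left _ _))
    (fun x _ => (Len_ex x).elim fun n hn => Set.mem_iUnion.2
      ⟨n, Set.pow_subset_pow_right Len_one (Nat.le_succ n) hn⟩)
    (Monotone.directed_le fun m n h => Set.pow_subset_pow_right Len_one (Nat.succ_le_succ h))
  exact ⟨(n + 1 : ℕ), fun x hx => (len_le_iff _ _).2 (hn (mem_closedBall_zero_iff.2 hx))⟩

theorem ht_le : ∃ C, 0 ≤ C ∧ ∀ x : M.V, ‖M.ht x‖ ≤ C * M.len x := by
  obtain ⟨C, h0, hC⟩ := M.ht.toContinuousLinearMap.bound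
  refine ⟨C, h0.le, fun x => ?_⟩
  obtain ⟨n, e, h⟩ := Len_nat x
  rw [e]
  clear e
  induction n generalizing x with
  | zero =>
    rw [pow_zero, Set.mem_one] at h
    simp [h, one_def]
  | succ n ih =>
    rw [pow_succ] at h
    obtain ⟨y, hy, u, hu, rfl⟩ := h
    have h1 := (hC u).trans (mul_le_of_le_one_right h0.le hu.1.le)
    have h2 := ih y hy
    simp only [ht_mul]
    push_cast
    exact (norm_add_le _ _).trans (by rw [mul_add, mul_one]; exact add_le_add h2 h1)

/-- geodesics -/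
theorem exists_path (x : M.V) {n : ℕ} (h : M.len x ≤ n) : ∃ g : ℕ → M.V, g 0 = 1 ∧
    (∀ m, n ≤ m → g m = x) ∧ ∀ m, M.len ((g m)⁻¹ * g (m + 1)) ≤ 1 := by
  rw [len_le_iff] at h
  have h1 : ∀ u ∈ M.U, M.len u ≤ 1 := fun u hu => by
    simpa using (len_le_iff u 1).2 (by rwa [pow_one])
  induction n generalizing x with
  | zero =>
    rw [pow_zero, Set.mem_one] at h
    exact ⟨fun _ => 1, rfl, fun _ _ => h.symm, fun _ => h1 _ (by simpa using Len_one)⟩
  | succ n ih =>
    rw [pow_succ] at h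
    obtain ⟨y, hy, u, hu, rfl⟩ := h
    obtain ⟨g, g0, g1, g2⟩ := ih y hy
    refine ⟨fun m => if m ≤ n then g m else y * u, by simpa using g0,
      fun m hm => if_neg (by omega), fun m => ?_⟩
    rcases lt_trichotomy m n with h | h | h
    · simp only [if_pos h.le, if_pos (Nat.succ_le_of_lt h)]
      exact g2 m
    · subst h
      simp only [le_refl, if_true, Nat.add_one_le_iff, lt_irrefl, if_false, g1 m le_rfl,
        inv_mul_cancel_left]
      exact h1 u hu
    · simp only [if_neg (not_le.2 h), if_neg (show ¬ m + 1 ≤ n by omega), inv_mul_cancel]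
      exact h1 _ Len_one

end Vale.Agent.P188.Mdl
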