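import Vale.Agent.P188.Flat
import Vale.Agent.P188.Erg

/-! Derivatives along leaves. -/

namespace Vale.Agent.P188.Sys

open MeasureTheory Filter Mdl
open scoped InnerProductSpace ENNReal

variable {G : Geo} {S : Sys G} {W : S.I → ℝ≥0∞} {A : S.I → Set G.V} {L c : ℝ}
  {z z' z'' : S.I → G.V} {D D' : Ht G.k →ₗ[ℝ] Ht G.k}

theorem Lin_sm (h : S.Der z D) {v : S.I → G.V} (hv : ∀ᶠ n in S.U, v n ∈ S.Lf L n) :
    S.Sm fun n => S.T n (G.st (z n) (v n)) - S.T n (z n) - D (G.ht (v n)) := fun ε hε => by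
  filter_upwards [h L ε hε, hv] with n h1 h2 using h1 _ h2

theorem Lin_of (h : ∀ (L : ℝ) (v : S.I → G.V), (∀ᶠ n in S.U, v n ∈ S.Lf L n) →
    S.Sm fun n => S.T n (G.st (z n) (v n)) - S.T n (z n) - D (G.ht (v n))) : S.Der z D := by
  intro L ε hε
  by_contra hc
  have h1 := Ultrafilter.eventually_not.2 hc
  have h2 : ∀ n, ∃ v : G.V, ¬(∀ v ∈ S.Lf L n,
      ‖S.T n (G.st (z n) v) - S.T n (z n) - D (G.ht v)‖ ≤ ε * S.R n) →
      v ∈ S.Lf L n ∧ ¬‖S.T n (G.st (z n) v) - S.T n (z n) - D (G.ht v)‖ ≤ ε * S.R n := by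
    intro n
    by_cases h3 : ∀ v ∈ S.Lf L n, ‖S.T n (G.st (z n) v) - S.T n (z n) - D (G.ht v)‖ ≤ ε * S.R n
    · exact ⟨0, fun h4 => (h4 h3).elim⟩
    · obtain ⟨v, hv⟩ := not_forall.1 h3
      exact ⟨v, fun _ => Classical.not_imp.1 hv⟩
  choose v hv using h2
  obtain ⟨n, h3, h4⟩ := (h1.and (h L v (h1.mono fun n hn => (hv n hn).1) ε hε)).exists
  exact (hv n h3).2 h4

theorem Lin_Rb (S : Sys G) (b : Ht G.k) : ∀ᶠ n in S.U, ‖S.R n • b‖ ≤ ‖b‖ * S.R n :=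
  (S.ev_R 0).mono fun n hn => by rw [norm_smul, Real.norm_of_nonneg hn, mul_comm]

theorem Lin_inv (x : G.V) (a : Ht G.k) : x⁻¹ * G.st x (G.X a) = G.X a := by
  rw [← Geo.mul_V0 x (Geo.X_V0 a), inv_mul_cancel_left]

theorem Lin_len (S : Sys G) (b : Ht G.k) : ∃ c : ℝ, ∀ᶠ n in S.U, ∀ x : G.V,
    G.len (x⁻¹ * G.st x (G.X (S.R n • b))) ≤ c * S.R n := by
  obtain ⟨C, hC, h⟩ := G.len_X
  refine ⟨C * (‖b‖ + 1), ?_⟩
  filter_upwards [S.ev_R 1, S.Lin_Rb b] with n h1 h2 x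
  rw [Lin_inv, mul_assoc]
  exact (h _).trans (mul_le_mul_of_nonneg_left (by linarith) hC.le)

theorem Lin_lip (S : Sys G) : ∃ C : ℝ, 0 ≤ C ∧ ∀ (b : Ht G.k) (ε : ℝ), 0 < ε → ∀ᶠ n in S.U,
    ∀ x : G.V, ‖S.T n (G.st x (G.X (S.R n • b))) - S.T n x‖ ≤ (C * ‖b‖ + ε) * S.R n := by
  obtain ⟨C, hC, h⟩ := G.len_X
  obtain ⟨C', hC', h'⟩ := T_lip G
  have hK : 0 ≤ C' * S.K := mul_nonneg hC'.le (zero_le_one.trans S.one_le_K)
  refine ⟨C' * S.K * C, mul_nonneg hK hC.le, fun b ε hε => ?_⟩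
  filter_upwards [S.ev_R (C' * S.K * (C + 1) / ε), S.Lin_Rb b] with n h1 h2 x
  refine (h' S n x _).trans ?_
  rw [Lin_inv]
  rw [div_le_iff₀ hε] at h1
  have h3 : G.len (G.X (S.R n • b)) + 1 ≤ C * (‖b‖ * S.R n) + (C + 1) := by
    have h4 := h (S.R n • b)
    have h5 := mul_le_mul_of_nonneg_left h2 hC.le
    linarith
  have h6 := mul_le_mul_of_nonneg_left h3 hK
  linarith

theorem exists_der (hA : S.Tan W A) {E : S.Ext} {z : E.J → G.V} (hz : E.Gn W z)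
    (hm : ∀ᶠ n in E.U, z n ∈ A (E.π n)) : ∃ D, E.sys.Der z D := by
  obtain ⟨C, hC, hlip⟩ := E.sys.Lin_lip
  have h1 : ∀ b : Ht G.k, ∃ w : Ht G.k, E.sys.Sm fun n =>
      E.sys.T n (G.st (z n) (G.X (E.sys.R n • b))) - E.sys.T n (z n) - E.sys.R n • w := fun b => by
    obtain ⟨w, _, hw⟩ := exists_lim (S := E.sys) ((hlip b 1 one_pos).mono fun n hn => hn (z n))
    exact ⟨w, hw⟩
  choose Φ hΦ using h1
  have hnb : ∀ b : Ht G.k, ∃ c : ℝ, ∀ᶠ n in E.U, G.st (z n) (G.X (E.sys.R n • b)) ∈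
      G.nb (A (E.π n)) (c * S.R (E.π n)) := fun b => by
    obtain ⟨c, hc⟩ := E.sys.Lin_len b
    refine ⟨c, ?_⟩
    filter_upwards [hc, hm] with n h1 h2 using ⟨z n, h2, h1 _⟩
  have hfl : ∀ (b : Ht G.k) (L : ℝ) (v : E.J → G.V), (∀ᶠ n in E.U, v n ∈ E.sys.Lf L n) →
      (E.sys.Sm fun n => G.ht (v n) - E.sys.R n • b) → E.sys.Sm fun n =>
        E.sys.T n (G.st (z n) (v n)) - E.sys.T n (z n) - E.sys.R n • Φ b := by
    intro b L v hv hb
    obtain ⟨c, hc⟩ := hnb b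
    refine ((flat_leaf ((hA.nb c).1 1 one_pos) hz hc hv hb).add (hΦ b)).congr
      (Eventually.of_forall fun n => ?_)
    abel
  have h2 : ∀ b v : Ht G.k, E.sys.Sm fun n =>
      E.sys.T n (G.st (G.st (z n) (G.X (E.sys.R n • b))) (G.X (E.sys.R n • v))) -
        E.sys.T n (z n) - E.sys.R n • Φ (b + v) := by
    intro b v
    obtain ⟨L₁, hL₁⟩ := X_lf (E.sys.Lin_Rb b)
    obtain ⟨L₂, hL₂⟩ := X_lf (E.sys.Lin_Rb v)
    obtain ⟨L₃, hL₃⟩ := E.sys.st_lf L₁ L₂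
    simp only [st_assoc]
    refine hfl (b + v) L₃ _ ((hL₁.and hL₂).mono fun n hn => hL₃ n _ hn.1 _ hn.2)
      (sm_of_bdd (C := 0) (Eventually.of_forall fun n => ?_))
    rw [ht_st, G.ht_X, G.ht_X, smul_add, sub_self, norm_zero]
  have h3 : ∀ b v : Ht G.k, ‖Φ (b + v) - Φ b‖ ≤ C * ‖v‖ := by
    intro b v
    refine le_of_forall_pos_le_add fun ε hε => ?_
    obtain ⟨w, hw, hw'⟩ := exists_lim (S := E.sys)
      ((hlip v ε hε).mono fun n hn => hn (G.st (z n) (G.X (E.sys.R n • b))))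
    have h4 : w - (Φ (b + v) - Φ b) = 0 := by
      refine Sm.eq_zero (S := E.sys) ((((h2 b v).sub (hΦ b)).sub hw').congr
        (Eventually.of_forall fun n => ?_))
      simp only [smul_sub]
      abel
    rwa [← sub_eq_zero.1 h4]
  have h4 : Continuous Φ := by
    refine (LipschitzWith.of_dist_le_mul (K := ⟨C, hC⟩) fun p q => ?_).continuous
    have h5 := h3 q (p - q)
    rw [add_sub_cancel] at h5
    rw [dist_eq_norm, dist_eq_norm]
    exact h5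
  have h5 : Φ 0 = 0 := by
    refine Sm.eq_zero (S := E.sys) ((hΦ 0).neg.congr (Eventually.of_forall fun n => ?_))
    rw [smul_zero, map_zero, st_zero, sub_self, zero_sub, neg_neg]
  have h6 : ∀ b v : Ht G.k, Φ (b + (2 : ℝ) • v) - (2 : ℝ) • Φ (b + v) + Φ b = 0 := by
    intro b v
    obtain ⟨c, hc⟩ := hnb b
    have a1 : E.sys.Sm fun n =>
        E.sys.T n (G.st (G.st (z n) (G.X (E.sys.R n • b))) (G.X ((2 * E.sys.R n) • v))) -
          (2 : ℝ) • E.sys.T n (G.st (G.st (z n) (G.X (E.sys.R n • b))) (G.X (E.sys.R n • v))) +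
          E.sys.T n (G.st (z n) (G.X (E.sys.R n • b))) := by
      intro ε hε
      filter_upwards [hz.st (fun n => G.X (S.R n • b)) _ (hA.2 v c ε hε), hc] with n a2 a3
      exact (not_le.1 fun a4 => a2 ⟨a3, a4⟩).le
    refine Sm.eq_zero (S := E.sys) ((((a1.sub (h2 b ((2 : ℝ) • v))).add
      ((h2 b v).add (h2 b v))).sub (hΦ b)).congr (Eventually.of_forall fun n => ?_))
    rw [smul_smul, mul_comm (E.sys.R n) 2]
    simp only [two_smul, smul_add, smul_sub]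
    abel
  have h7 : ∀ p q : Ht G.k, Φ (midpoint ℝ p q) = midpoint ℝ (Φ p) (Φ q) := by
    intro p q
    have a1 := h6 p ((1 / 2 : ℝ) • (q - p))
    have a2 : p + (2 : ℝ) • (1 / 2 : ℝ) • (q - p) = q := by module
    have a3 : p + (1 / 2 : ℝ) • (q - p) = midpoint ℝ p q := by
      rw [midpoint_eq_smul_add, invOf_eq_inv]
      module
    rw [a2, a3] at a1
    rw [midpoint_eq_smul_add ℝ (Φ p), invOf_eq_inv]
    linear_combination (norm := module) (-(1 / 2) : ℝ) • a1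
  obtain ⟨D, hD⟩ : ∃ D : Ht G.k →ₗ[ℝ] Ht G.k, ∀ b, D b = Φ b :=
    ⟨((AddMonoidHom.ofMapMidpoint ℝ ℝ Φ h5 h7).toRealLinearMap h4).toLinearMap, fun _ => rfl⟩
  refine ⟨D, Lin_of fun L v hv => ?_⟩
  obtain ⟨C', _, hC'⟩ := E.sys.lf_len L
  obtain ⟨b, _, hb⟩ := exists_lim (S := E.sys) (a := fun n => G.ht (v n))
    ((hC'.and hv).mono fun n hn => (hn.1 _ hn.2).2)
  refine ((hfl b L v hv hb).sub (hb.map D)).congr (Eventually.of_forall fun n => ?_)
  rw [map_sub, map_smul, hD b]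
  abel

theorem Der.X (h : S.Der z D) {a : S.I → Ht G.k} {C : ℝ} (ha : ∀ᶠ n in S.U, ‖a n‖ ≤ C * S.R n) :
    S.Sm fun n => S.T n (G.st (z n) (G.X (a n))) - S.T n (z n) - D (a n) := by
  obtain ⟨L, hL⟩ := X_lf ha
  simpa only [G.ht_X] using Lin_sm h hL

theorem Der.unique (h : S.Der z D) (h' : S.Der z D') : D = D' := by
  refine LinearMap.ext fun b => sub_eq_zero.1 ?_
  refine Sm.eq_zero (S := S) (((h'.X (S.Lin_Rb b)).sub (h.X (S.Lin_Rb b))).congr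
    (Eventually.of_forall fun n => ?_))
  simp only [map_smul, smul_sub]
  abel

theorem Der.pull (h : S.Der z D) (E : S.Ext) : E.sys.Der (fun n => z (E.π n)) D :=
  fun L ε hε => E.h.eventually (h L ε hε)

theorem Der.leaf (h : S.Der z D) {v : S.I → G.V} (hv : ∀ᶠ n in S.U, v n ∈ S.Lf L n) :
    S.Sim z (fun n => G.st (z n) (v n)) D := by
  refine ⟨h, Lin_of fun L' w hw => ?_, (Lin_sm h hv).congr (Eventually.of_forall fun n => ?_)⟩
  · obtain ⟨L'', hL⟩ := S.st_lf L L'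
    refine ((Lin_sm h ((hv.and hw).mono fun n hn => hL n _ hn.1 _ hn.2)).sub (Lin_sm h hv)).congr
      (Eventually.of_forall fun n => ?_)
    rw [st_assoc, ht_st, map_add]
    abel
  · rw [ht_st, add_sub_cancel_left]

theorem Der.letter (h : S.Der z D) {i : Fin G.n} (hi : G.lam i ≠ 0) {s : S.I → ℝ}
    (hs : ∀ᶠ n in S.U, |s n| ≤ Real.exp (⟪G.lam i, G.ht (z n)⟫_ℝ + c * S.R n))
    (h' : S.Der (fun n => G.st (z n) (s n • G.x i)) D') :
    S.Sim z (fun n => G.st (z n) (s n • G.x i)) D := by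
  have hht : ∀ n, G.ht (G.st (z n) (s n • G.x i)) = G.ht (z n) := fun n => by
    rw [ht_st, map_smul, Geo.ht_x hi, smul_zero, add_zero]
  have h1 : ∀ b : Ht G.k, c ≤ ⟪G.lam i, b⟫_ℝ → S.Sm fun n =>
      S.T n (G.st (z n) (s n • G.x i)) - S.T n (z n) + S.R n • (D' b - D b) := by
    intro b hb
    have a1 : S.Sm fun n => S.T n (G.st (G.st (z n) (s n • G.x i)) (G.X (S.R n • b))) -
        S.T n (G.st (z n) (G.X (S.R n • b))) := by
      refine sm_of_len fun ε hε => ?_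
      obtain ⟨δ, hδ, R₀, hR⟩ := G.close_cell ‖b‖ hε
      filter_upwards [S.ev_R R₀, S.ev_R 0, hs, S.Lin_Rb b] with n a2 a3 a4 a5
      have a6 := hR _ a2 (z n) (G.ht (z n) + S.R n • b) (by rwa [add_sub_cancel_left])
        (s n • G.x i) (Geo.x_mem (a4.trans (Real.exp_le_exp.2 ?_)))
      · rwa [Geo.pr, Geo.pr, hht, add_sub_cancel_left] at a6
      · simp only [Geo.la, Geo.sz, if_neg hi, inner_add_right, inner_smul_right]
        nlinarith [mul_le_mul_of_nonneg_left hb a3, mul_nonneg hδ.le a3]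
    refine ((a1.add (h.X (S.Lin_Rb b))).sub (h'.X (S.Lin_Rb b))).congr
      (Eventually.of_forall fun n => ?_)
    simp only [map_smul, smul_sub]
    abel
  have h2 : ∀ r : ℝ, ∃ b : Ht G.k, r ≤ ⟪G.lam i, b⟫_ℝ := fun r =>
    ⟨(r / ⟪G.lam i, G.lam i⟫_ℝ) • G.lam i, by
      rw [inner_smul_right, div_mul_cancel₀ _ (inner_self_ne_zero.2 hi)]⟩
  have h3 : D' = D := by
    refine LinearMap.ext fun w => sub_eq_zero.1 ?_
    obtain ⟨b, hb⟩ := h2 (max c (c - ⟪G.lam i, w⟫_ℝ))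
    have a1 : c ≤ ⟪G.lam i, b + w⟫_ℝ := by
      rw [inner_add_right]
      linarith [le_max_right c (c - ⟪G.lam i, w⟫_ℝ)]
    refine Sm.eq_zero (S := S) (((h1 _ a1).sub (h1 b ((le_max_left _ _).trans hb))).congr
      (Eventually.of_forall fun n => ?_))
    simp only [map_add, smul_sub, smul_add]
    abel
  subst h3
  obtain ⟨b, hb⟩ := h2 c
  refine ⟨h, h', (h1 b hb).congr (Eventually.of_forall fun n => ?_)⟩
  rw [hht, sub_self, sub_self, smul_zero, map_zero, add_zero, sub_zero]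

theorem Sim.symm (h : S.Sim z z' D) : S.Sim z' z D := by
  refine ⟨h.2.1, h.1, h.2.2.neg.congr (Eventually.of_forall fun n => ?_)⟩
  simp only [map_sub]
  abel

theorem Sim.trans (h : S.Sim z z' D) (h' : S.Sim z' z'' D) : S.Sim z z'' D := by
  refine ⟨h.1, h'.2.1, (h.2.2.add h'.2.2).congr (Eventually.of_forall fun n => ?_)⟩
  simp only [map_sub]
  abel

theorem Sim.congr (h : S.Sim z z' D) (h' : ∀ᶠ n in S.U, z' n = z'' n) : S.Sim z z'' D := by
  refine ⟨h.1, fun L ε hε => ?_, h.2.2.congr (h'.mono fun n hn => by rw [hn])⟩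
  filter_upwards [h.2.1 L ε hε, h'] with n h1 h2
  rwa [← h2]

theorem Lin_back {E : S.Ext} {p : S.I → Prop} (h : ∀ᶠ n in E.U, p (E.π n)) :
    ∀ᶠ n in S.U, p n := by
  by_contra hc
  obtain ⟨n, h1, h2⟩ := (h.and (E.h.eventually (Ultrafilter.eventually_not.2 hc))).exists
  exact h2 h1

theorem Sim.of_pull {E : S.Ext} (h : E.sys.Sim (fun n => z (E.π n)) (fun n => z' (E.π n)) D) :
    S.Sim z z' D :=
  ⟨fun L ε hε => Lin_back (h.1 L ε hε), fun L ε hε => Lin_back (h.2.1 L ε hε),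
    fun ε hε => Lin_back (h.2.2 ε hε)⟩

end Vale.Agent.P188.Sys
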