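import Vale.Agent.P188.MBCore

/-! Augmentation ideals and the step above the unipotent subgroup. -/

namespace Vale.Agent.P188.MB

section
variable {H : Type*} [Group H]

theorem MBAug_lin {M : Type*} [AddCommGroup M] (f : ZG H →ₗ[ℤ] M) (K : Submodule ℤ M)
    (h : ∀ y, f (og y) ∈ K) (a : ZG H) : f a ∈ K := by
  induction a using MonoidAlgebra.induction_on with
  | of y => exact h y
  | add a b ha hb => rw [map_add]; exact K.add_mem ha hb
  | smul r a ha => rw [map_smul]; exact K.smul_mem r ha

theorem MBAug_gen {N : Subgroup H} (y : H) {n : H} (hn : n ∈ N) : og y * (og n - 1) ∈ aug N :=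
  Submodule.subset_span ⟨y, n, hn, rfl⟩

theorem og_sub_mem {N : Subgroup H} {n : H} (hn : n ∈ N) : og n - 1 ∈ aug N := by
  simpa using MBAug_gen 1 hn

theorem two_aug (N : Subgroup H) [N.Normal] : Two (aug N) := by
  intro a k hk
  induction hk using Submodule.span_induction with
  | mem k hk =>
    obtain ⟨y, n, hn, rfl⟩ := hk
    refine ⟨MBAug_lin (LinearMap.mulRight ℤ _) _ (fun g => ?_) a,
      MBAug_lin (LinearMap.mulLeft ℤ _) _ (fun g => ?_) a⟩
    · rw [LinearMap.mulRight_apply, ← mul_assoc, ← map_mul]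
      exact MBAug_gen _ hn
    · have e : og y * (og n - 1) * og g = og (y * g) * (og (g⁻¹ * n * g) - 1) := by
        simp only [mul_sub, sub_mul, mul_one, ← map_mul]
        congr 2
        group
      rw [LinearMap.mulLeft_apply, e]
      exact MBAug_gen _ (Subgroup.Normal.conj_mem' ‹_› n hn g)
  | zero => simp
  | add k l _ _ hk hl =>
    rw [mul_add, add_mul]
    exact ⟨add_mem hk.1 hl.1, add_mem hk.2 hl.2⟩
  | smul r k _ hk =>
    rw [mul_smul_comm, smul_mul_assoc]
    exact ⟨Submodule.smul_mem _ r hk.1, Submodule.smul_mem _ r hk.2⟩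

theorem cof_aug_top : Cof (aug (⊤ : Subgroup H)) := by
  refine ⟨Submodule.span ℤ {1}, Submodule.fg_span_singleton _, eq_top_iff.2 fun a _ =>
    MBAug_lin LinearMap.id _ (fun y => ?_) a⟩
  rw [LinearMap.id_apply, ← add_sub_cancel 1 (og y)]
  exact Submodule.add_mem_sup (Submodule.mem_span_singleton_self _) (og_sub_mem trivial)

/-- an integral representation kills a power of the augmentation ideal -/
theorem IRep.exists_alg {N : Subgroup H} [N.Normal] (h : IRep H N) :
    ∃ (d s : ℕ) (ψ : ZG H →ₐ[ℤ] Matrix (Fin d) (Fin d) ℤ), (∀ y, ψ (og y) = 1 → y = 1) ∧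
      ∀ a ∈ aug N ^ (s + 1), ψ a = 0 := by
  obtain ⟨d, s, ρ, hρ, h⟩ := h
  let ψ : ZG H →ₐ[ℤ] Matrix (Fin d) (Fin d) ℤ := MonoidAlgebra.lift ℤ _ H ρ
  have hψ : ∀ y, ψ (og y) = ρ y := fun y => by simp [ψ, og]
  have key : ∀ j, ∀ a ∈ aug N ^ j, ∀ l : List H, (∀ n ∈ l, n ∈ N) → s ≤ l.length + j → ∀ g,
      (l.map fun n => ρ n - 1).prod * ρ g * ψ a = 0 := by
    intro j
    induction j with
    | zero => exact fun a _ l hl hs g => by rw [h l hl hs, zero_mul, zero_mul]
    | succ j ih =>
      intro a ha l hl hs g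
      rw [pow_succ'] at ha
      refine Submodule.mul_induction_on ha (fun b hb c hc => ?_) fun b c hb hc => by
        rw [map_add, mul_add, hb, hc, add_zero]
      induction hb using Submodule.span_induction with
      | mem b hb =>
        obtain ⟨y, n, hn, rfl⟩ := hb
        have e : ρ g * (ρ y * (ρ n - 1)) = (ρ (g * y * n * (g * y)⁻¹) - 1) * ρ (g * y) := by
          simp only [mul_sub, sub_mul, mul_one, one_mul, ← map_mul]
          congr 2
          group
        have := ih c hc (l ++ [g * y * n * (g * y)⁻¹]) (fun m hm => by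
          rcases List.mem_append.1 hm with hm | hm
          · exact hl m hm
          · rw [List.mem_singleton.1 hm]
            exact Subgroup.Normal.conj_mem ‹_› n hn _) (by simp; omega) (g * y)
        rw [List.map_append, List.prod_append, List.map_singleton, List.prod_singleton,
          mul_assoc _ _ (ρ (g * y)), ← e] at this
        rw [map_mul, map_mul, map_sub, map_one, hψ, hψ, ← this]
        simp only [mul_assoc]
      | zero => simp
      | add b b' _ _ hb hb' => rw [add_mul, map_add, mul_add, hb, hb', add_zero]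
      | smul r b _ hb => rw [smul_mul_assoc, map_smul, mul_smul_comm, hb, smul_zero]
  refine ⟨d, s, ψ, fun y hy => hρ (by rw [← hψ, hy, map_one]), fun a ha => ?_⟩
  simpa using key _ a ha [] (by simp) (by simp) 1

end

theorem step_top {G : Type*} [Group G] {φ : G →* Multiplicative ℤ} {x : G}
    (hx : φ x = Multiplicative.ofAdd 1) [Group.FG φ.ker] (N : Subgroup G) (hN : N ≤ φ.ker)
    (hc : commutator G ≤ N) (h : IRep φ.ker (N.subgroupOf φ.ker)) : IRep G N := by
  have : N.Normal := Subgroup.Normal.of_commutator_le _ hc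
  obtain ⟨d, s, ψ, hψ, hs⟩ := h.exists_alg
  let K := LinearMap.ker ψ.toLinearMap ⊔ aug (N.subgroupOf φ.ker)
  have hK : Two K := fun a k hk => by
    obtain ⟨u, hu, v, hv, rfl⟩ := Submodule.mem_sup.1 hk
    have hu' : ψ u = 0 := hu
    rw [mul_add, add_mul]
    exact ⟨Submodule.add_mem_sup (show ψ (a * u) = 0 by rw [map_mul, hu', mul_zero])
      (two_aug _ a v hv).1, Submodule.add_mem_sup
      (show ψ (u * a) = 0 by rw [map_mul, hu', zero_mul]) (two_aug _ a v hv).2⟩
  have cK' : Cof K := by
    obtain ⟨S, hS⟩ := IsNoetherian.noetherian (LinearMap.range ψ.toLinearMap)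
    refine ⟨Submodule.span ℤ (Function.invFun ψ.toLinearMap '' S),
      Submodule.fg_span (S.finite_toSet.image _), eq_top_iff.2 (le_trans (le_of_eq ?_)
      (sup_le_sup_left le_sup_left _))⟩
    rw [← Submodule.comap_map_eq, Submodule.map_span, Set.image_image,
      Set.image_congr fun b hb => Function.invFun_eq
        (show b ∈ LinearMap.range ψ.toLinearMap from hS ▸ Submodule.subset_span hb),
      Set.image_id', hS, LinearMap.range_eq_map, Submodule.comap_map_eq, top_sup_eq]
  have hσ : ∀ g, ∀ a ∈ K, sg φ g a ∈ K := fun g a ha => by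
    have := MBAug_lin ((sg φ g).toLinearMap - LinearMap.id) (aug (N.subgroupOf φ.ker))
      (fun y => by
        have e : og (cK φ g y) - og y = og y * (og (y⁻¹ * cK φ g y) - 1) := by
          rw [mul_sub, mul_one, ← map_mul, mul_inv_cancel_left]
        rw [LinearMap.sub_apply, LinearMap.id_apply, AlgHom.toLinearMap_apply, sg_og, e]
        refine MBAug_gen _ (Subgroup.mem_subgroupOf.2 (hc ?_))
        have := Subgroup.commutator_mem_commutator (Subgroup.mem_top (y : G)⁻¹)
          (Subgroup.mem_top g⁻¹)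
        rw [commutatorElement_def, inv_inv, inv_inv] at this
        rw [Subgroup.coe_mul, cK_coe, Subgroup.coe_inv, ← mul_assoc, ← mul_assoc]
        exact this) a
    rw [← sub_add_cancel (sg φ g a) a]
    exact add_mem (Submodule.mem_sup_right this) ha
  refine swan_core hx hK cK' hσ (s := s) ψ hψ (fun a ha => ?_) N (s + 1) fun l hl hlen a => ?_
  · have e : K.map ψ.toLinearMap = (aug (N.subgroupOf φ.ker)).map ψ.toLinearMap := by
      rw [Submodule.map_sup, LinearMap.le_ker_iff_map.1 le_rfl, bot_sup_eq]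
    have h1 := Submodule.mem_map_of_mem (f := ψ.toLinearMap) ha
    rw [Submodule.map_pow, e, ← Submodule.map_pow] at h1
    obtain ⟨b, hb, hb'⟩ := h1
    exact hb'.symm.trans (hs b hb)
  have key : ∀ l : List G, (∀ n ∈ l, n ∈ N) → ∀ j, ∀ a ∈ ⊤ * K ^ j,
      l.foldl (fun a g => act hx g a - a) a ∈ ⊤ * K ^ (j + l.length) := by
    intro l
    induction l with
    | nil => exact fun _ j a ha => ha
    | cons n l ih =>
      intro hl j a ha
      have hn := hl n List.mem_cons_self
      rw [List.foldl_cons, List.length_cons, add_comm l.length, ← add_assoc]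
      refine ih (fun m hm => hl m (List.mem_cons_of_mem _ hm)) _ _ ?_
      rw [act_ker hx ⟨n, hN hn⟩, ← mul_sub_one, pow_succ, ← mul_assoc]
      exact Submodule.mul_mem_mul ha (Submodule.mem_sup_right (og_sub_mem hn))
  have h1 := key l hl 0 a (by rw [pow_zero, mul_one]; trivial)
  obtain ⟨r, hr⟩ := Nat.exists_eq_add_of_le' hlen
  rw [zero_add, hr, pow_add, ← mul_assoc] at h1
  exact Submodule.mul_le.2 (fun u _ v hv => (hK.pow s u v hv).1) h1

end Vale.Agent.P188.MB
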