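import Vale.Agent.P188.MBBr

/-! Cocompactness. -/

namespace Vale.Agent.P188.MB

variable {G A : Type*} [Group G] [NormedRing A] [NormedAlgebra ℝ A] [FiniteDimensional ℝ A]
  (F : Filt A)

omit [FiniteDimensional ℝ A] in
theorem MBCob_fin (Z : AddSubgroup A) (t : Finset A) (ht : ∀ x ∈ t, x ∈ Z) :
    ∃ R : ℝ, ∀ y ∈ Submodule.span ℝ (t : Set A), ∃ z ∈ Z, ‖y - z‖ ≤ R := by
  classical
  induction t using Finset.induction_on with
  | empty =>
    refine ⟨0, fun y hy => ⟨0, zero_mem _, ?_⟩⟩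
    simp only [Finset.coe_empty, Submodule.span_empty, Submodule.mem_bot] at hy
    simp [hy]
  | insert x t _ ih =>
    obtain ⟨R, hR⟩ := ih fun y hy => ht y (Finset.mem_insert_of_mem hy)
    refine ⟨‖x‖ + R, fun y hy => ?_⟩
    rw [Finset.coe_insert, Submodule.mem_span_insert] at hy
    obtain ⟨a, w, hw, rfl⟩ := hy
    obtain ⟨z, hz, hz'⟩ := hR w hw
    refine ⟨⌊a⌋ • x + z, add_mem (zsmul_mem (ht x (Finset.mem_insert_self _ _)) _) hz, ?_⟩
    have e : a • x + w - (⌊a⌋ • x + z) = Int.fract a • x + (w - z) := by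
      rw [← Int.cast_smul_eq_zsmul ℝ, Int.fract, sub_smul]
      abel
    rw [e]
    refine (norm_add_le _ _).trans (add_le_add ?_ hz')
    rw [norm_smul, Real.norm_of_nonneg (Int.fract_nonneg a)]
    exact mul_le_of_le_one_left (norm_nonneg x) (Int.fract_lt_one a).le

theorem MBCob_span (Z : AddSubgroup A) (s : Set A) (hs : ∀ x ∈ s, x ∈ Z) :
    ∃ R : ℝ, ∀ y ∈ Submodule.span ℝ s, ∃ z ∈ Z, ‖y - z‖ ≤ R := by
  obtain ⟨t, ht, e⟩ := (Submodule.fg_span_iff_fg_span_finset_subset s).1
    (IsNoetherian.noetherian (Submodule.span ℝ s))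
  rw [e]
  exact MBCob_fin Z t fun x hx => hs x (ht hx)

theorem cob_step {L' L : Submodule ℝ A} {H' H : Subgroup G} {f : G → A} {α : G → A →ₐ[ℝ] A}
    (h1 : L' ≤ L) (h2 : L ≤ F.J 1) (hbr : ∀ u ∈ L, ∀ v ∈ L, u * v - v * u ∈ L') (hH : H' ≤ H)
    (hf : ∀ g ∈ H, f g ∈ L) (hm : ∀ g ∈ H, ∀ h ∈ H, f (g * h) = bch F.d (f g) (α g (f h)))
    (hα : ∀ g h y, α (g * h) y = α g (α h y)) (hN : ∀ g ∈ H', ∀ y, α g y = y)
    (hs : ∀ g ∈ H, ∀ y ∈ L, α g y - y ∈ L') (hL : L ≤ L' ⊔ Submodule.span ℝ (f '' H))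
    (h : Cob F L' H' f α) : Cob F L H f α := by
  have hl : ∀ u ∈ L, ∀ v ∈ L, u * v - v * u ∈ L := fun u hu v hv => h1 (hbr u hu v hv)
  have hb : ∀ x ∈ L, ∀ y ∈ L, bch F.d x y - x - y ∈ L' := fun x hx y hy =>
    bch_sub_mem F L L' h2 hl (fun u hu v hv => hbr u hu v (h1 hv)) hx hy (hbr x hx y hy)
  have hbL : ∀ x ∈ L, ∀ y ∈ L, bch F.d x y ∈ L := fun x hx y hy => bch_mem_lie F L h2 hl hx hy
  have hαL : ∀ g ∈ H, ∀ y ∈ L, α g y ∈ L := fun g hg y hy => by
    simpa using add_mem (h1 (hs g hg y hy)) hy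
  have hadd : ∀ g ∈ H, ∀ g' ∈ H, f (g * g') - f g - f g' ∈ L' := fun g hg g' hg' => by
    have := add_mem (hb _ (hf g hg) _ (hαL g hg _ (hf g' hg'))) (hs g hg _ (hf g' hg'))
    rw [hm g hg g' hg']
    simpa using this
  have hone : f 1 ∈ L' := by
    have := neg_mem (hadd 1 (one_mem _) 1 (one_mem _))
    simpa using this
  let Z : AddSubgroup A :=
    { carrier := {v | ∃ g ∈ H, v - f g ∈ L'}
      zero_mem' := ⟨1, one_mem _, by simpa using hone⟩
      add_mem' := by
        rintro a b ⟨g, hg, ha⟩ ⟨g', hg', hb⟩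
        refine ⟨g * g', mul_mem hg hg', ?_⟩
        have := sub_mem (add_mem ha hb) (hadd g hg g' hg')
        rwa [show a - f g + (b - f g') - (f (g * g') - f g - f g') = a + b - f (g * g') by abel]
          at this
      neg_mem' := by
        rintro a ⟨g, hg, ha⟩
        refine ⟨g⁻¹, inv_mem hg, ?_⟩
        have := sub_mem (sub_mem (hadd g hg g⁻¹ (inv_mem hg)) ha) hone
        rwa [mul_inv_cancel, show f 1 - f g - f g⁻¹ - (a - f g) - f 1 = -a - f g⁻¹ by abel]
          at this }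
  obtain ⟨R0, hR0⟩ := MBCob_span Z (f '' H) (by
    rintro _ ⟨g, hg, rfl⟩
    exact ⟨g, hg, by simp⟩)
  obtain ⟨R1, hR1⟩ := h
  obtain ⟨C, hC⟩ := bch_bdd (A := A) F.d (max R0 R1)
  refine ⟨C, fun y hy => ?_⟩
  obtain ⟨y', hy', w, hw, hyw⟩ := Submodule.mem_sup.1 (hL hy)
  obtain ⟨z, ⟨g, hg, hz⟩, hv⟩ := hR0 w hw
  have hfg := hf g hg
  have hwL : w ∈ L := by
    rw [← sub_eq_of_eq_add' hyw.symm]
    exact sub_mem hy (h1 hy')
  have hvL : w - z ∈ L := by
    have := add_mem (h1 hz) hfg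
    rw [sub_add_cancel] at this
    exact sub_mem hwL this
  have e0 : y - f g - (w - z) ∈ L' := by
    rw [← hyw, show y' + w - f g - (w - z) = y' + (z - f g) by abel]
    exact add_mem hy' hz
  generalize w - z = v at hv hvL e0
  have y1L := hbL _ (neg_mem hfg) y hy
  have e1 := hb _ (neg_mem hfg) y hy
  have y2L := hαL g⁻¹ (inv_mem hg) _ y1L
  have e2 := hs g⁻¹ (inv_mem hg) _ y1L
  have e3 := hb _ y2L _ (neg_mem hvL)
  have y3L : bch F.d (α g⁻¹ (bch F.d (-f g) y)) (-v) ∈ L' := by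
    have := add_mem (add_mem (add_mem e3 e2) e1) e0
    rwa [show ∀ a b c : A, a - b - -v + (b - c) + (c - -f g - y) + (y - f g - v) = a from
      fun a b c => by abel] at this
  obtain ⟨n, hn, k, hk, hkR, e4⟩ := hR1 _ y3L
  have hkL := h1 hk
  have hfn := hf n (hH hn)
  refine ⟨g * n, mul_mem hg (hH hn), bch F.d k v, hbL k hkL v hvL,
    hC k v (hkR.trans (le_max_right _ _)) (hv.trans (le_max_left _ _)), ?_⟩
  rw [hN n hn] at e4
  have e5 := bch_neg_right F (h2 hvL) (h2 y2L)
  rw [e4, bch_assoc F (h2 hfn) (h2 hkL) (h2 hvL)] at e5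
  have e6 := congrArg (α g) e5
  rw [← hα, mul_inv_cancel, hN 1 (one_mem _), map_bch] at e6
  have e7 := bch_neg_left F (h2 (neg_mem hfg)) (h2 hy)
  rw [neg_neg, ← e6] at e7
  rw [hm g hg n (hH hn), hα, hN n hn, bch_assoc F (h2 hfg) (h2 (hαL g hg _ hfn))
    (h2 (hαL g hg _ (hbL k hkL v hvL))), e7]

/-- the Malcev completion -/
theorem lie_cob (N : Subgroup G) (hN : Polycyclic N) {f : G → A} (hf : ∀ g ∈ N, f g ∈ F.J 1)
    (hm : ∀ g ∈ N, ∀ h ∈ N, f (g * h) = bch F.d (f g) (f h)) :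
    IsLie (Submodule.span ℝ (f '' N)) ∧
      Cob F (Submodule.span ℝ (f '' N)) N f fun _ => AlgHom.id ℝ A := by
  have hone : f 1 = 0 := by
    have := hm 1 (one_mem _) 1 (one_mem _)
    rw [mul_one, bch_comm F (hf 1 (one_mem _)) (hf 1 (one_mem _)) (Commute.refl _)] at this
    simpa using this
  have hinv : ∀ g ∈ N, f g⁻¹ = -f g := fun g hg => by
    have e := bch_neg_right F (neg_mem (hf g hg)) (hf g⁻¹ (inv_mem hg))
    rw [neg_neg, ← hm g⁻¹ (inv_mem hg) g hg, inv_mul_cancel, hone,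
      bch_zero_left F (neg_mem (hf g hg))] at e
    exact e.symm
  have key : ∀ B : Subgroup G, Relation.ReflTransGen Poly_St ⊥ B → B ≤ N →
      IsLie (Submodule.span ℝ (f '' B)) ∧
        Cob F (Submodule.span ℝ (f '' B)) B f fun _ => AlgHom.id ℝ A := by
    intro B hB
    induction hB with
    | refl =>
      intro _
      have e : Submodule.span ℝ (f '' (⊥ : Subgroup G)) = ⊥ := by simp [hone]
      rw [e]
      refine ⟨fun u hu v _ => ?_, 0, fun y hy => ⟨1, one_mem _, 0, zero_mem _, by simp, ?_⟩⟩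
      · rw [(Submodule.mem_bot ℝ).1 hu]
        simp
      · rw [(Submodule.mem_bot ℝ).1 hy, hone, map_zero, bch_zero_left F (zero_mem _)]
    | @tail B' B _ hst ih =>
      intro hBN
      obtain ⟨hle, hnm, x, hx, hgen⟩ := hst
      obtain ⟨il, ic⟩ := ih (hle.trans hBN)
      have hX := hf x (hBN hx)
      have hJ : ∀ K : Subgroup G, K ≤ N → Submodule.span ℝ (f '' K) ≤ F.J 1 := fun K hK =>
        Submodule.span_le.2 (by
          rintro _ ⟨g, hg, rfl⟩
          exact hf g (hK hg))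
      have hc : ∀ u ∈ Submodule.span ℝ (f '' B'),
          ex F.d (f x) * u * ex F.d (-f x) ∈ Submodule.span ℝ (f '' B') := by
        intro u hu
        induction hu using Submodule.span_induction with
        | mem _ h =>
          obtain ⟨g, hg, rfl⟩ := h
          have hgN := hBN (hle hg)
          rw [← bch_conj F hX (hf g hgN), ← hm x (hBN hx) g hgN, ← hinv x (hBN hx),
            ← hm _ (mul_mem (hBN hx) hgN) _ (inv_mem (hBN hx))]
          exact Submodule.subset_span ⟨_, hnm x hx g hg, rfl⟩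
        | zero => simp
        | add a b _ _ ha hb =>
          rw [mul_add, add_mul]
          exact add_mem ha hb
        | smul c a _ ha =>
          rw [mul_smul_comm, smul_mul_assoc]
          exact Submodule.smul_mem _ _ ha
      have had : ∀ u ∈ Submodule.span ℝ (f '' B'), f x * u - u * f x ∈
          Submodule.span ℝ (f '' B') := fun u hu => ad_mem_of_conj F hX _ hc hu
      have hbr : ∀ u ∈ Submodule.span ℝ (f '' B') ⊔ Submodule.span ℝ {f x},
          ∀ v ∈ Submodule.span ℝ (f '' B') ⊔ Submodule.span ℝ {f x},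
            u * v - v * u ∈ Submodule.span ℝ (f '' B') := by
        intro u hu v hv
        obtain ⟨a, ha, _, hs, rfl⟩ := Submodule.mem_sup.1 hu
        obtain ⟨b, hb, _, ht, rfl⟩ := Submodule.mem_sup.1 hv
        obtain ⟨s, rfl⟩ := Submodule.mem_span_singleton.1 hs
        obtain ⟨t, rfl⟩ := Submodule.mem_span_singleton.1 ht
        have e : (a + s • f x) * (b + t • f x) - (b + t • f x) * (a + s • f x) =
            (a * b - b * a) + s • (f x * b - b * f x) - t • (f x * a - a * f x) := by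
          simp only [mul_add, add_mul, smul_mul_assoc, mul_smul_comm, smul_sub, smul_add,
            smul_smul, mul_comm s t]
          abel
        rw [e]
        exact sub_mem (add_mem (il a ha b hb) (Submodule.smul_mem _ _ (had b hb)))
          (Submodule.smul_mem _ _ (had a ha))
      have hLJ : Submodule.span ℝ (f '' B') ⊔ Submodule.span ℝ {f x} ≤ F.J 1 :=
        sup_le (hJ B' (hle.trans hBN)) ((Submodule.span_singleton_le_iff_mem _ _).2 hX)
      let S : Subgroup G :=
        { carrier := {y | y ∈ N ∧ f y ∈ Submodule.span ℝ (f '' B') ⊔ Submodule.span ℝ {f x}}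
          one_mem' := ⟨one_mem _, by rw [hone]; exact zero_mem _⟩
          mul_mem' := fun {a b} ha hb => ⟨mul_mem ha.1 hb.1, by
            rw [hm a ha.1 b hb.1]
            exact bch_mem_lie F _ hLJ
              (fun u hu v hv => Submodule.mem_sup_left (hbr u hu v hv)) ha.2 hb.2⟩
          inv_mem' := fun {a} ha => ⟨inv_mem ha.1, by
            rw [hinv a ha.1]
            exact neg_mem ha.2⟩ }
      have e : Submodule.span ℝ (f '' B) =
          Submodule.span ℝ (f '' B') ⊔ Submodule.span ℝ {f x} := by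
        refine le_antisymm (Submodule.span_le.2 ?_)
          (sup_le (Submodule.span_mono (Set.image_mono hle))
            ((Submodule.span_singleton_le_iff_mem _ _).2 (Submodule.subset_span ⟨x, hx, rfl⟩)))
        rintro _ ⟨y, hy, rfl⟩
        obtain ⟨k, hk⟩ := hgen y hy
        have h1 : x ∈ S :=
          ⟨hBN hx, Submodule.mem_sup_right (Submodule.mem_span_singleton_self _)⟩
        have h2 : (x ^ k)⁻¹ * y ∈ S :=
          ⟨hBN (hle hk), Submodule.mem_sup_left (Submodule.subset_span ⟨_, hk, rfl⟩)⟩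
        have h3 := mul_mem (zpow_mem h1 k) h2
        rw [mul_inv_cancel_left] at h3
        exact h3.2
      rw [← e] at hbr
      have hle' : Submodule.span ℝ (f '' B') ≤ Submodule.span ℝ (f '' B) :=
        Submodule.span_mono (Set.image_mono hle)
      refine ⟨fun u hu v hv => hle' (hbr u hu v hv), cob_step F hle' (hJ B hBN) hbr hle
        (fun g hg => Submodule.subset_span ⟨g, hg, rfl⟩)
        (fun g hg h hh => hm g (hBN hg) h (hBN hh)) (fun _ _ _ => rfl) (fun _ _ _ => rfl)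
        (fun _ _ y _ => by simp) le_sup_right ic⟩
  have h := Poly_lift (S := Poly_St) (Poly_iff.1 hN) (fun K => K.map N.subtype)
    fun _ _ h => h.map _
  simp only [Subgroup.map_bot, ← MonoidHom.range_eq_map, Subgroup.range_subtype] at h
  exact key N h le_rfl

end Vale.Agent.P188.MB
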