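import Vale.Agent.P188.MBHad

/-! Conjugation into block diagonal form. -/

namespace Vale.Agent.P188.MB

theorem sylvester {d : ℕ} {t : Fin d → ℂˣ} {a b y : Mx d} (ha : a - dg t ∈ JJ d 1)
    (hb : b - dg t ∈ JJ d 1) (hy : y ∈ JJ d 0) (ho : ∀ i j, t i = t j → y i j = 0)
    (h : b * y = y * a) : y = 0 := by
  have key : ∀ k, y ∈ JJ d k := by
    intro k
    induction k with
    | zero => exact hy
    | succ k ih =>
      have e : dg t * y - y * dg t = y * (a - dg t) - (b - dg t) * y := by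
        rw [mul_sub, sub_mul, h]
        abel
      have h1 : dg t * y - y * dg t ∈ JJ d (k + 1) := by
        rw [e]
        exact sub_mem (JJ_mul ih ha) (by rw [add_comm]; exact JJ_mul hb ih)
      intro i j hij
      by_cases ht : t i = t j
      · exact ho i j ht
      · have h2 := h1 i j hij
        rw [Matrix.sub_apply, dg_def, Matrix.diagonal_mul, Matrix.mul_diagonal, mul_comm (y i j),
          ← sub_mul, mul_eq_zero, sub_eq_zero] at h2
        exact h2.resolve_left fun h3 => ht (Units.ext h3)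
  have := key d
  rwa [JJ_bot le_rfl, Submodule.mem_bot] at this

theorem MBConj_q {d : ℕ} (t : Fin d → ℂˣ) (i j : Fin d) : (t i : ℂ) / t j = 1 ↔ t i = t j := by
  rw [div_eq_one_iff_eq (Units.ne_zero _), Units.val_inj]

theorem cj_eq_iff {d : ℕ} {t : Fin d → ℂˣ} {y : Mx d} :
    cj t y = y ↔ ∀ i j, t i ≠ t j → y i j = 0 := by
  constructor
  · intro h i j hij
    have h1 := congrFun (congrFun h i) j
    rw [cj_apply] at h1
    by_contra h2
    exact hij ((MBConj_q t i j).1 ((mul_eq_right₀ h2).1 h1))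
  · intro h
    ext i j
    rw [cj_apply]
    by_cases hij : t i = t j
    · rw [(MBConj_q t i j).2 hij, one_mul]
    · rw [h i j hij, mul_zero]

open Classical in
/-- the block diagonal part -/
noncomputable def MBConj_pr {d : ℕ} (t : Fin d → ℂˣ) : Mx d →ₗ[ℝ] Mx d where
  toFun y := had (fun i j => if (t i : ℂ) / t j = 1 then 1 else 0) y
  map_add' x y := by
    ext i j
    simp only [had_apply, Matrix.add_apply, mul_add]
  map_smul' c x := by
    ext i j
    simp only [had_apply, Matrix.smul_apply, RingHom.id_apply, mul_smul_comm]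

theorem MBConj_pos {d : ℕ} {t : Fin d → ℂˣ} (y : Mx d) {i j : Fin d} (h : t i = t j) :
    MBConj_pr t y i j = y i j := by
  show had _ y i j = _
  rw [had_apply, if_pos ((MBConj_q t i j).2 h), one_mul]

theorem MBConj_neg {d : ℕ} {t : Fin d → ℂˣ} (y : Mx d) {i j : Fin d} (h : t i ≠ t j) :
    MBConj_pr t y i j = 0 := by
  show had _ y i j = _
  rw [had_apply, if_neg fun h' => h ((MBConj_q t i j).1 h'), zero_mul]

theorem MBConj_left {d : ℕ} {t : Fin d → ℂˣ} {b : Mx d} (hb : cj t b = b) (c : Mx d) :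
    MBConj_pr t (b * c) = b * MBConj_pr t c := by
  rw [cj_eq_iff] at hb
  ext i j
  by_cases hij : t i = t j
  · rw [MBConj_pos _ hij, Matrix.mul_apply, Matrix.mul_apply]
    refine Finset.sum_congr rfl fun k _ => ?_
    by_cases hk : t i = t k
    · rw [MBConj_pos _ (hk.symm.trans hij)]
    · rw [hb i k hk, zero_mul, zero_mul]
  · rw [MBConj_neg _ hij, Matrix.mul_apply]
    refine (Finset.sum_eq_zero fun k _ => ?_).symm
    by_cases hk : t i = t k
    · rw [MBConj_neg _ fun h => hij (hk.trans h), mul_zero]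
    · rw [hb i k hk, zero_mul]

theorem MBConj_right {d : ℕ} {t : Fin d → ℂˣ} {b : Mx d} (hb : cj t b = b) (c : Mx d) :
    MBConj_pr t (c * b) = MBConj_pr t c * b := by
  rw [cj_eq_iff] at hb
  ext i j
  by_cases hij : t i = t j
  · rw [MBConj_pos _ hij, Matrix.mul_apply, Matrix.mul_apply]
    refine Finset.sum_congr rfl fun k _ => ?_
    by_cases hk : t k = t j
    · rw [MBConj_pos _ (hij.trans hk.symm)]
    · rw [hb k j hk, mul_zero, mul_zero]
  · rw [MBConj_neg _ hij, Matrix.mul_apply]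
    refine (Finset.sum_eq_zero fun k _ => ?_).symm
    by_cases hk : t k = t j
    · rw [MBConj_neg _ fun h => hij (h.trans hk), zero_mul]
    · rw [hb k j hk, mul_zero]

theorem MBConj_mem {d k : ℕ} (t : Fin d → ℂˣ) {y : Mx d} (hy : y ∈ JJ d k) :
    MBConj_pr t y ∈ JJ d k := fun i j h => by
  show had _ y i j = _
  rw [had_apply, hy i j h, mul_zero]

theorem MBConj_idem {d : ℕ} (t : Fin d → ℂˣ) (y : Mx d) :
    MBConj_pr t (MBConj_pr t y) = MBConj_pr t y := by
  ext i j
  by_cases hij : t i = t j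
  · rw [MBConj_pos _ hij]
  · rw [MBConj_neg _ hij, MBConj_neg _ hij]

theorem MBConj_blk {d : ℕ} {t : Fin d → ℂˣ} {y : Mx d} (h : y - MBConj_pr t y = 0) :
    cj t y = y := cj_eq_iff.2 fun i j hij => by rw [sub_eq_zero.1 h, MBConj_neg _ hij]

/-- an intertwiner of block diagonal matrices is block diagonal -/
theorem blk_of_intertwine {d : ℕ} {t : Fin d → ℂˣ} {a b c : Mx d} (ha : a - dg t ∈ JJ d 1)
    (hb : b - dg t ∈ JJ d 1) (ha' : cj t a = a) (hb' : cj t b = b) (hc : c ∈ JJ d 0)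
    (h : b * c = c * a) : cj t c = c := by
  refine MBConj_blk (sylvester ha hb (sub_mem hc (MBConj_mem t hc)) (fun i j hij => ?_) ?_)
  · rw [Matrix.sub_apply, MBConj_pos _ hij, sub_self]
  · rw [mul_sub, sub_mul, ← MBConj_left hb', ← MBConj_right ha', h]

theorem MBConj_bch {d k : ℕ} {x y : Mx d} (hx : x ∈ JJ d 1) (hy : y ∈ JJ d 1)
    (h : x * y - y * x ∈ JJ d k) : bch (d + 2) x y - x - y ∈ JJ d k :=
  bch_sub_mem (FB d) (JJ d 1) (JJ d k) le_rfl
    (fun _ hu _ hv => sub_mem (JJ_mono (by omega) (JJ_mul hu hv))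
      (JJ_mono (by omega) (JJ_mul hv hu)))
    (fun _ hu _ hv => sub_mem (JJ_mono (by omega) (JJ_mul hu hv))
      (JJ_mono (by omega) (JJ_mul hv hu))) hx hy h

theorem exists_conj {d : ℕ} {t : Fin d → ℂˣ} {a a' : Mx d} (ha : a - dg t ∈ JJ d 1)
    (ha' : a' - dg t⁻¹ ∈ JJ d 1) (hb : cj t a = a) (hi : a' * a = 1)
    (L : Submodule ℝ (Mx d)) (hL : L ≤ JJ d 1) (hl : IsLie L) (hA : ∀ y ∈ L, a * y * a' ∈ L)
    {y : Mx d} (hy : y ∈ L) : ∃ z ∈ L, ∃ y₁ ∈ L, cj t y₁ = y₁ ∧
      ex (d + 2) z * (ex (d + 2) y * a) = ex (d + 2) y₁ * a * ex (d + 2) z := by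
  classical
  have hi' : a * a' = 1 := mul_eq_one_comm.1 hi
  have ha0 : a ∈ JJ d 0 := by simpa using add_mem (JJ_mono zero_le_one ha) (dg_mem t)
  have ha0' : a' ∈ JJ d 0 := by simpa using add_mem (JJ_mono zero_le_one ha') (dg_mem t⁻¹)
  have hb' : cj t a' = a' := by
    have e : cj t a' * a = 1 := by
      conv_lhs => rw [← hb]
      rw [← map_mul, hi, map_one]
    rw [← mul_one (cj t a'), ← hi', ← mul_assoc, e, one_mul]
  have hpr : ∀ x ∈ L, MBConj_pr t x ∈ L := fun x hx =>
    had_mem ha ha' hb hi L (hL.trans (JJ_mono zero_le_one)) hA _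
      (fun i j k l h => by rw [h])
      (fun i j k l h => by
        rw [h]
        by_cases h1 : (t k : ℂ) / t l = 1
        · simp [h1]
        · rw [if_neg h1, if_neg, map_zero]
          intro h2
          apply h1
          simpa using congrArg (starRingEnd ℂ) h2) hx
  have hs : ∀ k, ∀ r ∈ L, r ∈ JJ d k → MBConj_pr t r = 0 →
      ∃ z ∈ L, z ∈ JJ d k ∧ a * z * a' - z = r := by
    intro k r h1 h2 h3
    let P : Submodule ℝ (Mx d) := L ⊓ JJ d k ⊓ LinearMap.ker (MBConj_pr t)
    let φ : Mx d →ₗ[ℝ] Mx d := (adj a a' hi hi').toLinearMap - LinearMap.id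
    have hφ : ∀ x, φ x = a * x * a' - x := fun _ => rfl
    have hP : ∀ x ∈ P, φ x ∈ P := fun x hx => by
      rw [hφ]
      refine sub_mem ⟨⟨hA x hx.1.1, ?_⟩, ?_⟩ hx
      · simpa using JJ_mul (JJ_mul ha0 hx.1.2) ha0'
      · show MBConj_pr t (a * x * a') = 0
        rw [MBConj_right hb', MBConj_left hb, show MBConj_pr t x = 0 from hx.2, mul_zero,
          zero_mul]
    have hinj : Function.Injective (φ.restrict hP) := by
      rw [injective_iff_map_eq_zero]
      intro x hx
      have e : a * x.1 * a' - x.1 = 0 := congrArg Subtype.val hx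
      refine Subtype.ext (sylvester ha ha (JJ_mono (Nat.zero_le k) x.2.1.2) (fun i j hij => ?_) ?_)
      · rw [← MBConj_pos x.1 hij, show MBConj_pr t x.1 = 0 from x.2.2, Matrix.zero_apply]
      · conv_rhs => rw [← sub_eq_zero.1 e]
        rw [mul_assoc (a * x.1), hi, mul_one]
    obtain ⟨z, hz⟩ := LinearMap.injective_iff_surjective.1 hinj ⟨r, ⟨h1, h2⟩, h3⟩
    exact ⟨z.1, z.2.1.1, z.2.1.2, congrArg Subtype.val hz⟩
  have key : ∀ k, ∃ z ∈ L, ∃ y₁ ∈ L, y₁ - MBConj_pr t y₁ ∈ JJ d (k + 1) ∧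
      ex (d + 2) z * (ex (d + 2) y * a) = ex (d + 2) y₁ * a * ex (d + 2) z := by
    intro k
    induction k with
    | zero =>
      exact ⟨0, zero_mem _, y, hy, sub_mem (hL hy) (MBConj_mem t (hL hy)), by
        rw [ex_zero, one_mul, mul_one]⟩
    | succ k ih =>
      obtain ⟨z, hz, y', hy', h1, h2⟩ := ih
      obtain ⟨z', hz', hk, h3⟩ := hs (k + 1) _ (sub_mem hy' (hpr y' hy')) h1
        (by rw [map_sub, MBConj_idem, sub_self])
      have hw := hA z' hz'
      have hwk : a * z' * a' ∈ JJ d (k + 1) := by simpa using JJ_mul (JJ_mul ha0 hk) ha0'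
      have hu : bch (d + 2) z' y' ∈ L := bch_mem_lie (FB d) L hL hl hz' hy'
      have e1 : ∀ {u v : Mx d}, u ∈ L → v ∈ L →
          ex (d + 2) (bch (d + 2) u v) = ex (d + 2) u * ex (d + 2) v :=
        fun hu hv => ex_bch (FB d) (hL hu) (hL hv)
      have e2 : ex (d + 2) (-(a * z' * a')) * ex (d + 2) (a * z' * a') = 1 := by
        have := ex_add (FB d) (neg_mem (hL hw)) (hL hw) (Commute.refl _).neg_left
        rw [neg_add_cancel, ex_zero] at this
        exact this.symm
      have e3 : a * ex (d + 2) z' = ex (d + 2) (a * z' * a') * a := by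
        have := map_ex (adj a a' hi hi') (d + 2) z'
        rw [adj_apply, adj_apply] at this
        rw [← this, mul_assoc, hi, mul_one]
      refine ⟨bch (d + 2) z' z, bch_mem_lie (FB d) L hL hl hz' hz,
        bch (d + 2) (bch (d + 2) z' y') (-(a * z' * a')),
        bch_mem_lie (FB d) L hL hl hu (neg_mem hw), ?_, ?_⟩
      · have b1 := MBConj_bch (k := k + 1 + 1) (hL hz') (hL hy')
          (sub_mem (JJ_mul hk (hL hy')) (JJ_mono (by omega) (JJ_mul (hL hy') hk)))
        have b2 := MBConj_bch (k := k + 1 + 1) (hL hu) (neg_mem (hL hw))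
          (sub_mem (JJ_mono (by omega) (JJ_mul (hL hu) (neg_mem hwk)))
            (JJ_mul (neg_mem hwk) (hL hu)))
        have b3 := add_mem b2 b1
        generalize bch (d + 2) (bch (d + 2) z' y') (-(a * z' * a')) = Y at b3 ⊢
        have e4 : MBConj_pr t y' = y' - (a * z' * a' - z') := by rw [h3, sub_sub_cancel]
        rw [show Y - bch (d + 2) z' y' - -(a * z' * a') + (bch (d + 2) z' y' - z' - y') =
          Y - (y' - (a * z' * a' - z')) by abel, ← e4] at b3
        have b4 := sub_mem b3 (MBConj_mem t b3)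
        rwa [map_sub, MBConj_idem, sub_sub_sub_cancel_right] at b4
      · rw [e1 hz' hz, e1 hu (neg_mem hw), e1 hz' hy', mul_assoc (ex (d + 2) z'), h2]
        generalize a * z' * a' = w at e2 e3
        simp only [mul_assoc]
        rw [← mul_assoc a (ex (d + 2) z'), e3, mul_assoc, ← mul_assoc (ex (d + 2) (-_)), e2,
          one_mul]
  obtain ⟨z, hz, y₁, hy₁, h1, h2⟩ := key d
  rw [JJ_bot (Nat.le_succ d), Submodule.mem_bot] at h1
  exact ⟨z, hz, y₁, hy₁, MBConj_blk h1, h2⟩

end Vale.Agent.P188.MB
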