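import Vale.Agent.P188.MBTriZ
import Vale.Agent.P188.MBConj
import Vale.Agent.P188.MBCob

/-! Elementary facts on triangular representations and block diagonal form. -/

namespace Vale.Agent.P188.MB

open scoped Matrix.Norms.Operator

namespace Tri

variable {G : Type*} [Group G] {d : ℕ} (T : Tri G d)

theorem ρ_mem (g : G) : T.ρ g ∈ JJ d 0 := by
  rw [← sub_add_cancel (T.ρ g) (dg (T.θ g))]
  exact add_mem (JJ_mono zero_le_one (T.tri g)) (dg_mem _)

theorem u_mem (g : G) : T.u g - 1 ∈ JJ d 1 := by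
  have e : T.u g - 1 = (T.ρ g - dg (T.θ g)) * dg (T.θ g)⁻¹ := by
    rw [sub_mul, ← map_mul, mul_inv_cancel, map_one, u]
  rw [e]
  exact JJ_mul (T.tri g) (dg_mem _)

theorem lu_mem (g : G) : T.lu g ∈ JJ d 1 := lg_mem (FB d) (T.u_mem g)

theorem ex_lu (g : G) : ex (d + 2) (T.lu g) = T.u g := ex_lg (FB d) (T.u_mem g)

theorem ρ_eq (g : G) : T.ρ g = T.u g * dg (T.θ g) := by
  rw [u, mul_assoc, ← map_mul, inv_mul_cancel, map_one, mul_one]

theorem u_mul (g h : G) : T.u (g * h) = T.u g * cj (T.θ g) (T.u h) := by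
  rw [cj_def, u, u, u, map_mul, map_mul, mul_inv_rev, map_mul]
  simp only [mul_assoc]
  rw [← mul_assoc (dg (T.θ g)⁻¹), ← map_mul dg (T.θ g)⁻¹, inv_mul_cancel, map_one, one_mul]

theorem lu_mul (g h : G) : T.lu (g * h) = bch (d + 2) (T.lu g) (cj (T.θ g) (T.lu h)) := by
  rw [bch, ← map_ex, T.ex_lu, T.ex_lu, ← T.u_mul, lu]

theorem θ_comm {g : G} (hg : g ∈ commutator G) : T.θ g = 1 :=
  Abelianization.commutator_subset_ker T.θ hg

theorem u_comm {g : G} (hg : g ∈ commutator G) : T.u g = T.ρ g := by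
  rw [u, T.θ_comm hg, inv_one, map_one, mul_one]

theorem lv_mul (g h : G) : T.lv (g * h) = T.lv g + T.lv h := by
  funext i
  simp only [lv, map_mul, Pi.mul_apply, Units.val_mul, norm_mul, Pi.add_apply]
  exact Real.log_mul (norm_ne_zero_iff.2 (Units.ne_zero _)) (norm_ne_zero_iff.2 (Units.ne_zero _))

theorem lv_comm {g : G} (hg : g ∈ commutator G) : T.lv g = 0 := by
  funext i
  simp [lv, T.θ_comm hg]

theorem n_le : T.n ≤ JJ d 1 := by
  refine Submodule.span_le.2 ?_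
  rintro _ ⟨g, -, rfl⟩
  exact T.lu_mem g

theorem n_lie (hG : Polycyclic G) : IsLie T.n :=
  (lie_cob (FB d) (commutator G) (hG.of_injective _ (Subgroup.subtype_injective _))
    (f := T.lu) (fun g _ => T.lu_mem g) fun g hg h _ => by
      rw [T.lu_mul, T.θ_comm hg, cj_one]
      rfl).1

theorem n_conj (g : G) : ∀ y ∈ T.n, T.ρ g * y * T.ρ g⁻¹ ∈ T.n := by
  have h1 : T.ρ g⁻¹ * T.ρ g = 1 := by rw [← map_mul, inv_mul_cancel, map_one]
  have h2 : T.ρ g * T.ρ g⁻¹ = 1 := by rw [← map_mul, mul_inv_cancel, map_one]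
  intro y hy
  rw [← adj_apply _ _ h1 h2]
  induction hy using Submodule.span_induction with
  | mem y hy =>
    obtain ⟨x, hx, rfl⟩ := hy
    have hx' : g * x * g⁻¹ ∈ commutator G := Subgroup.Normal.conj_mem inferInstance x hx g
    refine Submodule.subset_span ⟨_, hx', ?_⟩
    rw [lu, lu, map_lg, T.u_comm hx', T.u_comm hx, adj_apply, map_mul, map_mul]
  | zero => simp
  | add y z _ _ hy hz =>
    rw [map_add]
    exact add_mem hy hz
  | smul c y _ hy =>
    rw [map_smul]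
    exact Submodule.smul_mem _ _ hy

/-- multipliers that depend only on the ratio characters preserve the Lie algebra -/
theorem n_had {g₀ : G} (hr : T.Reg g₀) (hb : cj (T.θ g₀) (T.ρ g₀) = T.ρ g₀)
    (h : Fin d → Fin d → ℂ) (h1 : ∀ i j k l, (∀ g, T.q g i j = T.q g k l) → h i j = h k l)
    (h2 : ∀ i j k l, (∀ g, T.q g i j = starRingEnd ℂ (T.q g k l)) →
      h i j = starRingEnd ℂ (h k l)) : ∀ y ∈ T.n, had h y ∈ T.n := fun _ hy =>
  had_mem (T.tri g₀) (by simpa only [map_inv] using T.tri g₀⁻¹) hb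
    (by rw [← map_mul, inv_mul_cancel, map_one]) T.n (T.n_le.trans (JJ_mono zero_le_one))
    (T.n_conj g₀) h (fun i j k l e => h1 i j k l (hr.1 i j k l e))
    (fun i j k l e => h2 i j k l (hr.2 i j k l e)) hy

theorem n_cj {g₀ : G} (hr : T.Reg g₀) (hb : cj (T.θ g₀) (T.ρ g₀) = T.ρ g₀) (g : G) :
    ∀ y ∈ T.n, cj (T.θ g) y ∈ T.n := by
  intro y hy
  have e : cj (T.θ g) y = had (T.q g) y := by
    ext i j
    rw [cj_apply, had_apply, q]
  rw [e]
  exact T.n_had hr hb _ (fun _ _ _ _ h => h g) (fun _ _ _ _ h => h g) y hy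

theorem cj_of_reg {g₀ : G} (hr : T.Reg g₀) {y : Mx d} (h : cj (T.θ g₀) y = y) (g : G) :
    cj (T.θ g) y = y := by
  refine cj_eq_iff.2 fun i j hij => cj_eq_iff.1 h i j fun e => hij ?_
  have h1 : T.q g₀ i j = T.q g₀ j j := by rw [q, q, e]
  have h2 := hr.1 i j j j h1 g
  rw [q, q, div_left_inj' (Units.ne_zero _)] at h2
  exact Units.ext h2

theorem exists_blk {g₀ : G} (hr : T.Reg g₀) :
    ∃ T' : Tri G d, T'.Reg g₀ ∧ cj (T'.θ g₀) (T'.ρ g₀) = T'.ρ g₀ := by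
  have hc : cj (T.θ g₀) (dg (T.θ g₀)) = dg (T.θ g₀) := by
    rw [cj_def, mul_assoc, ← map_mul, mul_inv_cancel, map_one, mul_one]
  obtain ⟨z, hz, y, -, hy, e⟩ := exists_conj (t := T.θ g₀) (a := dg (T.θ g₀))
    (a' := dg (T.θ g₀)⁻¹) (by simp) (by simp) hc (by rw [← map_mul, inv_mul_cancel, map_one])
    (JJ d 1) le_rfl (fun u hu v hv => JJ_mono one_le_two (sub_mem (JJ_mul hu hv) (JJ_mul hv hu)))
    (fun y hy => cj_mem _ hy) (T.lu_mem g₀)
  rw [T.ex_lu, ← T.ρ_eq] at e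
  have h1 : ex (d + 2) z * ex (d + 2) (-z) = 1 := by
    have := ex_add (FB d) hz (neg_mem hz) (Commute.refl z).neg_right
    rw [add_neg_cancel, ex_zero] at this
    exact this.symm
  have h2 : ex (d + 2) (-z) * ex (d + 2) z = 1 := by
    have := ex_add (FB d) (neg_mem hz) hz (Commute.refl z).neg_left
    rw [neg_add_cancel, ex_zero] at this
    exact this.symm
  have m1 : ex (d + 2) z - 1 ∈ JJ d 1 := ex_mem (FB d) hz
  have m2 : ex (d + 2) (-z) - 1 ∈ JJ d 1 := ex_mem (FB d) (neg_mem hz)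
  have m3 : ex (d + 2) (-z) ∈ JJ d 0 := by
    rw [← sub_add_cancel (ex (d + 2) (-z)) 1]
    exact add_mem (JJ_mono zero_le_one m2) (by simpa only [map_one] using dg_mem (d := d) 1)
  refine ⟨⟨(adj _ _ h2 h1).toRingHom.toMonoidHom.comp T.ρ, T.θ, fun g => ?_, fun g h e => ?_,
    T.Λ.map (adj _ _ h2 h1).toRingHom, fun g => ⟨_, T.mem g, rfl⟩, fin_conj _ T.fin _ _ h2 h1⟩,
    hr, ?_⟩
  · change ex (d + 2) z * T.ρ g * ex (d + 2) (-z) - dg (T.θ g) ∈ JJ d 1
    have e : ex (d + 2) z * T.ρ g * ex (d + 2) (-z) - dg (T.θ g) =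
        (ex (d + 2) z - 1) * T.ρ g * ex (d + 2) (-z) + T.ρ g * (ex (d + 2) (-z) - 1) +
          (T.ρ g - dg (T.θ g)) := by noncomm_ring
    rw [e]
    exact add_mem (add_mem (JJ_mul (JJ_mul m1 (T.ρ_mem g)) m3) (JJ_mul (T.ρ_mem g) m2)) (T.tri g)
  · have e' : ex (d + 2) z * T.ρ g * ex (d + 2) (-z) = ex (d + 2) z * T.ρ h * ex (d + 2) (-z) := e
    have e2 := congrArg (fun w => ex (d + 2) (-z) * w * ex (d + 2) z) e'
    simp only [mul_assoc, h2, mul_one] at e2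
    rw [← mul_assoc, ← mul_assoc, h2, one_mul, one_mul] at e2
    exact T.inj e2
  · change cj (T.θ g₀) (ex (d + 2) z * T.ρ g₀ * ex (d + 2) (-z)) =
      ex (d + 2) z * T.ρ g₀ * ex (d + 2) (-z)
    rw [e, mul_assoc _ (ex (d + 2) z), h1, mul_one, map_mul, map_ex, hy, hc]

end Tri

end Vale.Agent.P188.MB
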