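import Vale.Agent.P188.MBDefs

/-! Brackets and bounds in a filtered algebra. -/

namespace Vale.Agent.P188.MB

section
variable {A : Type*} [Ring A] [Algebra ℝ A] (F : Filt A) {x y w : A}

theorem ex_mul_neg (hx : x ∈ F.J 1) : ex F.d x * ex F.d (-x) = 1 := by
  rw [← ex_add F hx (neg_mem hx) (Commute.refl x).neg_right, add_neg_cancel, ex_zero]

theorem ex_neg_mul (hx : x ∈ F.J 1) : ex F.d (-x) * ex F.d x = 1 := by
  rw [← ex_add F (neg_mem hx) hx (Commute.refl x).neg_left, neg_add_cancel, ex_zero]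

theorem bch_zero_left (hx : x ∈ F.J 1) : bch F.d 0 x = x := by
  rw [bch_comm F (F.J 1).zero_mem hx (Commute.zero_left x), zero_add]

theorem bch_zero_right (hx : x ∈ F.J 1) : bch F.d x 0 = x := by
  rw [bch_comm F hx (F.J 1).zero_mem (Commute.zero_right x), add_zero]

theorem bch_neg_left (hx : x ∈ F.J 1) (hy : y ∈ F.J 1) :
    bch F.d (-x) (bch F.d x y) = y := by
  rw [← bch_assoc F (neg_mem hx) hx hy, bch_comm F (neg_mem hx) hx (Commute.refl x).neg_left,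
    neg_add_cancel, bch_zero_left F hy]

theorem bch_neg_right (hx : x ∈ F.J 1) (hy : y ∈ F.J 1) :
    bch F.d (bch F.d y (-x)) x = y := by
  rw [bch_assoc F hy (neg_mem hx) hx, bch_comm F (neg_mem hx) hx (Commute.refl x).neg_left,
    neg_add_cancel, bch_zero_right F hy]

theorem MBBr_br (hx : x ∈ F.J 1) (P : Submodule ℝ A)
    (hP : ∀ u ∈ P, ex F.d x * u * ex F.d (-x) ∈ P)
    (h : ex F.d x * y * ex F.d (-x) - y ∈ P) : x * y - y * x ∈ P := by
  obtain ⟨T, D, h0, h1, h2⟩ := bch_ad F hx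
  rw [← h1, ← bch_lg_ex h0, lg, LinearMap.sum_apply]
  refine sum_mem fun k _ => ?_
  rw [LinearMap.smul_apply, pow_succ, Module.End.mul_apply]
  refine P.smul_mem _ (bch_inv (fun u hu => ?_) _ _ ?_)
  · rw [LinearMap.sub_apply, h2, Module.End.one_apply]
    exact sub_mem (hP u hu) hu
  · rw [LinearMap.sub_apply, h2, Module.End.one_apply]
    exact h

theorem br_mem_of_conj (hx : x ∈ F.J 1) (hy : y ∈ F.J 1) (P : Submodule ℝ A)
    (hP : ∀ u ∈ P, ex F.d x * u * ex F.d (-x) ∈ P)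
    (h : ex F.d x * y * ex F.d (-x) - y ∈ P) : x * y - y * x ∈ P :=
  (fun _ => MBBr_br F hx P hP h) hy

theorem MBBr_sub (hy : y ∈ F.J 1) (P : Submodule ℝ A) (hJ : P ≤ F.J 1) (hl : IsLie P)
    (hPy : ∀ u ∈ P, y * u - u * y ∈ P) (hw : w ∈ P) : bch F.d w y - y ∈ P := by
  have hP : ∀ u ∈ P ⊔ Submodule.span ℝ {y}, ∀ v ∈ P, u * v - v * u ∈ P := by
    intro u hu v hv
    obtain ⟨a, ha, b, hb, rfl⟩ := Submodule.mem_sup.1 hu
    obtain ⟨c, rfl⟩ := Submodule.mem_span_singleton.1 hb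
    have e : (a + c • y) * v - v * (a + c • y) = (a * v - v * a) + c • (y * v - v * y) := by
      rw [add_mul, mul_add, smul_mul_assoc, mul_smul_comm, smul_sub]
      abel
    rw [e]
    exact P.add_mem (hl a ha v hv) (P.smul_mem c (hPy v hv))
  have hL : ∀ u ∈ P ⊔ Submodule.span ℝ {y}, ∀ v ∈ P ⊔ Submodule.span ℝ {y},
      u * v - v * u ∈ P ⊔ Submodule.span ℝ {y} := by
    intro u hu v hv
    obtain ⟨a, ha, b, hb, rfl⟩ := Submodule.mem_sup.1 hv
    obtain ⟨c, rfl⟩ := Submodule.mem_span_singleton.1 hb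
    obtain ⟨a', ha', b', hb', rfl⟩ := Submodule.mem_sup.1 hu
    obtain ⟨c', rfl⟩ := Submodule.mem_span_singleton.1 hb'
    have e : (a' + c' • y) * (a + c • y) - (a + c • y) * (a' + c' • y) =
        (a' * a - a * a') + c' • (y * a - a * y) - c • (y * a' - a' * y) := by
      simp only [add_mul, mul_add, smul_mul_assoc, mul_smul_comm, smul_sub, smul_add, smul_smul,
        mul_comm c' c]
      abel
    rw [e]
    exact Submodule.mem_sup_left (P.sub_mem (P.add_mem (hl a' ha' a ha) (P.smul_mem _ (hPy a ha)))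
      (P.smul_mem _ (hPy a' ha')))
  have h1 := bch_sub_mem F (P ⊔ Submodule.span ℝ {y}) P
    (sup_le hJ ((Submodule.span_singleton_le_iff_mem _ _).2 hy)) hL hP
    (Submodule.mem_sup_left hw) (Submodule.mem_sup_right (Submodule.mem_span_singleton_self y))
    (by
      rw [← neg_sub]
      exact P.neg_mem (hPy w hw))
  have h2 := P.add_mem h1 hw
  rwa [sub_right_comm, sub_add_cancel] at h2

/-- if the group commutator lies in `exp P` then the bracket lies in `P` -/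
theorem br_mem_of_comm (hx : x ∈ F.J 1) (hy : y ∈ F.J 1) (P : Submodule ℝ A) (hJ : P ≤ F.J 1)
    (hl : IsLie P) (hPx : ∀ u ∈ P, ex F.d x * u * ex F.d (-x) ∈ P)
    (hPy : ∀ u ∈ P, ex F.d y * u * ex F.d (-y) ∈ P) (hw : w ∈ P)
    (h : ex F.d x * ex F.d y = ex F.d w * (ex F.d y * ex F.d x)) : x * y - y * x ∈ P := by
  have h1 : ex F.d x * y * ex F.d (-x) = bch F.d w y := by
    rw [← bch_conj F hx hy, bch, ex_bch F hx hy, h, mul_assoc, mul_assoc, ex_mul_neg F hx, mul_one]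
    rfl
  refine MBBr_br F hx P hPx ?_
  rw [h1]
  exact MBBr_sub F hy P hJ hl (fun u hu => ad_mem_of_conj F hy P hPy hu) hw

/-- modulo an ideal the product with an element that normalises it is the sum -/
theorem bch_sub_mem' (hy : y ∈ F.J 1) (P : Submodule ℝ A) (hJ : P ≤ F.J 1) (hl : IsLie P)
    (hPy : ∀ u ∈ P, y * u - u * y ∈ P) (hw : w ∈ P) : bch F.d w y - y ∈ P :=
  MBBr_sub F hy P hJ hl hPy hw

end

section
variable {A : Type*} [NormedRing A] [NormedAlgebra ℝ A]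

omit [NormedAlgebra ℝ A] in
theorem MBBr_pow (k : ℕ) {R : ℝ} {x : A} (h : ‖x‖ ≤ R) : ‖x ^ k‖ ≤ ‖(1 : A)‖ * R ^ k := by
  induction k with
  | zero => simp
  | succ k ih =>
    rw [pow_succ, pow_succ, ← mul_assoc]
    exact (norm_mul_le _ _).trans (mul_le_mul ih h (norm_nonneg _) ((norm_nonneg _).trans ih))

theorem ex_bdd (d : ℕ) (R : ℝ) : ∃ C : ℝ, ∀ x : A, ‖x‖ ≤ R → ‖ex d x‖ ≤ C := by
  refine ⟨∑ k ∈ Finset.range (d + 1), ‖((k.factorial : ℝ)⁻¹)‖ * (‖(1 : A)‖ * R ^ k),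
    fun x hx => (norm_sum_le _ _).trans (Finset.sum_le_sum fun k _ => ?_)⟩
  rw [norm_smul]
  exact mul_le_mul_of_nonneg_left (MBBr_pow k hx) (norm_nonneg _)

theorem lg_bdd (d : ℕ) (R : ℝ) : ∃ C : ℝ, ∀ x : A, ‖x‖ ≤ R → ‖lg d x‖ ≤ C := by
  refine ⟨∑ k ∈ Finset.range d, ‖((-1) ^ k / (k + 1) : ℝ)‖ *
      (‖(1 : A)‖ * (R + ‖(1 : A)‖) ^ (k + 1)),
    fun x hx => (norm_sum_le _ _).trans (Finset.sum_le_sum fun k _ => ?_)⟩
  rw [norm_smul]
  refine mul_le_mul_of_nonneg_left (MBBr_pow (k + 1) ?_) (norm_nonneg _)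
  exact (norm_sub_le _ _).trans (add_le_add hx le_rfl)

theorem bch_bdd (d : ℕ) (R : ℝ) :
    ∃ C : ℝ, ∀ x y : A, ‖x‖ ≤ R → ‖y‖ ≤ R → ‖bch d x y‖ ≤ C := by
  obtain ⟨C, hC⟩ := ex_bdd (A := A) d R
  obtain ⟨E, hE⟩ := lg_bdd (A := A) d (C * C)
  refine ⟨E, fun x y hx hy => hE _ ((norm_mul_le _ _).trans ?_)⟩
  exact mul_le_mul (hC x hx) (hC y hy) (norm_nonneg _) ((norm_nonneg _).trans (hC x hx))

end

end Vale.Agent.P188.MB
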