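import Vale.Agent.P188.MBBlk

/-! The nilpotent supplement. -/

namespace Vale.Agent.P188.MB

theorem MBCar_one (d : ℕ) : (1 : Mx d) ∈ JJ d 0 := by
  have := dg_mem (1 : Fin d → ℂˣ)
  rwa [map_one] at this

theorem MBCar_ex {d : ℕ} {z : Mx d} (hz : z ∈ JJ d 1) : ex (d + 2) z ∈ JJ d 0 := by
  have := Submodule.add_mem _ (JJ_mono (Nat.zero_le 1) (ex_mem (FB d) hz)) (MBCar_one d)
  rwa [sub_add_cancel] at this

theorem MBCar_comm {d : ℕ} {t : Fin d → ℂˣ} {c : Mx d} (h : cj t c = c) :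
    dg t * c = c * dg t := by
  conv_rhs => rw [← h, cj_def, mul_assoc, ← map_mul, inv_mul_cancel, map_one, mul_one]

/-- congruence modulo the exponential of a subspace -/
def MBCarR {d : ℕ} (n : Submodule ℝ (Mx d)) (a b : Mx d) : Prop :=
  ∃ w ∈ n, a = ex (d + 2) w * b

section
variable {d : ℕ} {n : Submodule ℝ (Mx d)} (hn : n ≤ JJ d 1) (hl : IsLie n) {a b c : Mx d}
include hn

theorem MBCarR.symm (h : MBCarR n a b) : MBCarR n b a := by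
  obtain ⟨w, hw, rfl⟩ := h
  refine ⟨-w, n.neg_mem hw, ?_⟩
  rw [← mul_assoc, show ex (d + 2) (-w) * ex (d + 2) w = 1 from ex_neg_mul (FB d) (hn hw), one_mul]

include hl in
theorem MBCarR.trans (h : MBCarR n a b) (h' : MBCarR n b c) : MBCarR n a c := by
  obtain ⟨w, hw, rfl⟩ := h
  obtain ⟨v, hv, rfl⟩ := h'
  refine ⟨bch (d + 2) w v, bch_mem_lie (FB d) n hn hl hw hv, ?_⟩
  rw [← mul_assoc, show ex (d + 2) (bch (d + 2) w v) = ex (d + 2) w * ex (d + 2) v from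
    ex_bch (FB d) (hn hw) (hn hv)]

omit hn in
theorem MBCarR.right (h : MBCarR n a b) (c : Mx d) : MBCarR n (a * c) (b * c) := by
  obtain ⟨w, hw, rfl⟩ := h
  exact ⟨w, hw, mul_assoc _ _ _⟩

end

namespace Tri

variable {G : Type*} [Group G] {d : ℕ} (T : Tri G d)

theorem MBCar_inv (g : G) : T.ρ g⁻¹ * T.ρ g = 1 := by rw [← map_mul, inv_mul_cancel, map_one]

theorem MBCar_inv' (g : G) : T.ρ g * T.ρ g⁻¹ = 1 := by rw [← map_mul, mul_inv_cancel, map_one]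

theorem MBCar_left {a b : Mx d} (h : MBCarR T.n a b) (g : G) :
    MBCarR T.n (T.ρ g * a) (T.ρ g * b) := by
  obtain ⟨w, hw, rfl⟩ := h
  refine ⟨_, T.n_conj g w hw, ?_⟩
  rw [← adj_apply _ _ (T.MBCar_inv g) (T.MBCar_inv' g), ← map_ex, adj_apply]
  simp only [mul_assoc]
  rw [← mul_assoc (T.ρ g⁻¹), T.MBCar_inv, one_mul]

theorem MBCar_cm (g h : G) : g * h * g⁻¹ * h⁻¹ ∈ commutator G :=
  Subgroup.commutator_mem_commutator (Subgroup.mem_top g) (Subgroup.mem_top h)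

theorem MBCar_swap (g h : G) : MBCarR T.n (T.ρ g * T.ρ h) (T.ρ h * T.ρ g) := by
  refine ⟨T.lu _, Submodule.subset_span ⟨_, MBCar_cm g h, rfl⟩, ?_⟩
  rw [T.ex_lu, T.u_comm (MBCar_cm g h), ← map_mul, ← map_mul, ← map_mul]
  congr 1
  group

theorem exists_car (hG : Polycyclic G) {g₀ : G} (hr : T.Reg g₀)
    (hb : cj (T.θ g₀) (T.ρ g₀) = T.ρ g₀) (g : G) :
    ∃ z ∈ T.n, ∀ h, cj (T.θ h) (ex (d + 2) z * T.ρ g) = ex (d + 2) z * T.ρ g := by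
  have ha' : T.ρ g₀⁻¹ - dg (T.θ g₀)⁻¹ ∈ JJ d 1 := by
    have := T.tri g₀⁻¹
    rwa [map_inv T.θ] at this
  obtain ⟨z, hz, y, hy, h1, h2⟩ := exists_conj (T.tri g₀) ha' hb (T.MBCar_inv g₀) T.n T.n_le
    (T.n_lie hG) (T.n_conj g₀) (y := T.lu (g * g₀ * g⁻¹ * g₀⁻¹))
    (Submodule.subset_span ⟨_, MBCar_cm g g₀, rfl⟩)
  refine ⟨z, hz, T.cj_of_reg hr (blk_of_intertwine (b := ex (d + 2) y * T.ρ g₀) (T.tri g₀) ?_ hb ?_
    (JJ_mul (MBCar_ex (T.n_le hz)) (T.ρ_mem g)) ?_)⟩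
  · have := Submodule.add_mem _ (JJ_mul (ex_mem (FB d) (T.n_le hy)) (T.ρ_mem g₀)) (T.tri g₀)
    rwa [sub_mul, one_mul, sub_add_sub_cancel] at this
  · rw [map_mul, map_ex, h1, hb]
  · rw [← mul_assoc, ← h2, T.ex_lu, T.u_comm (MBCar_cm g g₀), mul_assoc, mul_assoc,
      mul_assoc _ (T.ρ g), ← map_mul, ← map_mul, ← map_mul]
    congr 2
    group

theorem MBCar_u {g₀ : G} (hr : T.Reg g₀) (hb : cj (T.θ g₀) (T.ρ g₀) = T.ρ g₀) (g : G) :
    ∀ y ∈ T.n, ex (d + 2) (T.lu g) * y * ex (d + 2) (-T.lu g) ∈ T.n := by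
  intro y hy
  have h1 : ex (d + 2) (-T.lu g) = dg (T.θ g) * T.ρ g⁻¹ := by
    have h2 : ex (d + 2) (-T.lu g) * ex (d + 2) (T.lu g) = 1 := ex_neg_mul (FB d) (T.lu_mem g)
    have h3 : T.u g * (dg (T.θ g) * T.ρ g⁻¹) = 1 := by
      rw [← mul_assoc, ← T.ρ_eq, T.MBCar_inv']
    rw [← mul_one (ex (d + 2) (-T.lu g)), ← h3, ← mul_assoc, ← T.ex_lu, h2, one_mul]
  have := T.n_conj g _ (T.n_cj hr hb g⁻¹ y hy)
  rw [cj_def, map_inv T.θ, inv_inv] at this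
  rw [h1, T.ex_lu, Tri.u]
  simpa only [mul_assoc] using this

theorem exists_sup (hG : Polycyclic G) {g₀ : G} (hr : T.Reg g₀)
    (hb : cj (T.θ g₀) (T.ρ g₀) = T.ρ g₀) :
    ∃ Y : G → Mx d, (∀ g, T.lu g - Y g ∈ T.n) ∧ (∀ g h, cj (T.θ h) (Y g) = Y g) ∧
      (∀ g, ∀ y ∈ T.n, Y g * y - y * Y g ∈ T.n) ∧ ∀ g h, Y g * Y h - Y h * Y g ∈ T.n := by
  choose z hz hc using T.exists_car hG hr hb
  have hl := T.n_lie hG
  have hJ : ∀ g, bch (d + 2) (z g) (T.lu g) ∈ JJ d 1 := fun g =>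
    bch_mem (FB d) (T.n_le (hz g)) (T.lu_mem g)
  have hex : ∀ g, ex (d + 2) (bch (d + 2) (z g) (T.lu g)) =
      ex (d + 2) (z g) * T.ρ g * dg (T.θ g)⁻¹ := fun g => by
    rw [show ex (d + 2) (bch (d + 2) (z g) (T.lu g)) = ex (d + 2) (z g) * ex (d + 2) (T.lu g) from
      ex_bch (FB d) (T.n_le (hz g)) (T.lu_mem g), T.ex_lu, Tri.u, mul_assoc]
  have had : ∀ g, ∀ y ∈ T.n, T.lu g * y - y * T.lu g ∈ T.n := fun g y hy =>
    ad_mem_of_conj (FB d) (T.lu_mem g) T.n (T.MBCar_u hr hb g) hy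
  have h1 : ∀ g, bch (d + 2) (z g) (T.lu g) - T.lu g ∈ T.n := fun g =>
    bch_sub_mem' (FB d) (T.lu_mem g) T.n T.n_le hl (had g) (hz g)
  have h3 : ∀ g, ∀ y ∈ T.n, bch (d + 2) (z g) (T.lu g) * y - y * bch (d + 2) (z g) (T.lu g) ∈
      T.n := fun g y hy => by
    have := Submodule.add_mem _ (hl _ (h1 g) y hy) (had g y hy)
    rwa [sub_mul, mul_sub, show ∀ a b c e : Mx d, a - b - (c - e) + (b - e) = a - c from
      fun a b c e => by abel] at this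
  have h4 : ∀ g, ∀ y ∈ T.n, ex (d + 2) (bch (d + 2) (z g) (T.lu g)) * y *
      ex (d + 2) (-bch (d + 2) (z g) (T.lu g)) ∈ T.n := fun g y hy => by
    have := Submodule.add_mem _ (conj_sub_mem (FB d) (hJ g) T.n (h3 g) (h3 g y hy)) hy
    rwa [sub_add_cancel] at this
  refine ⟨fun g => bch (d + 2) (z g) (T.lu g), fun g => ?_, fun g h => ?_, h3, fun g h => ?_⟩
  · have := T.n.neg_mem (h1 g)
    rwa [neg_sub] at this
  · have e : cj (T.θ h) (dg (T.θ g)⁻¹) = dg (T.θ g)⁻¹ := by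
      rw [cj_def, ← map_mul, ← map_mul, mul_inv_cancel_comm]
    beta_reduce
    rw [← lg_ex (FB d) (hJ g), map_lg]
    change lg (d + 2) (cj (T.θ h) (ex (d + 2) _)) = lg (d + 2) (ex (d + 2) _)
    rw [hex, map_mul, hc, e]
  · have hR : ∀ g h, MBCarR T.n (ex (d + 2) (z g) * T.ρ g * (ex (d + 2) (z h) * T.ρ h))
        (T.ρ g * T.ρ h) := fun g h =>
      MBCarR.trans T.n_le hl (MBCarR.right ⟨z g, hz g, rfl⟩ _)
        (T.MBCar_left ⟨z h, hz h, rfl⟩ g)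
    obtain ⟨w, hw, e⟩ := MBCarR.trans T.n_le hl (MBCarR.trans T.n_le hl (hR g h) (T.MBCar_swap g h))
      (MBCarR.symm T.n_le (hR h g))
    refine br_mem_of_comm (FB d) (hJ g) (hJ h) T.n T.n_le hl (h4 g) (h4 h) hw ?_
    change ex (d + 2) _ * ex (d + 2) _ = ex (d + 2) w * (ex (d + 2) _ * ex (d + 2) _)
    have hk : ∀ g h, ex (d + 2) (bch (d + 2) (z g) (T.lu g)) *
        ex (d + 2) (bch (d + 2) (z h) (T.lu h)) = ex (d + 2) (z g) * T.ρ g *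
          (ex (d + 2) (z h) * T.ρ h) * dg (T.θ g * T.θ h)⁻¹ := fun g h => by
      have := MBCar_comm (hc h g⁻¹)
      rw [map_inv T.θ] at this
      rw [hex, hex, mul_assoc _ (dg _), ← mul_assoc (dg _), this, mul_assoc _ (dg _), ← map_mul,
        ← mul_inv]
      simp only [mul_assoc]
    rw [hk, hk, e, mul_comm (T.θ h), mul_assoc]

end Tri

end Vale.Agent.P188.MB
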