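import Vale.Agent.P188.MBDefs

/-! Ideals with finitely generated quotient and the dual representation. -/

namespace Vale.Agent.P188.MB

theorem Two.mul {R : Type*} [Ring R] {K L : Submodule ℤ R} (hK : Two K) (hL : Two L) :
    Two (K * L) := fun a k hk => by
  refine Submodule.mul_induction_on hk (fun m hm n hn => ⟨?_, ?_⟩) fun x y hx hy => ⟨?_, ?_⟩
  · rw [← mul_assoc]
    exact Submodule.mul_mem_mul (hK a m hm).1 hn
  · rw [mul_assoc]
    exact Submodule.mul_mem_mul hm (hL a n hn).2
  · rw [mul_add]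
    exact add_mem hx.1 hy.1
  · rw [add_mul]
    exact add_mem hx.2 hy.2

theorem Two.pow {R : Type*} [Ring R] {K : Submodule ℤ R} (hK : Two K) (s : ℕ) :
    Two (K ^ (s + 1)) := by
  induction s with
  | zero => simpa using hK
  | succ s ih =>
    rw [Submodule.pow_succ]
    exact ih.mul hK

theorem MBCof_mul {R : Type*} [Ring R] (S : Finset R)
    (hS : ∀ M : Submodule ℤ R, 1 ∈ M → (∀ s ∈ S, ∀ m ∈ M, s * m ∈ M) → M = ⊤)
    {K L : Submodule ℤ R} (cK : Cof K) (cL : Cof L) : Cof (K * L) := by
  obtain ⟨D, hD, hDK⟩ := cK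
  obtain ⟨E₀, hE₀, hEL⟩ := cL
  obtain ⟨B, hB⟩ := hE₀.sup (Submodule.fg_span_singleton (1 : R))
  have h1 : ∀ r : R, ∃ l ∈ L, r - l ∈ Submodule.span ℤ (B : Set R) := fun r => by
    obtain ⟨e, he, l, hl, rfl⟩ := Submodule.mem_sup.1 (hEL ▸ Submodule.mem_top (x := r))
    exact ⟨l, hl, by rw [hB, add_sub_cancel_right]; exact Submodule.mem_sup_left he⟩
  choose f hf hf' using h1
  set T := Submodule.span ℤ (Set.image2 (fun s b => f (s * b)) (S : Set R) B) with hT
  have hT1 : T.FG := Submodule.fg_span (S.finite_toSet.image2 _ B.finite_toSet)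
  have hT2 : T ≤ L := Submodule.span_le.2 (by
    rintro _ ⟨s, -, b, -, rfl⟩
    exact hf _)
  have h2 : Submodule.span ℤ (B : Set R) ⊔ ⊤ * T = ⊤ := by
    refine hS _ (Submodule.mem_sup_left ?_) fun s hs m hm => ?_
    · rw [hB]
      exact Submodule.mem_sup_right (Submodule.mem_span_singleton_self _)
    obtain ⟨e, he, l, hl, rfl⟩ := Submodule.mem_sup.1 hm
    clear hm
    rw [mul_add]
    refine add_mem ?_ (Submodule.mem_sup_right ?_)
    · induction he using Submodule.span_induction with
      | mem b hb =>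
        rw [← sub_add_cancel (s * b) (f (s * b))]
        refine add_mem (Submodule.mem_sup_left (hf' _)) (Submodule.mem_sup_right ?_)
        rw [← one_mul (f (s * b))]
        exact Submodule.mul_mem_mul trivial (Submodule.subset_span ⟨s, hs, b, hb, rfl⟩)
      | zero => simp
      | add x y _ _ hx hy =>
        rw [mul_add]
        exact add_mem hx hy
      | smul c x _ hx =>
        rw [mul_smul_comm]
        exact Submodule.smul_mem _ _ hx
    · refine Submodule.mul_induction_on hl (fun x _ y hy => ?_) fun x y hx hy => ?_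
      · rw [← mul_assoc]
        exact Submodule.mul_mem_mul trivial hy
      · rw [mul_add]
        exact add_mem hx hy
  refine ⟨Submodule.span ℤ (B : Set R) ⊔ D * T, (Submodule.fg_span B.finite_toSet).sup (hD.mul hT1),
    eq_top_iff.2 ?_⟩
  rw [← h2, ← hDK, Submodule.sup_mul, sup_assoc]
  exact sup_le_sup_left (sup_le_sup_left (mul_le_mul_right hT2 K) _) _

theorem Cof.mul {H : Type*} [Group H] [Group.FG H] {K L : Submodule ℤ (ZG H)} (hK : Two K)
    (hL : Two L) (cK : Cof K) (cL : Cof L) : Cof (K * L) := by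
  classical
  obtain ⟨S, hS⟩ := Monoid.fg_def.1 (Group.fg_iff_monoid_fg.1 ‹Group.FG H›)
  refine MBCof_mul (S.image og) (fun M h1 hM => eq_top_iff.2 fun x _ => ?_) cK cL
  have h2 : ∀ h : H, ∀ m ∈ M, og h * m ∈ M := by
    intro h
    have hh : h ∈ Submonoid.closure (S : Set H) := hS ▸ Submonoid.mem_top h
    induction hh using Submonoid.closure_induction with
    | mem x hx => exact hM _ (Finset.mem_image_of_mem _ hx)
    | one => simp
    | mul x y _ _ hx hy =>
      intro m hm
      rw [map_mul, mul_assoc]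
      exact hx _ (hy m hm)
  induction x using MonoidAlgebra.induction_on with
  | of g => simpa only [mul_one, og] using h2 g 1 h1
  | add f g hf hg => exact add_mem (hf trivial) (hg trivial)
  | smul r f hf => exact M.smul_mem r (hf trivial)

theorem Cof.pow {H : Type*} [Group H] [Group.FG H] {K : Submodule ℤ (ZG H)} (hK : Two K)
    (cK : Cof K) (s : ℕ) : Cof (K ^ (s + 1)) := by
  induction s with
  | zero => simpa using cK
  | succ s ih =>
    rw [Submodule.pow_succ]
    exact Cof.mul (hK.pow s) hK ih cK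

theorem exists_dual {G R : Type*} [Group G] [AddCommGroup R] (a : G → R →ₗ[ℤ] R)
    (h1 : ∀ r, a 1 r = r) (hm : ∀ g h r, a (g * h) r = a h (a g r)) (Q : Submodule ℤ R)
    (hQ : ∀ g, ∀ r ∈ Q, a g r ∈ Q) (cQ : Cof Q) :
    ∃ (d : ℕ) (ρ : G →* Matrix (Fin d) (Fin d) ℤ),
      (∀ g, ρ g = 1 → ∀ μ : R →ₗ[ℤ] ℤ, (∀ r ∈ Q, μ r = 0) → ∀ r, μ (a g r) = μ r) ∧
      ∀ l : List G, (∀ r, l.foldl (fun r g => a g r - r) r ∈ Q) →
        (l.map fun g => ρ g - 1).prod = 0 := by
  obtain ⟨E, hE, hEQ⟩ := cQ
  have : Module.Finite ℤ E := Module.Finite.iff_fg.2 hE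
  have : Module.Finite ℤ Q.dualAnnihilator := by
    refine Module.Finite.of_injective (E.subtype.dualMap ∘ₗ Q.dualAnnihilator.subtype)
      ((injective_iff_map_eq_zero _).2 fun μ hμ => Subtype.ext (LinearMap.ext fun r => ?_))
    obtain ⟨e, he, q, hq, rfl⟩ := Submodule.mem_sup.1 (hEQ ▸ Submodule.mem_top (x := r))
    have h3 : μ.1 e = 0 := LinearMap.congr_fun hμ ⟨e, he⟩
    rw [map_add, h3, (Submodule.mem_dualAnnihilator _).1 μ.2 q hq]
    simp
  have : Module.Free ℤ Q.dualAnnihilator := Module.free_of_finite_type_torsion_free'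
  let σ : G →* Module.End ℤ Q.dualAnnihilator :=
    { toFun := fun g => (a g).dualMap.restrict fun μ hμ =>
        (Submodule.mem_dualAnnihilator _).2 fun r hr =>
          (Submodule.mem_dualAnnihilator _).1 hμ _ (hQ g r hr)
      map_one' := LinearMap.ext fun μ => Subtype.ext (LinearMap.ext fun r => congrArg μ.1 (h1 r))
      map_mul' := fun g h => LinearMap.ext fun μ =>
        Subtype.ext (LinearMap.ext fun r => congrArg μ.1 (hm g h r)) }
  have hσ : ∀ g μ r, (σ g μ).1 r = μ.1 (a g r) := fun _ _ _ => rfl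
  let Φ := LinearMap.toMatrixAlgEquiv (Module.finBasis ℤ Q.dualAnnihilator)
  refine ⟨_, Φ.toRingEquiv.toMonoidHom.comp σ, fun g hg μ hμ r => ?_, fun l hl => ?_⟩
  · have h2 : σ g = 1 := Φ.injective (by rw [map_one]; exact hg)
    rw [← hσ g ⟨μ, (Submodule.mem_dualAnnihilator _).2 hμ⟩ r, h2]
    rfl
  · have h2 : ∀ (l : List G) (μ : Q.dualAnnihilator) (r : R),
        ((l.map fun g => σ g - 1).prod μ).1 r = μ.1 (l.foldl (fun r g => a g r - r) r) := by
      intro l μ
      induction l with
      | nil => exact fun _ => rfl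
      | cons g l ih =>
        intro r
        rw [List.map_cons, List.prod_cons, List.foldl_cons, ← ih, map_sub, ← hσ]
        rfl
    have h3 : (l.map fun g => σ g - 1).prod = 0 := LinearMap.ext fun μ =>
      Subtype.ext (LinearMap.ext fun r =>
        (h2 l μ r).trans ((Submodule.mem_dualAnnihilator _).1 μ.2 _ (hl r)))
    have h4 := congrArg Φ h3
    rw [map_list_prod, List.map_map, map_zero] at h4
    rw [← h4]
    congr 2
    funext g
    simp

end Vale.Agent.P188.MB
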