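import Vale.Agent.P188.MBBlk

/-! Isometry, discreteness and properness in the product algebra. -/

namespace Vale.Agent.P188.MB

open scoped Matrix.Norms.Operator

theorem entry_le {d : ℕ} (y : Mx d) (i j : Fin d) : ‖y i j‖ ≤ ‖y‖ := by
  have h : ‖y i j‖₊ ≤ ‖y‖₊ := by
    rw [Matrix.linfty_opNNNorm_def]
    refine le_trans ?_ (Finset.le_sup (f := fun i => ∑ j, ‖y i j‖₊) (Finset.mem_univ i))
    exact Finset.single_le_sum (f := fun j => ‖y i j‖₊) (fun _ _ => zero_le) (Finset.mem_univ j)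
  exact h

theorem norm_cj {d : ℕ} {t : Fin d → ℂˣ} (ht : ∀ i, ‖(t i : ℂ)‖ = 1) (y : Mx d) :
    ‖cj t y‖ = ‖y‖ := by
  have h : ∀ i j, ‖cj t y i j‖₊ = ‖y i j‖₊ := fun i j => by
    ext
    rw [coe_nnnorm, coe_nnnorm, cj_apply, norm_mul, norm_div, ht, ht, div_one, one_mul]
  rw [Matrix.linfty_opNorm_def, Matrix.linfty_opNorm_def]
  simp only [h]

namespace Tri

variable {G : Type*} [Group G] {d : ℕ} (T : Tri G d)

theorem mbConP_norm (g : G) (i : Fin d) : ‖(T.θ g i : ℂ)‖ = Real.exp (T.lv g i) :=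
  (Real.exp_log (norm_pos_iff.2 (T.θ g i).ne_zero)).symm

theorem fA_iso (g : G) (y : Mx d × Tz d) :
    ‖cA (ee (-lA d (T.fA g))) (cA (T.θ g) y)‖ = ‖y‖ := by
  rw [cA_apply, cA_apply, Prod.norm_def, Prod.norm_def]
  simp only
  rw [← cj_mul, norm_cj]
  intro i
  have h : (-lA d (T.fA g)) i = -T.lv g i := rfl
  rw [Pi.mul_apply, Units.val_mul, norm_mul, ee_coe, h, T.mbConP_norm, Complex.norm_real,
    Real.norm_of_nonneg (Real.exp_pos _).le, ← Real.exp_add, neg_add_cancel, Real.exp_zero]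

theorem mbConP_int {g : G} (hg : g ∈ commutator G) :
    (((d + 2).factorial : ℕ) : ℝ) • T.lu g ∈ T.Λ := by
  rw [lu, T.u_comm hg, lg, Finset.smul_sum]
  refine T.Λ.sum_mem fun k hk => ?_
  obtain ⟨c, hc⟩ : k + 1 ∣ (d + 2).factorial :=
    Nat.dvd_factorial (Nat.succ_pos k) (Finset.mem_range.1 hk)
  have h1 : (((d + 2).factorial : ℕ) : ℝ) * ((-1) ^ k / (k + 1)) = (((-1) ^ k * c : ℤ) : ℝ) := by
    rw [hc]
    push_cast
    field_simp
  rw [smul_smul, h1, Int.cast_smul_eq_zsmul]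
  exact zsmul_mem (pow_mem (sub_mem (T.mem g) (one_mem _)) _) _

theorem fA_disc (R : ℝ) :
    {y | y ∈ AddSubgroup.closure (T.fA '' commutator G) ∧ ‖y‖ ≤ R}.Finite := by
  have hc : (0 : ℝ) < ((d + 2).factorial : ℕ) := by exact_mod_cast Nat.factorial_pos _
  have h1 : ∀ y ∈ AddSubgroup.closure (T.fA '' commutator G),
      y.2 = 0 ∧ (((d + 2).factorial : ℕ) : ℝ) • y.1 ∈ T.Λ := by
    intro y hy
    induction hy using AddSubgroup.closure_induction with
    | mem x hx =>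
      obtain ⟨g, hg, rfl⟩ := hx
      refine ⟨?_, T.mbConP_int hg⟩
      rw [fA, T.lv_comm hg]
      exact TrivSqZeroExt.inr_zero ℝ
    | zero => exact ⟨rfl, by simp⟩
    | add x y _ _ hx hy =>
      refine ⟨by rw [Prod.snd_add, hx.1, hy.1, add_zero], ?_⟩
      rw [Prod.fst_add, smul_add]
      exact add_mem hx.2 hy.2
    | neg x _ hx =>
      refine ⟨by rw [Prod.snd_neg, hx.1, neg_zero], ?_⟩
      rw [Prod.fst_neg, smul_neg]
      exact neg_mem hx.2
  refine Set.Finite.of_finite_image (f := fun y => (((d + 2).factorial : ℕ) : ℝ) • y.1)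
    ((T.fin ((((d + 2).factorial : ℕ) : ℝ) * R)).subset ?_) ?_
  · rintro _ ⟨y, hy, rfl⟩
    refine ⟨(h1 y hy.1).2, fun i j => (entry_le _ i j).trans ?_⟩
    rw [norm_smul, Real.norm_of_nonneg hc.le]
    exact mul_le_mul_of_nonneg_left ((norm_fst_le y).trans hy.2) hc.le
  · intro x hx y hy h
    refine Prod.ext (smul_right_injective _ hc.ne' h) ?_
    rw [(h1 x hx.1).1, (h1 y hy.1).1]

theorem fA_prop (R : ℝ) : {g | ‖T.fA g‖ ≤ R}.Finite := by
  obtain ⟨C, hC⟩ := ex_bdd (A := Mx d) (d + 2) R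
  refine ((T.fin (C * Real.exp R)).preimage T.inj.injOn).subset fun g hg => ⟨T.mem g, fun i j => ?_⟩
  have h1 : ‖T.lu g‖ ≤ R := (norm_fst_le (T.fA g)).trans hg
  have h2 : ‖T.lv g‖ ≤ R := by
    have h := (norm_snd_le (T.fA g)).trans hg
    rwa [fA, TrivSqZeroExt.norm_inr] at h
  have h3 := hC _ h1
  rw [T.ex_lu] at h3
  have h4 : T.lv g j ≤ R := (le_abs_self _).trans ((norm_le_pi_norm (T.lv g) j).trans h2)
  rw [T.ρ_eq, dg_def, Matrix.mul_diagonal, norm_mul, T.mbConP_norm]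
  exact mul_le_mul ((entry_le _ i j).trans h3) (Real.exp_le_exp.2 h4) (Real.exp_pos _).le
    ((norm_nonneg _).trans h3)

end Tri

end Vale.Agent.P188.MB
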