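import Vale.Agent.P188.MBConH
import Vale.Agent.P188.MBConP

/-! The linear data of a triangular representation. -/

namespace Vale.Agent.P188.MB

open scoped Matrix.Norms.Operator

theorem MBCon_inr {d : ℕ} (a : Fin d → ℝ) : (TrivSqZeroExt.inr a : Tz d) ∈ JT d 1 :=
  ⟨fun _ => rfl, fun h => absurd h (by omega)⟩

namespace Tri

variable {G : Type*} [Group G] {d : ℕ} (T : Tri G d)

theorem fA_mem (g : G) : T.fA g ∈ (FA d).J 1 := ⟨T.lu_mem g, MBCon_inr _⟩

theorem fA_mul (g h : G) : T.fA (g * h) = bch (d + 2) (T.fA g) (cA (T.θ g) (T.fA h)) := by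
  refine Prod.ext ?_ ?_
  · exact (T.lu_mul g h).trans
      (map_bch (AlgHom.fst ℝ (Mx d) (Tz d)) (d + 2) (T.fA g) (cA (T.θ g) (T.fA h))).symm
  · refine Eq.trans ?_
      (map_bch (AlgHom.snd ℝ (Mx d) (Tz d)) (d + 2) (T.fA g) (cA (T.θ g) (T.fA h))).symm
    refine Eq.trans ?_ (bch_comm (FT d) (MBCon_inr (T.lv g)) (MBCon_inr (T.lv h)) ?_).symm
    · change TrivSqZeroExt.inr (T.lv (g * h)) = _
      rw [T.lv_mul, TrivSqZeroExt.inr_add]
    · rw [Commute, SemiconjBy, TrivSqZeroExt.inr_mul_inr, TrivSqZeroExt.inr_mul_inr]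

theorem exists_lin (hG : Polycyclic G) {g₀ : G} (hr : T.Reg g₀)
    (hb : cj (T.θ g₀) (T.ρ g₀) = T.ρ g₀) : Nonempty (Lin G) := by
  obtain ⟨Y, h1, h2, h3, h4⟩ := T.exists_sup hG hr hb
  refine ⟨{
    A := Mx d × Tz d
    F := FA d
    f := T.fA
    α := fun g => cA (T.θ g)
    N := commutator G
    k := d
    l := lA d
    D := fun a => cA (ee a)
    normal := inferInstance
    poly := hG.of_injective (commutator G).subtype (commutator G).subtype_injective
    mem := T.fA_mem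
    mul := T.fA_mul
    α_mul := fun g h y => by rw [cA_apply, cA_apply, cA_apply, map_mul, cj_mul]
    α_N := fun g hg y => by rw [cA_apply, T.θ_comm hg, cj_one]
    α_sub := fun g h => T.mem_nA.2 ⟨?_, sub_self _⟩
    br := fun g h => T.mem_nA.2 ⟨?_, ?_⟩
    l_N := fun g hg => T.lv_comm hg
    hom := T.fA_hom hr hb h1 h2
    iso := T.fA_iso
    disc := T.fA_disc
    prop := T.fA_prop }⟩
  · have := T.n.sub_mem (T.n_cj hr hb g _ (h1 h)) (h1 h)
    rwa [map_sub, h2, sub_sub_sub_cancel_right] at this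
  · have := T.n.add_mem (T.n.add_mem (T.n_lie hG _ (h1 g) _ (h1 h)) (h4 g h))
      (T.n.sub_mem (h3 g _ (h1 h)) (h3 h _ (h1 g)))
    have e : (T.fA g * T.fA h - T.fA h * T.fA g).1 =
        (T.lu g - Y g) * (T.lu h - Y h) - (T.lu h - Y h) * (T.lu g - Y g) +
          (Y g * Y h - Y h * Y g) + (Y g * (T.lu h - Y h) - (T.lu h - Y h) * Y g -
            (Y h * (T.lu g - Y g) - (T.lu g - Y g) * Y h)) := by
      change T.lu g * T.lu h - T.lu h * T.lu g = _
      noncomm_ring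
    rwa [e]
  · change TrivSqZeroExt.inr (T.lv g) * TrivSqZeroExt.inr (T.lv h) -
      TrivSqZeroExt.inr (T.lv h) * TrivSqZeroExt.inr (T.lv g) = (0 : Tz d)
    rw [TrivSqZeroExt.inr_mul_inr, TrivSqZeroExt.inr_mul_inr, sub_self]

end Tri

end Vale.Agent.P188.MB
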