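import Vale.Agent.P188.MBCar

/-! Weight vectors in the product algebra. -/

namespace Vale.Agent.P188.MB

namespace Tri

variable {G : Type*} [Group G] {d : ℕ} (T : Tri G d)

theorem mem_nA {y : Mx d × Tz d} :
    y ∈ Submodule.span ℝ (T.fA '' commutator G) ↔ y.1 ∈ T.n ∧ y.2 = 0 := by
  have e : T.fA '' commutator G =
      LinearMap.inl ℝ (Mx d) (Tz d) '' (T.lu '' commutator G) := by
    rw [Set.image_image]
    refine Set.image_congr fun g hg => ?_
    rw [fA, T.lv_comm hg, TrivSqZeroExt.inr_zero, LinearMap.inl_apply]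
  rw [e, ← Submodule.map_span, Submodule.map_inl, Submodule.mem_prod, Submodule.mem_bot]
  rfl

theorem MBConH_rel (φ : (Fin d → ℝ) →ₗ[ℝ] ℝ) (h : ∀ g, φ (T.lv g) = 0) {x : Mx d × Tz d}
    (hx : x ∈ Submodule.span ℝ (Set.range T.fA)) : φ (lA d x) = 0 := by
  have : Submodule.span ℝ (Set.range T.fA) ≤ LinearMap.ker (φ ∘ₗ lA d) := by
    refine Submodule.span_le.2 ?_
    rintro _ ⟨g, rfl⟩
    exact h g
  exact this hx

/-- the difference of two coordinates -/
def MBConH_df (i j : Fin d) : (Fin d → ℝ) →ₗ[ℝ] ℝ where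
  toFun a := a i - a j
  map_add' a b := by simp only [Pi.add_apply]; ring
  map_smul' c a := by simp only [Pi.smul_apply, smul_eq_mul, RingHom.id_apply]; ring

theorem MBConH_log (g : G) (i j : Fin d) : Real.log ‖T.q g i j‖ = T.lv g i - T.lv g j := by
  rw [q, norm_div, Real.log_div (norm_ne_zero_iff.2 (Units.ne_zero _))
    (norm_ne_zero_iff.2 (Units.ne_zero _))]
  rfl

theorem MBConH_mem {y : Mx d} (hy : y ∈ T.n) :
    ((y, 0) : Mx d × Tz d) ∈ Submodule.span ℝ (Set.range T.fA) :=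
  Submodule.span_mono (Set.image_subset_range _ _) (T.mem_nA.2 ⟨hy, rfl⟩)

/-- the class of a pair of indices -/
noncomputable def MBConH_cls (p : Fin d × Fin d) : G → ℝ := fun g => T.lv g p.1 - T.lv g p.2

open Classical in
/-- the indicator of a class -/
noncomputable def MBConH_ind (c : G → ℝ) (i j : Fin d) : ℂ :=
  if T.MBConH_cls (i, j) = c then 1 else 0

theorem MBConH_had {g₀ : G} (hr : T.Reg g₀) (hb : cj (T.θ g₀) (T.ρ g₀) = T.ρ g₀) (c : G → ℝ)
    {y : Mx d} (hy : y ∈ T.n) : had (T.MBConH_ind c) y ∈ T.n := by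
  refine T.n_had hr hb _ (fun i j k l h => ?_) (fun i j k l h => ?_) y hy
  · have e : T.MBConH_cls (i, j) = T.MBConH_cls (k, l) := funext fun g => by
      simp only [MBConH_cls, ← MBConH_log, h]
    rw [MBConH_ind, MBConH_ind, e]
  · have e : T.MBConH_cls (i, j) = T.MBConH_cls (k, l) := funext fun g => by
      simp only [MBConH_cls, ← MBConH_log, h, RCLike.norm_conj]
    rw [MBConH_ind, MBConH_ind, e]
    split_ifs <;> simp

open Classical in
theorem MBConH_sum (y : Mx d) :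
    y = ∑ c ∈ Finset.univ.image T.MBConH_cls, had (T.MBConH_ind c) y := by
  ext i j
  simp only [Matrix.sum_apply, had_apply, MBConH_ind, ite_mul, one_mul, zero_mul]
  rw [Finset.sum_ite_eq, if_pos (Finset.mem_image_of_mem _ (Finset.mem_univ _))]

theorem MBConH_wt (p : Fin d × Fin d) (y : Mx d) {x : Mx d × Tz d}
    (hx : x ∈ Submodule.span ℝ (Set.range T.fA)) :
    cj (ee (lA d x)) (had (T.MBConH_ind (T.MBConH_cls p)) y) =
      Real.exp (lA d x p.1 - lA d x p.2) • had (T.MBConH_ind (T.MBConH_cls p)) y := by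
  ext i j
  rw [cj_apply, Matrix.smul_apply, had_apply, MBConH_ind]
  split_ifs with h
  · have h3 := T.MBConH_rel (MBConH_df i j - MBConH_df p.1 p.2)
      (fun g => sub_eq_zero.2 (congrFun h g)) hx
    have h4 : lA d x i - lA d x j = lA d x p.1 - lA d x p.2 := sub_eq_zero.1 h3
    rw [← h4, Real.exp_sub, ee_coe, ee_coe, Complex.real_smul, Complex.ofReal_div]
  · simp

theorem fA_hom {g₀ : G} (hr : T.Reg g₀) (hb : cj (T.θ g₀) (T.ρ g₀) = T.ρ g₀) {Y : G → Mx d}
    (h1 : ∀ g, T.lu g - Y g ∈ T.n) (h2 : ∀ g h, cj (T.θ h) (Y g) = Y g) :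
    Submodule.span ℝ (Set.range T.fA) ≤
      Submodule.span ℝ {y | y ∈ Submodule.span ℝ (Set.range T.fA) ∧
        ∃ w : (Fin d → ℝ) →ₗ[ℝ] ℝ, (∀ x ∈ Submodule.span ℝ (Set.range T.fA),
          cA (ee (lA d x)) y = Real.exp (w (lA d x)) • y) ∧ (w = 0 ∨ lA d y = 0)} := by
  classical
  refine Submodule.span_le.2 ?_
  rintro _ ⟨g, rfl⟩
  have e1 : T.fA g = (Y g, TrivSqZeroExt.inr (T.lv g)) + (T.lu g - Y g, 0) := by
    rw [Prod.mk_add_mk, add_sub_cancel, add_zero, fA]
  have e2 : ((T.lu g - Y g, 0) : Mx d × Tz d) = ∑ c ∈ Finset.univ.image T.MBConH_cls,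
      ((had (T.MBConH_ind c) (T.lu g - Y g), 0) : Mx d × Tz d) := by
    refine Prod.ext ?_ ?_
    · rw [Prod.fst_sum]
      exact T.MBConH_sum _
    · rw [Prod.snd_sum, Finset.sum_const_zero]
  rw [SetLike.mem_coe, e1]
  refine Submodule.add_mem _ (Submodule.subset_span ⟨?_, 0, fun x hx => ?_, Or.inl rfl⟩) ?_
  · rw [← sub_eq_iff_eq_add.2 e1]
    exact Submodule.sub_mem _ (Submodule.subset_span ⟨g, rfl⟩) (T.MBConH_mem (h1 g))
  · rw [LinearMap.zero_apply, Real.exp_zero, one_smul, cA_apply]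
    refine Prod.ext (cj_eq_iff.2 fun i j hij => ?_) rfl
    by_contra hY
    refine hij ?_
    have h3 : ∀ h, T.θ h i = T.θ h j := fun h => by
      by_contra hc
      exact hY (cj_eq_iff.1 (h2 g h) i j hc)
    have h4 := T.MBConH_rel (MBConH_df i j)
      (fun h => sub_eq_zero.2 (by rw [lv, lv, h3 h])) hx
    have h5 : lA d x i = lA d x j := sub_eq_zero.1 h4
    exact Units.ext (by rw [ee_coe, ee_coe, h5])
  · rw [e2]
    refine Submodule.sum_mem _ fun c hc => ?_
    obtain ⟨p, -, rfl⟩ := Finset.mem_image.1 hc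
    refine Submodule.subset_span ⟨T.MBConH_mem (T.MBConH_had hr hb _ (h1 g)),
      MBConH_df p.1 p.2, fun x hx => ?_, Or.inr rfl⟩
    rw [cA_apply, Prod.smul_mk, smul_zero]
    exact Prod.ext (T.MBConH_wt p _ hx) rfl

end Tri

end Vale.Agent.P188.MB
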