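import Vale.Agent.P188.MBCof
import Vale.Agent.P188.MBSer

/-! The construction of Swan. -/

namespace Vale.Agent.P188.MB

variable {G : Type*} [Group G] {φ : G →* Multiplicative ℤ} {x : G}

theorem MBCore_ext {H : Type*} [Group H] {M : Type*} [AddCommGroup M] {f g : ZG H →ₗ[ℤ] M}
    (h : ∀ y : H, f (og y) = g (og y)) (a : ZG H) : f a = g a := by
  induction a using MonoidAlgebra.induction_on with
  | of y => exact h y
  | add a b ha hb => rw [map_add, map_add, ha, hb]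
  | smul c a ha => rw [map_smul, map_smul, ha]

theorem sg_one (a : ZG φ.ker) : sg φ 1 a = a := by
  refine MBCore_ext (f := (sg φ 1).toLinearMap) (g := LinearMap.id) (fun y => ?_) a
  show sg φ 1 (og y) = og y
  rw [sg_og]
  refine congrArg og (Subtype.ext ?_)
  rw [cK_coe]; group

theorem sg_mul (g h : G) (a : ZG φ.ker) : sg φ (g * h) a = sg φ h (sg φ g a) := by
  refine MBCore_ext (f := (sg φ (g * h)).toLinearMap)
    (g := (sg φ h).toLinearMap ∘ₗ (sg φ g).toLinearMap) (fun y => ?_) a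
  show sg φ (g * h) (og y) = sg φ h (sg φ g (og y))
  rw [sg_og, sg_og, sg_og]
  refine congrArg og (Subtype.ext ?_)
  rw [cK_coe, cK_coe, cK_coe]; group

theorem MBCore_kp (hx : φ x = Multiplicative.ofAdd 1) (g : G) :
    (kp hx g : G) = (x ^ (φ g).toAdd)⁻¹ * g := rfl

theorem act_one (hx : φ x = Multiplicative.ofAdd 1) (a : ZG φ.ker) : act hx 1 a = a := by
  have h1 : kp hx 1 = 1 := Subtype.ext (by rw [MBCore_kp]; simp)
  rw [act_apply, h1, map_one φ, map_one og, toAdd_one, zpow_zero, sg_one, mul_one]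

theorem act_mul (hx : φ x = Multiplicative.ofAdd 1) (g h : G) (a : ZG φ.ker) :
    act hx (g * h) a = act hx h (act hx g a) := by
  have h1 : kp hx (g * h) = cK φ (x ^ (φ h).toAdd) (kp hx g) * kp hx h := Subtype.ext (by
    rw [Subgroup.coe_mul, cK_coe, MBCore_kp, MBCore_kp, MBCore_kp, map_mul, toAdd_mul, zpow_add]
    group)
  rw [act_apply, act_apply, act_apply, h1, map_mul φ, toAdd_mul, zpow_add, sg_mul, map_mul og,
    map_mul (sg φ _), sg_og, mul_assoc]

theorem act_ker (hx : φ x = Multiplicative.ofAdd 1) (n : φ.ker) (a : ZG φ.ker) :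
    act hx (n : G) a = a * og n := by
  have h0 : φ n = 1 := n.2
  have h1 : kp hx (n : G) = n := Subtype.ext (by rw [MBCore_kp, h0]; simp)
  rw [act_apply, h1, h0, toAdd_one, zpow_zero, sg_one]

theorem sg_pow_mem {K : Submodule ℤ (ZG φ.ker)} (hσ : ∀ g, ∀ a ∈ K, sg φ g a ∈ K) (s : ℕ) (g : G) :
    ∀ a ∈ K ^ s, sg φ g a ∈ K ^ s := by
  induction s with
  | zero =>
    intro a ha
    rw [pow_zero] at ha ⊢
    obtain ⟨c, rfl⟩ := Submodule.mem_one.1 ha
    rw [AlgHom.commutes]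
    exact ha
  | succ s ih =>
    intro a ha
    rw [pow_succ] at ha ⊢
    refine Submodule.mul_induction_on ha (fun u hu v hv => ?_) fun u v hu hv => ?_
    · rw [map_mul]
      exact Submodule.mul_mem_mul (ih u hu) (hσ g v hv)
    · rw [map_add]
      exact Submodule.add_mem _ hu hv

theorem swan_core (hx : φ x = Multiplicative.ofAdd 1) [Group.FG φ.ker]
    {K : Submodule ℤ (ZG φ.ker)} (hK : Two K) (cK : Cof K) (hσ : ∀ g, ∀ a ∈ K, sg φ g a ∈ K)
    {d s : ℕ} (ψ : ZG φ.ker →ₐ[ℤ] Matrix (Fin d) (Fin d) ℤ) (hψ : ∀ y, ψ (og y) = 1 → y = 1)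
    (hs : ∀ a ∈ K ^ (s + 1), ψ a = 0) (N : Subgroup G) (t : ℕ)
    (hN : ∀ l : List G, (∀ n ∈ l, n ∈ N) → t ≤ l.length →
      ∀ a, l.foldl (fun a g => act hx g a - a) a ∈ K ^ (s + 1)) : IRep G N := by
  obtain ⟨e, ρ, h1, h2⟩ := exists_dual (act hx) (act_one hx) (act_mul hx) (K ^ (s + 1))
    (fun g r hr => by
      rw [act_apply]
      exact (hK.pow s _ _ (sg_pow_mem hσ _ _ r hr)).2) (Cof.pow hK cK s)
  refine IRep.of_block ρ φ (fun g hg hφ => ?_) t fun l hl ht => h2 l (hN l hl ht)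
  have h3 : ψ (og (⟨g, hφ⟩ : φ.ker)) = 1 := by
    ext i j
    have h4 := h1 g hg (Matrix.entryLinearMap ℤ ℤ i j ∘ₗ ψ.toLinearMap)
      (fun r hr => by simp [hs r hr]) 1
    rw [act_ker hx ⟨g, hφ⟩, one_mul] at h4
    simpa using h4
  exact congrArg Subtype.val (hψ _ h3)

end Vale.Agent.P188.MB
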