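import Vale.Agent.P188.Poly
import Vale.Agent.P188.BchL

/-! Working definitions for the linear model of a polycyclic group. -/

namespace Vale.Agent.P188.MB

open scoped Matrix.Norms.Operator

section Alg
variable {G : Type*} [Group G]

/-- the commutator with a fixed element -/
def cm (x y : G) : G := x * y * x⁻¹ * y⁻¹

/-- iterated commutators with `x` vanish -/
def Engel (x : G) : Prop := ∃ r : ℕ, ∀ y : G, (cm x)^[r] y = 1

/-- a faithful integral representation in which `N` acts unipotently -/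
def IRep (G : Type*) [Group G] (N : Subgroup G) : Prop :=
  ∃ (d s : ℕ) (ρ : G →* Matrix (Fin d) (Fin d) ℤ), Function.Injective ρ ∧
    ∀ l : List G, (∀ n ∈ l, n ∈ N) → s ≤ l.length → (l.map fun n => ρ n - 1).prod = 0

/-- the quotient is a finitely generated abelian group -/
def Cof {R : Type*} [AddCommGroup R] (K : Submodule ℤ R) : Prop :=
  ∃ E : Submodule ℤ R, E.FG ∧ E ⊔ K = ⊤

/-- two-sided ideals as additive subgroups -/
def Two {R : Type*} [Ring R] (K : Submodule ℤ R) : Prop :=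
  ∀ a : R, ∀ k ∈ K, a * k ∈ K ∧ k * a ∈ K

/-- the integral group ring -/
abbrev ZG (H : Type*) [Group H] : Type _ := MonoidAlgebra ℤ H

/-- group elements in the group ring -/
noncomputable def og {H : Type*} [Group H] : H →* ZG H := MonoidAlgebra.of ℤ H

/-- the ideal generated by the augmentation ideal of `N` -/
noncomputable def aug {H : Type*} [Group H] (N : Subgroup H) : Submodule ℤ (ZG H) :=
  Submodule.span ℤ {a | ∃ y : H, ∃ n ∈ N, a = og y * (og n - 1)}

variable (φ : G →* Multiplicative ℤ)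

/-- conjugation `y ↦ g⁻¹ y g` on the kernel -/
def cK (g : G) : φ.ker →* φ.ker := (MulAut.conjNormal g⁻¹ : φ.ker ≃* φ.ker).toMonoidHom

theorem cK_coe (g : G) (y : φ.ker) : (cK φ g y : G) = g⁻¹ * y * g := by simp [cK]

/-- conjugation on the group ring of the kernel -/
noncomputable def sg (g : G) : ZG φ.ker →ₐ[ℤ] ZG φ.ker :=
  MonoidAlgebra.lift ℤ (ZG φ.ker) φ.ker (og.comp (cK φ g))

theorem sg_og (g : G) (y : φ.ker) : sg φ g (og y) = og (cK φ g y) := by
  simp [sg, og]

variable {φ} {x : G} (hx : φ x = Multiplicative.ofAdd 1)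

/-- the component in the kernel -/
def kp (g : G) : φ.ker := ⟨(x ^ (φ g).toAdd)⁻¹ * g, by
  rw [MonoidHom.mem_ker, map_mul, map_inv, map_zpow, hx, ← ofAdd_zsmul]
  simp⟩

/-- the right action of the semidirect product on the group ring of the kernel -/
noncomputable def act (g : G) : ZG φ.ker →ₗ[ℤ] ZG φ.ker :=
  LinearMap.mulRight ℤ (og (kp hx g)) ∘ₗ (sg φ (x ^ (φ g).toAdd)).toLinearMap

theorem act_apply (g : G) (a : ZG φ.ker) :
    act hx g a = sg φ (x ^ (φ g).toAdd) a * og (kp hx g) := rfl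

end Alg

section Adj
variable {A : Type*} [Ring A] [Algebra ℝ A]

/-- conjugation by an invertible element -/
def adj (a a' : A) (h : a' * a = 1) (h' : a * a' = 1) : A →ₐ[ℝ] A where
  toFun y := a * y * a'
  map_one' := by rw [mul_one, h']
  map_mul' y z := by
    rw [show a * y * a' * (a * z * a') = a * y * (a' * a) * z * a' by simp only [mul_assoc], h]
    simp only [mul_assoc, one_mul]
  map_zero' := by simp
  map_add' y z := by rw [mul_add, add_mul]
  commutes' r := by rw [← Algebra.commutes, mul_assoc, h', mul_one]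

theorem adj_apply (a a' : A) (h : a' * a = 1) (h' : a * a' = 1) (y : A) :
    adj a a' h h' y = a * y * a' := rfl

/-- closed under the bracket -/
def IsLie (L : Submodule ℝ A) : Prop := ∀ u ∈ L, ∀ v ∈ L, u * v - v * u ∈ L

end Adj

/-- every element of `L` is at bounded distance from the orbit of `H` -/
def Cob {G A : Type*} [Group G] [NormedRing A] [NormedAlgebra ℝ A] (F : Filt A)
    (L : Submodule ℝ A) (H : Subgroup G) (f : G → A) (α : G → A →ₐ[ℝ] A) : Prop :=
  ∃ R : ℝ, ∀ y ∈ L, ∃ g ∈ H, ∃ k ∈ L, ‖k‖ ≤ R ∧ y = bch F.d (f g) (α g k)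

/-- complex matrices -/
abbrev Mx (d : ℕ) : Type := Matrix (Fin d) (Fin d) ℂ

/-- matrices that vanish below the `k`-th diagonal -/
def JJ (d k : ℕ) : Submodule ℝ (Mx d) where
  carrier := {y | ∀ i j : Fin d, (j : ℕ) < i + k → y i j = 0}
  add_mem' := fun {a b} ha hb i j h => by simp [ha i j h, hb i j h]
  zero_mem' := fun _ _ _ => rfl
  smul_mem' := fun c a ha i j h => by simp [ha i j h]

theorem mem_JJ {d k : ℕ} {y : Mx d} :
    y ∈ JJ d k ↔ ∀ i j : Fin d, (j : ℕ) < i + k → y i j = 0 := Iff.rfl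

theorem JJ_mul {d j k : ℕ} {x y : Mx d} (hx : x ∈ JJ d j) (hy : y ∈ JJ d k) :
    x * y ∈ JJ d (j + k) := fun a b h => by
  rw [Matrix.mul_apply]
  refine Finset.sum_eq_zero fun c _ => ?_
  by_cases hc : (c : ℕ) < a + j
  · rw [hx a c hc, zero_mul]
  · rw [hy c b (by omega), mul_zero]

theorem JJ_mono {d j k : ℕ} (h : j ≤ k) : JJ d k ≤ JJ d j := fun _ hy a b hab =>
  hy a b (by omega)

theorem JJ_bot {d k : ℕ} (h : d ≤ k) : JJ d k = ⊥ := by
  refine eq_bot_iff.2 fun y hy => ?_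
  ext a b
  exact hy a b (by have := b.2; omega)

/-- the filtration of the matrix algebra -/
def FB (d : ℕ) : Filt (Mx d) where
  d := d + 2
  J := JJ d
  anti _ := JJ_mono (Nat.le_succ _)
  mul _ _ _ _ := JJ_mul
  bot := JJ_bot (by omega)

/-- invertible diagonal matrices -/
def dg {d : ℕ} : (Fin d → ℂˣ) →* Mx d where
  toFun t := Matrix.diagonal fun i => (t i : ℂ)
  map_one' := by simp
  map_mul' s t := by simp [Matrix.diagonal_mul_diagonal]

theorem dg_def {d : ℕ} (t : Fin d → ℂˣ) : dg t = Matrix.diagonal fun i => (t i : ℂ) := rfl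

theorem dg_mem {d : ℕ} (t : Fin d → ℂˣ) : dg t ∈ JJ d 0 := fun i j h => by
  rw [dg_def, Matrix.diagonal_apply_ne]
  intro e
  subst e
  omega

/-- conjugation by a diagonal matrix -/
noncomputable def cj {d : ℕ} (t : Fin d → ℂˣ) : Mx d →ₐ[ℝ] Mx d :=
  adj (dg t) (dg t⁻¹) (by rw [← map_mul, inv_mul_cancel, map_one])
    (by rw [← map_mul, mul_inv_cancel, map_one])

theorem cj_def {d : ℕ} (t : Fin d → ℂˣ) (y : Mx d) : cj t y = dg t * y * dg t⁻¹ := rfl

theorem cj_apply {d : ℕ} (t : Fin d → ℂˣ) (y : Mx d) (i j : Fin d) :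
    cj t y i j = (t i : ℂ) / t j * y i j := by
  rw [cj_def, dg_def, dg_def, Matrix.mul_diagonal, Matrix.diagonal_mul]
  simp only [Pi.inv_apply, Units.val_inv_eq_inv_val]
  ring

theorem cj_mul {d : ℕ} (s t : Fin d → ℂˣ) (y : Mx d) : cj (s * t) y = cj s (cj t y) := by
  ext i j
  simp only [cj_apply, Pi.mul_apply, Units.val_mul]
  field_simp

theorem cj_one {d : ℕ} (y : Mx d) : cj 1 y = y := by
  ext i j
  simp [cj_apply]

theorem cj_mem {d k : ℕ} (t : Fin d → ℂˣ) {y : Mx d} (hy : y ∈ JJ d k) : cj t y ∈ JJ d k :=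
  fun i j h => by rw [cj_apply, hy i j h, mul_zero]

/-- entrywise multiplication -/
def had {d : ℕ} (h : Fin d → Fin d → ℂ) (y : Mx d) : Mx d := Matrix.of fun i j => h i j * y i j

theorem had_apply {d : ℕ} (h : Fin d → Fin d → ℂ) (y : Mx d) (i j : Fin d) :
    had h y i j = h i j * y i j := rfl

/-- positive diagonal entries -/
noncomputable def ee {d : ℕ} (a : Fin d → ℝ) : Fin d → ℂˣ :=
  fun i => Units.mk0 (Real.exp (a i) : ℂ) (by exact_mod_cast (Real.exp_pos _).ne')

theorem ee_coe {d : ℕ} (a : Fin d → ℝ) (i : Fin d) : (ee a i : ℂ) = (Real.exp (a i) : ℂ) := rfl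

/-- a faithful triangular representation with a discrete ring of values -/
structure Tri (G : Type*) [Group G] (d : ℕ) where
  /-- the representation -/
  ρ : G →* Mx d
  /-- the diagonal characters -/
  θ : G →* (Fin d → ℂˣ)
  tri : ∀ g, ρ g - dg (θ g) ∈ JJ d 1
  inj : Function.Injective ρ
  /-- the ring of values -/
  Λ : Subring (Mx d)
  mem : ∀ g, ρ g ∈ Λ
  fin : ∀ R : ℝ, {y | y ∈ Λ ∧ ∀ i j, ‖y i j‖ ≤ R}.Finite

namespace Tri

variable {G : Type*} [Group G] {d : ℕ} (T : Tri G d)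

/-- ratios of the diagonal characters -/
noncomputable def q (g : G) (i j : Fin d) : ℂ := (T.θ g i : ℂ) / T.θ g j

/-- regular elements -/
def Reg (g₀ : G) : Prop :=
  (∀ a b c e, T.q g₀ a b = T.q g₀ c e → ∀ g, T.q g a b = T.q g c e) ∧
    ∀ a b c e, T.q g₀ a b = starRingEnd ℂ (T.q g₀ c e) →
      ∀ g, T.q g a b = starRingEnd ℂ (T.q g c e)

/-- the unipotent part -/
noncomputable def u (g : G) : Mx d := T.ρ g * dg (T.θ g)⁻¹

/-- the logarithm of the unipotent part -/
noncomputable def lu (g : G) : Mx d := lg (d + 2) (T.u g)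

/-- the raw heights -/
noncomputable def lv (g : G) : Fin d → ℝ := fun i => Real.log ‖(T.θ g i : ℂ)‖

/-- the Lie algebra of the commutator subgroup -/
noncomputable def n : Submodule ℝ (Mx d) := Submodule.span ℝ (T.lu '' commutator G)

end Tri

/-- the square zero extension that records the heights -/
abbrev Tz (d : ℕ) : Type := TrivSqZeroExt ℝ (Fin d → ℝ)

instance (d : ℕ) : FiniteDimensional ℝ (Tz d) :=
  inferInstanceAs (FiniteDimensional ℝ (ℝ × (Fin d → ℝ)))

/-- the steps of the filtration of the square zero extension -/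
def JT (d k : ℕ) : Submodule ℝ (Tz d) where
  carrier := {x | (1 ≤ k → x.fst = 0) ∧ (2 ≤ k → x.snd = 0)}
  add_mem' := fun {a b} ha hb =>
    ⟨fun h => by simp [ha.1 h, hb.1 h], fun h => by simp [ha.2 h, hb.2 h]⟩
  zero_mem' := ⟨fun _ => rfl, fun _ => rfl⟩
  smul_mem' := fun c a ha => ⟨fun h => by simp [ha.1 h], fun h => by simp [ha.2 h]⟩

theorem mem_JT {d k : ℕ} {x : Tz d} :
    x ∈ JT d k ↔ (1 ≤ k → x.fst = 0) ∧ (2 ≤ k → x.snd = 0) := Iff.rfl

/-- the filtration of the square zero extension -/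
def FT (d : ℕ) : Filt (Tz d) where
  d := d + 2
  J := JT d
  anti k x hx := ⟨fun _ => hx.1 (by omega), fun _ => hx.2 (by omega)⟩
  mul j k x y hx hy := by
    obtain ⟨h1, h2⟩ := hx
    obtain ⟨h3, h4⟩ := hy
    rcases j with _ | _ | j <;> rcases k with _ | _ | k <;> simp_all [mem_JT]
  bot := eq_bot_iff.2 fun x hx => TrivSqZeroExt.ext (hx.1 (by omega)) (hx.2 (by omega))

/-- the filtration of the product -/
noncomputable def FA (d : ℕ) : Filt (Mx d × Tz d) where
  d := d + 2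
  J k := ((FB d).J k).prod ((FT d).J k)
  anti k := Submodule.prod_mono ((FB d).anti k) ((FT d).anti k)
  mul j k x y hx hy := ⟨(FB d).mul j k _ _ hx.1 hy.1, (FT d).mul j k _ _ hx.2 hy.2⟩
  bot := by
    rw [show (FB d).J (d + 2) = ⊥ from (FB d).bot, show (FT d).J (d + 2) = ⊥ from (FT d).bot,
      Submodule.prod_bot]

theorem mem_FA {d k : ℕ} {y : Mx d × Tz d} :
    y ∈ (FA d).J k ↔ y.1 ∈ JJ d k ∧ y.2 ∈ JT d k := Iff.rfl

/-- logarithmic coordinates in the product -/
noncomputable def Tri.fA {G : Type*} [Group G] {d : ℕ} (T : Tri G d) (g : G) : Mx d × Tz d :=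
  (T.lu g, TrivSqZeroExt.inr (T.lv g))

/-- the height on the product -/
noncomputable def lA (d : ℕ) : (Mx d × Tz d) →ₗ[ℝ] (Fin d → ℝ) :=
  TrivSqZeroExt.sndHom ℝ (Fin d → ℝ) ∘ₗ LinearMap.snd ℝ (Mx d) (Tz d)

/-- diagonal conjugations on the product -/
noncomputable def cA {d : ℕ} (t : Fin d → ℂˣ) : (Mx d × Tz d) →ₐ[ℝ] (Mx d × Tz d) :=
  (cj t).prodMap (AlgHom.id ℝ (Tz d))

theorem cA_apply {d : ℕ} (t : Fin d → ℂˣ) (y : Mx d × Tz d) : cA t y = (cj t y.1, y.2) := rfl

theorem lA_apply {d : ℕ} (y : Mx d × Tz d) : lA d y = y.2.snd := rfl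

/-- The linear data from which the model is built. -/
structure Lin (G : Type*) [Group G] where
  /-- the ambient algebra -/
  A : Type
  [nr : NormedRing A]
  [na : NormedAlgebra ℝ A]
  [fd : FiniteDimensional ℝ A]
  /-- the filtration -/
  F : Filt A
  /-- logarithmic coordinates -/
  f : G → A
  /-- the semisimple action -/
  α : G → A →ₐ[ℝ] A
  /-- the unipotent subgroup -/
  N : Subgroup G
  /-- the number of raw heights -/
  k : ℕ
  /-- the raw height -/
  l : A →ₗ[ℝ] (Fin k → ℝ)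
  /-- the positive part of the action -/
  D : (Fin k → ℝ) → A →ₐ[ℝ] A
  normal : N.Normal
  poly : Polycyclic N
  mem : ∀ g, f g ∈ F.J 1
  mul : ∀ g h, f (g * h) = bch F.d (f g) (α g (f h))
  α_mul : ∀ g h y, α (g * h) y = α g (α h y)
  α_N : ∀ g ∈ N, ∀ y, α g y = y
  α_sub : ∀ g h, α g (f h) - f h ∈ Submodule.span ℝ (f '' N)
  br : ∀ g h, f g * f h - f h * f g ∈ Submodule.span ℝ (f '' N)
  l_N : ∀ g ∈ N, l (f g) = 0
  hom : Submodule.span ℝ (Set.range f) ≤ Submodule.span ℝ {y | y ∈ Submodule.span ℝ (Set.range f) ∧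
    ∃ w : (Fin k → ℝ) →ₗ[ℝ] ℝ, (∀ x ∈ Submodule.span ℝ (Set.range f),
      D (l x) y = Real.exp (w (l x)) • y) ∧ (w = 0 ∨ l y = 0)}
  iso : ∀ g y, ‖D (-l (f g)) (α g y)‖ = ‖y‖
  disc : ∀ R : ℝ, {y | y ∈ AddSubgroup.closure (f '' N) ∧ ‖y‖ ≤ R}.Finite
  prop : ∀ R : ℝ, {g | ‖f g‖ ≤ R}.Finite

attribute [instance] Lin.nr Lin.na Lin.fd

namespace Lin

variable {G : Type*} [Group G] (L : Lin G)

/-- the Lie algebra of the nilshadow -/
noncomputable def m : Submodule ℝ L.A := Submodule.span ℝ (Set.range L.f)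

/-- the Lie algebra of the unipotent subgroup -/
noncomputable def n : Submodule ℝ L.A := Submodule.span ℝ (L.f '' L.N)

/-- a basis of weight vectors -/
def Wt {N : ℕ} (b : Module.Basis (Fin N) ℝ L.m) (w : Fin N → (Fin L.k → ℝ) →ₗ[ℝ] ℝ) : Prop :=
  ∀ i, (∀ x ∈ L.m, L.D (L.l x) (b i) = Real.exp (w i (L.l x)) • (b i : L.A)) ∧
    (w i = 0 ∨ L.l (b i) = 0)

end Lin

end Vale.Agent.P188.MB
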