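import Vale.Agent.P188.MBDefs

/-! Determinants of absolute value one. -/

namespace Vale.Agent.P188.MB

open MeasureTheory

theorem det_unip {V : Type*} [AddCommGroup V] [Module ℝ V] [FiniteDimensional ℝ V]
    (β : V →ₗ[ℝ] V) (h : IsNilpotent (β - 1)) : LinearMap.det β = 1 := by
  have h1 : IsNilpotent (1 - β : Module.End ℝ V) := by
    rw [← neg_sub]
    exact h.neg
  have h2 := LinearMap.eval_charpoly (1 - β : Module.End ℝ V) 1
  rw [h1.charpoly_eq_X_pow_finrank, map_one, sub_sub_cancel] at h2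
  rw [← h2]
  simp

variable {W : Type*} [NormedAddCommGroup W] [NormedSpace ℝ W] [FiniteDimensional ℝ W]

theorem det_iso (κ : W →ₗ[ℝ] W) (h : ∀ x, ‖κ x‖ = ‖x‖) : |LinearMap.det κ| = 1 := by
  let : MeasurableSpace W := borel W
  have : BorelSpace W := ⟨rfl⟩
  have hinj : Function.Injective κ := by
    rw [← LinearMap.ker_eq_bot, LinearMap.ker_eq_bot']
    intro x hx
    rw [← norm_eq_zero, ← h, hx, norm_zero]
  have hsur : Function.Surjective κ := LinearMap.injective_iff_surjective.1 hinj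
  have him : κ '' Metric.ball 0 1 = Metric.ball 0 1 := by
    ext y
    constructor
    · rintro ⟨x, hx, rfl⟩
      rw [mem_ball_zero_iff] at hx ⊢
      rwa [h]
    · intro hy
      obtain ⟨x, rfl⟩ := hsur y
      refine ⟨x, ?_, rfl⟩
      rw [mem_ball_zero_iff] at hy ⊢
      rwa [h] at hy
  have h1 := Measure.addHaar_image_linearMap (Measure.addHaar : Measure W) κ (Metric.ball 0 1)
  rw [him] at h1
  have h2 : (Measure.addHaar : Measure W) (Metric.ball 0 1) ≠ 0 :=
    (Metric.measure_ball_pos _ _ one_pos).ne'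
  have h3 : (Measure.addHaar : Measure W) (Metric.ball 0 1) ≠ ⊤ := measure_ball_lt_top.ne
  have h4 : ENNReal.ofReal |LinearMap.det κ| = 1 := by
    refine (ENNReal.mul_left_inj h2 h3).1 ?_
    rw [one_mul]
    exact h1.symm
  exact ENNReal.ofReal_eq_one.1 h4

theorem mbDet_full (β : W →ₗ[ℝ] W) (L : Submodule ℤ W)
    (hfin : {y | y ∈ L ∧ ‖y‖ ≤ 1}.Finite) (hspan : Submodule.span ℝ (L : Set W) = ⊤)
    (hmap : ∀ y ∈ L, β y ∈ L) (hsur : ∀ y ∈ L, ∃ x ∈ L, β x = y) : |LinearMap.det β| = 1 := by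
  classical
  have : DiscreteTopology L := by
    refine discreteTopology_iff_isOpen_singleton_zero.2 ?_
    refine isOpen_singleton_of_finite_mem_nhds (0 : L) (s := Metric.closedBall 0 1)
      (Metric.closedBall_mem_nhds _ one_pos) ?_
    refine (hfin.preimage Subtype.val_injective.injOn).subset fun y hy => ⟨y.2, ?_⟩
    exact mem_closedBall_zero_iff.1 hy
  have : IsZLattice ℝ L := ⟨hspan⟩
  let γ : L →ₗ[ℤ] L := (β.restrictScalars ℤ).restrict hmap
  have hγ : ∀ x : L, (γ x : W) = β x := fun _ => rfl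
  have h1 : Function.Surjective γ := fun y => by
    obtain ⟨x, hx, h⟩ := hsur y y.2
    exact ⟨⟨x, hx⟩, Subtype.ext h⟩
  have h2 : Function.Injective γ := OrzechProperty.injective_of_surjective_endomorphism γ h1
  have h3 : IsUnit (LinearMap.det γ) := (LinearEquiv.ofBijective γ ⟨h2, h1⟩).isUnit_det'
  let b := Module.Free.chooseBasis ℤ L
  have h4 : LinearMap.toMatrix (b.ofZLatticeBasis ℝ L) (b.ofZLatticeBasis ℝ L) β =
      (Int.castRingHom ℝ).mapMatrix (LinearMap.toMatrix b b γ) := by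
    ext i j
    rw [LinearMap.toMatrix_apply, Module.Basis.ofZLatticeBasis_apply, ← hγ,
      Module.Basis.ofZLatticeBasis_repr_apply]
    simp [LinearMap.toMatrix_apply]
  rw [← LinearMap.det_toMatrix (b.ofZLatticeBasis ℝ L), h4, ← RingHom.map_det,
    LinearMap.det_toMatrix]
  rcases Int.isUnit_iff.1 h3 with h | h <;> simp [h]

theorem det_lattice (β : W →ₗ[ℝ] W) (S : Set W) (hS : β '' S = S)
    (hd : ∀ R : ℝ, {y | y ∈ AddSubgroup.closure S ∧ ‖y‖ ≤ R}.Finite)
    (hq : ∀ y, β y - y ∈ Submodule.span ℝ S) : |LinearMap.det β| = 1 := by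
  have he : Submodule.span ℝ S ≤ (Submodule.span ℝ S).comap β := fun y hy => by
    have := (Submodule.span ℝ S).add_mem (hq y) hy
    rwa [sub_add_cancel] at this
  have hid : (Submodule.span ℝ S).mapQ (Submodule.span ℝ S) β he = LinearMap.id := by
    ext y
    exact (Submodule.Quotient.eq _).2 (hq y)
  have hcl : ∀ y, y ∈ Submodule.span ℤ S ↔ y ∈ AddSubgroup.closure S := fun y => by
    rw [← Submodule.span_int_eq_addSubgroupClosure]
    rfl
  have hβ : (Submodule.span ℤ S).map (β.restrictScalars ℤ) = Submodule.span ℤ S := by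
    rw [Submodule.map_span]
    exact congrArg _ hS
  rw [LinearMap.det_eq_det_mul_det _ β he, hid, LinearMap.det_id, mul_one]
  refine mbDet_full _ ((Submodule.span ℤ S).comap ((Submodule.span ℝ S).subtype.restrictScalars ℤ))
    ?_ ?_ ?_ ?_
  · refine ((hd 1).preimage Subtype.val_injective.injOn).subset fun y hy => ⟨(hcl _).1 hy.1, hy.2⟩
  · refine top_le_iff.1 ?_
    rw [← Submodule.span_span_coe_preimage (R := ℝ) (s := S)]
    exact Submodule.span_mono fun y hy => Submodule.subset_span hy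
  · intro y hy
    have h1 : β y ∈ (Submodule.span ℤ S).map (β.restrictScalars ℤ) := ⟨y, hy, rfl⟩
    rw [hβ] at h1
    exact h1
  · intro y hy
    have h1 : (y : W) ∈ (Submodule.span ℤ S).map (β.restrictScalars ℤ) := by
      rw [hβ]
      exact hy
    obtain ⟨x, hx, h⟩ := h1
    exact ⟨⟨x, Submodule.span_le_restrictScalars ℤ ℝ S hx⟩, hx, Subtype.ext h⟩

end Vale.Agent.P188.MB
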