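import Vale.Agent.P188.MBDefs

/-! Common eigenvectors for subgroups of finite index. -/

namespace Vale.Agent.P188.MB

section

variable {G V : Type*} [Group G] [AddCommGroup V] [Module ℂ V]

/-- a common eigenvector for a subgroup of finite index -/
def MBEig_P (ρ : G →* Module.End ℂ V) : Prop :=
  ∃ (H : Subgroup G) (v : V), H.FiniteIndex ∧ v ≠ 0 ∧ ∀ h ∈ H, ∃ c : ℂ, ρ h v = c • v

theorem MBEig_tr {X : Type*} [Group X] {ρ : G →* Module.End ℂ V} (h : MBEig_P ρ) (f : X →* G) :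
    MBEig_P (ρ.comp f) := by
  obtain ⟨H, v, h1, h2, h3⟩ := h
  exact ⟨H.comap f, v, Poly_fi_comap H f, h2, fun x hx => h3 _ hx⟩

/-- the stabiliser of a line -/
def MBEig_line (ρ : G →* Module.End ℂ V) {v : V} (hv : v ≠ 0) : Subgroup G where
  carrier := {g | ∃ c : ℂ, ρ g v = c • v}
  one_mem' := ⟨1, by simp⟩
  mul_mem' := by
    rintro g h ⟨a, ha⟩ ⟨b, hb⟩
    exact ⟨b * a, by rw [map_mul, Module.End.mul_apply, hb, map_smul, ha, smul_smul]⟩
  inv_mem' := by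
    rintro g ⟨a, ha⟩
    have h1 : v = a • ρ g⁻¹ v := by
      rw [← map_smul, ← ha, ← Module.End.mul_apply, ← map_mul, inv_mul_cancel, map_one,
        Module.End.one_apply]
    have h2 : a ≠ 0 := by
      rintro rfl
      exact hv (by rw [h1, zero_smul])
    exact ⟨a⁻¹, ((eq_inv_smul_iff₀ h2).2 h1.symm)⟩

theorem MBEig_norm [FiniteDimensional ℂ V] (ρ : G →* Module.End ℂ V) (D : Subgroup G) [D.Normal]
    (x : G) {v : V} (hv : v ≠ 0) (hD : ∀ h ∈ D, ∃ c : ℂ, ρ h v = c • v) :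
    ∃ (r : ℤ) (w : V), r ≠ 0 ∧ w ≠ 0 ∧ (∀ h ∈ D, ∃ c : ℂ, ρ h w = c • w) ∧
      ∃ c : ℂ, ρ (x ^ r) w = c • w := by
  choose χ₀ hχ₀ using hD
  let W : (D → ℂ) → Submodule ℂ V := fun χ => ⨅ h : D, (ρ h).eigenspace (χ h)
  have mW : ∀ χ u, u ∈ W χ ↔ ∀ h : D, ρ h u = χ h • u := fun χ u => by
    simp only [W, Submodule.mem_iInf, Module.End.mem_eigenspace_iff]
  have hfin : Finite {χ | W χ ≠ ⊥} := Submodule.finite_ne_bot_of_iSupIndep
    (iSupIndep.iInf (fun (h : D) (c : ℂ) => (ρ h).eigenspace c) fun h =>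
      Module.End.eigenspaces_iSupIndep _)
  let τ : G → (D → ℂ) → D → ℂ := fun g χ h => χ (MulAut.conjNormal g⁻¹ h)
  have hτ : ∀ g χ u, u ∈ W χ → ρ g u ∈ W (τ g χ) := fun g χ u hu => (mW _ _).2 fun h => by
    rw [← map_smul, ← (mW _ _).1 hu, ← Module.End.mul_apply, ← Module.End.mul_apply, ← map_mul,
      ← map_mul]
    simp [mul_assoc]
  have hmul : ∀ g g' χ, τ g (τ g' χ) = τ (g * g') χ := fun g g' χ => funext fun h => by
    simp only [τ, mul_inv_rev, map_mul, MulAut.mul_apply]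
  let χ : D → ℂ := fun h => χ₀ h h.2
  have hvW : v ∈ W χ := (mW _ _).2 fun h => hχ₀ h h.2
  have hne : ∀ g, W (τ g χ) ≠ ⊥ := fun g => (Submodule.ne_bot_iff _).2 ⟨_, hτ g χ v hvW, fun h0 =>
    hv (by
      have := congrArg (ρ g⁻¹) h0
      rwa [← Module.End.mul_apply, ← map_mul, inv_mul_cancel, map_one, map_zero] at this)⟩
  obtain ⟨k, l, hkl, e⟩ := Finite.exists_ne_map_eq_of_infinite
    fun k : ℤ => (⟨τ (x ^ k) χ, hne _⟩ : {χ | W χ ≠ ⊥})
  have e' : τ (x ^ k) χ = τ (x ^ l) χ := congrArg Subtype.val e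
  have hst : ∀ u ∈ W (τ (x ^ k) χ), ρ (x ^ (l - k)) u ∈ W (τ (x ^ k) χ) := fun u hu => by
    have := hτ (x ^ (l - k)) _ u hu
    rwa [hmul (x ^ (l - k)) (x ^ k) χ, ← zpow_add, sub_add_cancel, ← e'] at this
  have : Nontrivial (W (τ (x ^ k) χ)) := Submodule.nontrivial_iff_ne_bot.2 (hne _)
  obtain ⟨c, hc⟩ := Module.End.exists_eigenvalue ((ρ (x ^ (l - k))).restrict hst)
  obtain ⟨w, hw⟩ := hc.exists_hasEigenvector
  exact ⟨l - k, w, sub_ne_zero.2 hkl.symm, fun h0 => hw.2 (Subtype.ext h0),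
    fun h hh => ⟨_, (mW _ _).1 w.2 ⟨h, hh⟩⟩, c, congrArg Subtype.val hw.apply_eq_smul⟩

theorem MBEig_step [FiniteDimensional ℂ V] (ρ : G →* Module.End ℂ V) {N : Subgroup G}
    (h : Poly_St N ⊤) [Group.FG N] (hK : MBEig_P (ρ.comp N.subtype)) : MBEig_P ρ := by
  obtain ⟨K, v, hK, hv, hKv⟩ := hK
  obtain ⟨-, hn, x, -, hx⟩ := h
  have : N.Normal := ⟨fun x hx g => hn g trivial x hx⟩
  obtain ⟨L, hL, hL1, hL2⟩ := exists_char K
  obtain ⟨r, w, hr, hw, h1, h2⟩ := MBEig_norm ρ (L.map N.subtype) x hv (by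
    rintro _ ⟨y, hy, rfl⟩
    exact hKv y (hL hy))
  refine ⟨MBEig_line ρ hw, w, ?_, hw, fun _ h => h⟩
  have : Finite (G ⧸ MBEig_line ρ hw) := by
    refine Finite.of_surjective (fun p : (N ⧸ L) × Set.Ico (0 : ℤ) |r| =>
      (((p.1.out : N) : G) * x ^ (p.2 : ℤ) : G)) fun y => ?_
    obtain ⟨y, rfl⟩ := QuotientGroup.mk_surjective y
    obtain ⟨k, hk⟩ := hx y trivial
    obtain ⟨l, hl⟩ := QuotientGroup.mk_out_eq_mul L ⟨_, hn (x ^ k) trivial _ hk⟩
    refine ⟨(QuotientGroup.mk ⟨_, hn (x ^ k) trivial _ hk⟩,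
      ⟨k % r, Int.emod_nonneg k hr, Int.emod_lt_abs k hr⟩), QuotientGroup.eq.2 ?_⟩
    simp only [hl]
    have e : (((⟨_, hn (x ^ k) trivial _ hk⟩ : N) * l : N) * x ^ (k % r) : G)⁻¹ * y =
        ((x ^ (k % r))⁻¹ * ((l : N) : G)⁻¹ * (x ^ (k % r))⁻¹⁻¹) * (x ^ r) ^ (k / r) := by
      have e2 : (x ^ r) ^ (k / r) = (x ^ (k % r))⁻¹ * x ^ k := by
        rw [eq_inv_mul_iff_mul_eq, ← zpow_mul, ← zpow_add, Int.emod_add_mul_ediv]
      rw [e2]
      simp [mul_assoc]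
    rw [e]
    refine mul_mem (h1 _ ?_) (zpow_mem (show x ^ r ∈ MBEig_line ρ hw from h2) _)
    exact Subgroup.Normal.conj_mem inferInstance _
      (inv_mem (Subgroup.mem_map_of_mem N.subtype l.2)) _
  exact Subgroup.finiteIndex_of_finite_quotient

end

theorem exists_eigen {G V : Type*} [Group G] [AddCommGroup V] [Module ℂ V] [FiniteDimensional ℂ V]
    [Nontrivial V] (hG : Polycyclic G) (ρ : G →* Module.End ℂ V) :
    ∃ (H : Subgroup G) (v : V), H.FiniteIndex ∧ v ≠ 0 ∧ ∀ h ∈ H, ∃ c : ℂ, ρ h v = c • v := by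
  have key : ∀ B : Subgroup G, Relation.ReflTransGen Poly_St ⊥ B → MBEig_P (ρ.comp B.subtype) := by
    intro B hB
    induction hB with
    | refl =>
      obtain ⟨v, hv⟩ := exists_ne (0 : V)
      exact ⟨⊤, v, inferInstance, hv, fun h _ => ⟨1, by simp [Subsingleton.elim h 1]⟩⟩
    | @tail A B _ hAB ih =>
      have h1 := hAB.comap B.subtype
      rw [Subgroup.comap_subtype, Subgroup.comap_subtype, Subgroup.subgroupOf_self] at h1
      have := (hG.of_injective (B.subtype.comp (A.subgroupOf B).subtype)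
        ((Subgroup.subtype_injective _).comp (Subgroup.subtype_injective _))).fg
      exact MBEig_step _ h1 (MBEig_tr ih (Subgroup.subgroupOfEquivOfLe hAB.1).toMonoidHom)
  exact MBEig_tr (key ⊤ (Poly_iff.1 hG)) Subgroup.topEquiv.symm.toMonoidHom

end Vale.Agent.P188.MB
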