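import Vale.Agent.P188.Word
import Vale.Agent.P188.Len

/-! The lemma of Svarc and Milnor. -/

namespace Vale.Agent.P188.MB

theorem MBSm_key {G : Type*} [Group G] (A : Finset G)
    (M : Mdl) (f : G → M.V) (κ : G → M.V → M.V) (hf : ∀ g h, f (g * h) = f g * κ g (f h))
    {C : ℝ} (hκ : ∀ g x, ‖κ g x‖ ≤ C * ‖x‖ ∧ ‖x‖ ≤ C * ‖κ g x‖)
    (hp : ∀ R : ℝ, {g | ‖f g‖ ≤ R}.Finite) (r : ℝ) :
    ∃ B : ℝ, 1 ≤ B ∧ ∀ g g', M.len ((f g)⁻¹ * f g') ≤ r → wr A (g⁻¹ * g') ≤ B := by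
  obtain ⟨E, hE⟩ := Mdl.bdd_of_len (M := M) r
  obtain ⟨B, h1, hB⟩ := Word_bdd (hp (|C| * E)) (wr A)
  refine ⟨B, h1, fun g g' h => hB _ ?_⟩
  have e : (f g)⁻¹ * f g' = κ g (f (g⁻¹ * g')) := by
    rw [inv_mul_eq_iff_eq_mul, ← hf, mul_inv_cancel_left]
  rw [e] at h
  exact (hκ g _).2.trans ((mul_le_mul_of_nonneg_right (le_abs_self C) (norm_nonneg _)).trans
    (mul_le_mul_of_nonneg_left (hE _ h) (abs_nonneg C)))

theorem svarc {G : Type*} [Group G] {A : Finset G} (hA : Subgroup.closure (A : Set G) = ⊤)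
    (M : Mdl) (f : G → M.V) (κ : G → M.V → M.V) (hf : ∀ g h, f (g * h) = f g * κ g (f h))
    {C : ℝ} (hκ : ∀ g x, ‖κ g x‖ ≤ C * ‖x‖ ∧ ‖x‖ ≤ C * ‖κ g x‖)
    (hp : ∀ R : ℝ, {g | ‖f g‖ ≤ R}.Finite)
    {R : ℝ} (hc : ∀ y, ∃ g k, ‖k‖ ≤ R ∧ y = f g * k) :
    ∃ (K : ℝ) (f' : M.V → G), QIp (wr A) M.len K f f' := by
  choose f' k hk hy using hc
  have hl := Mdl.isLen_len (M := M)
  have hw := isLen_wr hA
  obtain ⟨r, hr⟩ := Mdl.len_of_bdd (M := M) R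
  have h0 : ∀ y, M.len ((f (f' y))⁻¹ * y) ≤ r := fun y => by
    have e : (f (f' y))⁻¹ * y = k y := by rw [inv_mul_eq_iff_eq_mul, ← hy]
    rw [e]
    exact hr _ (hk y)
  obtain ⟨E, -, hE⟩ := Word_bdd A.finite_toSet fun a => ‖f a‖
  obtain ⟨r₁, hr₁⟩ := Mdl.len_of_bdd (M := M) (|C| * E)
  have h1 : ∀ x, ∀ a ∈ A, M.len ((f x)⁻¹ * f (x * a)) ≤ r₁ := fun x a ha => by
    rw [hf, inv_mul_cancel_left]
    exact hr₁ _ ((hκ x _).1.trans
      ((mul_le_mul_of_nonneg_right (le_abs_self C) (norm_nonneg _)).trans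
        (mul_le_mul_of_nonneg_left (hE a ha) (abs_nonneg C))))
  obtain ⟨B₁, -, hB₁⟩ := MBSm_key A M f κ hf hκ hp r
  obtain ⟨B₂, b2, hB₂⟩ := MBSm_key A M f κ hf hκ hp (r + 1 + r)
  have h2 : ∀ y y', M.len (y⁻¹ * y') ≤ 1 → wr A ((f' y)⁻¹ * f' y') ≤ B₂ := fun y y' h => by
    refine hB₂ _ _ ?_
    have a1 := Word_tri hl (f (f' y)) y (f (f' y'))
    have a2 := Word_tri hl y y' (f (f' y'))
    have a3 := Word_sym hl y' (f (f' y'))
    linarith [h0 y, h0 y']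
  have h3 : ∀ y y', wr A ((f' y)⁻¹ * f' y') ≤ B₂ * M.len (y⁻¹ * y') := fun y y' => by
    obtain ⟨n, hn, -⟩ := Mdl.Len_nat (M := M) (y⁻¹ * y')
    obtain ⟨p, p0, pn, ps⟩ := Mdl.exists_path (y⁻¹ * y') hn.le
    have a : ∀ m : ℕ, wr A ((f' y)⁻¹ * f' (y * p m)) ≤ B₂ * m := fun m => by
      induction m with
      | zero => rw [p0, mul_one, inv_mul_cancel, hw.one, Nat.cast_zero, mul_zero]
      | succ m ih =>
        have a1 := Word_tri hw (f' y) (f' (y * p m)) (f' (y * p (m + 1)))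
        have a2 := h2 (y * p m) (y * p (m + 1)) (by
          rw [mul_inv_rev, mul_assoc, inv_mul_cancel_left]
          exact ps m)
        rw [Nat.cast_succ, mul_add, mul_one]
        linarith
    have a4 := a n
    rwa [pn n le_rfl, mul_inv_cancel_left, ← hn] at a4
  obtain ⟨K, k1, k2, k3, k4⟩ : ∃ K : ℝ, r ≤ K ∧ r₁ ≤ K ∧ B₁ ≤ K ∧ B₂ ≤ K :=
    ⟨max (max r r₁) (max B₁ B₂), (le_max_left _ _).trans (le_max_left _ _),
      (le_max_right _ _).trans (le_max_left _ _), (le_max_left _ _).trans (le_max_right _ _),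
      (le_max_right _ _).trans (le_max_right _ _)⟩
  refine ⟨K, f', b2.trans k4, fun x y => ?_, fun x y => ?_, fun x => (hB₁ _ _ (h0 _)).trans k3,
    fun y => (h0 y).trans k1⟩
  · have a1 := IsLen.lip hA hl h1 x y
    have a2 := mul_le_mul_of_nonneg_right k2 (hw.nonneg (x⁻¹ * y))
    linarith
  · have a1 := h3 x y
    have a2 := mul_le_mul_of_nonneg_right k4 (hl.nonneg (x⁻¹ * y))
    linarith

end Vale.Agent.P188.MB
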