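import Vale.Agent.P188.MBMk
import Vale.Agent.P188.MBSm

/-! The quasi-isometry to the model of the linear data. -/

namespace Vale.Agent.P188.MB

theorem MBFin_norm {V W : Type*} [NormedAddCommGroup V] [NormedSpace ℝ V] [FiniteDimensional ℝ V]
    [NormedAddCommGroup W] [NormedSpace ℝ W] (Φ : V ≃ₗ[ℝ] W) :
    ∃ c : ℝ, 0 ≤ c ∧ ∀ x, ‖Φ x‖ ≤ c * ‖x‖ ∧ ‖x‖ ≤ c * ‖Φ x‖ := by
  have : FiniteDimensional ℝ W := Φ.finiteDimensional
  let Ψ : V ≃L[ℝ] W := Φ.toContinuousLinearEquiv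
  refine ⟨‖(Ψ : V →L[ℝ] W)‖ + ‖(Ψ.symm : W →L[ℝ] V)‖, by positivity, fun x => ⟨?_, ?_⟩⟩
  · exact ((Ψ : V →L[ℝ] W).le_opNorm x).trans (mul_le_mul_of_nonneg_right
      (le_add_of_nonneg_right (norm_nonneg _)) (norm_nonneg _))
  · have h := (Ψ.symm : W →L[ℝ] V).le_opNorm (Ψ x)
    rw [ContinuousLinearEquiv.coe_coe, Ψ.symm_apply_apply] at h
    exact h.trans (mul_le_mul_of_nonneg_right
      (le_add_of_nonneg_left (norm_nonneg _)) (norm_nonneg _))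

theorem Lin.exists_model {G : Type*} [Group G] (L : Lin G) (A : Finset G)
    (hA : Subgroup.closure (A : Set G) = ⊤) :
    ∃ (M : Mdl) (K : ℝ) (f : G → M.V) (g : M.V → G), QIp (wr A) M.len K f g := by
  obtain ⟨M, Φ, hΦ⟩ := L.exists_mdl
  obtain ⟨c, c0, hc⟩ := MBFin_norm Φ
  let f : G → M.V := fun g => Φ.symm ⟨L.f g, L.f_mem g⟩
  let κ : G → M.V → M.V := fun g x => Φ.symm ⟨L.D (-L.l (L.f g)) (L.α g (Φ x)),
    L.D_neg_mem (L.f_mem g) _ (L.α_mem g _ (Φ x).2)⟩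
  have ef : ∀ g, (Φ (f g) : L.A) = L.f g := fun g => by simp [f]
  have eκ : ∀ g x, (Φ (κ g x) : L.A) = L.D (-L.l (L.f g)) (L.α g (Φ x)) := fun g x => by simp [κ]
  have em : ∀ g x, (Φ (f g * κ g x) : L.A) = bch L.F.d (L.f g) (L.α g (Φ x)) := fun g x => by
    rw [hΦ, ef, eκ, L.D_neg (L.f_mem g) _ (L.α_mem g _ (Φ x).2)]
  have en : ∀ g x, ‖Φ (κ g x)‖ = ‖Φ x‖ := fun g x => by
    rw [Submodule.coe_norm, Submodule.coe_norm, eκ, L.iso]
  have hκ : ∀ g x, ‖κ g x‖ ≤ c * c * ‖x‖ ∧ ‖x‖ ≤ c * c * ‖κ g x‖ := fun g x => by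
    rw [mul_assoc, mul_assoc]
    refine ⟨(hc _).2.trans (mul_le_mul_of_nonneg_left ?_ c0),
      (hc _).2.trans (mul_le_mul_of_nonneg_left ?_ c0)⟩
    · rw [en]
      exact (hc x).1
    · rw [← en g]
      exact (hc _).1
  obtain ⟨R, hR⟩ := L.cob
  obtain ⟨K, f', h⟩ := svarc hA M f κ
    (fun g h => Φ.injective (Subtype.ext (by rw [em, ef, ef, L.mul]))) hκ
    (fun r => (L.prop (c * r)).subset fun g hg => by
      have h1 := (hc (f g)).1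
      rw [Submodule.coe_norm, ef] at h1
      exact h1.trans (mul_le_mul_of_nonneg_left hg c0))
    (R := c * R) fun y => by
      obtain ⟨g, -, k, hk, h1, h2⟩ := hR (Φ y) (Φ y).2
      refine ⟨g, κ g (Φ.symm ⟨k, hk⟩), (hc _).2.trans (mul_le_mul_of_nonneg_left ?_ c0),
        Φ.injective (Subtype.ext ?_)⟩
      · rw [en, Φ.apply_symm_apply]
        exact h1
      · rw [em, Φ.apply_symm_apply]
        exact h2
  exact ⟨M, K, f, f', h⟩

end Vale.Agent.P188.MB
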