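import Vale.Agent.P188.MBDefs

/-! Invariance of a subspace under entrywise multipliers. -/

namespace Vale.Agent.P188.MB

open Polynomial in
theorem MBHad_crt (g : ℂ → ℂ) (M : ℕ) (S : Finset ℂ) :
    ∃ p : ℂ[X], ∀ v ∈ S, (X - C v) ^ M ∣ p - C (g v) := by
  classical
  induction S using Finset.induction_on with
  | empty => exact ⟨0, by simp⟩
  | insert w S hw ih =>
    obtain ⟨p, hp⟩ := ih
    have hc : IsCoprime ((X - C w) ^ M) (∏ v ∈ S, (X - C v) ^ M : ℂ[X]) := by
      refine IsCoprime.prod_right fun v hv => IsCoprime.pow ?_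
      refine isCoprime_X_sub_C_of_isUnit_sub ?_
      refine IsUnit.mk0 _ (sub_ne_zero.2 ?_)
      intro e
      exact hw (e ▸ hv)
    obtain ⟨a, b, hab⟩ := hc
    refine ⟨p + (C (g w) - p) * b * ∏ v ∈ S, (X - C v) ^ M, fun v hv => ?_⟩
    rcases Finset.mem_insert.1 hv with rfl | hv
    · refine ⟨(p - C (g v)) * a, ?_⟩
      linear_combination (C (g v) - p) * hab
    · have e : p + (C (g w) - p) * b * ∏ v ∈ S, (X - C v) ^ M - C (g v) =
          (p - C (g v)) + (C (g w) - p) * b * ∏ v ∈ S, (X - C v) ^ M := by ring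
      rw [e]
      exact dvd_add (hp v hv)
        (Dvd.dvd.mul_left (Finset.dvd_prod_of_mem (fun v => (X - C v) ^ M) hv) _)

open Polynomial in
theorem MBHad_fam {ι : Type*} [Finite ι] (μ h : ι → ℂ) (h1 : ∀ i j, μ i = μ j → h i = h j)
    (M : ℕ) : ∃ p : ℂ[X], ∀ i, (X - C (μ i)) ^ M ∣ p - C (h i) := by
  classical
  have := Fintype.ofFinite ι
  obtain ⟨p, hp⟩ := MBHad_crt (fun v => if e : ∃ i, μ i = v then h e.choose else 0) M
    (Finset.univ.image μ)
  refine ⟨p, fun i => ?_⟩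
  have e : ∃ j, μ j = μ i := ⟨i, rfl⟩
  have := hp (μ i) (Finset.mem_image_of_mem μ (Finset.mem_univ i))
  simp only [dif_pos e] at this
  rwa [h1 _ _ e.choose_spec] at this

open Polynomial in
/-- real interpolation polynomials of high contact -/
theorem exists_real_poly {ι : Type*} [Finite ι] (μ h : ι → ℂ) (h1 : ∀ i j, μ i = μ j → h i = h j)
    (h2 : ∀ i j, μ i = starRingEnd ℂ (μ j) → h i = starRingEnd ℂ (h j)) (M : ℕ) :
    ∃ p : ℝ[X], ∀ i, (X - C (μ i)) ^ M ∣ p.map (algebraMap ℝ ℂ) - C (h i) := by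
  obtain ⟨p, hp⟩ := MBHad_fam (ι := ι ⊕ ι) (Sum.elim μ fun i => starRingEnd ℂ (μ i))
    (Sum.elim h fun i => starRingEnd ℂ (h i)) (by
      rintro (i | i) (j | j) e
      · exact h1 i j e
      · exact h2 i j e
      · exact (h2 j i e.symm).symm
      · exact congrArg (starRingEnd ℂ) (h1 i j ((starRingEnd ℂ).injective e))) M
  have hq : C (1 / 2 : ℂ) * (p + p.map (starRingEnd ℂ)) ∈ lifts (algebraMap ℝ ℂ) := by
    rw [lifts_iff_coeff_lifts]
    intro n
    refine ⟨(p.coeff n).re, ?_⟩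
    rw [coeff_C_mul, coeff_add, coeff_map, Complex.add_conj]
    simp
  obtain ⟨q, hq⟩ := (mem_lifts _).1 hq
  refine ⟨q, fun i => ?_⟩
  have a1 : (X - C (μ i)) ^ M ∣ p - C (h i) := hp (Sum.inl i)
  have a2 : (X - C (starRingEnd ℂ (μ i))) ^ M ∣ p - C (starRingEnd ℂ (h i)) := hp (Sum.inr i)
  have a3 : (X - C (μ i)) ^ M ∣ p.map (starRingEnd ℂ) - C (h i) := by
    have := Polynomial.map_dvd (starRingEnd ℂ) a2
    simpa only [Polynomial.map_pow, Polynomial.map_sub, map_X, map_C, Complex.conj_conj] using this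
  have e : q.map (algebraMap ℝ ℂ) - C (h i) =
      C (1 / 2 : ℂ) * ((p - C (h i)) + (p.map (starRingEnd ℂ) - C (h i))) := by
    have e2 : C (1 / 2 : ℂ) * 2 = (1 : ℂ[X]) := by
      rw [show (2 : ℂ[X]) = C 2 from rfl, ← C_mul]
      norm_num
    rw [hq]
    linear_combination (C (h i)) * e2
  rw [e]
  exact Dvd.dvd.mul_left (dvd_add a1 a3) _

theorem MBHad_step {d : ℕ} {t : Fin d → ℂˣ} {a a' : Mx d} (ha : a - dg t ∈ JJ d 1)
    (ha' : a' - dg t⁻¹ ∈ JJ d 1) (hb : cj t a = a) (hi : a' * a = 1) (μ : ℂ) {k : ℕ} {x : Mx d}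
    (hx : x ∈ JJ d k) (he : cj t x = μ • x) :
    a * x * a' - μ • x ∈ JJ d (k + 1) ∧ cj t (a * x * a' - μ • x) = μ • (a * x * a' - μ • x) := by
  have hi' : a * a' = 1 := mul_eq_one_comm.1 hi
  have hb' : cj t a' = a' := by
    have e : cj t a' * a = 1 := by rw [← hb, ← map_mul, hi, map_one]
    calc cj t a' = cj t a' * (a * a') := by rw [hi', mul_one]
      _ = a' := by rw [← mul_assoc, e, one_mul]
  have h0 : a' ∈ JJ d 0 := by
    have := (JJ d 0).add_mem (JJ_mono (Nat.zero_le 1) ha') (dg_mem t⁻¹)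
    rwa [sub_add_cancel] at this
  constructor
  · have e : a * x * a' - μ • x = (a - dg t) * x * a' + dg t * x * (a' - dg t⁻¹) := by
      rw [← he, cj_def]
      simp only [sub_mul, mul_sub]
      abel
    rw [e]
    refine (JJ d (k + 1)).add_mem ?_ ?_
    · exact JJ_mono (by omega) (JJ_mul (JJ_mul ha hx) h0)
    · exact JJ_mono (by omega) (JJ_mul (JJ_mul (dg_mem t) hx) ha')
  · have e : cj t (μ • x) = μ • cj t x := by
      rw [cj_def, cj_def, mul_smul_comm, smul_mul_assoc]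
    rw [map_sub, map_mul, map_mul, hb, hb', e, he, smul_sub, mul_smul_comm, smul_mul_assoc]

/-- two-sided multiplication -/
noncomputable def MBHadT {d : ℕ} (a a' : Mx d) : Module.End ℂ (Mx d) :=
  LinearMap.mulRight ℂ a' ∘ₗ LinearMap.mulLeft ℂ a

theorem MBHadT_apply {d : ℕ} (a a' y : Mx d) : MBHadT a a' y = a * y * a' := rfl

theorem MBHad_pow {d : ℕ} {t : Fin d → ℂˣ} {a a' : Mx d} (ha : a - dg t ∈ JJ d 1)
    (ha' : a' - dg t⁻¹ ∈ JJ d 1) (hb : cj t a = a) (hi : a' * a = 1) (μ : ℂ) {x : Mx d}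
    (hx : x ∈ JJ d 0) (he : cj t x = μ • x) (k : ℕ) :
    ((MBHadT a a' - algebraMap ℂ (Module.End ℂ (Mx d)) μ) ^ k) x ∈ JJ d k ∧
      cj t (((MBHadT a a' - algebraMap ℂ (Module.End ℂ (Mx d)) μ) ^ k) x) =
        μ • ((MBHadT a a' - algebraMap ℂ (Module.End ℂ (Mx d)) μ) ^ k) x := by
  induction k with
  | zero => exact ⟨hx, he⟩
  | succ k ih =>
    rw [pow_succ', Module.End.mul_apply, LinearMap.sub_apply, MBHadT_apply,
      Module.algebraMap_end_apply]
    exact MBHad_step ha ha' hb hi μ ih.1 ih.2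

open Polynomial in
theorem MBHad_eval {d : ℕ} {t : Fin d → ℂˣ} {a a' : Mx d} (ha : a - dg t ∈ JJ d 1)
    (ha' : a' - dg t⁻¹ ∈ JJ d 1) (hb : cj t a = a) (hi : a' * a = 1) {μ c : ℂ} {x : Mx d}
    (hx : x ∈ JJ d 0) (he : cj t x = μ • x) {p : ℂ[X]} (hp : (X - C μ) ^ d ∣ p - C c) :
    aeval (MBHadT a a') p x = c • x := by
  obtain ⟨r, hr⟩ := hp
  have h0 : ((MBHadT a a' - algebraMap ℂ (Module.End ℂ (Mx d)) μ) ^ d) x = 0 := by
    have := (MBHad_pow ha ha' hb hi μ hx he d).1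
    rwa [JJ_bot le_rfl, Submodule.mem_bot] at this
  have e : p = r * (X - C μ) ^ d + C c := by linear_combination hr
  rw [e, map_add, map_mul, map_pow, map_sub, aeval_X, aeval_C, aeval_C, LinearMap.add_apply,
    Module.End.mul_apply, h0, map_zero, zero_add, Module.algebraMap_end_apply]

open Polynomial in
theorem MBHad_real {d : ℕ} {a a' : Mx d} (L : Submodule ℝ (Mx d)) (hA : ∀ y ∈ L, a * y * a' ∈ L)
    (p : ℝ[X]) {y : Mx d} (hy : y ∈ L) :
    aeval (MBHadT a a') (p.map (algebraMap ℝ ℂ)) y ∈ L := by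
  have hn : ∀ n : ℕ, (MBHadT a a' ^ n) y ∈ L := by
    intro n
    induction n with
    | zero => exact hy
    | succ n ih =>
      rw [pow_succ', Module.End.mul_apply, MBHadT_apply]
      exact hA _ ih
  induction p using Polynomial.induction_on' with
  | add p q hp hq =>
    rw [Polynomial.map_add, map_add, LinearMap.add_apply]
    exact L.add_mem hp hq
  | monomial n r =>
    rw [Polynomial.map_monomial, aeval_monomial, Module.End.mul_apply,
      Module.algebraMap_end_apply, algebraMap_smul]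
    exact L.smul_mem r (hn n)

theorem had_mem {d : ℕ} {t : Fin d → ℂˣ} {a a' : Mx d} (ha : a - dg t ∈ JJ d 1)
    (ha' : a' - dg t⁻¹ ∈ JJ d 1) (hb : cj t a = a) (hi : a' * a = 1)
    (L : Submodule ℝ (Mx d)) (hL : L ≤ JJ d 0) (hA : ∀ y ∈ L, a * y * a' ∈ L)
    (h : Fin d → Fin d → ℂ)
    (h1 : ∀ i j k l, (t i : ℂ) / t j = (t k : ℂ) / t l → h i j = h k l)
    (h2 : ∀ i j k l, (t i : ℂ) / t j = starRingEnd ℂ ((t k : ℂ) / t l) →
      h i j = starRingEnd ℂ (h k l)) {y : Mx d} (hy : y ∈ L) : had h y ∈ L := by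
  obtain ⟨p, hp⟩ := exists_real_poly (ι := Fin d × Fin d) (fun q => (t q.1 : ℂ) / t q.2)
    (fun q => h q.1 q.2) (fun q r => h1 q.1 q.2 r.1 r.2) (fun q r => h2 q.1 q.2 r.1 r.2) d
  have key : ∀ i j, Polynomial.aeval (MBHadT a a') (p.map (algebraMap ℝ ℂ))
      (Matrix.single i j (y i j)) = Matrix.single i j (had h y i j) := by
    intro i j
    have hx : Matrix.single i j (y i j) ∈ JJ d 0 := by
      intro k l hkl
      by_cases e : i = k ∧ j = l
      · obtain ⟨rfl, rfl⟩ := e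
        rw [Matrix.single_apply_same]
        exact hL hy i j hkl
      · exact Matrix.single_apply_of_ne _ _ _ _ _ e
    have he : cj t (Matrix.single i j (y i j)) =
        ((t i : ℂ) / t j) • Matrix.single i j (y i j) := by
      ext k l
      rw [cj_apply, Matrix.smul_apply, smul_eq_mul]
      by_cases e : i = k ∧ j = l
      · obtain ⟨rfl, rfl⟩ := e
        rfl
      · rw [Matrix.single_apply_of_ne _ _ _ _ _ e, mul_zero, mul_zero]
    rw [MBHad_eval ha ha' hb hi hx he (hp (i, j)), had_apply, Matrix.smul_single, smul_eq_mul]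
  have e : had h y = Polynomial.aeval (MBHadT a a') (p.map (algebraMap ℝ ℂ)) y := by
    conv_rhs => rw [Matrix.matrix_eq_sum_single y]
    rw [Matrix.matrix_eq_sum_single (had h y)]
    simp only [map_sum, key]
  rw [e]
  exact MBHad_real L hA p hy

end Vale.Agent.P188.MB
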