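import Vale.Agent.P188.MBCob

/-! Consequences of the linear data. -/

namespace Vale.Agent.P188.MB

namespace Lin

variable {G : Type*} [Group G] (L : Lin G)

theorem f_mem (g : G) : L.f g ∈ L.m := Submodule.subset_span ⟨g, rfl⟩

theorem n_le : L.n ≤ L.m := Submodule.span_mono (Set.image_subset_range _ _)

theorem m_le : L.m ≤ L.F.J 1 := Submodule.span_le.2 (by
  rintro _ ⟨g, rfl⟩
  exact L.mem g)

theorem br_mem : ∀ u ∈ L.m, ∀ v ∈ L.m, u * v - v * u ∈ L.n := by
  intro u hu v hv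
  induction hu using Submodule.span_induction with
  | mem u hu =>
    obtain ⟨g, rfl⟩ := hu
    induction hv using Submodule.span_induction with
    | mem v hv =>
      obtain ⟨h, rfl⟩ := hv
      exact L.br g h
    | zero => simp
    | add a b _ _ ha hb =>
      rw [mul_add, add_mul, add_sub_add_comm]
      exact L.n.add_mem ha hb
    | smul c a _ ha =>
      rw [mul_smul_comm, smul_mul_assoc, ← smul_sub]
      exact L.n.smul_mem c ha
  | zero => simp
  | add a b _ _ ha hb =>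
    rw [mul_add, add_mul, add_sub_add_comm]
    exact L.n.add_mem ha hb
  | smul c a _ ha =>
    rw [mul_smul_comm, smul_mul_assoc, ← smul_sub]
    exact L.n.smul_mem c ha

theorem α_sub_mem (g : G) : ∀ y ∈ L.m, L.α g y - y ∈ L.n := by
  intro y hy
  induction hy using Submodule.span_induction with
  | mem y hy =>
    obtain ⟨h, rfl⟩ := hy
    exact L.α_sub g h
  | zero => simp
  | add a b _ _ ha hb =>
    rw [map_add, add_sub_add_comm]
    exact L.n.add_mem ha hb
  | smul c a _ ha =>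
    rw [map_smul, ← smul_sub]
    exact L.n.smul_mem c ha

theorem α_mem (g : G) : ∀ y ∈ L.m, L.α g y ∈ L.m := fun y hy => by
  have h := L.m.add_mem (L.n_le (L.α_sub_mem g y hy)) hy
  rwa [sub_add_cancel] at h

theorem l_n : ∀ y ∈ L.n, L.l y = 0 := fun _ hy =>
  (Submodule.span_le (p := LinearMap.ker L.l)).2 (by
    rintro _ ⟨g, hg, rfl⟩
    exact L.l_N g hg) hy

theorem D_mem {x : L.A} (hx : x ∈ L.m) : ∀ y ∈ L.m, L.D (L.l x) y ∈ L.m := by
  intro y hy
  have h := L.hom hy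
  clear hy
  induction h using Submodule.span_induction with
  | mem y hy =>
    obtain ⟨h1, w, h2, -⟩ := hy
    rw [h2 x hx]
    exact L.m.smul_mem _ h1
  | zero => simp
  | add a b _ _ ha hb =>
    rw [map_add]
    exact L.m.add_mem ha hb
  | smul c a _ ha =>
    rw [map_smul]
    exact L.m.smul_mem c ha

theorem D_neg {x : L.A} (hx : x ∈ L.m) : ∀ y ∈ L.m, L.D (L.l x) (L.D (-L.l x) y) = y := by
  intro y hy
  have h := L.hom hy
  clear hy
  induction h using Submodule.span_induction with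
  | mem y hy =>
    obtain ⟨-, w, h2, -⟩ := hy
    rw [← map_neg, h2 _ (L.m.neg_mem hx), map_smul, h2 x hx, smul_smul, ← Real.exp_add, map_neg,
      map_neg, neg_add_cancel, Real.exp_zero, one_smul]
  | zero => simp
  | add a b _ _ ha hb => rw [map_add, map_add, ha, hb]
  | smul c a _ ha => rw [map_smul, map_smul, ha]

theorem D_neg_mem {x : L.A} (hx : x ∈ L.m) : ∀ y ∈ L.m, L.D (-L.l x) y ∈ L.m := by
  rw [← map_neg]
  exact L.D_mem (L.m.neg_mem hx)

theorem f_one : L.f 1 = 0 := by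
  have h := L.mul 1 1
  rw [mul_one, L.α_N 1 L.N.one_mem, bch_comm L.F (L.mem 1) (L.mem 1) (Commute.refl _)] at h
  exact left_eq_add.1 h

theorem cob : Cob L.F L.m ⊤ L.f L.α := by
  obtain ⟨R, hR⟩ := (lie_cob L.F L.N L.poly (f := L.f) (fun g _ => L.mem g)
    fun g hg h _ => by rw [L.mul, L.α_N g hg]).2
  refine cob_step L.F (L' := L.n) (H' := L.N) L.n_le L.m_le L.br_mem le_top (fun g _ => L.f_mem g)
    (fun g _ h _ => L.mul g h) L.α_mul L.α_N (fun g _ => L.α_sub_mem g) ?_ ⟨R, fun y hy => ?_⟩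
  · rw [Subgroup.coe_top, Set.image_univ]
    exact le_sup_right
  · obtain ⟨g, hg, k, hk, h1, h2⟩ := hR y hy
    exact ⟨g, hg, k, hk, h1, by rw [L.α_N g hg]; exact h2⟩

theorem exists_wt : ∃ (N : ℕ) (b : Module.Basis (Fin N) ℝ L.m)
    (w : Fin N → (Fin L.k → ℝ) →ₗ[ℝ] ℝ), L.Wt b w := by
  obtain ⟨b, hb, hs, hl⟩ := exists_linearIndependent ℝ {y | y ∈ L.m ∧
    ∃ w : (Fin L.k → ℝ) →ₗ[ℝ] ℝ, (∀ x ∈ L.m, L.D (L.l x) y = Real.exp (w (L.l x)) • y) ∧
      (w = 0 ∨ L.l y = 0)}
  have hf : Finite b := hl.finite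
  have e : Submodule.span ℝ (Set.range (Subtype.val : b → L.A)) = L.m := by
    rw [Subtype.range_coe, hs]
    exact le_antisymm (Submodule.span_le.2 fun y hy => hy.1) L.hom
  choose w hw using fun i : b => (hb i.2).2
  refine ⟨Nat.card b, ((Module.Basis.span hl).map (LinearEquiv.ofEq _ _ e)).reindex
    (Finite.equivFin b), fun i => w ((Finite.equivFin b).symm i), fun i => ?_⟩
  rw [Module.Basis.reindex_apply, Module.Basis.map_apply, LinearEquiv.coe_ofEq_apply,
    Module.Basis.span_apply]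
  exact hw _

/-- the adjoint action permutes the logarithms of the unipotent subgroup -/
theorem conj_f (g : G) {x : G} (hx : x ∈ L.N) :
    ex L.F.d (L.f g) * L.α g (L.f x) * ex L.F.d (-L.f g) = L.f (g * x * g⁻¹) := by
  have hα : ∀ g h, L.α g (L.f h) ∈ L.F.J 1 := fun g h => L.m_le (L.α_mem g _ (L.f_mem h))
  have h1 : ∀ g h, ex L.F.d (L.f (g * h)) = ex L.F.d (L.f g) * L.α g (ex L.F.d (L.f h)) :=
    fun g h => by rw [L.mul, ex_bch L.F (L.mem g) (hα g h), map_ex]
  have h2 : L.α g (ex L.F.d (L.f g⁻¹)) = ex L.F.d (-L.f g) := by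
    have h3 := h1 g g⁻¹
    rw [mul_inv_cancel, L.f_one, ex_zero] at h3
    rw [← mul_one (ex L.F.d (-L.f g)), h3, ← mul_assoc, ex_neg_mul L.F (L.mem g), one_mul]
  have h4 : ex L.F.d (L.f (g * x * g⁻¹)) = adj _ _ (ex_neg_mul L.F (L.mem g))
      (ex_mul_neg L.F (L.mem g)) (ex L.F.d (L.α g (L.f x))) := by
    rw [mul_assoc, h1, h1, L.α_N x hx, map_mul, h2, map_ex, adj_apply, mul_assoc]
  rw [← lg_ex L.F (L.mem (g * x * g⁻¹)), h4, ← map_lg, lg_ex L.F (hα g x), adj_apply]

end Lin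

end Vale.Agent.P188.MB
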