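import Vale.Agent.P188.MBTri

/-! The theorem of Malcev in Engel form. -/

namespace Vale.Agent.P188.MB

section
variable {G : Type*} [Group G]

/-- additive characters of a subgroup, extended by zero -/
def MBMalV (K : Subgroup G) : Submodule ℂ (G → ℂ) where
  carrier := {l | (∀ a ∈ K, ∀ b ∈ K, l (a * b) = l a + l b) ∧ ∀ a ∉ K, l a = 0}
  add_mem' := fun {l l'} h h' => ⟨fun a ha b hb => by
    simp only [Pi.add_apply, h.1 a ha b hb, h'.1 a ha b hb]
    ring, fun a ha => by simp [h.2 a ha, h'.2 a ha]⟩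
  zero_mem' := ⟨fun _ _ _ _ => by simp, fun _ _ => rfl⟩
  smul_mem' := fun c l h => ⟨fun a ha b hb => by
    simp only [Pi.smul_apply, h.1 a ha b hb, smul_add], fun a ha => by simp [h.2 a ha]⟩

variable {K : Subgroup G}

theorem MBMal_one (l : MBMalV K) : l.1 1 = 0 := by
  have := l.2.1 1 K.one_mem 1 K.one_mem
  rw [mul_one] at this
  exact left_eq_add.1 this

theorem MBMal_inv (l : MBMalV K) {a : G} (ha : a ∈ K) : l.1 a⁻¹ = -l.1 a := by
  have := l.2.1 a ha a⁻¹ (K.inv_mem ha)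
  rw [mul_inv_cancel, MBMal_one] at this
  exact eq_neg_of_add_eq_zero_right this.symm

theorem MBMal_fin (hK : K.FG) : FiniteDimensional ℂ (MBMalV K) := by
  obtain ⟨S, hS⟩ := hK
  refine Module.Finite.of_injective (LinearMap.funLeft ℂ ℂ (fun s : S => (s : G)) ∘ₗ
    (MBMalV K).subtype) ((injective_iff_map_eq_zero _).2 fun l hl => Subtype.ext (funext fun a => ?_))
  by_cases ha : a ∈ K
  · rw [← hS] at ha
    induction ha using Subgroup.closure_induction with
    | mem x hx => exact congrFun hl ⟨x, hx⟩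
    | one => exact MBMal_one l
    | mul x y hx hy h1 h2 =>
      rw [l.2.1 x (hS ▸ hx) y (hS ▸ hy), h1, h2]
      exact add_zero _
    | inv x hx h1 =>
      rw [MBMal_inv l (hS ▸ hx), h1]
      exact neg_zero
  · exact l.2.2 a ha

/-- the action by conjugation -/
def MBMalT (hK : K.Normal) : G →* Module.End ℂ (MBMalV K) where
  toFun g :=
    { toFun := fun l => ⟨fun y => l.1 (g⁻¹ * y * g), fun a ha b hb => by
        rw [← l.2.1 _ (hK.conj_mem' a ha g) _ (hK.conj_mem' b hb g)]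
        group, fun a ha => l.2.2 _ fun h => ha (by simpa [mul_assoc] using hK.conj_mem _ h g)⟩
      map_add' := fun _ _ => rfl
      map_smul' := fun _ _ => rfl }
  map_one' := by
    ext l y
    simp
  map_mul' g h := by
    ext l y
    simp [mul_assoc]

/-- the common kernel of the characters -/
def MBMalD (K : Subgroup G) : Subgroup G where
  carrier := {y | y ∈ K ∧ ∀ l : MBMalV K, l.1 y = 0}
  mul_mem' := fun {a b} ha hb => ⟨K.mul_mem ha.1 hb.1, fun l => by
    rw [l.2.1 a ha.1 b hb.1, ha.2, hb.2, add_zero]⟩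
  one_mem' := ⟨K.one_mem, MBMal_one⟩
  inv_mem' := fun {a} ha => ⟨K.inv_mem ha.1, fun l => by rw [MBMal_inv l ha.1, ha.2, neg_zero]⟩

theorem MBMal_normal (hK : K.Normal) : (MBMalD K).Normal :=
  ⟨fun y hy g => ⟨hK.conj_mem y hy.1 g, fun l => by
    have := hy.2 (MBMalT hK g⁻¹ l)
    rwa [show (MBMalT hK g⁻¹ l).1 y = l.1 (g⁻¹⁻¹ * y * g⁻¹) from rfl, inv_inv] at this⟩⟩

theorem MBMal_mem (hK : K.Normal) (x : G) (r : ℕ) {y : G} (hy : y ∈ K) : (cm x)^[r] y ∈ K := by
  induction r with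
  | zero => exact hy
  | succ r ih =>
    rw [Function.iterate_succ_apply']
    exact K.mul_mem (hK.conj_mem _ ih x) (K.inv_mem ih)

theorem MBMal_iter (hK : K.Normal) (x : G) (r : ℕ) {y : G} (hy : y ∈ K) (l : MBMalV K) :
    l.1 ((cm x)^[r] y) = (((MBMalT hK x⁻¹ - 1) ^ r) l).1 y := by
  induction r generalizing l with
  | zero => rfl
  | succ r ih =>
    have h := MBMal_mem hK x r hy
    rw [Function.iterate_succ_apply', pow_succ, Module.End.mul_apply, ← ih, cm,
      l.2.1 _ (hK.conj_mem _ h x) _ (K.inv_mem h), MBMal_inv l h, ← sub_eq_add_neg]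
    exact congrArg (fun z => l.1 (z * _ * x⁻¹) - _) (inv_inv x).symm

theorem MBMal_step (hG : Polycyclic G) (hK : K.Normal) : ∃ H : Subgroup G, H.FiniteIndex ∧
    ∀ x ∈ ⁅H, H⁆, ∃ r : ℕ, ∀ y ∈ K, (cm x)^[r] y ∈ MBMalD K := by
  have := MBMal_fin ((Group.fg_iff_subgroup_fg K).1
    (hG.of_injective K.subtype K.subtype_injective).fg)
  obtain ⟨H, h1, h2⟩ := exists_unip hG (MBMalT hK)
  refine ⟨H, h1, fun x hx => ?_⟩
  obtain ⟨r, hr⟩ := h2 x⁻¹ (Subgroup.inv_mem _ hx)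
  exact ⟨r, fun y hy => ⟨MBMal_mem hK x r hy, fun l => by rw [MBMal_iter hK x r hy, hr]; rfl⟩⟩

theorem MBMal_le {A B : Subgroup G} (hK : K ≤ B) (φ : B →* Multiplicative ℤ)
    (hφ : φ.ker = A.subgroupOf B) : MBMalD K ≤ A := fun y hy => by
  classical
  have h := hy.2 ⟨fun a => if ha : a ∈ K then ((φ ⟨a, hK ha⟩).toAdd : ℂ) else 0,
    fun a ha b hb => by
      beta_reduce
      rw [dif_pos ha, dif_pos hb, dif_pos (K.mul_mem ha hb), ← Int.cast_add, ← toAdd_mul,
        ← map_mul]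
      rfl, fun a ha => dif_neg ha⟩
  have h1 : (⟨y, hK hy.1⟩ : B) ∈ φ.ker := by
    simpa [hy.1] using h
  rwa [hφ] at h1

end

theorem exists_engel {G : Type*} [Group G] (hG : PolyZ G) :
    ∃ H : Subgroup G, H.FiniteIndex ∧ ∀ x ∈ ⁅H, H⁆, Engel x := by
  have hP := hG.polycyclic
  obtain ⟨m, s, h0, hm, hs⟩ := hG
  have key : ∀ j ≤ m, ∀ K : Subgroup G, K.Normal → K ≤ s j → ∃ H : Subgroup G, H.FiniteIndex ∧
      ∀ x ∈ ⁅H, H⁆, ∃ r : ℕ, ∀ y ∈ K, (cm x)^[r] y = 1 := by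
    intro j
    induction j with
    | zero =>
      refine fun _ K _ hK => ⟨⊤, inferInstance, fun x _ => ⟨0, fun y hy => ?_⟩⟩
      exact Subgroup.mem_bot.1 (h0 ▸ hK hy)
    | succ j ih =>
      intro hj K hn hK
      obtain ⟨-, φ, hφ⟩ := hs j hj
      obtain ⟨H, a1, a2⟩ := MBMal_step hP hn
      obtain ⟨H', b1, b2⟩ := ih (Nat.le_of_succ_le hj) _ (MBMal_normal hn) (MBMal_le hK φ hφ)
      refine ⟨H ⊓ H', inferInstance, fun x hx => ?_⟩
      obtain ⟨r, hr⟩ := a2 x (Subgroup.commutator_mono inf_le_left inf_le_left hx)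
      obtain ⟨r', hr'⟩ := b2 x (Subgroup.commutator_mono inf_le_right inf_le_right hx)
      exact ⟨r' + r, fun y hy => by rw [Function.iterate_add_apply, hr' _ (hr y hy)]⟩
  obtain ⟨H, h1, h2⟩ := key m le_rfl ⊤ inferInstance hm.ge
  exact ⟨H, h1, fun x hx => (h2 x hx).imp fun r hr y => hr y trivial⟩

end Vale.Agent.P188.MB
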