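import Vale.Agent.P188.MBUni
import Vale.Agent.P188.Grp

/-! The model of the linear data. -/

namespace Vale.Agent.P188.MB

theorem exists_mdl {A : Type} [NormedRing A] [NormedAlgebra ℝ A] [FiniteDimensional ℝ A]
    (F : Filt A) {N : ℕ} (e : (Fin N → ℝ) →ₗ[ℝ] A) (inj : Function.Injective e)
    (mem : ∀ x, e x ∈ F.J 1) (lie : ∀ x y, ∃ z, e z = e x * e y - e y * e x)
    (ω : (Fin N → ℝ) →ₗ[ℝ] (Fin N → ℝ)) (D : (Fin N → ℝ) → A →ₐ[ℝ] A)
    (hD : ∀ x y, D x (e y) = e fun i => Real.exp (ω x i) * y i)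
    (h1 : ∀ x y z, e z = e x * e y - e y * e x → ω z = 0)
    (h2 : ∀ i, (∀ x, ω x i = 0) ∨ ω (Pi.single i 1) = 0) (h3 : ∀ x, ∑ i, ω x i = 0) :
    ∃ (M : Mdl) (Φ : M.V ≃ₗ[ℝ] (Fin N → ℝ)),
      ∀ x y : M.V, e (Φ (x * y)) = bch F.d (e (Φ x)) (D (Φ x) (e (Φ y))) := by
  let ψ : Ht (Module.finrank ℝ (LinearMap.range ω)) ≃ₗ[ℝ] LinearMap.range ω :=
    LinearEquiv.ofFinrankEq _ _ finrank_euclideanSpace_fin
  let t := ψ.symm.toLinearMap ∘ₗ ω.rangeRestrict
  have ht : ∀ x, (ψ (t x)).1 = ω x := fun x => by simp [t]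
  have ht0 : ∀ x, ω x = 0 → t x = 0 := fun x h => ψ.injective (Subtype.ext (by simp [ht, h]))
  have ts : Function.Surjective t := ψ.symm.surjective.comp ω.surjective_rangeRestrict
  choose σ hσ using ts
  let w : Fin N → Ht (Module.finrank ℝ (LinearMap.range ω)) := fun i =>
    (InnerProductSpace.toDual ℝ _).symm (LinearMap.toContinuousLinearMap
      (LinearMap.proj i ∘ₗ (LinearMap.range ω).subtype ∘ₗ ψ.toLinearMap))
  have hw : ∀ i a, inner ℝ (w i) a = ω (σ a) i := fun i a => by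
    rw [← ht, hσ]
    simp [w]
  have hw' : ∀ i x, inner ℝ (w i) (t x) = ω x i := fun i x => by rw [hw, ← ht, hσ, ht]
  let M : Mdl :=
    { A := A, F := F, N := N, k := _, e := e, inj := inj, mem := mem, lie := lie, w := w
      D := fun a => D (σ a)
      D_e := fun a x => by simp only [hD, hw]
      t := t
      t_surj := fun a => ⟨σ a, hσ a⟩
      t_lie := fun x y z h => ht0 z (h1 x y z h)
      t_w := fun i hi => ht0 _ ((h2 i).resolve_left fun h => hi
        (ext_inner_right ℝ fun a => by rw [hw, h, inner_zero_left]))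
      uni := ext_inner_right ℝ fun a => by simp only [sum_inner, hw, h3, inner_zero_left]
      eff := fun a h => by
        rw [← hσ a]
        exact ht0 _ (funext fun i => (hw i a).symm.trans (h i)) }
  refine ⟨M, LinearEquiv.refl ℝ _, fun x y => ?_⟩
  refine (Mdl.em_st (M := M) x _).trans (congrArg (bch F.d (e x)) ?_)
  refine Eq.trans (congrArg e (funext fun i => ?_)) (hD x y).symm
  exact congrArg (fun r => Real.exp r * y i) (hw' i x)

theorem Lin.exists_mdl {G : Type*} [Group G] (L : Lin G) :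
    ∃ (M : Mdl) (Φ : M.V ≃ₗ[ℝ] L.m), ∀ x y : M.V,
      (Φ (x * y) : L.A) = bch L.F.d (Φ x : L.A) (L.D (L.l (Φ x)) (Φ y)) := by
  obtain ⟨N, b, w, h⟩ := L.exists_wt
  let e : (Fin N → ℝ) →ₗ[ℝ] L.A := L.m.subtype ∘ₗ b.equivFun.symm.toLinearMap
  have he : ∀ x, e x = b.equivFun.symm x := fun _ => rfl
  have hm : ∀ x, e x ∈ L.m := fun x => (b.equivFun.symm x).2
  have hs : ∀ x, e x = ∑ i, x i • (b i : L.A) := fun x => by simp [he]
  let ω : (Fin N → ℝ) →ₗ[ℝ] (Fin N → ℝ) := LinearMap.pi fun i => w i ∘ₗ L.l ∘ₗ e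
  have hω : ∀ x i, ω x i = w i (L.l (e x)) := fun _ _ => rfl
  have h0 : ∀ x, L.l (e x) = 0 → ω x = 0 := fun x h => funext fun i => by
    rw [hω, h, map_zero, Pi.zero_apply]
  obtain ⟨M, Φ, hΦ⟩ := MB.exists_mdl L.F e (L.m.injective_subtype.comp b.equivFun.symm.injective)
    (fun x => L.m_le (hm x))
    (fun x y => ⟨b.equivFun ⟨_, L.n_le (L.br_mem _ (hm x) _ (hm y))⟩, by
      rw [he, LinearEquiv.symm_apply_apply]⟩) ω (fun x => L.D (L.l (e x)))
    (fun x y => by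
      rw [hs y, hs fun i => _ * y i, map_sum]
      exact Finset.sum_congr rfl fun i _ => by
        rw [map_smul, (h i).1 _ (hm x), smul_smul, mul_comm, hω])
    (fun x y z hz => h0 z (L.l_n _ (hz ▸ L.br_mem _ (hm x) _ (hm y))))
    (fun i => (h i).2.imp (fun h1 x => by rw [hω, h1, LinearMap.zero_apply])
      fun h1 => h0 _ (by simpa [hs, Pi.single_apply] using h1))
    fun x => L.uni h _ (hm x)
  exact ⟨M, Φ.trans b.equivFun.symm, hΦ⟩

end Vale.Agent.P188.MB
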