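import Vale.Agent.P188.MBAug

/-! The step inside the unipotent subgroup. -/

namespace Vale.Agent.P188.MB

/-- the difference operator -/
def MBNilpD {R : Type*} [Ring R] (σ : R →ₐ[ℤ] R) : Module.End ℤ R := σ.toLinearMap - 1

theorem MBNilpD_apply {R : Type*} [Ring R] (σ : R →ₐ[ℤ] R) (a : R) : MBNilpD σ a = σ a - a := rfl

theorem MBNilp_iter {R : Type*} [Ring R] (σ : R →ₐ[ℤ] R) (t : ℕ) (a : R) :
    (fun a => σ a - a)^[t] a = (MBNilpD σ ^ t) a := by
  rw [Module.End.pow_apply]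
  rfl

theorem MBNilp_succ {R : Type*} [Ring R] (σ : R →ₐ[ℤ] R) (t : ℕ) (a : R) :
    (MBNilpD σ ^ (t + 1)) a = (MBNilpD σ ^ t) (MBNilpD σ a) := by
  rw [pow_succ, Module.End.mul_apply]

theorem MBNilp_pres {R : Type*} [Ring R] {K : Submodule ℤ R} (σ : R →ₐ[ℤ] R)
    (hσ : ∀ a ∈ K, σ a ∈ K) (n : ℕ) : ∀ a ∈ K ^ (n + 1), σ a ∈ K ^ (n + 1) := by
  induction n with
  | zero => simpa using hσ
  | succ n ih =>
    intro a ha
    rw [pow_succ] at ha ⊢
    refine Submodule.mul_induction_on ha (fun m hm k hk => ?_) (fun u v hu hv => ?_)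
    · rw [map_mul]
      exact Submodule.mul_mem_mul (ih m hm) (hσ k hk)
    · rw [map_add]
      exact add_mem hu hv

theorem MBNilp_presD {R : Type*} [Ring R] {L : Submodule ℤ R} (σ : R →ₐ[ℤ] R)
    (hσ : ∀ a ∈ L, σ a ∈ L) (t : ℕ) : ∀ a ∈ L, (MBNilpD σ ^ t) a ∈ L := by
  induction t with
  | zero => intro a ha; simpa using ha
  | succ t ih =>
    intro a ha
    rw [MBNilp_succ]
    exact ih _ (sub_mem (hσ a ha) ha)

theorem MBNilp_comm {R : Type*} [Ring R] (σ τ : R →ₐ[ℤ] R) (h : ∀ a, σ (τ a) = τ (σ a)) (t : ℕ) :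
    ∀ a, (MBNilpD σ ^ t) (τ a) = τ ((MBNilpD σ ^ t) a) := by
  induction t with
  | zero => intro a; simp
  | succ t ih =>
    intro a
    rw [MBNilp_succ, MBNilp_succ, ← ih, MBNilpD_apply, MBNilpD_apply, map_sub τ, h]

theorem MBNilp_prod {R : Type*} [Ring R] {K : Submodule ℤ R} (σ : R →ₐ[ℤ] R)
    (hσ : ∀ a ∈ K, σ a ∈ K) (j n : ℕ) : ∀ s t : ℕ, s + t = n → ∀ a ∈ K ^ (j + 1), ∀ b ∈ K,
      (MBNilpD σ ^ s) a ∈ K ^ (j + 2) → (MBNilpD σ ^ t) b ∈ K ^ 2 →
      (MBNilpD σ ^ n) (a * b) ∈ K ^ (j + 3) := by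
  have P := MBNilp_presD σ (MBNilp_pres σ hσ (j + 2))
  induction n with
  | zero =>
    intro s t h a _ b hb h1 _
    obtain rfl : s = 0 := by omega
    refine P _ _ ?_
    rw [pow_succ]
    exact Submodule.mul_mem_mul (by simpa using h1) hb
  | succ n ih =>
    intro s t h a ha b hb h1 h2
    rcases s with _ | s
    · refine P _ _ ?_
      rw [pow_succ]
      exact Submodule.mul_mem_mul (by simpa using h1) hb
    rcases t with _ | t
    · refine P _ _ ?_
      rw [show j + 2 + 1 = (j + 1) + 2 by omega, pow_add]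
      exact Submodule.mul_mem_mul ha (by simpa using h2)
    have e : MBNilpD σ (a * b) = MBNilpD σ a * σ b + a * MBNilpD σ b := by
      simp only [MBNilpD_apply, map_mul]
      noncomm_ring
    rw [MBNilp_succ, e, map_add]
    refine add_mem (ih s (t + 1) (by omega) _ ?_ _ (hσ b hb) ?_ ?_)
      (ih (s + 1) t (by omega) _ ha _ ?_ h1 ?_)
    · exact sub_mem (MBNilp_pres σ hσ j a ha) ha
    · rwa [← MBNilp_succ]
    · rw [MBNilp_comm σ σ (fun _ => rfl)]
      exact MBNilp_pres σ hσ 1 _ h2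
    · exact sub_mem (hσ b hb) hb
    · rwa [← MBNilp_succ]

/-- a unipotent automorphism of the first graded piece is unipotent on all graded pieces -/
theorem unip_pow {R : Type*} [Ring R] {K : Submodule ℤ R} (hK : Two K) (σ : R →ₐ[ℤ] R)
    (hσ : ∀ a ∈ K, σ a ∈ K) {r : ℕ} (hr : ∀ a ∈ K, (fun a => σ a - a)^[r] a ∈ K ^ 2) (j : ℕ) :
    ∃ t : ℕ, ∀ a ∈ K ^ (j + 1), (fun a => σ a - a)^[t] a ∈ K ^ (j + 2) := by
  have _ := hK
  simp only [MBNilp_iter] at hr ⊢
  induction j with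
  | zero => exact ⟨r, by simpa using hr⟩
  | succ j ih =>
    obtain ⟨t, ht⟩ := ih
    refine ⟨t + r, fun a ha => ?_⟩
    rw [pow_succ] at ha
    refine Submodule.mul_induction_on ha (fun m hm k hk => ?_) (fun u v hu hv => ?_)
    · exact MBNilp_prod σ hσ j _ t r rfl m hm k hk (ht m hm) (hr k hk)
    · rw [map_add]
      exact add_mem hu hv

theorem MBNilp_anti {R : Type*} [Ring R] {K : Submodule ℤ R} (hK : Two K) (j : ℕ) :
    ∀ a ∈ K ^ (j + 2), a ∈ K ^ (j + 1) := by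
  intro a ha
  rw [pow_succ] at ha
  refine Submodule.mul_induction_on ha (fun m hm k _ => ?_) (fun u v hu hv => add_mem hu hv)
  exact ((hK.pow j) k m hm).2

section
variable {G : Type*} [Group G] {φ : G →* Multiplicative ℤ} {x : G}

/-- the difference operator of the conjugation -/
noncomputable def MBNilpE (φ : G →* Multiplicative ℤ) (x : G) : Module.End ℤ (ZG φ.ker) :=
  (sg φ x).toLinearMap - 1

theorem MBNilpE_apply (a : ZG φ.ker) : MBNilpE φ x a = sg φ x a - a := rfl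

theorem MBNilpE_succ (t : ℕ) (a : ZG φ.ker) :
    (MBNilpE φ x ^ (t + 1)) a = (MBNilpE φ x ^ t) (MBNilpE φ x a) := by
  rw [pow_succ, Module.End.mul_apply]

theorem MBNilpE_iter (t : ℕ) (a : ZG φ.ker) :
    (fun a => sg φ x a - a)^[t] a = (MBNilpE φ x ^ t) a := by
  rw [Module.End.pow_apply]
  rfl

theorem MBNilpE_pres {L : Submodule ℤ (ZG φ.ker)} (hσ : ∀ a ∈ L, sg φ x a ∈ L) (t : ℕ) :
    ∀ a ∈ L, (MBNilpE φ x ^ t) a ∈ L := by
  induction t with
  | zero => intro a ha; simpa using ha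
  | succ t ih =>
    intro a ha
    rw [MBNilpE_succ]
    exact ih _ (sub_mem (hσ a ha) ha)

theorem MBNilpE_comm (k : ℤ) (t : ℕ) :
    ∀ a, (MBNilpE φ x ^ t) (sg φ (x ^ k) a) = sg φ (x ^ k) ((MBNilpE φ x ^ t) a) := by
  induction t with
  | zero => intro a; simp
  | succ t ih =>
    intro a
    rw [MBNilpE_succ, MBNilpE_succ, ← ih, MBNilpE_apply, MBNilpE_apply, map_sub (sg φ (x ^ k)),
      ← sg_mul, ← sg_mul, (Commute.self_zpow x k).eq]

theorem MBNilp_og {H : Type*} [Group H] (n : H) : og n - 1 ∈ aug (⊤ : Subgroup H) :=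
  og_sub_mem (Subgroup.mem_top n)

theorem MBNilp_sg (g : G) : ∀ a ∈ aug (⊤ : Subgroup φ.ker), sg φ g a ∈ aug (⊤ : Subgroup φ.ker) := by
  intro a ha
  refine Submodule.span_induction (fun a ha => ?_) ?_ (fun u v _ _ hu hv => ?_)
    (fun c u _ hu => ?_) ha
  · obtain ⟨y, n, -, rfl⟩ := ha
    rw [map_mul, map_sub, map_one, sg_og, sg_og]
    exact (two_aug ⊤ _ _ (MBNilp_og _)).1
  · simp
  · rw [map_add]
    exact add_mem hu hv
  · rw [map_smul]
    exact Submodule.smul_mem _ _ hu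

theorem MBNilp_sub (g : G) (a : ZG φ.ker) : sg φ g a - a ∈ aug (⊤ : Subgroup φ.ker) := by
  induction a using MonoidAlgebra.induction_on with
  | of y =>
    change sg φ g (og y) - og y ∈ _
    rw [sg_og, show og (cK φ g y) - og y = (og (cK φ g y) - 1) - (og y - 1) by abel]
    exact sub_mem (MBNilp_og _) (MBNilp_og _)
  | add u v hu hv =>
    rw [map_add, show sg φ g u + sg φ g v - (u + v) = (sg φ g u - u) + (sg φ g v - v) by abel]
    exact add_mem hu hv
  | smul c u hu =>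
    rw [map_smul, ← smul_sub]
    exact Submodule.smul_mem _ _ hu

theorem MBNilp_engel (hE : Engel x⁻¹) : ∃ r : ℕ, ∀ a ∈ aug (⊤ : Subgroup φ.ker),
    (MBNilpE φ x ^ r) a ∈ aug (⊤ : Subgroup φ.ker) ^ 2 := by
  obtain ⟨r, hr⟩ := hE
  have P := MBNilpE_pres (φ := φ) (x := x) (sg_pow_mem MBNilp_sg (1 + 1) x)
  have M : ∀ y n : φ.ker, (og y - 1) * (og n - 1) ∈ aug (⊤ : Subgroup φ.ker) ^ (1 + 1) := by
    intro y n
    rw [pow_succ, pow_one]
    exact Submodule.mul_mem_mul (MBNilp_og _) (MBNilp_og _)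
  let c : φ.ker → φ.ker := fun n => cK φ x n * n⁻¹
  have hc : ∀ (i : ℕ) (n : φ.ker), (c^[i] n : G) = (cm x⁻¹)^[i] n := by
    intro i
    induction i with
    | zero => intro n; rfl
    | succ i ih =>
      intro n
      rw [Function.iterate_succ_apply, Function.iterate_succ_apply, ih]
      congr 1
  have key : ∀ (i : ℕ) (n : φ.ker), (MBNilpE φ x ^ i) (og n - 1) - (og (c^[i] n) - 1) ∈
      aug (⊤ : Subgroup φ.ker) ^ (1 + 1) := by
    intro i
    induction i with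
    | zero => intro n; simp
    | succ i ih =>
      intro n
      have e : MBNilpE φ x (og n - 1) = (og (c n) - 1) + (og (c n) - 1) * (og n - 1) := by
        have : og (c n) * og n = og (cK φ x n) := by
          rw [← map_mul]
          simp [c]
        rw [MBNilpE_apply, map_sub, map_one, sg_og, ← this]
        noncomm_ring
      rw [MBNilpE_succ, e, map_add, Function.iterate_succ_apply, add_sub_right_comm]
      exact add_mem (ih _) (P _ _ (M _ _))
  refine ⟨r, fun a ha => ?_⟩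
  refine Submodule.span_induction (fun a ha => ?_) ?_ (fun u v _ _ hu hv => ?_)
    (fun c u _ hu => ?_) ha
  · obtain ⟨y, n, -, rfl⟩ := ha
    have h1 : c^[r] n = 1 := Subtype.ext (by rw [hc, hr]; rfl)
    have h2 := key r n
    rw [h1, map_one, sub_self, sub_zero] at h2
    rw [show og y * (og n - 1) = (og n - 1) + (og y - 1) * (og n - 1) by noncomm_ring, map_add]
    exact add_mem h2 (P _ _ (M _ _))
  · simp
  · rw [map_add]
    exact add_mem hu hv
  · rw [map_smul]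
    exact Submodule.smul_mem _ _ hu

/-- the finer filtration -/
noncomputable def MBNilpW (φ : G →* Multiplicative ℤ) (x : G) (j i : ℕ) : Submodule ℤ (ZG φ.ker) :=
  aug (⊤ : Subgroup φ.ker) ^ (j + 1) ⊓
    (aug (⊤ : Subgroup φ.ker) ^ (j + 2)).comap (MBNilpE φ x ^ i)

theorem MBNilpW_sg (j i : ℕ) (k : ℤ) {a : ZG φ.ker} (ha : a ∈ MBNilpW φ x j i) :
    sg φ (x ^ k) a ∈ MBNilpW φ x j i := by
  refine ⟨sg_pow_mem MBNilp_sg (j + 1) _ a ha.1, ?_⟩
  change (MBNilpE φ x ^ i) (sg φ (x ^ k) a) ∈ aug (⊤ : Subgroup φ.ker) ^ (j + 2)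
  rw [MBNilpE_comm]
  exact sg_pow_mem MBNilp_sg (j + 2) _ _ ha.2

theorem MBNilpW_D (j i : ℕ) {a : ZG φ.ker} (ha : a ∈ MBNilpW φ x j (i + 1)) :
    sg φ x a - a ∈ MBNilpW φ x j i := by
  refine ⟨sub_mem (sg_pow_mem MBNilp_sg (j + 1) _ a ha.1) ha.1, ?_⟩
  change (MBNilpE φ x ^ i) (MBNilpE φ x a) ∈ aug (⊤ : Subgroup φ.ker) ^ (j + 2)
  rw [← MBNilpE_succ]
  exact ha.2

theorem MBNilpW_zpow (j i : ℕ) (k : ℤ) {a : ZG φ.ker} (ha : a ∈ MBNilpW φ x j (i + 1)) :
    sg φ (x ^ k) a - a ∈ MBNilpW φ x j i := by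
  induction k using Int.induction_on with
  | zero => simp [sg_one]
  | succ k ih =>
    rw [zpow_add_one, sg_mul, ← sub_add_sub_cancel _ (sg φ (x ^ (k : ℤ)) a)]
    exact add_mem (MBNilpW_D j i (MBNilpW_sg j _ _ ha)) ih
  | pred k ih =>
    have e : sg φ (x ^ (-(k : ℤ))) a = sg φ x (sg φ (x ^ (-(k : ℤ) - 1)) a) := by
      rw [← sg_mul, ← zpow_add_one, sub_add_cancel]
    have h := sub_mem ih (MBNilpW_D j i (MBNilpW_sg j _ (-(k : ℤ) - 1) ha))
    rwa [← e, show sg φ (x ^ (-(k : ℤ))) a - a - (sg φ (x ^ (-(k : ℤ))) a -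
      sg φ (x ^ (-(k : ℤ) - 1)) a) = sg φ (x ^ (-(k : ℤ) - 1)) a - a by abel] at h

theorem MBNilp_act (hx : φ x = Multiplicative.ofAdd 1) (g : G) (a : ZG φ.ker) :
    act hx g a - a = sg φ (x ^ (φ g).toAdd) a * (og (kp hx g) - 1) +
      (sg φ (x ^ (φ g).toAdd) a - a) := by
  rw [act_apply]
  noncomm_ring

theorem MBNilp_stab (hx : φ x = Multiplicative.ofAdd 1) (j : ℕ) (l : List G) :
    ∀ a ∈ aug (⊤ : Subgroup φ.ker) ^ (j + 1),
      l.foldl (fun a g => act hx g a - a) a ∈ aug (⊤ : Subgroup φ.ker) ^ (j + 1) := by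
  induction l with
  | nil => intro a ha; exact ha
  | cons g l ih =>
    intro a ha
    refine ih _ (sub_mem ?_ ha)
    rw [act_apply]
    exact ((two_aug ⊤).pow j _ _ (sg_pow_mem MBNilp_sg (j + 1) _ a ha)).2

theorem MBNilp_run (hx : φ x = Multiplicative.ofAdd 1) (j : ℕ) (l : List G) :
    ∀ i ≤ l.length, ∀ a ∈ MBNilpW φ x j i,
      l.foldl (fun a g => act hx g a - a) a ∈ aug (⊤ : Subgroup φ.ker) ^ (j + 2) := by
  induction l with
  | nil =>
    intro i hi a ha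
    obtain rfl : i = 0 := by simpa using hi
    simpa using ha.2
  | cons g l ih =>
    intro i hi a ha
    rcases i with _ | i
    · exact MBNilp_stab hx (j + 1) _ a (by simpa using ha.2)
    refine ih i (by simpa using hi) (act hx g a - a) ?_
    rw [MBNilp_act]
    refine add_mem ?_ (MBNilpW_zpow j i _ ha)
    have h : sg φ (x ^ (φ g).toAdd) a * (og (kp hx g) - 1) ∈
        aug (⊤ : Subgroup φ.ker) ^ (j + 2) := by
      rw [pow_succ]
      exact Submodule.mul_mem_mul (sg_pow_mem MBNilp_sg (j + 1) _ a ha.1) (MBNilp_og _)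
    exact ⟨MBNilp_anti (two_aug ⊤) j _ h,
      MBNilpE_pres (sg_pow_mem MBNilp_sg (j + 2) x) i _ h⟩

end

theorem step_nil {G : Type*} [Group G] {φ : G →* Multiplicative ℤ} {x : G}
    (hx : φ x = Multiplicative.ofAdd 1) [Group.FG φ.ker] (hE : Engel x⁻¹)
    (h : IRep φ.ker ⊤) : IRep G ⊤ := by
  obtain ⟨d, s, ψ, hψ, hs⟩ := h.exists_alg
  obtain ⟨r, hr⟩ := MBNilp_engel (φ := φ) hE
  have key : ∀ j : ℕ, ∃ t : ℕ, ∀ l : List G, t ≤ l.length → ∀ a,
      l.foldl (fun a g => act hx g a - a) a ∈ aug (⊤ : Subgroup φ.ker) ^ (j + 1) := by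
    intro j
    induction j with
    | zero =>
      refine ⟨1, fun l hl a => ?_⟩
      rcases l with _ | ⟨g, l⟩
      · simp at hl
      refine MBNilp_stab hx 0 l (act hx g a - a) ?_
      rw [zero_add, pow_one, MBNilp_act]
      exact add_mem (two_aug ⊤ _ _ (MBNilp_og _)).1 (MBNilp_sub _ _)
    | succ j ih =>
      obtain ⟨t, ht⟩ := ih
      obtain ⟨t', ht'⟩ := unip_pow (two_aug ⊤) (sg φ x) (MBNilp_sg x) (r := r)
        (fun a ha => (MBNilpE_iter r a).symm ▸ hr a ha) j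
      refine ⟨t + t', fun l hl a => ?_⟩
      rw [← List.take_append_drop t l, List.foldl_append]
      have h1 := ht (l.take t) (by rw [List.length_take]; omega) a
      refine MBNilp_run hx j _ t' (by rw [List.length_drop]; omega) _ ⟨h1, ?_⟩
      have h2 : (fun a => sg φ x a - a)^[t'] _ ∈ aug (⊤ : Subgroup φ.ker) ^ (j + 2) := ht' _ h1
      rwa [MBNilpE_iter] at h2
  obtain ⟨t, ht⟩ := key s
  exact swan_core hx (two_aug ⊤) cof_aug_top MBNilp_sg ψ hψ hs ⊤ t fun l _ hl a => ht l hl a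

end Vale.Agent.P188.MB
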