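import Vale.Agent.P188.MBNilp

/-! The theorem of Auslander and Swan. -/

namespace Vale.Agent.P188.MB

variable {G : Type*} [Group G]

theorem MBSwan_inc {K K' : Subgroup G} {φ : K' →* Multiplicative ℤ}
    (h : φ.ker = K.subgroupOf K') : ∃ j : φ.ker →* K, Function.Injective j ∧
      ∀ y, (j y : G) = ((y : K') : G) := by
  refine ⟨(K'.subtype.comp φ.ker.subtype).codRestrict K fun y => ?_, fun y z e => ?_,
    fun _ => rfl⟩
  · exact h.le y.2
  · have e' := congrArg Subtype.val e
    exact Subtype.ext (Subtype.ext e')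

theorem MBSwan_fg (hG : Polycyclic G) {K' : Subgroup G} (φ : K' →* Multiplicative ℤ) :
    Group.FG φ.ker :=
  (hG.of_injective (K'.subtype.comp φ.ker.subtype)
    (K'.subtype_injective.comp φ.ker.subtype_injective)).fg

theorem swan_nil (hG : PolyZ G) (hE : ∀ x : G, Engel x) : IRep G ⊤ := by
  have h := polyZ_ind hG (MonoidHom.id G) (fun K => IRep K ⊤) ?_ ?_
  · exact h.of_injective (Subgroup.topEquiv (G := G)).symm.toMonoidHom
      (Subgroup.topEquiv (G := G)).symm.injective
      fun _ _ => Subgroup.mem_top _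
  · refine ⟨0, 0, 1, fun a b _ => Subtype.ext ?_, fun _ _ _ => Subsingleton.elim _ _⟩
    have ha : (a : G) = 1 := a.2
    have hb : (b : G) = 1 := b.2
    rw [ha, hb]
  · intro K K' _ _ φ x hx hk hK
    obtain ⟨j, hj, -⟩ := MBSwan_inc hk
    have := MBSwan_fg hG.polycyclic φ
    exact step_nil hx (Engel.of_injective K'.subtype K'.subtype_injective (hE _))
      (hK.of_injective j hj fun _ _ => Subgroup.mem_top _)

theorem swan_top {Q : Type*} [Group Q] (hQ : PolyZ Q) (hG : Polycyclic G) (f : G →* Q)
    (hc : commutator G ≤ f.ker) (h : IRep f.ker ⊤) : IRep G f.ker := by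
  have h1 := polyZ_ind hQ f (fun K => IRep K (f.ker.subgroupOf K)) ?_ ?_
  · exact h1.of_injective (Subgroup.topEquiv (G := G)).symm.toMonoidHom
      (Subgroup.topEquiv (G := G)).symm.injective
      fun _ hn => hn
  · exact h.of_injective (MonoidHom.id _) Function.injective_id fun _ _ => Subgroup.mem_top _
  · intro K K' h0 _ φ x hx hk hK
    obtain ⟨j, hj, e⟩ := MBSwan_inc hk
    have := MBSwan_fg hG φ
    refine step_top hx (f.ker.subgroupOf K') (fun y hy => ?_) ?_
      (hK.of_injective j hj fun n hn => ?_)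
    · rw [hk]
      exact h0 hy
    · rw [commutator_def, Subgroup.commutator_le]
      intro a _ b _
      exact hc (Subgroup.commutator_mem_commutator (Subgroup.mem_top (a : G))
        (Subgroup.mem_top (b : G)))
    · rw [Subgroup.mem_subgroupOf, e]
      exact hn

theorem swan (hG : PolyZ G) (hE : ∀ x ∈ commutator G, Engel x) :
    ∃ H : Subgroup G, H.FiniteIndex ∧
      ∃ (d : ℕ) (ρ : H →* Matrix (Fin d) (Fin d) ℤ), Function.Injective ρ := by
  obtain ⟨K, hK, hz⟩ := (hG.polycyclic.of_surjective (QuotientGroup.mk' (commutator G))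
    (QuotientGroup.mk'_surjective _)).exists_polyZ
  have hN : IRep (commutator G) ⊤ :=
    swan_nil (hG.of_injective (commutator G).subtype (commutator G).subtype_injective) fun x =>
      Engel.of_injective (commutator G).subtype (commutator G).subtype_injective (hE x x.2)
  obtain ⟨f, hf⟩ : ∃ f : K.comap (QuotientGroup.mk' (commutator G)) →* K,
      ∀ y, y ∈ f.ker ↔ (y : G) ∈ commutator G :=
    ⟨(QuotientGroup.mk' (commutator G)).subgroupComap K, fun y => by
      rw [MonoidHom.mem_ker, ← QuotientGroup.eq_one_iff, Subtype.ext_iff]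
      rfl⟩
  have h := swan_top hz (hG.polycyclic.of_injective (Subgroup.subtype _)
    (Subgroup.subtype_injective _)) f ?_ ?_
  · obtain ⟨d, -, ρ, hρ, -⟩ := h
    exact ⟨_, Poly_fi_comap K _, d, ρ, hρ⟩
  · refine Subgroup.commutator_le.2 fun a _ b _ => ?_
    rw [hf]
    exact Subgroup.commutator_mem_commutator (Subgroup.mem_top (a : G)) (Subgroup.mem_top (b : G))
  · refine hN.of_injective (((Subgroup.subtype _).comp f.ker.subtype).codRestrict _ fun y =>
      (hf _).1 y.2) (fun y z e => ?_) fun _ _ => Subgroup.mem_top _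
    have e' := congrArg Subtype.val e
    exact Subtype.ext (Subtype.ext e')

end Vale.Agent.P188.MB
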