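import Vale.Agent.P188.MBEig

/-! Triangular form for a subgroup of finite index. -/

namespace Vale.Agent.P188.MB

theorem MBTri_step {G V : Type*} [Group G] [AddCommGroup V] [Module ℂ V] [FiniteDimensional ℂ V]
    (hG : Polycyclic G) (ρ : G →* Module.End ℂ V) (U : Submodule ℂ V) (hU : U ≠ ⊤)
    (hinv : ∀ g, U ≤ U.comap (ρ g)) :
    ∃ (H : Subgroup G) (w : V), H.FiniteIndex ∧ w ∉ U ∧ ∀ h ∈ H, ∃ c : ℂ, ρ h w - c • w ∈ U := by
  let σ : G →* Module.End ℂ (V ⧸ U) :=
    { toFun := fun g => U.mapQ U (ρ g) (hinv g)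
      map_one' := by
        refine Submodule.linearMap_qext _ (LinearMap.ext fun x => ?_)
        simp
      map_mul' := fun g h => by
        refine Submodule.linearMap_qext _ (LinearMap.ext fun x => ?_)
        simp }
  haveI : Nontrivial (V ⧸ U) := Submodule.Quotient.nontrivial_iff.2 hU
  obtain ⟨H, v, hH, hv, h⟩ := exists_eigen hG σ
  obtain ⟨w, rfl⟩ := U.mkQ_surjective v
  refine ⟨H, w, hH, fun hw => hv ((Submodule.Quotient.mk_eq_zero U).2 hw), fun g hg => ?_⟩
  obtain ⟨c, hc⟩ := h g hg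
  refine ⟨c, (Submodule.Quotient.eq U).1 ?_⟩
  exact hc

theorem MBTri_ind {G V : Type*} [Group G] [AddCommGroup V] [Module ℂ V] [FiniteDimensional ℂ V]
    (hG : Polycyclic G) (ρ : G →* Module.End ℂ V) (k : ℕ) (hk : k ≤ Module.finrank ℂ V) :
    ∃ (H : Subgroup G) (v : Fin k → V), H.FiniteIndex ∧ LinearIndependent ℂ v ∧
      ∀ h ∈ H, ∀ i, ρ h (v i) ∈ Submodule.span ℂ (v '' {j | j ≤ i}) := by
  induction k with
  | zero => exact ⟨⊤, Fin.elim0, inferInstance, linearIndependent_empty_type, fun _ _ i => i.elim0⟩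
  | succ k ih =>
    obtain ⟨H, v, hH, hv, h⟩ := ih (by omega)
    have hU : Submodule.span ℂ (Set.range v) ≠ ⊤ := by
      intro e
      have h1 := finrank_span_eq_card hv
      rw [e, finrank_top, Fintype.card_fin] at h1
      omega
    have hinv : ∀ g : H, Submodule.span ℂ (Set.range v) ≤
        (Submodule.span ℂ (Set.range v)).comap ((ρ.comp H.subtype) g) := fun g => by
      refine Submodule.span_le.2 ?_
      rintro _ ⟨i, rfl⟩
      exact Submodule.span_mono (Set.image_subset_range _ _) (h g g.2 i)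
    obtain ⟨K, w, hK, hw, hc⟩ := MBTri_step (hG.of_injective H.subtype H.subtype_injective)
      (ρ.comp H.subtype) _ hU hinv
    refine ⟨K.map H.subtype, Fin.snoc v w, Poly_fi_map K, linearIndependent_finSnoc.2 ⟨hv, hw⟩, ?_⟩
    rintro _ ⟨g, hg, rfl⟩ i
    refine Fin.lastCases ?_ (fun i => ?_) i
    · obtain ⟨c, hc⟩ := hc g hg
      rw [Fin.snoc_last]
      have h1 : w ∈ Submodule.span ℂ
          ((Fin.snoc v w : Fin (k + 1) → V) '' {j | j ≤ Fin.last k}) :=
        Submodule.subset_span ⟨Fin.last k, Fin.le_last _, Fin.snoc_last _ _⟩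
      have h2 : Submodule.span ℂ (Set.range v) ≤ Submodule.span ℂ
          ((Fin.snoc v w : Fin (k + 1) → V) '' {j | j ≤ Fin.last k}) := by
        refine Submodule.span_mono ?_
        rintro _ ⟨j, rfl⟩
        exact ⟨j.castSucc, Fin.le_last _, Fin.snoc_castSucc _ _ _⟩
      have h3 := Submodule.add_mem _ (h2 hc) (Submodule.smul_mem _ c h1)
      rw [sub_add_cancel] at h3
      exact h3
    · rw [Fin.snoc_castSucc]
      refine Submodule.span_mono ?_ (h g g.2 i)
      rintro _ ⟨j, hj, rfl⟩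
      exact ⟨j.castSucc, Fin.castSucc_le_castSucc_iff.2 hj, Fin.snoc_castSucc _ _ _⟩

theorem exists_flag {G V : Type*} [Group G] [AddCommGroup V] [Module ℂ V] [FiniteDimensional ℂ V]
    (hG : Polycyclic G) (ρ : G →* Module.End ℂ V) {d : ℕ} (hd : Module.finrank ℂ V = d) :
    ∃ (H : Subgroup G) (b : Module.Basis (Fin d) ℂ V), H.FiniteIndex ∧
      ∀ h ∈ H, LinearMap.toMatrix b b (ρ h) ∈ JJ d 0 := by
  obtain ⟨H, v, hH, hv, h⟩ := MBTri_ind hG ρ d hd.ge
  have hs : ⊤ ≤ Submodule.span ℂ (Set.range v) := by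
    refine (Submodule.eq_top_of_finrank_eq ?_).ge
    rw [finrank_span_eq_card hv, Fintype.card_fin, hd]
  refine ⟨H, Module.Basis.mk hv hs, hH, fun g hg i j hij => ?_⟩
  rw [LinearMap.toMatrix_apply]
  have h1 := h g hg j
  rw [← Module.Basis.coe_mk hv hs] at h1
  have h2 := (Module.Basis.mem_span_image _).1 h1
  by_contra hne
  have h3 : i ≤ j := h2 (Finsupp.mem_support_iff.2 hne)
  have h4 : (i : ℕ) ≤ j := h3
  omega

/-- a multiplicative family of upper triangular matrices has diagonal characters -/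
theorem exists_diag {G : Type*} [Group G] {d : ℕ} (ρ : G →* Mx d) (h : ∀ g, ρ g ∈ JJ d 0) :
    ∃ θ : G →* (Fin d → ℂˣ), ∀ g, ρ g - dg (θ g) ∈ JJ d 1 := by
  let χ : Fin d → G →* ℂ := fun i =>
    { toFun := fun g => ρ g i i
      map_one' := by simp
      map_mul' := fun g g' => by
        rw [map_mul, Matrix.mul_apply]
        refine Finset.sum_eq_single i (fun c _ hc => ?_) (by simp)
        have hc' : (c : ℕ) ≠ i := fun e => hc (Fin.ext e)
        by_cases hci : (c : ℕ) < i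
        · rw [h g i c (by omega), zero_mul]
        · rw [h g' c i (by omega), mul_zero] }
  refine ⟨MonoidHom.pi fun i => (χ i).toHomUnits, fun g i j hij => ?_⟩
  rw [Matrix.sub_apply]
  by_cases e : i = j
  · subst e
    rw [dg_def, Matrix.diagonal_apply_eq]
    exact sub_self _
  · have e' : (i : ℕ) ≠ j := fun e' => e (Fin.ext e')
    rw [h g i j (by omega), dg_mem _ i j (by omega), sub_self]

theorem MBTri_pow {d : ℕ} {y : Mx d} (hy : y ∈ JJ d 1) (n : ℕ) : y ^ (n + 1) ∈ JJ d (n + 1) := by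
  induction n with
  | zero => rwa [zero_add, pow_one]
  | succ n ih =>
    rw [pow_succ]
    exact JJ_mul ih hy

theorem exists_unip {G V : Type*} [Group G] [AddCommGroup V] [Module ℂ V] [FiniteDimensional ℂ V]
    (hG : Polycyclic G) (ρ : G →* Module.End ℂ V) :
    ∃ H : Subgroup G, H.FiniteIndex ∧ ∀ x ∈ ⁅H, H⁆, IsNilpotent (ρ x - 1) := by
  obtain ⟨d, hd⟩ : ∃ d, Module.finrank ℂ V = d := ⟨_, rfl⟩
  obtain ⟨H, b, hH, h⟩ := exists_flag hG ρ hd
  let τ : H →* Mx d :=
    ((LinearMap.toMatrixAlgEquiv b).toMulEquiv.toMonoidHom.comp ρ).comp H.subtype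
  obtain ⟨θ, hθ⟩ := exists_diag τ fun g => h g g.2
  refine ⟨H, hH, fun x hx => ?_⟩
  rw [← Subgroup.map_subtype_commutator] at hx
  obtain ⟨y, hy, rfl⟩ := hx
  have h1 : θ y = 1 := Abelianization.commutator_subset_ker θ hy
  have h2 := hθ y
  rw [h1, map_one] at h2
  have h3 := MBTri_pow h2 d
  rw [JJ_bot (Nat.le_succ d), Submodule.mem_bot] at h3
  refine ⟨d + 1, (LinearMap.toMatrixAlgEquiv b).injective ?_⟩
  rw [map_pow, map_sub, map_one, map_zero]
  exact h3

end Vale.Agent.P188.MB
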