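import Vale.Agent.P188.MBTri

/-! Triangular form of an integral representation. -/

namespace Vale.Agent.P188.MB

/-- conjugating a triangular representation into another triangular form -/
theorem fin_conj {d : ℕ} (Λ : Subring (Mx d))
    (hΛ : ∀ R : ℝ, {y | y ∈ Λ ∧ ∀ i j, ‖y i j‖ ≤ R}.Finite) (a a' : Mx d) (h : a' * a = 1)
    (h' : a * a' = 1) (R : ℝ) :
    {y | y ∈ Λ.map (adj a a' h h').toRingHom ∧ ∀ i j, ‖y i j‖ ≤ R}.Finite := by
  refine ((hΛ (∑ i, ∑ j, ∑ l, ∑ k, ‖a' i k‖ * |R| * ‖a l j‖)).image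
    fun z => a * z * a').subset ?_
  rintro y ⟨⟨z, hz, rfl⟩, hy⟩
  refine ⟨z, ⟨hz, fun i j => ?_⟩, rfl⟩
  have e : z = a' * (a * z * a') * a := by
    rw [show a' * (a * z * a') * a = (a' * a) * z * (a' * a) by simp only [mul_assoc], h,
      one_mul, mul_one]
  have h1 : ‖z i j‖ ≤ ∑ l, ∑ k, ‖a' i k‖ * |R| * ‖a l j‖ := by
    rw [e, Matrix.mul_apply]
    refine (norm_sum_le _ _).trans (Finset.sum_le_sum fun l _ => ?_)
    rw [Matrix.mul_apply, Finset.sum_mul]
    refine (norm_sum_le _ _).trans (Finset.sum_le_sum fun k _ => ?_)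
    rw [norm_mul, norm_mul]
    have h2 : ‖(a * z * a') k l‖ ≤ |R| := (hy k l).trans (le_abs_self R)
    gcongr
  refine h1.trans ?_
  refine le_trans ?_ (Finset.single_le_sum (f := fun i => ∑ j, ∑ l, ∑ k,
    ‖a' i k‖ * |R| * ‖a l j‖) (fun _ _ => by positivity) (Finset.mem_univ i))
  exact Finset.single_le_sum (f := fun j => ∑ l, ∑ k, ‖a' i k‖ * |R| * ‖a l j‖)
    (fun _ _ => by positivity) (Finset.mem_univ j)

theorem fin_int (d : ℕ) (R : ℝ) :
    {y : Mx d | y ∈ (Int.castRingHom ℂ).mapMatrix.range ∧ ∀ i j, ‖y i j‖ ≤ R}.Finite := by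
  have h1 : (Set.univ.pi fun _ : Fin d => Set.univ.pi fun _ : Fin d =>
      Set.Icc (-⌈R⌉) ⌈R⌉).Finite :=
    Set.Finite.pi fun _ => Set.Finite.pi fun _ => Set.finite_Icc _ _
  refine (h1.image fun z : Matrix (Fin d) (Fin d) ℤ =>
    (Int.castRingHom ℂ).mapMatrix z).subset ?_
  rintro y ⟨⟨z, rfl⟩, hy⟩
  refine ⟨z, fun i _ j _ => ?_, rfl⟩
  have h2 : ((|z i j| : ℤ) : ℝ) ≤ (⌈R⌉ : ℤ) := by
    have := hy i j
    simp only [RingHom.mapMatrix_apply, Matrix.map_apply, eq_intCast, Complex.norm_intCast] at this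
    push_cast
    exact this.trans (Int.le_ceil R)
  exact abs_le.1 (by exact_mod_cast h2)

theorem exists_tri {G : Type*} [Group G] (hG : Polycyclic G) {d : ℕ}
    (ρ : G →* Matrix (Fin d) (Fin d) ℤ) (hρ : Function.Injective ρ) :
    ∃ H : Subgroup G, H.FiniteIndex ∧ Nonempty (Tri H d) := by
  let e := Pi.basisFun ℂ (Fin d)
  let c : Matrix (Fin d) (Fin d) ℤ →+* Mx d := (Int.castRingHom ℂ).mapMatrix
  have hc : Function.Injective c := fun x y h => by
    ext i j
    have := congrFun (congrFun h i) j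
    simpa [c] using this
  let ρC : G →* Module.End ℂ (Fin d → ℂ) :=
    ((Matrix.toLinAlgEquiv e : Mx d →* Module.End ℂ (Fin d → ℂ)).comp (c : _ →* Mx d)).comp ρ
  obtain ⟨H, b, hH, hb⟩ := exists_flag hG ρC (d := d) (by simp)
  have h1 : e.toMatrix b * b.toMatrix e = 1 := Module.Basis.toMatrix_mul_toMatrix_flip _ _
  have h2 : b.toMatrix e * e.toMatrix b = 1 := Module.Basis.toMatrix_mul_toMatrix_flip _ _
  let φ := adj (b.toMatrix e) (e.toMatrix b) h1 h2
  have hφ : Function.Injective φ := fun x y h => by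
    have h3 : ∀ x, e.toMatrix b * φ x * b.toMatrix e = x := fun x => by
      rw [adj_apply, show e.toMatrix b * (b.toMatrix e * x * e.toMatrix b) * b.toMatrix e =
        (e.toMatrix b * b.toMatrix e) * x * (e.toMatrix b * b.toMatrix e) by
          simp only [mul_assoc], h1, one_mul, mul_one]
    rw [← h3 x, h, h3]
  let ρ' : H →* Mx d := (((φ : Mx d →* Mx d).comp (c : _ →* Mx d)).comp ρ).comp H.subtype
  have h3 : ∀ g : H, ρ' g = LinearMap.toMatrix b b (ρC g) := fun g => by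
    rw [← basis_toMatrix_mul_linearMap_toMatrix_mul_basis_toMatrix b e b e]
    have : LinearMap.toMatrix e e (ρC g) = c (ρ g) := LinearMap.toMatrix_toLin e e _
    rw [this]
    rfl
  obtain ⟨θ, hθ⟩ := exists_diag ρ' fun g => h3 g ▸ hb g g.2
  exact ⟨H, hH, ⟨{
    ρ := ρ'
    θ := θ
    tri := hθ
    inj := ((hφ.comp hc).comp hρ).comp Subtype.val_injective
    Λ := c.range.map φ.toRingHom
    mem := fun g => ⟨c (ρ g), ⟨ρ g, rfl⟩, rfl⟩
    fin := fin_conj _ (fin_int d) _ _ h1 h2 }⟩⟩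

theorem MBTriZ_gen {G ι : Type*} [Group G] [Fintype ι] (K : ι → Subgroup G) :
    ∃ H : Subgroup G, H.FiniteIndex ∧ ∃ g₀ ∈ H, ∀ i, g₀ ∈ K i → H ≤ K i := by
  classical
  let H : Subgroup G := ⨅ i : {i // (K i).FiniteIndex}, K i
  have hH : H.FiniteIndex := Subgroup.finiteIndex_iInf fun i => i.2
  refine ⟨H, hH, ?_⟩
  by_contra hcon
  push Not at hcon
  obtain ⟨k, hk, hk'⟩ := Subgroup.exists_finiteIndex_of_leftCoset_cover
    (H := fun i => (K i).subgroupOf H) (g := fun _ => 1)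
    (s := Finset.univ.filter fun i => ¬ (K i).FiniteIndex) (by
      refine Set.eq_univ_of_forall fun g => ?_
      obtain ⟨i, hi, hi'⟩ := hcon g g.2
      refine Set.mem_iUnion₂.2 ⟨i, Finset.mem_filter.2 ⟨Finset.mem_univ _, fun hf => hi' ?_⟩, ?_⟩
      · exact iInf_le (fun i : {i // (K i).FiniteIndex} => K i) ⟨i, hf⟩
      · exact ⟨g, hi, one_mul g⟩)
  refine (Finset.mem_filter.1 hk).2 ⟨fun h0 => ?_⟩
  have h1 := Subgroup.relIndex_mul_index (inf_le_right : K k ⊓ H ≤ H)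
  rw [Subgroup.inf_relIndex_right] at h1
  have h2 := Subgroup.index_dvd_of_le (inf_le_left : K k ⊓ H ≤ K k)
  rw [h0, zero_dvd_iff, ← h1] at h2
  exact mul_ne_zero hk'.index_ne_zero hH.index_ne_zero h2

theorem Tri.exists_reg {G : Type*} [Group G] {d : ℕ} (T : Tri G d) :
    ∃ H : Subgroup G, H.FiniteIndex ∧ ∃ (T' : Tri H d) (g₀ : H), T'.Reg g₀ := by
  let qh : Fin d → Fin d → G →* ℂ := fun a b =>
    { toFun := fun g => T.q g a b
      map_one' := by simp [Tri.q]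
      map_mul' := fun g h => by
        simp only [Tri.q, map_mul, Pi.mul_apply, Units.val_mul]
        rw [mul_div_mul_comm] }
  let K : (Fin d × Fin d × Fin d × Fin d) × Bool → Subgroup G := fun i =>
    (qh i.1.1 i.1.2.1).eqLocus (if i.2 then qh i.1.2.2.1 i.1.2.2.2 else
      (starRingEnd ℂ : ℂ →* ℂ).comp (qh i.1.2.2.1 i.1.2.2.2))
  obtain ⟨H, hH, g₀, hg, h⟩ := MBTriZ_gen K
  refine ⟨H, hH, {
    ρ := T.ρ.comp H.subtype
    θ := T.θ.comp H.subtype
    tri := fun g => T.tri g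
    inj := T.inj.comp Subtype.val_injective
    Λ := T.Λ
    mem := fun g => T.mem g
    fin := T.fin }, ⟨g₀, hg⟩, fun a b c e k g => ?_, fun a b c e k g => ?_⟩
  · exact h ((a, b, c, e), true) k g.2
  · exact h ((a, b, c, e), false) k g.2

end Vale.Agent.P188.MB
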