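import Vale.Agent.P188.MBLin
import Vale.Agent.P188.MBDet

/-! Unimodularity. -/

namespace Vale.Agent.P188.MB

section
variable {G : Type*} [Group G] (L : Lin G)

theorem MBUni_conj {x : L.A} (hx : x ∈ L.m) {y : L.A} (hy : y ∈ L.m) :
    ex L.F.d x * y * ex L.F.d (-x) - y ∈ L.n :=
  conj_sub_mem L.F (L.m_le hx) L.n (fun u hu => L.br_mem x hx u (L.n_le hu)) (L.br_mem x hx y hy)

theorem MBUni_conj_mem {x : L.A} (hx : x ∈ L.m) {y : L.A} (hy : y ∈ L.m) :
    ex L.F.d x * y * ex L.F.d (-x) ∈ L.m := by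
  have h := L.m.add_mem (L.n_le (MBUni_conj L hx hy)) hy
  rwa [sub_add_cancel] at h

/-- the adjoint action on the Lie algebra -/
noncomputable def MBUni_Ad {x : L.A} (hx : x ∈ L.m) : L.m →ₗ[ℝ] L.m :=
  (LinearMap.mulRight ℝ (ex L.F.d (-x)) ∘ₗ LinearMap.mulLeft ℝ (ex L.F.d x)).restrict
    fun _ hy => MBUni_conj_mem L hx hy

theorem MBUni_Ad_coe {x : L.A} (hx : x ∈ L.m) (y : L.m) :
    (MBUni_Ad L hx y : L.A) = ex L.F.d x * y * ex L.F.d (-x) := rfl

theorem MBUni_det_Ad {x : L.A} (hx : x ∈ L.m) : LinearMap.det (MBUni_Ad L hx) = 1 := by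
  have hx1 := L.m_le hx
  have h : ∀ (k : ℕ) (y : L.m), ((((MBUni_Ad L hx - 1) ^ k) y : L.m) : L.A) ∈ L.F.J (k + 1) := by
    intro k y
    induction k with
    | zero => exact L.m_le y.2
    | succ k ih =>
      rw [pow_succ', Module.End.mul_apply, LinearMap.sub_apply, Module.End.one_apply,
        Submodule.coe_sub, MBUni_Ad_coe]
      refine conj_sub_mem L.F hx1 _ (fun u hu => sub_mem ?_ ?_) (sub_mem ?_ ?_)
      · have h1 := L.F.mul _ _ _ _ hx1 hu
        rw [add_comm] at h1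
        exact L.F.anti _ h1
      · exact L.F.anti _ (L.F.mul _ _ _ _ hu hx1)
      · have h1 := L.F.mul _ _ _ _ hx1 ih
        rwa [add_comm] at h1
      · exact L.F.mul _ _ _ _ ih hx1
  refine det_unip _ ⟨L.F.d, LinearMap.ext fun y => Subtype.ext ?_⟩
  have h1 := L.F.anti _ (h L.F.d y)
  rw [L.F.bot] at h1
  exact h1

theorem MBUni_span {z : L.m} (hz : (z : L.A) ∈ L.n) :
    z ∈ Submodule.span ℝ {y : L.m | (y : L.A) ∈ L.f '' L.N} := by
  have e : L.m.subtype '' {y : L.m | (y : L.A) ∈ L.f '' L.N} = L.f '' L.N := by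
    ext a
    constructor
    · rintro ⟨y, hy, rfl⟩
      exact hy
    · rintro ⟨g, hg, rfl⟩
      exact ⟨⟨L.f g, L.f_mem g⟩, ⟨g, hg, rfl⟩, rfl⟩
  have h1 : (z : L.A) ∈ (Submodule.span ℝ {y : L.m | (y : L.A) ∈ L.f '' L.N}).map L.m.subtype := by
    rw [Submodule.map_span, e]
    exact hz
  obtain ⟨y, hy, hyz⟩ := h1
  rwa [← (Subtype.ext hyz : y = z)]

theorem MBUni_lattice (g : G) (β : L.m →ₗ[ℝ] L.m)
    (hβ : ∀ y : L.m, (β y : L.A) = ex L.F.d (L.f g) * L.α g y * ex L.F.d (-L.f g)) :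
    |LinearMap.det β| = 1 := by
  refine det_lattice β {y : L.m | (y : L.A) ∈ L.f '' L.N} ?_ (fun R => ?_) fun y => ?_
  · ext y
    constructor
    · rintro ⟨z, ⟨a, ha, haz⟩, rfl⟩
      refine ⟨g * a * g⁻¹, L.normal.conj_mem a ha g, ?_⟩
      rw [hβ, ← haz, L.conj_f g ha]
    · rintro ⟨a, ha, hay⟩
      have h1 : g⁻¹ * a * g⁻¹⁻¹ ∈ L.N := L.normal.conj_mem a ha g⁻¹
      refine ⟨⟨L.f (g⁻¹ * a * g⁻¹⁻¹), L.f_mem _⟩, ⟨_, h1, rfl⟩, Subtype.ext ?_⟩
      rw [hβ, L.conj_f g h1, ← hay]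
      congr 1
      group
  · refine ((L.disc R).preimage (f := fun y : L.m => (y : L.A))
      Subtype.val_injective.injOn).subset ?_
    rintro y ⟨hy1, hy2⟩
    refine ⟨?_, hy2⟩
    exact (AddSubgroup.closure_le
      (K := (AddSubgroup.closure (L.f '' L.N)).comap L.m.subtype.toAddMonoidHom)).2
      (fun z hz => AddSubgroup.subset_closure hz) hy1
  · refine MBUni_span L ?_
    rw [Submodule.coe_sub, hβ]
    have h1 := L.n.add_mem (MBUni_conj L (L.f_mem g) (L.α_mem g y y.2)) (L.α_sub_mem g y y.2)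
    rwa [sub_add_sub_cancel] at h1

end

theorem Lin.uni {G : Type*} [Group G] (L : Lin G) {N : ℕ} {b : Module.Basis (Fin N) ℝ L.m}
    {w : Fin N → (Fin L.k → ℝ) →ₗ[ℝ] ℝ} (h : L.Wt b w) :
    ∀ x ∈ L.m, ∑ i, w i (L.l x) = 0 := by
  have key : ∀ g : G, ∑ i, w i (L.l (L.f g)) = 0 := by
    intro g
    have hx := L.f_mem g
    let κ : L.m →ₗ[ℝ] L.m :=
      ((L.D (-L.l (L.f g))).toLinearMap ∘ₗ (L.α g).toLinearMap).restrict
        fun y hy => L.D_neg_mem hx _ (L.α_mem g y hy)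
    let Dm : L.m →ₗ[ℝ] L.m := (L.D (L.l (L.f g))).toLinearMap.restrict (L.D_mem hx)
    have h1 : |LinearMap.det κ| = 1 := det_iso κ fun y => L.iso g y
    have h2 : LinearMap.det Dm = Real.exp (∑ i, w i (L.l (L.f g))) := by
      have e : LinearMap.toMatrix b b Dm =
          Matrix.diagonal fun i => Real.exp (w i (L.l (L.f g))) := by
        ext i j
        have e1 : Dm (b j) = Real.exp (w j (L.l (L.f g))) • b j := Subtype.ext ((h j).1 _ hx)
        rw [LinearMap.toMatrix_apply, e1, map_smul, b.repr_self, Matrix.diagonal_apply]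
        by_cases hij : i = j
        · subst hij
          simp
        · simp [hij]
      rw [← LinearMap.det_toMatrix b, e, Matrix.det_diagonal, Real.exp_sum]
    have h3 := MBUni_lattice L g (MBUni_Ad L hx ∘ₗ Dm ∘ₗ κ) fun y => by
      rw [LinearMap.comp_apply, MBUni_Ad_coe, ← L.D_neg hx _ (L.α_mem g y y.2)]
      rfl
    rw [LinearMap.det_comp, LinearMap.det_comp, MBUni_det_Ad, one_mul, abs_mul, h1, mul_one, h2,
      abs_of_pos (Real.exp_pos _)] at h3
    exact (Real.exp_eq_one_iff _).1 h3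
  intro x hx
  induction hx using Submodule.span_induction with
  | mem x hx =>
    obtain ⟨g, rfl⟩ := hx
    exact key g
  | zero => simp
  | add x y _ _ hx hy => simp only [map_add, Finset.sum_add_distrib, hx, hy, add_zero]
  | smul c x _ hx => simp only [map_smul, smul_eq_mul, ← Finset.mul_sum, hx, mul_zero]

end Vale.Agent.P188.MB
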