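import Vale.Agent.P188.SysB
import Vale.Agent.P188.BoxAC
import Vale.Agent.P188.Cut
import Vale.Agent.P188.Sig

/-! Boxes of a type at the scale of a system. -/

namespace Vale.Agent.P188

open MeasureTheory Filter Mdl
open scoped InnerProductSpace ENNReal

namespace Geo

variable {G : Geo} {γ γ' : Ht G.k → ℝ} {μ t : ℝ}

theorem Ok.pert (h : G.Ok γ μ) (h' : ∀ ν ∈ G.Nn, |γ' ν - γ ν| ≤ t) : G.Ok γ' (μ - 2 * t) := by
  intro ν hν
  have a := abs_le.1 (h' ν hν)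
  refine ⟨by linarith [(h ν hν).1], fun ν' hν' e => ?_⟩
  have b := abs_le.1 (h' ν' hν')
  have c := (h ν hν).2 ν' hν' e
  have d := abs_real_inner_le_norm ν' ν
  rw [norm_Nn hν, norm_Nn hν', one_mul] at d
  have f := (le_abs_self _).trans ((abs_mul (γ' ν - γ ν) ⟪ν', ν⟫_ℝ).trans_le
    (mul_le_mul (h' ν hν) d (abs_nonneg _) (by linarith)))
  rw [real_inner_smul_right] at c ⊢
  linarith

theorem Ok.mono (h : G.Ok γ μ) {μ' : ℝ} (h' : μ' ≤ μ) : G.Ok γ μ' := fun ν hν =>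
  ⟨h'.trans (h ν hν).1, fun ν' hν' e => by linarith [(h ν hν).2 ν' hν' e]⟩

theorem Ok.cl (h : G.Ok γ μ) (hμ : 0 ≤ μ) : ∀ ν ∈ G.Nn, γ ν • ν ∈ G.Cl γ := by
  intro ν hν ν' hν'
  by_cases e : ν' = ν
  · rw [e, real_inner_smul_right, real_inner_self_eq_norm_sq, norm_Nn hν]
    simp
  · linarith [(h ν hν).2 ν' hν' e]

theorem Ok.pos (h : G.Ok γ μ) (hμ : 0 < μ) : ∀ ν ∈ G.Nn, 0 < γ ν := fun ν hν =>
  hμ.trans_le (h ν hν).1

theorem ok_one (G : Geo) : ∃ μ > 0, G.Ok (fun _ => 1) μ := by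
  obtain ⟨g, hg, h⟩ := G.gap
  refine ⟨min g 1, lt_min hg one_pos, fun ν hν => ⟨min_le_right _ _, fun ν' hν' e => ?_⟩⟩
  rw [one_smul]
  linarith [h ν' hν' ν hν e, min_le_left g 1]

theorem Mc_nonneg (G : Geo) : 0 ≤ G.Mc := by
  unfold Mc
  positivity

theorem Mc_spec (i : Fin G.n) (h : G.lam i ≠ 0) :
    G.F.d * ∑ j, ‖G.lam j‖ ≤ G.Mc * ‖G.lam i‖ := by
  have h1 : ‖G.lam i‖⁻¹ ≤ ∑ j, ‖G.lam j‖⁻¹ :=
    Finset.single_le_sum (f := fun j => ‖G.lam j‖⁻¹) (fun j _ => by positivity) (Finset.mem_univ i)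
  have h2 := mul_le_mul_of_nonneg_right h1 (norm_nonneg (G.lam i))
  rw [inv_mul_cancel₀ (norm_ne_zero_iff.2 h)] at h2
  rw [Mc, mul_assoc _ _ ‖G.lam i‖]
  exact le_mul_of_one_le_right (by positivity) h2

theorem Cl_mono (h : ∀ ν ∈ G.Nn, γ ν ≤ γ' ν) : G.Cl γ ⊆ G.Cl γ' :=
  fun _ ha ν hν => (ha ν hν).trans (h ν hν)

theorem convex_Cl (γ : Ht G.k → ℝ) : Convex ℝ (G.Cl γ) := by
  intro a ha b hb s r hs hr e ν hν
  rw [inner_add_right, real_inner_smul_right, real_inner_smul_right]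
  have h1 := mul_le_mul_of_nonneg_left (ha ν hν) hs
  have h2 := mul_le_mul_of_nonneg_left (hb ν hν) hr
  have h3 : s * γ ν + r * γ ν = γ ν := by rw [← add_mul, e, one_mul]
  linarith

theorem ty_mono {R L L' : ℝ} (hR : 0 ≤ R) (h : ∀ ν ∈ G.Nn, γ ν ≤ γ' ν) (hL : L ≤ L') :
    G.ty R γ L ≤ G.ty R γ' L' := fun i => by
  have := mul_le_mul_of_nonneg_left (cs_mono h i) hR
  unfold ty
  linarith

theorem Mac_ty {R L L' : ℝ} (hL : L ≤ L') : G.ty R γ L ≤ G.ty R γ L' := fun i => by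
  unfold ty
  linarith

theorem Mac_tr (G : Geo) (L L' : ℝ) : ∃ L'', ∀ (R : ℝ) (γ : Ht G.k → ℝ) (y z v : G.V),
    z ∈ G.bx y (G.ty R γ L) → v ∈ G.bx z (G.ty R γ L') → v ∈ G.bx y (G.ty R γ L'') := by
  obtain ⟨C, -, h⟩ := st_Bx G.x
  refine ⟨max L L' + C, fun R γ y z v hz hv => ?_⟩
  have := h _ _ (B_mono (Mac_ty (le_max_left L L')) hz) _ (B_mono (Mac_ty (le_max_right L L')) hv)
  rw [st_assoc, ← st_assoc z, st_neg, zero_st] at this
  exact B_mono (fun i => by unfold ty; linarith) this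

theorem Mac_cs {i : Fin G.n} (h : G.lam i = 0) (γ : Ht G.k → ℝ) : G.cs γ i = 0 := by
  rw [cs, h, norm_zero, zero_mul]

end Geo

namespace Sys

variable {G : Geo} {S : Sys G} {y y' z z' : S.I → G.V} {γ γ' : Ht G.k → ℝ} {L μ : ℝ}
  {σ σ' : Ht G.k ≃ₗᵢ[ℝ] Ht G.k} {o o' a : Ht G.k}

theorem vol_ty (S : Sys G) (γ : Ht G.k → ℝ) (L : ℝ) (n : S.I) :
    volume (G.B (G.ty (S.R n) γ L)) ≠ 0 ∧ volume (G.B (G.ty (S.R n) γ L)) ≠ ⊤ :=
  ⟨(vol_Bx_pos Geo.span_x _).ne', isCompact_Zon.measure_lt_top.ne⟩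

theorem vol_ty_le (S : Sys G) (γ : Ht G.k → ℝ) (L L' : ℝ) : ∃ C : ℝ, ∀ n,
    volume (G.B (G.ty (S.R n) γ L)) ≤ ENNReal.ofReal C * volume (G.B (G.ty (S.R n) γ L')) := by
  refine ⟨_, fun n => (measure_mono (Geo.B_mono fun i => ?_)).trans
    (vol_Bx_add G.x _ (abs_nonneg (L - L')))⟩
  unfold Geo.ty
  linarith [le_abs_self (L - L')]

theorem not_nul_box (S : Sys G) (y : S.I → G.V) (γ : Ht G.k → ℝ) (L : ℝ) :
    ¬Nul S.U (S.Wv γ) fun n => G.bx (y n) (G.ty (S.R n) γ L) := fun h => by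
  obtain ⟨C, hC⟩ := S.vol_ty_le γ 0 L
  refine not_nul_self (A := fun n => G.bx (y n) (G.ty (S.R n) γ L))
    (Eventually.of_forall fun n => ?_) (h.of_le (C := C) (Eventually.of_forall fun n => ?_))
  · rw [G.vol_bx]
    exact S.vol_ty γ L n
  · rw [G.vol_bx]
    exact hC n

theorem big_ty (S : Sys G) (γ : Ht G.k → ℝ) (L : ℝ) :
    S.Big (fun n => G.B (G.ty (S.R n) γ L)) (G.h (G.cs γ)) := by
  obtain ⟨C, -, h⟩ := G.vol_B
  intro ε hε
  filter_upwards [S.ev_R (Real.exp (-L)), S.SysB_ev C hε] with n h1 h2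
  have h0 := (Real.exp_pos _).trans_le h1
  have h3 := (Real.le_log_iff_exp_le h0).2 h1
  refine ⟨(ENNReal.ofReal_le_ofReal (Real.exp_le_exp.2 ?_)).trans (h _).1, (S.vol_ty γ L n).2⟩
  have h4 : G.h (fun i => S.R n * G.cs γ i) ≤ G.h (G.ty (S.R n) γ L) :=
    Geo.h_mono fun i => by unfold Geo.ty; linarith
  rw [Geo.h_smul _ h0.le] at h4
  linarith

theorem In.refl (y : S.I → G.V) (γ : Ht G.k → ℝ) : S.In y γ y :=
  ⟨0, Eventually.of_forall fun n => by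
    change G.st (-y n) (y n) ∈ G.B _
    rw [neg_st]
    exact zero_mem_Zon⟩

theorem In.symm (h : S.In y γ z) : S.In z γ y :=
  h.imp fun L h => h.mono fun n h => by
    have := neg_mem_Zon h
    rwa [neg_st_rev, neg_neg] at this

theorem In.trans (h : S.In y γ z) (h' : S.In z γ z') : S.In y γ z' := by
  obtain ⟨L, h⟩ := h
  obtain ⟨L', h'⟩ := h'
  obtain ⟨L'', e⟩ := G.Mac_tr L L'
  exact ⟨L'', (h.and h').mono fun n h => e _ _ _ _ _ h.1 h.2⟩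

theorem In.mono (h : S.In y γ z) (h' : ∀ ν ∈ G.Nn, γ ν ≤ γ' ν) : S.In y γ' z :=
  h.imp fun _ h => (h.and (S.ev_R 0)).mono fun _ h => Geo.B_mono (Geo.ty_mono h.2 h' le_rfl) h.1

theorem In.pull (h : S.In y γ z) (E : S.Ext) :
    E.sys.In (fun n => y (E.π n)) γ fun n => z (E.π n) := h.imp fun _ h => E.h.eventually h

theorem in_st (y : S.I → G.V) {w : S.I → G.V}
    (h : ∀ᶠ n in S.U, w n ∈ G.B (G.ty (S.R n) γ L)) : S.In y γ fun n => G.st (y n) (w n) :=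
  ⟨L, h.mono fun _ h => Geo.st_mem_bx.2 h⟩

theorem lf_sub (hγ : ∀ ν ∈ G.Nn, 0 ≤ γ ν) (L : ℝ) :
    ∀ᶠ n in S.U, S.Lf L n ⊆ G.B (G.ty (S.R n) γ L) :=
  (S.ev_R 0).mono fun n hn v hv => Geo.B_mono (fun i => by
    have h1 := Geo.cs_mono (γ := fun _ => 0) hγ i
    rw [Geo.cs, mul_zero] at h1
    have := mul_nonneg hn h1
    unfold Geo.ty
    linarith) hv.2

theorem Bd.pull (h : S.Bd y) (E : S.Ext) : E.sys.Bd fun n => y (E.π n) :=
  h.imp fun _ h => E.h.eventually h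

theorem Bd.of_len (h : S.Bd y) {C : ℝ} (h' : ∀ᶠ n in S.U, G.len ((y n)⁻¹ * z n) ≤ C * S.R n) :
    S.Bd z := by
  obtain ⟨C₀, h⟩ := h
  obtain ⟨C₁, h1, hT⟩ := T_lip G
  obtain ⟨C₂, h2, hh⟩ := ht_le (M := G.toMdl)
  have hK := one_pos.trans_le S.one_le_K
  have h3 : 0 ≤ C₁ * S.K := by positivity
  refine ⟨C₀ + (C₂ * |C| + C₁ * S.K * (|C| + 1)), ?_⟩
  filter_upwards [h, h', S.ev_R 1] with n a b c
  have b' := b.trans (mul_le_mul_of_nonneg_right (le_abs_self C) (by linarith))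
  have d1 := (hh _).trans (mul_le_mul_of_nonneg_left b' h2)
  rw [ht_mul, ht_inv, neg_add_eq_sub] at d1
  have d2 := (hT S n (y n) (z n)).trans (mul_le_mul_of_nonneg_left (add_le_add b' c) h3)
  have d3 := norm_sub_norm_le (G.ht (z n)) (G.ht (y n))
  have d4 := norm_sub_norm_le (S.T n (z n)) (S.T n (y n))
  have d5 : 0 ≤ C₂ * (|C| * S.R n) := by positivity
  have d6 : 0 ≤ C₁ * S.K * (|C| * S.R n + S.R n) := by positivity
  constructor <;> linarith [a.1, a.2]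

theorem Bd.of_in (h : S.Bd y) (h' : S.In y γ z) : S.Bd z := by
  obtain ⟨L, h'⟩ := h'
  obtain ⟨C₀, h0⟩ := id h
  have s0 : 0 ≤ ∑ j, |G.cs γ j| := Finset.sum_nonneg fun j _ => abs_nonneg _
  obtain ⟨C, R₀, -, hb⟩ := G.len_box (|C₀| + ∑ j, |G.cs γ j| + 1 + |L|)
  refine h.of_len (C := C) ?_
  filter_upwards [h', h0, S.ev_R R₀, S.ev_R 1] with n a b c d
  have d0 := zero_le_one.trans d
  have e1 := mul_le_mul_of_nonneg_right (le_abs_self C₀) d0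
  have e2 := mul_nonneg (abs_nonneg C₀) d0
  have e3 := mul_nonneg s0 d0
  have e4 : |L| ≤ |L| * S.R n := le_mul_of_one_le_right (abs_nonneg _) d
  have e5 := le_abs_self L
  have e6 := abs_nonneg L
  refine hb _ c _ _ (by linarith [b.1]) (fun i => ?_) (fun i hi => ?_) _ a
  · have f1 := (le_abs_self _).trans (Finset.single_le_sum (f := fun j => |G.cs γ j|)
      (fun j _ => abs_nonneg _) (Finset.mem_univ i))
    have f2 := mul_le_mul_of_nonneg_left f1 d0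
    have f3 := Real.log_le_self d0
    unfold Geo.ty
    linarith
  · rw [Geo.ty, Geo.Mac_cs hi]
    linarith [abs_nonneg C₀]

theorem Bd.pr_lf (h : S.Bd z) (a : Ht G.k) :
    ∃ L, ∀ᶠ n in S.U, G.X (S.R n • a - G.ht (z n)) ∈ S.Lf L n := by
  obtain ⟨C, h⟩ := h
  refine X_lf (a := fun n => S.R n • a - G.ht (z n)) (C := ‖a‖ + C) ?_
  filter_upwards [h, S.ev_R 0] with n h1 h2
  refine (norm_sub_le _ _).trans ?_
  rw [norm_smul, Real.norm_of_nonneg h2]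
  linarith [h1.1]

/-- the part of a box near an inner height is a region -/
theorem rg_box (G : Geo) {γ : Ht G.k → ℝ} {a : Ht G.k} (ha : a ∈ G.It γ) : ∃ r > 0, ∃ c > 0,
    ∀ (S : Sys G) (y : S.I → G.V) (L : ℝ), S.Rg (S.Wv γ) (fun n =>
      {x ∈ G.bx (y n) (G.ty (S.R n) γ L) | ‖G.ht x - S.R n • a‖ ≤ r * S.R n}) c := by
  obtain ⟨m, hm, h1⟩ : ∃ m > 0, ∀ ν ∈ G.Nn, ⟪ν, a⟫_ℝ + 2 * m ≤ γ ν := by
    have : ∀ᶠ m in nhdsWithin (0 : ℝ) (Set.Ioi 0), ∀ ν ∈ G.Nn, ⟪ν, a⟫_ℝ + 2 * m ≤ γ ν :=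
      (eventually_all_finset _).2 fun ν hν => by
        filter_upwards [Ioo_mem_nhdsGT (half_pos (sub_pos.2 (ha ν hν)))] with m h
        linarith [h.2]
    obtain ⟨m, h1, h2⟩ := (this.and self_mem_nhdsWithin).exists
    exact ⟨m, h2, h1⟩
  obtain ⟨C, hC, hs⟩ := G.step_mem
  obtain ⟨l, Λ, hl, -, hΛ⟩ := G.lam_bd
  have hC0 := one_pos.trans_le hC
  have hc : 0 < l * m / C := by positivity
  refine ⟨m, hm, _, hc, fun S y L => ⟨hc, ?_⟩⟩
  obtain ⟨L'', e⟩ := G.Mac_tr L |Real.log (l * m)|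
  obtain ⟨C', h2⟩ := S.vol_ty_le γ L'' 0
  refine ⟨C', ?_⟩
  filter_upwards [S.ev_R 1, S.SysB_ev 1 hc] with n h3 h4
  refine le_trans (measure_mono ?_) ((G.vol_bx (y n) _).trans_le (h2 n))
  rintro v ⟨x, hx, hv⟩
  refine e _ _ _ _ _ hx.1 (Geo.B_mono (fun i => ?_) (hs _ _ _ h4 hv))
  have h0 := one_pos.trans_le h3
  have h5 : C * (l * m / C * S.R n) = l * m * S.R n := by field_simp
  have h6 := Real.log_nonneg h3
  rw [h5, Geo.ty, Geo.la, Geo.sz]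
  split_ifs with hi
  · rw [Geo.Mac_cs hi, hi, inner_zero_left, Real.log_mul (by positivity) h0.ne']
    linarith [le_abs_self (Real.log (l * m))]
  · have b1 := (real_inner_le_norm (G.nu i) (G.ht x - S.R n • a)).trans_eq
      (by rw [Geo.norm_Nn (Geo.nu_mem hi), one_mul])
    rw [inner_sub_right, real_inner_smul_right] at b1
    have b2 := mul_le_mul_of_nonneg_left (h1 _ (Geo.nu_mem hi)) h0.le
    have b3 : ⟪G.nu i, G.ht x⟫_ℝ + m * S.R n ≤ S.R n * γ (G.nu i) := by linarith [hx.2]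
    have b4 := mul_le_mul_of_nonneg_left b3 (norm_nonneg (G.lam i))
    have b5 := mul_le_mul_of_nonneg_right ((hΛ i).2 hi) (mul_pos hm h0).le
    have b6 : ⟪G.lam i, G.ht x⟫_ℝ = ‖G.lam i‖ * ⟪G.nu i, G.ht x⟫_ℝ := by
      rw [← real_inner_smul_left, ← Geo.lam_eq]
    rw [b6, Geo.cs]
    linarith [abs_nonneg (Real.log (l * m))]

theorem Par.pr (h : S.Par z γ σ o) (hz : S.Bd z) (ha : a ∈ G.Cl γ) :
    S.Sm fun n => S.T n (G.pr (S.R n • a) (z n)) - S.R n • (σ a + o) := by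
  obtain ⟨L, hL⟩ := hz.pr_lf a
  intro ε hε
  filter_upwards [h L ε hε, hL, S.hR.eventually_gt_atTop 0] with n h1 h2 h3
  have h4 := h1 _ h2
  change _ • G.ht (G.pr _ _) ∈ _ → ‖S.T n (G.pr _ _) - σ (G.ht (G.pr _ _)) - _‖ ≤ _ at h4
  rw [Geo.ht_pr, inv_smul_smul₀ h3.ne', map_smul, sub_sub, ← smul_add] at h4
  exact h4 ha

theorem Par.mono (h : S.Par z γ σ o) (h' : ∀ ν ∈ G.Nn, γ' ν ≤ γ ν) : S.Par z γ' σ o :=
  fun L ε hε => (h L ε hε).mono fun _ h v hv e => h v hv (Geo.Cl_mono h' e)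

theorem Par.leaf (h : S.Par z γ σ o) {v : S.I → G.V} (hv : ∀ᶠ n in S.U, v n ∈ S.Lf L n) :
    S.Par (fun n => G.st (z n) (v n)) γ σ o := fun L' ε hε => by
  obtain ⟨L'', e⟩ := S.st_lf L L'
  filter_upwards [h L'' ε hε, hv] with n h1 h2 w hw
  rw [st_assoc]
  exact h1 _ (e n _ h2 _ hw)

theorem Par.pull (h : S.Par z γ σ o) (E : S.Ext) : E.sys.Par (fun n => z (E.π n)) γ σ o :=
  fun L ε hε => E.h.eventually (h L ε hε)

theorem Par.congr (h : S.Par z γ σ o) (h' : ∀ᶠ n in S.U, z n = z' n) : S.Par z' γ σ o :=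
  fun L ε hε => ((h L ε hε).and h').mono fun _ h => h.2 ▸ h.1

theorem Coh.gen (h : S.Coh y γ σ o) {E : S.Ext} {z : E.J → G.V} (hz : E.Gn (S.Wv γ) z)
    (hm : E.sys.In (fun n => y (E.π n)) γ z) (ha : a ∈ G.Cl γ) :
    E.sys.Sm fun n => E.sys.T n (G.pr (E.sys.R n • a) (z n)) - E.sys.R n • (σ a + o) := by
  obtain ⟨L, hm⟩ := hm
  intro ε hε
  filter_upwards [hz _ (h L a ha ε hε), hm] with n h1 h2
  exact (not_le.1 fun e => h1 ⟨h2, e⟩).le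

theorem Coh.unique (hγ : ∀ ν ∈ G.Nn, 0 < γ ν) (h : S.Coh y γ σ o) (h' : S.Coh y γ σ' o') :
    σ = σ' ∧ o = o' := by
  obtain ⟨E, z, hz, hm⟩ := S.exists_ext (S.not_nul_box y γ 0)
  refine Geo.eq_of_Cl hγ fun a ha => sub_eq_zero.1 (Sm.eq_zero (S := E.sys) ?_)
  refine ((h'.gen hz ⟨0, hm⟩ ha).sub (h.gen hz ⟨0, hm⟩ ha)).congr
    (Eventually.of_forall fun n => ?_)
  rw [smul_sub]
  abel

theorem Coh.of_in (h : S.Coh y γ σ o) (h' : S.In y γ y') : S.Coh y' γ σ o := fun L a ha ε hε => by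
  obtain ⟨L', h'⟩ := h'
  obtain ⟨L'', e⟩ := G.Mac_tr L' L
  exact (h L'' a ha ε hε).mono (h'.mono fun n h1 x hx => ⟨e _ _ _ _ _ h1 hx.1, hx.2⟩)

theorem Coh.of_pull {E : S.Ext} (h : E.sys.Coh (fun n => y (E.π n)) γ σ o) : S.Coh y γ σ o :=
  fun L a ha ε hε => Nul.of_pull E.h (h L a ha ε hε)

theorem Coh.congr (h : S.Coh y γ σ o) (h' : ∀ ν ∈ G.Nn, γ' ν = γ ν) : S.Coh y γ' σ o := by
  have e : G.cs γ' = G.cs γ := le_antisymm (Geo.cs_mono fun ν hν => (h' ν hν).le)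
    (Geo.cs_mono fun ν hν => (h' ν hν).ge)
  have e' : ∀ R L, G.ty R γ' L = G.ty R γ L := fun R L => by
    unfold Geo.ty
    rw [e]
  have e'' : S.Wv γ' = S.Wv γ := funext fun n => by rw [Wv, Wv, e']
  intro L a ha ε hε
  simp only [e', e'']
  exact h L a (Geo.Cl_mono (fun ν hν => (h' ν hν).le) ha) ε hε

theorem Mac_not {b : S.I → Ht G.k} (h : S.Sm b) {ε : ℝ} (hε : 0 < ε)
    (h' : ∀ᶠ n in S.U, ε * S.R n ≤ ‖b n‖) : False := by
  obtain ⟨n, ⟨h1, h2⟩, h3⟩ := (((h _ (half_pos hε)).and h').and (S.hR.eventually_gt_atTop 0)).exists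
  linarith [mul_pos hε h3]

/-- inheritance by smaller boxes around generic points -/
theorem Coh.inh (h : S.Coh y γ σ o) {E : S.Ext} {z : E.J → G.V} (hz : E.Gn (S.Wv γ) z)
    (hm : E.sys.In (fun n => y (E.π n)) γ z) (h' : ∀ ν ∈ G.Nn, γ' ν ≤ γ ν) :
    E.sys.Coh z γ' σ o := fun L a ha ε hε => by
  by_contra hn
  obtain ⟨E', x, hx, hb⟩ := E.sys.exists_ext hn
  obtain ⟨C, hC⟩ := E.sys.vol_ty_le γ' L 0
  have hk := Gen.of_le (W' := fun n => volume (G.B (G.ty (S.R (E.π n)) γ' L)))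
    (hx.st_left fun n => -z n) (Eventually.of_forall hC)
  have hg := hz.box (D := fun n => G.B (G.ty (S.R n) γ' L)) (fun n => isCompact_Zon.measurableSet)
    (Eventually.of_forall (S.vol_ty γ' L)) (E' := E') hk (hb.mono fun n h => h.1)
  simp only [← st_assoc, st_neg, zero_st] at hg
  have hi : E'.sys.In (fun n => z (E'.π n)) γ' x := ⟨L, hb.mono fun n h => h.1⟩
  exact Mac_not (h.gen hg ((hm.pull E').trans (hi.mono h')) (Geo.Cl_mono h' ha)) hε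
    (hb.mono fun n h => h.2)

theorem Coh.hyp (h : S.Coh y γ σ o) (h' : ∀ ν ∈ G.Nn, γ' ν ≤ γ ν) : S.Hyp y γ γ' := by
  intro L i s hs a ha ε hε
  by_contra hn
  obtain ⟨E, z, hz, hb⟩ := S.exists_ext hn
  have h1 : E.sys.In (fun n => y (E.π n)) γ z := ⟨L, hb.mono fun n h => h.1⟩
  have h6 : ∀ᶠ n in E.U, s (E.π n) • G.x i ∈ G.B (G.ty (S.R (E.π n)) γ' L) :=
    (E.h.eventually hs).mono fun n h => Geo.x_mem h
  have h2 : E.sys.In z γ' fun n => G.st (z n) (s (E.π n) • G.x i) :=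
    in_st (S := E.sys) z h6
  have ha' := Geo.Cl_mono h' ha
  have h3 : E.Gn (S.Wv γ) fun n => G.st (z n) (s (E.π n) • G.x i) := hz.st fun n => s n • G.x i
  have h4 := h.gen hz h1 ha'
  have h5 := h.gen h3 (h1.trans (h2.mono h')) ha'
  refine Mac_not (h4.sub h5) hε (hb.mono fun n h => ?_)
  rw [sub_sub_sub_cancel_right]
  exact h.2

end Sys

end Vale.Agent.P188
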