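import Vale.Agent.P188.Poly
import Vale.Agent.P188.Word
import Vale.Agent.P188.Len
import Vale.Agent.P188.MBMal
import Vale.Agent.P188.MBSwan
import Vale.Agent.P188.MBCon
import Vale.Agent.P188.MBFin

/-! Every virtually polycyclic group is quasi-isometric to a model. -/

namespace Vale.Agent.P188

namespace MB

/-- every word metric is quasi-isometric to a model -/
def HasModel (G : Type*) [Group G] : Prop :=
  ∀ A : Finset G, Subgroup.closure (A : Set G) = ⊤ →
    ∃ (M : Mdl) (K : ℝ) (f : G → M.V) (g : M.V → G), QIp (wr A) M.len K f g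

theorem HasModel.of_finiteIndex {G : Type*} [Group G] (H : Subgroup G) (hH : H.FiniteIndex)
    (h : HasModel H) : HasModel G := by
  intro A hA
  obtain ⟨B, K, g, hB, hq⟩ := qip_subgroup hA H
  obtain ⟨M, K', f', g', hq'⟩ := h B hB
  exact ⟨M, _, _, _, QIp.trans (isLen_wr hA) (isLen_wr hB) Mdl.isLen_len hq.symm hq'⟩

theorem hasModel_of_tri {G : Type*} [Group G] (hG : Polycyclic G) {d : ℕ} (T : Tri G d) :
    HasModel G := by
  obtain ⟨H, hH, T', g₀, hr⟩ := T.exists_reg
  obtain ⟨T'', hr', hb⟩ := T'.exists_blk hr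
  obtain ⟨L⟩ := T''.exists_lin (hG.of_injective H.subtype H.subtype_injective) hr' hb
  exact HasModel.of_finiteIndex H hH L.exists_model

theorem hasModel_of_engel {G : Type*} [Group G] (hG : PolyZ G)
    (hE : ∀ x ∈ commutator G, Engel x) : HasModel G := by
  obtain ⟨H, hH, d, ρ, hρ⟩ := swan hG hE
  have hp := hG.polycyclic.of_injective H.subtype H.subtype_injective
  obtain ⟨K, hK, ⟨T⟩⟩ := exists_tri hp ρ hρ
  exact HasModel.of_finiteIndex H hH (HasModel.of_finiteIndex K hK
    (hasModel_of_tri (hp.of_injective K.subtype K.subtype_injective) T))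

theorem hasModel_of_polyZ {G : Type*} [Group G] (hG : PolyZ G) : HasModel G := by
  obtain ⟨H, hH, hE⟩ := exists_engel hG
  refine HasModel.of_finiteIndex H hH
    (hasModel_of_engel (hG.of_injective H.subtype H.subtype_injective) fun x hx => ?_)
  refine Engel.of_injective H.subtype H.subtype_injective (hE _ ?_)
  rw [← Subgroup.map_subtype_commutator]
  exact Subgroup.mem_map_of_mem _ hx

end MB

open MB in
theorem exists_model {G : Type*} [Group G] (A : Finset G) (hA : Subgroup.closure (A : Set G) = ⊤)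
    (hG : VirtPoly G) :
    ∃ (M : Mdl) (K : ℝ) (f : G → M.V) (g : M.V → G), QIp (wr A) M.len K f g := by
  obtain ⟨K, hK, hp⟩ := hG
  obtain ⟨H, hH, hz⟩ := hp.exists_polyZ
  exact HasModel.of_finiteIndex K hK (HasModel.of_finiteIndex H hH (hasModel_of_polyZ hz)) A hA

end Vale.Agent.P188
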