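import Vale.Agent.P188.GeoB
import Vale.Agent.P188.BoxG
import Vale.Agent.P188.BoxI

/-! Boxes and balls. -/

namespace Vale.Agent.P188.Geo

open Mdl
open scoped InnerProductSpace

variable (G : Geo)

theorem Size_V0 (v : G.V) (hv : v ∈ G.V0) : G.len v ≤ 2 * (‖v‖ + 1) := by
  have h0 : (0 : ℝ) < (⌈‖v‖⌉₊ + 1 : ℕ) := by positivity
  have h1 : ‖v‖ < (⌈‖v‖⌉₊ + 1 : ℕ) := by
    push_cast
    linarith [Nat.le_ceil ‖v‖]
  have h2 : ((⌈‖v‖⌉₊ + 1 : ℕ) : ℝ) ≤ 2 * (‖v‖ + 1) := by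
    push_cast
    linarith [Nat.ceil_lt_add_one (norm_nonneg v), norm_nonneg v]
  generalize ⌈‖v‖⌉₊ + 1 = m at h0 h1 h2
  have h3 : ‖(m : ℝ)⁻¹ • v‖ < 1 := by
    rw [norm_smul, norm_inv, Real.norm_of_nonneg h0.le, inv_mul_lt_iff₀ h0, mul_one]
    exact h1
  have h4 := smul_V0 (m : ℝ)⁻¹ hv
  have h5 : ∀ n : ℕ, ((m : ℝ)⁻¹ • v) ^ n = (n * (m : ℝ)⁻¹) • v := fun n => by
    induction n with
    | zero => rw [pow_zero, Nat.cast_zero, zero_mul, zero_smul, one_def]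
    | succ n ih => rw [pow_succ, ih, mul_V0 _ h4, st_smul, Nat.cast_succ, add_mul, one_mul]
  have h6 := Set.pow_mem_pow (s := G.U) (n := m) ⟨h3, by rwa [inv_V0 h4, norm_neg]⟩
  rw [h5, mul_inv_cancel₀ h0.ne', one_smul] at h6
  exact ((len_le_iff v m).2 h6).trans h2

theorem Size_op {E F : Type} [NormedAddCommGroup E] [NormedSpace ℝ E] [FiniteDimensional ℝ E]
    [NormedAddCommGroup F] [NormedSpace ℝ F] (f : E →ₗ[ℝ] F) :
    ∃ C, 1 ≤ C ∧ ∀ b, ‖f b‖ ≤ C * ‖b‖ :=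
  ⟨‖f.toContinuousLinearMap‖ + 1, by linarith [norm_nonneg f.toContinuousLinearMap], fun b =>
    (f.toContinuousLinearMap.le_opNorm b).trans
      (mul_le_mul_of_nonneg_right (by linarith) (norm_nonneg b))⟩

theorem Size_X : ∃ C > 0, ∀ b, G.len (G.X b) ≤ C * (‖b‖ + 1) := by
  obtain ⟨C, hC, h⟩ := Size_op G.X
  refine ⟨2 * C, by linarith, fun b => (G.Size_V0 _ (X_V0 b)).trans ?_⟩
  linarith [h b]

theorem Size_Xmem : ∃ C, 0 ≤ C ∧ ∀ (b : Ht G.k) (r : ℝ), 0 < r → ‖b‖ ≤ r → 1 ≤ r →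
    G.X b ∈ G.B fun _ => Real.log r + C := by
  obtain ⟨C, hC, h⟩ := Size_op G.X
  obtain ⟨D, hD, h'⟩ := mem_of_norm (span_x (G := G))
  refine ⟨C + D, by linarith, fun b r h0 hb h1 => ?_⟩
  have h2 := h' (Real.log r + C) (by linarith [Real.log_nonneg h1]) (G.X b) (by
    rw [Real.exp_add, Real.exp_log h0, mul_comm]
    exact (h b).trans (mul_le_mul (by linarith [Real.add_one_le_exp C]) hb (norm_nonneg b)
      (Real.exp_pos C).le))
  rwa [add_assoc] at h2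

theorem Size_cj (v : G.V) : ∃ D E : ℝ, 0 ≤ D ∧ ∀ (b : Ht G.k) (r : ℝ), ‖b‖ ≤ r → 1 ≤ r →
    ‖boxGcj (-G.X b) v‖ ≤ Real.exp (D * Real.log r + E) := by
  obtain ⟨C₁, h1, hX⟩ := G.Size_Xmem
  obtain ⟨C₂, h2, hv⟩ := mem_of_norm (span_x (G := G))
  obtain ⟨C₃, h3, hs⟩ := st_Bx G.x
  obtain ⟨C₄, h4, hn⟩ := norm_of_mem G.x
  refine ⟨C₄, C₄ * (C₁ + (‖v‖ + C₂) + C₃ + C₃ + 1), h4, fun b r hb hr => ?_⟩
  have h5 := Real.log_nonneg hr
  have h6 := norm_nonneg v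
  have h7 := hX b r (by linarith) hb hr
  have h8 := hv ‖v‖ h6 v (by linarith [Real.add_one_le_exp ‖v‖])
  have h9 := hs (fun _ => Real.log r + C₁ + (‖v‖ + C₂)) _
    (neg_mem_Zon (Zon_mono (fun _ => by linarith) h7)) _ (Zon_mono (fun _ => by linarith) h8)
  have h10 := hs _ _ h9 _ (neg_mem_Zon (neg_mem_Zon (Zon_mono (fun _ => by linarith) h7)))
  refine (hn _ (by linarith) _ h10).trans_eq (congrArg _ ?_)
  ring

theorem Size_dl (a : Ht G.k) (j : Fin G.N) :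
    G.dl a (G.bv j) = Real.exp ⟪G.w j, a⟫_ℝ • G.bv j := V.ext fun i => by
  rw [dl_ap, smul_ap]
  by_cases h : i = j
  · rw [h]
  · rw [show G.bv j i = 0 from Pi.single_eq_of_ne h _, mul_zero, mul_zero]

theorem Size_conj (a : Ht G.k) (j : Fin G.N) (s : ℝ) : s • G.bv j =
    G.X a * ((s * Real.exp (-⟪G.w j, a⟫_ℝ)) • boxGcj (-G.X a) (G.bv j)) * (G.X a)⁻¹ := by
  have h1 : G.dl a (boxGcj (-G.X a) (G.bv j)) =
      boxGcj (-G.X a) (Real.exp ⟪G.w j, a⟫_ℝ • G.bv j) := by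
    rw [boxGcj, boxGcj, neg_neg, dl_st, dl_st, map_neg, G.dl_X, Size_dl]
  rw [inv_V0 (X_V0 a), mul_V0 _ (neg_V0 (X_V0 a)), mul_def, G.ht_X, map_smul, h1, boxG_cj_smul,
    smul_smul, mul_assoc, ← Real.exp_add, neg_add_cancel, Real.exp_zero, mul_one, ← boxG_cj_smul,
    ← boxGcj, boxG_cj_cj, st_neg, boxGcj, zero_st, neg_zero, st_zero]

theorem Size_bv (j : Fin G.N) : ∃ C > 0, G.w j ≠ 0 → ∀ s ρ : ℝ, 1 ≤ ρ → |s| ≤ Real.exp ρ →
    G.len (s • G.bv j) ≤ C * ρ := by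
  by_cases hj : G.w j = 0
  · exact ⟨1, one_pos, fun h => absurd hj h⟩
  obtain ⟨μ, hμ⟩ : ∃ μ, ⟪G.w j, μ⟫_ℝ = 1 := ⟨(‖G.w j‖ ^ 2)⁻¹ • G.w j, by
    rw [inner_smul_right, real_inner_self_eq_norm_sq,
      inv_mul_cancel₀ (pow_ne_zero 2 (norm_ne_zero_iff.2 hj))]⟩
  obtain ⟨D, E, hD, hc⟩ := G.Size_cj (G.bv j)
  obtain ⟨C, hC, hX⟩ := G.Size_X
  obtain ⟨R, hR⟩ := len_of_bdd (M := G.toMdl)
    (Real.exp (D * Real.log (D + 1) + D * Real.log (2 * (‖μ‖ + 1)) + E))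
  have h0 := norm_nonneg μ
  refine ⟨2 * (C * (2 * ‖μ‖ + 1)) + |R|, by positivity, fun _ s ρ hρ hs => ?_⟩
  have h1 : ‖(2 * ρ) • μ‖ = 2 * ρ * ‖μ‖ := by rw [norm_smul, Real.norm_of_nonneg (by linarith)]
  have h2 := hc ((2 * ρ) • μ) (ρ * (2 * (‖μ‖ + 1))) (by rw [h1]; linarith) (by nlinarith)
  rw [Real.log_mul (by linarith) (by linarith)] at h2
  have h3 : D * Real.log ρ ≤ ρ + D * Real.log (D + 1) := by
    have h4 := Real.log_le_sub_one_of_pos (show 0 < ρ / (D + 1) by positivity)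
    rw [Real.log_div (by linarith) (by linarith)] at h4
    have h5 := mul_le_mul_of_nonneg_left h4 hD
    have h6 : D * (ρ / (D + 1)) ≤ ρ := by
      rw [← mul_div_assoc, div_le_iff₀ (by linarith)]
      nlinarith
    linarith
  have h4 := hR ((s * Real.exp (-⟪G.w j, (2 * ρ) • μ⟫_ℝ)) • boxGcj (-G.X ((2 * ρ) • μ)) (G.bv j)) (by
    rw [norm_smul, norm_mul, Real.norm_eq_abs, Real.norm_of_nonneg (Real.exp_pos _).le,
      inner_smul_right, hμ]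
    refine (mul_le_mul (mul_le_mul_of_nonneg_right hs (Real.exp_pos _).le) h2 (norm_nonneg _)
      (by positivity)).trans ?_
    rw [← Real.exp_add, ← Real.exp_add, Real.exp_le_exp]
    linarith)
  have h5 := hX ((2 * ρ) • μ)
  rw [h1] at h5
  rw [G.Size_conj ((2 * ρ) • μ) j s]
  refine (isLen_len.mul _ _).trans ((add_le_add (isLen_len.mul _ _) (isLen_len.inv _).le).trans ?_)
  have h6 := mul_le_mul_of_nonneg_left hρ (abs_nonneg R)
  have h7 := mul_le_mul_of_nonneg_left hρ hC.le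
  linarith [le_abs_self R]

theorem len_bv : ∃ C > 0, ∀ j, G.w j ≠ 0 → ∀ s ρ : ℝ, 1 ≤ ρ → |s| ≤ Real.exp ρ →
    G.len (s • G.bv j) ≤ C * ρ := by
  choose C hC h using G.Size_bv
  have h1 : 0 ≤ ∑ j, C j := Finset.sum_nonneg fun j _ => (hC j).le
  refine ⟨∑ j, C j + 1, by linarith, fun j hj s ρ hρ hs => (h j hj s ρ hρ hs).trans ?_⟩
  have h2 := Finset.single_le_sum (fun j _ => (hC j).le) (Finset.mem_univ j)
  exact mul_le_mul_of_nonneg_right (by linarith) (by linarith)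

theorem len_V0 : ∃ C > 0, ∀ v ∈ G.V0, G.len v ≤ C * (‖v‖ + 1) := ⟨2, two_pos, G.Size_V0⟩

theorem len_X : ∃ C > 0, ∀ b, G.len (G.X b) ≤ C * (‖b‖ + 1) := G.Size_X

theorem X_mem : ∃ C, 0 ≤ C ∧ ∀ (b : Ht G.k) (r : ℝ), 0 < r → ‖b‖ ≤ r → 1 ≤ r →
    G.X b ∈ G.B fun _ => Real.log r + C := G.Size_Xmem

theorem Size_path (g : ℕ → G.V) (h0 : g 0 = 1) (m : ℕ) :
    g m = sp ((List.range m).map fun r => G.dl (G.ht (g r)) ((g r)⁻¹ * g (r + 1))) := by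
  induction m with
  | zero => exact h0
  | succ m ih =>
    rw [List.range_succ, List.map_append, boxG_append, ← ih, List.map_singleton, boxG_cons,
      show sp ([] : List G.V) = 0 from rfl, st_zero, ← mul_def, mul_inv_cancel_left]

theorem Size_sum (g : ℕ → G.V) (h0 : g 0 = 1) {C : ℝ} (m : ℕ)
    (h : ∀ r < m, G.len ((g r)⁻¹ * g (r + 1)) ≤ C) : G.len (g m) ≤ m * C := by
  induction m with
  | zero => rw [h0, isLen_len.one, Nat.cast_zero, zero_mul]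
  | succ m ih =>
    have h1 := isLen_len.mul (g m) ((g m)⁻¹ * g (m + 1))
    rw [mul_inv_cancel_left] at h1
    have h2 := ih fun r hr => h r (by omega)
    have h3 := h m (by omega)
    push_cast
    linarith

theorem mem_of_len : ∃ C, 1 ≤ C ∧ ∀ (g : G.V) (ρ : ℝ), 1 ≤ ρ → G.len g ≤ ρ →
    g ∈ G.B (G.sz (C * ρ)) := by
  classical
  obtain ⟨C₀, h0⟩ := bdd_of_len (M := G.toMdl) 1
  obtain ⟨C₁, h1, hm⟩ := mem_of_norm (span_x (G := G))
  obtain ⟨C₂, h2, hp⟩ := prod_Bx G.x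
  obtain ⟨C₃, h3, hh⟩ := ht_le (M := G.toMdl)
  obtain ⟨_, Λ, -, h4, hl⟩ := G.lam_bd
  have h5 := abs_nonneg C₀
  have h6 := Real.add_one_le_exp (|C₀| + C₁ + C₂)
  have h7 := mul_nonneg h4.le h3
  refine ⟨3 * Real.exp (|C₀| + C₁ + C₂) + 2 * (Λ * C₃), by linarith, fun g ρ hρ hg => ?_⟩
  obtain ⟨p, hp0, hp1, hp2⟩ := exists_path g (hg.trans (Nat.le_ceil ρ))
  have hn : (⌈ρ⌉₊ : ℝ) ≤ ρ + 1 := (Nat.ceil_lt_add_one (by linarith)).le
  generalize ⌈ρ⌉₊ = n at hn hp1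
  have hn0 : (0 : ℝ) ≤ n := n.cast_nonneg
  rw [← hp1 n le_rfl, G.Size_path p hp0 n]
  refine B_mono (fun i => ?_) (hp (fun i => |C₀| + C₁ + if G.lam i = 0 then 0 else Λ * C₃ * n) _
    fun v hv => ?_)
  · rw [List.length_map, List.length_range, sz]
    split_ifs with hi
    · have h8 : Real.log (Real.exp (|C₀| + C₁ + C₂) * (n + 1)) ≤
          Real.log ((3 * Real.exp (|C₀| + C₁ + C₂) + 2 * (Λ * C₃)) * ρ) :=
        Real.log_le_log (by positivity) (by nlinarith)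
      rw [Real.log_mul (Real.exp_pos _).ne' (by linarith), Real.log_exp] at h8
      linarith
    · have h8 := Real.log_le_sub_one_of_pos (show (0 : ℝ) < n + 1 by linarith)
      nlinarith
  · obtain ⟨r, hr, rfl⟩ := List.mem_map.1 hv
    have h8 := hm |C₀| h5 _ ((h0 _ (hp2 r)).trans
      (by linarith [Real.add_one_le_exp |C₀|, le_abs_self C₀]))
    refine B_mono (fun i => add_le_add le_rfl ?_) ((dl_mem_B _).2 h8)
    rw [la]
    split_ifs with hi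
    · rw [hi, inner_zero_left]
    · have h9 := G.Size_sum p hp0 r fun r _ => hp2 r
      have h10 : (r : ℝ) ≤ n := Nat.cast_le.2 (List.mem_range.1 hr).le
      refine (real_inner_le_norm _ _).trans ?_
      rw [mul_assoc]
      exact mul_le_mul (hl i).1 ((hh _).trans (mul_le_mul_of_nonneg_left (by linarith) h3))
        (norm_nonneg _) h4.le

theorem Size_ht : ∃ C > 0, ∀ (c : Fin G.n → ℝ) (r : ℝ), (∀ i, G.lam i = 0 → c i ≤ r) →
    ∀ v ∈ G.B c, ‖G.ht v‖ ≤ C * Real.exp r := by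
  have h0 : 0 ≤ ∑ l ∈ ws (Fin G.n) G.F.d, ‖G.ht (yw G.x l)‖ :=
    Finset.sum_nonneg fun _ _ => norm_nonneg _
  refine ⟨∑ l ∈ ws (Fin G.n) G.F.d, ‖G.ht (yw G.x l)‖ + 1, by linarith, fun c r h v hv => ?_⟩
  obtain ⟨t, h1, -, rfl⟩ := BoxA_elim hv
  rw [map_sum, add_mul, Finset.sum_mul]
  refine (norm_sum_le _ _).trans ((Finset.sum_le_sum fun l _ => ?_).trans
    (le_add_of_nonneg_right (by positivity)))
  rw [map_smul, norm_smul, mul_comm]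
  match l with
  | [] => rw [yw, map_zero, norm_zero, zero_mul, zero_mul]
  | [i] =>
    by_cases hi : G.lam i = 0
    · refine mul_le_mul_of_nonneg_left ((h1 [i]).trans (Real.exp_le_exp.2 ?_)) (norm_nonneg _)
      simpa [cw] using h i hi
    · rw [yw, ht_x hi, norm_zero, zero_mul, zero_mul]
  | i :: j :: l => rw [yw, ht_br, norm_zero, zero_mul, zero_mul]

theorem len_of_mem : ∃ C, 1 ≤ C ∧ ∀ ρ : ℝ, 1 ≤ ρ → ∀ g ∈ G.B (G.sz ρ), G.len g ≤ C * ρ := by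
  obtain ⟨m, j, C₀, h0, hg⟩ := gen_Bx G.x
  obtain ⟨C₁, h1, hh⟩ := G.Size_ht
  obtain ⟨C₂, h2, hb⟩ := G.len_bv
  obtain ⟨_, Λ, -, h3, hl⟩ := G.lam_bd
  have h4 : 0 ≤ ∑ i, ‖G.x i‖ := Finset.sum_nonneg fun _ _ => norm_nonneg _
  have h5 := Real.exp_pos C₀
  have hA : 0 ≤ 2 * (Real.exp C₀ * ∑ i, ‖G.x i‖ + 1) := by positivity
  have hB : 0 ≤ C₂ * (1 + C₀ + Λ * (C₁ * Real.exp C₀)) := by positivity
  refine ⟨1 + m * (2 * (Real.exp C₀ * ∑ i, ‖G.x i‖ + 1) + C₂ * (1 + C₀ + Λ * (C₁ * Real.exp C₀))),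
    le_add_of_nonneg_right (by positivity), fun ρ hρ g hgB => ?_⟩
  obtain ⟨p, s, hp0, hp1, hp2, hp3⟩ := hg _ g hgB
  have h6 := G.Size_sum p hp0 (C := (2 * (Real.exp C₀ * ∑ i, ‖G.x i‖ + 1) +
      C₂ * (1 + C₀ + Λ * (C₁ * Real.exp C₀))) * ρ) m fun r hr => by
    obtain ⟨h7, h8⟩ := hp3 ⟨r, hr⟩
    have h9 : p (r + 1) = G.st (p r) (s ⟨r, hr⟩ • G.x (j ⟨r, hr⟩)) := h8
    generalize s ⟨r, hr⟩ = t at h7 h9
    generalize j ⟨r, hr⟩ = i at h7 h9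
    rw [inv_mul_eq, h9, ← st_assoc, neg_st, zero_st, map_smul, dl_x, smul_smul, add_mul]
    rw [sz] at h7
    split_ifs at h7 with hi
    · rw [hi, inner_zero_left, Real.exp_zero, mul_one]
      refine (G.Size_V0 _ (smul_V0 t (x_V0 hi))).trans (le_add_of_le_of_nonneg ?_ (by positivity))
      rw [Real.exp_add, Real.exp_log (by linarith)] at h7
      have h10 := mul_le_mul h7 (Finset.single_le_sum (fun i _ => norm_nonneg (G.x i))
        (Finset.mem_univ i)) (norm_nonneg _) (by positivity)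
      rw [norm_smul, Real.norm_eq_abs]
      linarith
    · have h10 := hh _ (Real.log ρ + C₀) (fun i hi => by rw [sz, if_pos hi]) _ (hp2 r)
      rw [Real.exp_add, Real.exp_log (by linarith)] at h10
      have h11 : ⟪G.lam i, -G.ht (p r)⟫_ℝ ≤ Λ * (C₁ * (ρ * Real.exp C₀)) :=
        (real_inner_le_norm _ _).trans
          (mul_le_mul (hl i).1 ((norm_neg _).trans_le h10) (norm_nonneg _) h3.le)
      have h12 := mul_le_mul_of_nonneg_left hρ h0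
      have h13 : 0 ≤ Λ * (C₁ * Real.exp C₀) * ρ := by positivity
      refine le_add_of_nonneg_of_le (by positivity) ?_
      rw [mul_assoc]
      refine hb (G.ix i) hi _ _ (by linarith) ?_
      rw [abs_mul, abs_of_pos (Real.exp_pos _)]
      refine (mul_le_mul_of_nonneg_right h7 (Real.exp_pos _).le).trans ?_
      rw [← Real.exp_add, Real.exp_le_exp]
      linarith
  rw [hp1] at h6
  linarith

theorem ht_of_mem : ∃ C > 0, ∀ (c : Fin G.n → ℝ) (r : ℝ), (∀ i, G.lam i = 0 → c i ≤ r) →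
    ∀ v ∈ G.B c, ‖G.ht v‖ ≤ C * Real.exp r := G.Size_ht

/-- nearby points differ by an element of a cell -/
theorem step_mem : ∃ C, 1 ≤ C ∧ ∀ (x y : G.V) (ρ : ℝ), 1 ≤ ρ → G.len (x⁻¹ * y) ≤ ρ →
    G.st (-x) y ∈ G.B fun i => G.la (G.ht x) i + G.sz (C * ρ) i := by
  obtain ⟨C, hC, h⟩ := G.mem_of_len
  refine ⟨C, hC, fun x y ρ hρ hxy => ?_⟩
  have h1 := (dl_mem_B (G.ht x)).2 (h _ ρ hρ hxy)
  rw [inv_mul_eq, dl_dl, add_neg_cancel, dl_zero] at h1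
  exact B_mono (fun i => (add_comm _ _).le) h1

theorem τ_len : ∃ C > 0, ∀ (x y : G.V) (ρ : ℝ) (i : Fin G.n), 1 ≤ ρ → G.len (x⁻¹ * y) ≤ ρ →
    |G.τ i y - G.τ i x| ≤ Real.exp (⟪G.lam i, G.ht x⟫_ℝ + C * ρ) := by
  obtain ⟨C, hC, h⟩ := G.step_mem
  refine ⟨C, by linarith, fun x y ρ i hρ hxy => ?_⟩
  have h1 := τ_mem i (h x y ρ hρ hxy)
  rw [τ_st, map_neg, neg_add_eq_sub] at h1
  refine h1.trans (Real.exp_le_exp.2 (add_le_add le_rfl ?_))
  rw [sz]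
  split_ifs
  · linarith [Real.log_le_sub_one_of_pos (show 0 < C * ρ by positivity)]
  · exact le_rfl

theorem len_line : ∃ C > 0, ∀ (x : G.V) (b : Ht G.k) (s s' : ℝ),
    G.len ((G.st x (G.X (s • b)))⁻¹ * G.st x (G.X (s' • b))) ≤ C * (|s' - s| * ‖b‖ + 1) := by
  obtain ⟨C, hC, h⟩ := G.len_X
  refine ⟨C, hC, fun x b s s' => ?_⟩
  have h1 := h ((s' - s) • b)
  rw [norm_smul, Real.norm_eq_abs] at h1
  rwa [← mul_V0 x (X_V0 _), ← mul_V0 x (X_V0 _), mul_inv_rev, mul_assoc, inv_mul_cancel_left,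
    inv_V0 (X_V0 _), mul_V0 _ (X_V0 _), map_smul, map_smul, ← neg_smul, st_smul, neg_add_eq_sub,
    ← map_smul]

theorem len_E : ∃ C > 0, ∀ e ∈ G.E, ∀ ρ : ℝ, 1 ≤ ρ → ‖e‖ ≤ Real.exp ρ → G.len e ≤ C * ρ := by
  obtain ⟨C, hC, h⟩ := G.len_of_mem
  obtain ⟨D, hD, h'⟩ := absorb G.x G.zl
  refine ⟨C * (1 + D), by positivity, fun e he ρ hρ hn => ?_⟩
  have h1 := mul_le_mul_of_nonneg_left hρ hD
  have h2 : 1 ≤ (1 + D) * ρ := by linarith
  rw [mul_assoc]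
  refine h _ h2 e (Zon_sub (fun _ _ => trivial) (h' _ ρ (fun i => ?_) (fun i hi => ?_) e he hn))
  · rw [sz]
    split_ifs
    · exact Real.log_nonneg h2
    · linarith
  · rw [sz, if_neg (show ¬G.lam i = 0 from hi)]
    linarith

end Vale.Agent.P188.Geo
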