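import Vale.Agent.P188.Endgame
import Vale.Agent.P188.Model
import Vale.Agent.P188.GeoEx
import Vale.Agent.P188.GeoOr
import Vale.Agent.P188.Size

/-! The theorem from the rigidity of the height. -/

namespace Vale.Agent.P188

theorem lenE (G : Geo) : EC.LenE G := by
  obtain ⟨C, hC, h⟩ := G.len_E
  exact ⟨C, hC.le, fun e ρ he hρ hn => h e he _ (by linarith)
    (hn.trans (Real.exp_le_exp.2 (by linarith)))⟩

theorem main_of_rigid (hR : ∀ G : Geo, G.Orth → G.Rigid) {G H : Type*} [Group G] [Group H]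
    {A : Finset G} {B : Finset H} (hA : Subgroup.closure (A : Set G) = ⊤)
    (hB : Subgroup.closure (B : Set H) = ⊤) (hG : VirtPoly G) {K C : ℝ} {F : H → G}
    (h : IsQI (wd B) (wd A) K C F) : VirtPoly H := by
  obtain ⟨K₁, F₁, q₁⟩ := qip_of_isQI hA hB h
  obtain ⟨M, K₂, f, g, q₂⟩ := exists_model A hA hG
  obtain ⟨G₁, rfl⟩ := exists_geo M
  obtain ⟨G₂, hO, K₃, f', g', q₃⟩ := exists_orth G₁
  exact endgame G₂ (lenE G₂) (hR G₂ hO) (EC.amen_of_qip hG hA hB q₁) B hB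
    ((q₁.trans (isLen_wr hB) (isLen_wr hA) Mdl.isLen_len q₂).trans (isLen_wr hB) Mdl.isLen_len
      Mdl.isLen_len q₃)

end Vale.Agent.P188
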