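import Vale.Agent.P188.BoxAC
import Vale.Agent.P188.Meas

/-! The mixing lemma. -/

namespace Vale.Agent.P188.Mdl

open MeasureTheory

variable {M : Mdl} {ι : Type} [Finite ι] {x : ι → M.V}

theorem measurable_mix (x : ι → M.V) {N : Set M.V} (hN : MeasurableSet N) (l : List (ι → ℝ)) :
    Measurable (mix x N l) := by
  induction l with
  | nil => exact measurable_one.indicator hN
  | cons c l ih =>
    exact (Measurable.lintegral_prod_right' (ν := volume.restrict (Bx x c))
      (ih.comp continuous_st.measurable)).div_const _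

theorem mix_le_one (x : ι → M.V) (N : Set M.V) (l : List (ι → ℝ)) (v : M.V) :
    mix x N l v ≤ 1 := by
  induction l generalizing v with
  | nil => exact Set.indicator_le_self' (fun _ _ => zero_le_one) v
  | cons c l ih =>
    refine ENNReal.div_le_of_le_mul ((lintegral_mono fun e => ih _).trans (le_of_eq ?_))
    rw [setLIntegral_const]

theorem one_le_mix (hx : Submodule.span ℝ (Set.range (yw x)) = ⊤) {N N' : Set M.V}
    (hN : MeasurableSet N) (hN' : MeasurableSet N') (h : N ∪ N' = Set.univ) (l : List (ι → ℝ))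
    (v : M.V) : 1 ≤ mix x N l v + mix x N' l v := by
  induction l generalizing v with
  | nil =>
    rcases (Set.eq_univ_iff_forall.1 h v) with h1 | h1
    · exact le_add_right (Set.indicator_of_mem h1 (1 : M.V → ENNReal)).ge
    · exact le_add_left (Set.indicator_of_mem h1 (1 : M.V → ENNReal)).ge
  | cons c l ih =>
    have h1 : Measurable fun e => mix x N l (M.st v e) :=
      (measurable_mix x hN l).comp (continuous_st.comp (Continuous.prodMk_right v)).measurable
    have h2 : IsCompact (Bx x c) := isCompact_Zon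
    rw [mix, mix, ENNReal.div_add_div_same, ← lintegral_add_left h1,
      ENNReal.le_div_iff_mul_le (Or.inl (vol_Bx_pos hx c).ne') (Or.inl h2.measure_lt_top.ne),
      ← setLIntegral_const]
    exact lintegral_mono fun e => ih _

omit [Finite ι] in
theorem Mix_mst {S : Type} [MeasurableSpace S] {f g : S → M.V} (hf : Measurable f)
    (hg : Measurable g) : Measurable fun a => M.st (f a) (g a) :=
  Measurable.comp (g := fun q : M.V × M.V => M.st q.1 q.2) (f := fun a => (f a, g a))
    continuous_st.measurable (hf.prodMk hg)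

theorem Mix_pwm (v : M.V) {m : ℕ} (j : Fin m → ι) (e : Fin m → M.V) (c : ι → ℝ) :
    Measurable fun s => M.st v (pw x j e c s) :=
  Mix_mst measurable_const (Continuous.comp
    (g := fun q : (Fin m → M.V) × (Fin m → ℝ) => pw x j q.1 c q.2) (f := fun s => (e, s))
      (contDiff_pw x j c).continuous (Continuous.prodMk_right e)).measurable

theorem Mix_step {C : ℝ}
    (hC : ∀ c, ∀ u ∈ Bx x c, ∀ v ∈ Bx x c, M.st u v ∈ Bx x fun i => c i + C)
    {c : ι → ℝ} {q : M.V} (hq : q ∈ Bx x c) {g : M.V → ENNReal} (hg : Measurable g) :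
    ∫⁻ e in Bx x c, g e ≤ ∫⁻ e in Bx x fun i => c i + C, g (M.st e q) := by
  have h1 : MeasurableSet (Bx x c) := isCompact_Zon.measurableSet
  have h2 : MeasurableSet (Bx x fun i => c i + C) := isCompact_Zon.measurableSet
  rw [← lintegral_indicator h1, ← lintegral_indicator h2,
    ← (mp_st_right q).lintegral_comp (hg.indicator h1)]
  refine lintegral_mono fun e => ?_
  by_cases h : M.st e q ∈ Bx x c
  · have h3 := hC c _ h _ (neg_mem_Zon hq)
    rw [st_assoc, st_neg, st_zero] at h3
    simp only [Set.indicator_of_mem h, Set.indicator_of_mem h3, le_refl]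
  · simp only [Set.indicator_of_notMem h, zero_le]

theorem Mix_cons {m : ℕ} (μ : Measure ℝ) [SigmaFinite μ] {F : (Fin (m + 1) → ℝ) → ENNReal}
    (hF : Measurable F) :
    ∫⁻ a, ∫⁻ s, F (Fin.cons a s) ∂(Measure.pi fun _ : Fin m => μ) ∂μ =
      ∫⁻ s, F s ∂(Measure.pi fun _ : Fin (m + 1) => μ) := by
  have h1 := (measurePreserving_piFinSuccAbove (fun _ : Fin (m + 1) => μ) 0).symm
  rw [← h1.lintegral_comp hF, lintegral_prod]
  · refine lintegral_congr fun a => lintegral_congr fun s => congrArg F ?_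
    simp [MeasurableEquiv.piFinSuccAbove, Fin.consEquiv]
  · exact (hF.comp h1.measurable).aemeasurable

omit [Finite ι] in
theorem Mix_pw {m : ℕ} (j : Fin (m + 1) → ι) (a : M.V) (e : Fin m → M.V) (c : ι → ℝ) (b : ℝ)
    (s : Fin m → ℝ) : pw x j (Fin.cons a e) c (Fin.cons b s) =
      M.st (M.st a ((b * Real.exp (c (j 0))) • x (j 0))) (pw x (fun r => j r.succ) e c s) := by
  rw [pw, List.ofFn_succ]
  rfl

theorem Mix_ind (hx : Submodule.span ℝ (Set.range (yw x)) = ⊤) {C ρ : ℝ} (hC0 : 0 ≤ C)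
    (hC : ∀ c, ∀ u ∈ Bx x c, ∀ v ∈ Bx x c, M.st u v ∈ Bx x fun i => c i + C) (hρ : 0 < ρ)
    {N : Set M.V} (hN : MeasurableSet N) (c : ι → ℝ) (t : ENNReal) (m : ℕ) :
    ∀ (j : Fin m → ι) (ch : Fin m → ι → ℝ),
      (∀ r s, |s| ≤ ρ → (s * Real.exp (c (j r))) • x (j r) ∈ Bx x (ch r)) →
      ∀ (S : Type) [MeasurableSpace S] (ν : Measure S) [SFinite ν] (v : S → M.V), Measurable v →
        (∀ e : Fin m → M.V, (∀ r, e r ∈ Bx x fun i => ch r i + C) →
          ∫⁻ σ, ∫⁻ s, N.indicator 1 (M.st (v σ) (pw x j e c s))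
            ∂(Measure.pi fun _ => volume.restrict (Set.Icc (-ρ) ρ)) ∂ν ≤ t) →
        ∫⁻ σ, mix x N (List.ofFn ch) (v σ) ∂ν ≤
          ENNReal.ofReal (Real.exp (M.N * M.F.d * C) / (2 * ρ)) ^ m * t := by
  induction m with
  | zero =>
    intro j ch _ S _ ν _ v _ h
    have h1 := h Fin.elim0 fun r => r.elim0
    rw [pow_zero, one_mul]
    refine le_trans (le_of_eq (lintegral_congr fun σ => ?_)) h1
    simp [pw, sp, st_zero, mix, Measure.pi_univ]
  | succ m ih =>
    intro j ch hq S _ ν _ v hv h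
    have hg := measurable_mix x hN (List.ofFn fun r : Fin m => ch r.succ)
    have hK : IsCompact (Bx x (ch 0)) := isCompact_Zon
    have hK' : MeasurableSet (Bx x fun i => ch 0 i + C) := isCompact_Zon.measurableSet
    have hV := (vol_Bx_pos hx (ch 0)).ne'
    have hq0 : Measurable fun b : ℝ => (b * Real.exp (c (j 0))) • x (j 0) := by fun_prop
    have h1 : ∀ a ∈ Bx x fun i => ch 0 i + C,
        ∫⁻ p : S × ℝ, mix x N (List.ofFn fun r : Fin m => ch r.succ)
          (M.st (v p.1) (M.st a ((p.2 * Real.exp (c (j 0))) • x (j 0))))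
            ∂ν.prod (volume.restrict (Set.Icc (-ρ) ρ)) ≤
          ENNReal.ofReal (Real.exp (M.N * M.F.d * C) / (2 * ρ)) ^ m * t := fun a ha => by
      refine ih (fun r => j r.succ) (fun r => ch r.succ) (fun r => hq r.succ) (S × ℝ) _ _
        (Mix_mst (hv.comp measurable_fst) (Mix_mst measurable_const (hq0.comp measurable_snd)))
        fun e he => ?_
      refine (lintegral_prod_le _).trans (le_trans (le_of_eq (lintegral_congr fun σ => ?_))
        (h (Fin.cons a e) (Fin.cases ha he)))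
      rw [← Mix_cons _ (F := fun s => N.indicator 1 (M.st (v σ) (pw x j (Fin.cons a e) c s)))
        ((measurable_one.indicator hN).comp (Mix_pwm _ j _ c))]
      simp only [Mix_pw, st_assoc]
    have h2 : ∀ σ, (∫⁻ e in Bx x (ch 0), mix x N (List.ofFn fun r : Fin m => ch r.succ)
        (M.st (v σ) e)) * ENNReal.ofReal (2 * ρ) ≤
          ∫⁻ b in Set.Icc (-ρ) ρ, ∫⁻ a in Bx x fun i => ch 0 i + C,
            mix x N (List.ofFn fun r : Fin m => ch r.succ)
              (M.st (v σ) (M.st a ((b * Real.exp (c (j 0))) • x (j 0)))) := fun σ => by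
      rw [show 2 * ρ = ρ - -ρ by ring, ← Real.volume_Icc, ← setLIntegral_const]
      refine setLIntegral_mono' measurableSet_Icc fun b hb => ?_
      exact Mix_step hC (hq 0 b (abs_le.2 hb))
        (hg.comp (Mix_mst measurable_const measurable_id))
    have h3 : Measurable fun z : (S × ℝ) × M.V => mix x N (List.ofFn fun r : Fin m => ch r.succ)
        (M.st (v z.1.1) (M.st z.2 ((z.1.2 * Real.exp (c (j 0))) • x (j 0)))) :=
      hg.comp (Mix_mst (hv.comp measurable_fst.fst)
        (Mix_mst measurable_snd (hq0.comp measurable_fst.snd)))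
    have h4 := lintegral_mono (μ := ν) h2
    rw [lintegral_mul_const' _ _ ENNReal.ofReal_ne_top,
      ← lintegral_prod (fun p : S × ℝ => ∫⁻ a in Bx x fun i => ch 0 i + C,
        mix x N (List.ofFn fun r : Fin m => ch r.succ)
          (M.st (v p.1) (M.st a ((p.2 * Real.exp (c (j 0))) • x (j 0)))))
        h3.lintegral_prod_right'.aemeasurable] at h4
    have h5 := (h4.trans (lintegral_lintegral_swap h3.aemeasurable).le).trans
      (setLIntegral_mono' hK' h1)
    rw [setLIntegral_const] at h5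
    have h6 := h5.trans (mul_le_mul' le_rfl (vol_Bx_add x (ch 0) hC0))
    have h7 : ENNReal.ofReal (2 * ρ) ≠ 0 := (ENNReal.ofReal_pos.2 (by positivity)).ne'
    rw [← ENNReal.le_div_iff_mul_le (Or.inl h7) (Or.inl ENNReal.ofReal_ne_top)] at h6
    simp only [List.ofFn_succ, mix, div_eq_mul_inv]
    rw [lintegral_mul_const' _ _ (ENNReal.inv_ne_top.2 hV), ← div_eq_mul_inv, ← div_eq_mul_inv]
    refine ENNReal.div_le_of_le_mul (h6.trans (le_of_eq ?_))
    rw [pow_succ, ENNReal.ofReal_div_of_pos (by positivity : 0 < 2 * ρ), div_eq_mul_inv,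
      div_eq_mul_inv]
    ring

theorem mix_small (hx : Submodule.span ℝ (Set.range (yw x)) = ⊤) :
    ∃ (m : ℕ) (j : Fin m → ι) (C : ℝ), ∀ θ > 0, ∃ κ > 0, ∀ (c : ι → ℝ) (ch : Fin m → ι → ℝ),
      (∀ r, ch r ≤ c) → (∀ r, ch r (j r) = c (j r)) → ∀ N : Set M.V, MeasurableSet N → ∀ v,
        volume (N ∩ {u | M.st (-v) u ∈ Bx x fun i => c i + C}) ≤
          ENNReal.ofReal κ * volume (Bx x c) → mix x N (List.ofFn ch) v ≤ ENNReal.ofReal θ := by
  obtain ⟨C₁, hC₁, hst⟩ := st_Bx x
  obtain ⟨m, j, β, hβ, hac⟩ := ac_Bx hx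
  obtain ⟨C₂, -, hpw⟩ := BoxAC_pw_mem x m
  refine ⟨m, j, C₁ + β + C₂, fun θ hθ => ?_⟩
  have hρ : 0 < Real.exp (-(C₁ + β)) := Real.exp_pos _
  have hρ1 : Real.exp (-(C₁ + β)) ≤ 1 := Real.exp_le_one_iff.2 (by linarith)
  have hD : 0 < (Real.exp (M.N * M.F.d * C₁) / (2 * Real.exp (-(C₁ + β)))) ^ m := by positivity
  obtain ⟨κ, hκ, hac⟩ := hac _ (div_pos hθ hD)
  refine ⟨κ / 2, half_pos hκ, fun c ch h1 h2 N hN v hvol => ?_⟩
  have h3 := Mix_ind hx hC₁ hst hρ hN (fun i => c i + (C₁ + β)) (ENNReal.ofReal (θ /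
    (Real.exp (M.N * M.F.d * C₁) / (2 * Real.exp (-(C₁ + β)))) ^ m)) m j ch
    (fun r s hs => gen_mem trivial ?_) Unit (Measure.dirac ()) (fun _ => v) measurable_const
    fun e he => ?_
  · rwa [lintegral_const, measure_univ, mul_one, ← ENNReal.ofReal_pow (by positivity),
      ← ENNReal.ofReal_mul hD.le, mul_div_cancel₀ _ hD.ne'] at h3
  · rw [abs_mul, abs_of_pos (Real.exp_pos _), h2]
    refine (mul_le_mul_of_nonneg_right hs (Real.exp_pos _).le).trans (le_of_eq ?_)
    rw [← Real.exp_add]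
    exact congrArg _ (by ring)
  · have h5 := Mix_pwm (x := x) v j e (fun i => c i + (C₁ + β)) hN
    have h6 : ∀ r, e r ∈ Bx x fun i => c i + (C₁ + β) - β := fun r =>
      Zon_mono (fun i => by
        have := h1 r i
        show ch r i + C₁ ≤ c i + (C₁ + β) - β
        linarith) (he r)
    rw [lintegral_const, measure_univ, mul_one]
    refine le_trans (le_of_eq (lintegral_indicator_one h5)) ?_
    rw [← Measure.restrict_pi_pi, ← volume_pi]
    refine le_trans (le_of_eq (Measure.restrict_apply h5)) ?_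
    refine le_of_not_ge fun h7 => ?_
    have h8 : ∀ s ∈ Set.univ.pi fun _ : Fin m =>
        Set.Icc (-Real.exp (-(C₁ + β))) (Real.exp (-(C₁ + β))), ∀ r, |s r| ≤ 1 := fun s hs r =>
      (abs_le.2 (hs r (Set.mem_univ _))).trans hρ1
    have h9 := hac (fun i => c i + (C₁ + β)) e h6 _
      (fun s hs => ⟨fun r => (abs_le.1 (h8 s hs.2 r)).1, fun r => (abs_le.1 (h8 s hs.2 r)).2⟩)
      (h5.inter (MeasurableSet.univ_pi fun _ => measurableSet_Icc)) h7
    rw [← vol_st_left v] at hvol
    have hc : Bx x c ⊆ Bx x fun i => c i + (C₁ + β) :=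
      Zon_mono fun i => le_add_of_nonneg_right (add_nonneg hC₁ hβ)
    have h10 := (h9.trans (measure_mono ?_)).trans
      (hvol.trans (mul_le_mul' le_rfl (measure_mono hc)))
    · rw [ENNReal.mul_le_mul_iff_left (vol_Bx_pos hx _).ne' isCompact_Zon.measure_lt_top.ne,
        ENNReal.ofReal_le_ofReal_iff (half_pos hκ).le] at h10
      linarith
    · rintro _ ⟨s, hs, rfl⟩
      refine ⟨hs.1, ?_⟩
      rw [Set.mem_ofPred_eq, ← st_assoc, neg_st, zero_st]
      refine Zon_mono (fun i => le_of_eq (by ring)) (hpw j _ e s (fun r => ?_) (h8 s hs.2))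
      exact Zon_mono (fun i => sub_le_self _ hβ) (h6 r)

end Vale.Agent.P188.Mdl
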