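import Vale.Agent.P188.FE
import Vale.Agent.P188.Mix

/-! Boxes of nearby types around the same point have the same affine map. -/

namespace Vale.Agent.P188.Sys

open MeasureTheory Filter Mdl
open scoped InnerProductSpace ENNReal

variable {G : Geo}

theorem Mono_meas (S : Sys G) (n : S.I) (a w : Ht G.k) (r : ℝ) :
    MeasurableSet {x | r ≤ ‖S.T n (G.pr a x) - w‖} :=
  measurableSet_le measurable_const ((((S.measurable_T n).comp
    (Geo.continuous_pr.comp (Continuous.prodMk_right a)).measurable).sub_const w).norm)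

theorem Mono_inner {ν a : Ht G.k} (hν : ν ∈ G.Nn) : |⟪ν, a⟫_ℝ| ≤ ‖a‖ := by
  have h := abs_real_inner_le_norm ν a
  rwa [Geo.norm_Nn hν, one_mul] at h

theorem Mono_avg {Ω : Type} [MeasureSpace Ω] {B : Set Ω} (hB : MeasurableSet B) {g : Ω → ℝ≥0∞}
    (hg : Measurable g) (h1 : ∀ e, g e ≤ 1) {κ : ℝ} (hκ : 0 ≤ κ)
    (h : volume {e ∈ B | ENNReal.ofReal (κ / 2) < g e} ≤ ENNReal.ofReal (κ / 2) * volume B) :
    (∫⁻ e in B, g e) / volume B ≤ ENNReal.ofReal κ := by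
  refine ENNReal.div_le_of_le_mul ?_
  have hA : MeasurableSet {e ∈ B | ENNReal.ofReal (κ / 2) < g e} :=
    hB.inter (measurableSet_lt measurable_const hg)
  calc ∫⁻ e in B, g e ≤ ∫⁻ e in B, (ENNReal.ofReal (κ / 2) +
        {e ∈ B | ENNReal.ofReal (κ / 2) < g e}.indicator 1 e) := by
        refine setLIntegral_mono' hB fun e he => ?_
        by_cases h2 : ENNReal.ofReal (κ / 2) < g e
        · rw [Set.indicator_of_mem (show e ∈ {e ∈ B | ENNReal.ofReal (κ / 2) < g e} from ⟨he, h2⟩)]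
          exact (h1 e).trans le_add_self
        · exact (not_lt.1 h2).trans le_self_add
    _ ≤ ENNReal.ofReal (κ / 2) * volume B + ENNReal.ofReal (κ / 2) * volume B := by
        rw [lintegral_add_left measurable_const, setLIntegral_const, lintegral_indicator_one hA]
        exact add_le_add le_rfl ((Measure.restrict_apply_le _ _).trans h)
    _ = ENNReal.ofReal κ * volume B := by
        rw [← add_mul, ← ENNReal.ofReal_add (by linarith) (by linarith), add_halves]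

theorem Mono_up {γ γ' : Ht G.k → ℝ} {t : ℝ} (ht : 0 ≤ t)
    (h : ∀ ν ∈ G.Nn, γ' ν - t ≤ γ ν ∧ γ ν ≤ γ' ν) {ν : Ht G.k} (hν : ν ∈ G.Nn) :
    ∀ ν' ∈ G.Nn, γ' ν' - (1 + G.Mc) * t ≤ G.up γ ν (γ' ν - γ ν) ν' ∧
      G.up γ ν (γ' ν - γ ν) ν' ≤ γ' ν' := by
  intro ν' hν'
  have h0 := G.Mc_nonneg
  have h1 := h ν hν
  have h2 := h ν' hν'
  unfold Geo.up
  split_ifs with e
  · subst e
    constructor <;> nlinarith
  · constructor <;> nlinarith

theorem mx (hO : G.Orth) (K : ℝ) {μ : ℝ} (hμ : 0 < μ) : ∃ τ₀ > 0, ∀ (γ' : Ht G.k → ℝ),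
    G.Ok γ' μ → (∀ ν ∈ G.Nn, γ' ν ≤ 2) → ∀ σ ∈ G.Sig, ∀ o a : Ht G.k, ‖a‖ ≤ μ / 2 → ∀ ε > 0,
    ∀ (l : List (Fin G.n)) (S : Sys G) (y : S.I → G.V) (γ : Ht G.k → ℝ) (t : ℝ) (E : S.Ext)
      (z : E.J → G.V), S.K = K → S.Bd y → (∀ ν ∈ G.Nn, γ' ν - t ≤ γ ν ∧ γ ν ≤ γ' ν) → 0 ≤ t →
      (1 + G.Mc) ^ l.length * t ≤ τ₀ → S.Coh y γ σ o → E.Gn (S.Wv γ) z →
      E.sys.In (fun n => y (E.π n)) γ z → ∀ κ > 0, ∀ᶠ n in E.U,
        mix G.x {x | ε * E.sys.R n ≤ ‖E.sys.T n (G.pr (E.sys.R n • a) x) - E.sys.R n • (σ a + o)‖}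
          ((G.tys γ' γ l).map fun b => G.ty (E.sys.R n) b 0) (z n) ≤ ENNReal.ofReal κ := by
  obtain ⟨τ, hτ, hfe⟩ := fe hO K (half_pos hμ)
  refine ⟨min τ (μ / 4), lt_min hτ (by positivity), fun γ' hγ' h2 σ hσ o a ha ε hε l => ?_⟩
  have hM := G.Mc_nonneg
  induction l with
  | nil =>
    intro S y γ t E z _ _ hγ _ ht hc hz hm κ _
    rw [List.length_nil, pow_zero, one_mul, le_min_iff] at ht
    have h1 : a ∈ G.Cl γ := fun ν hν => by
      have h3 := (abs_le.1 (Mono_inner (a := a) hν)).2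
      linarith [(hγ ν hν).1, (hγ' ν hν).1, ht.2]
    filter_upwards [hc.gen hz hm h1 (ε / 2) (half_pos hε), E.sys.ev_R 1] with n h3 h4
    refine le_trans (le_of_eq (Set.indicator_of_notMem (fun h5 => ?_) _)) zero_le
    have h6 : ε * E.sys.R n ≤ ε / 2 * E.sys.R n := le_trans h5 h3
    nlinarith
  | cons j l ih =>
    intro S y γ t E z hK hy hγ ht0 ht hc hz hm κ hκ
    have ht1 : t ≤ min τ (μ / 4) :=
      (le_mul_of_one_le_left ht0 (one_le_pow₀ (by linarith))).trans ht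
    rw [le_min_iff] at ht1
    obtain ⟨γ₁, e1, hγ₁, hc₁⟩ : ∃ γ₁, G.tys γ' γ (j :: l) = γ₁ :: G.tys γ' γ₁ l ∧
        (∀ ν ∈ G.Nn, γ' ν - (1 + G.Mc) * t ≤ γ₁ ν ∧ γ₁ ν ≤ γ' ν) ∧ E.sys.Coh z γ₁ σ o := by
      by_cases hj : G.lam j = 0
      · refine ⟨γ, by simp [Geo.tys, hj], fun ν hν => ⟨?_, (hγ ν hν).2⟩,
          hc.inh hz hm fun _ _ => le_rfl⟩
        nlinarith [(hγ ν hν).1]
      · have hν := Geo.nu_mem hj
        refine ⟨G.up γ (G.nu j) (γ' (G.nu j) - γ (G.nu j)), by simp [Geo.tys, hj],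
          Mono_up ht0 hγ hν, hfe S y γ σ o E z _ _ hK hy
            ((hγ'.pert (t := t) fun ν hν => abs_le.2 ⟨by linarith [(hγ ν hν).1],
              by linarith [(hγ ν hν).2]⟩).mono (by linarith [ht1.2]))
            (fun ν hν => (hγ ν hν).2.trans (h2 ν hν)) hσ hc hz hm hν
            (by linarith [(hγ _ hν).2]) (by linarith [(hγ _ hν).1, ht1.1])⟩
    rw [e1]
    have hN : Nul E.sys.U (E.sys.Wv γ₁) fun n => {e ∈ G.B (G.ty (E.sys.R n) γ₁ 0) |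
        ENNReal.ofReal (κ / 2) < mix G.x {x | ε * E.sys.R n ≤
          ‖E.sys.T n (G.pr (E.sys.R n • a) x) - E.sys.R n • (σ a + o)‖}
          ((G.tys γ' γ₁ l).map fun b => G.ty (E.sys.R n) b 0) (G.st (z n) e)} := by
      by_contra hn
      obtain ⟨E', e, he, he'⟩ := E.sys.exists_ext hn
      have h3 := ih E.sys z γ₁ ((1 + G.Mc) * t) E' (fun n => G.st (z (E'.π n)) (e n)) hK
        ((hy.pull E).of_in hm) hγ₁ (by positivity)
        (by rw [← mul_assoc, ← pow_succ]; exact ht) hc₁ (he.st_left z)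
        (in_st (S := E'.sys) (L := 0) _ (he'.mono fun n hn => hn.1)) (κ / 2) (half_pos hκ)
      obtain ⟨n, h4, h5⟩ := (h3.and he').exists
      exact absurd h4 (not_le.2 h5.2)
    filter_upwards [hN (κ / 2) (half_pos hκ)] with n hn
    exact Mono_avg isCompact_Zon.measurableSet
      ((measurable_mix _ (Mono_meas E.sys n _ _ _) _).comp
        (Mix_mst measurable_const measurable_id)) (fun e => mix_le_one _ _ _ _) hκ.le hn

theorem Mono_tys (γ' : Ht G.k → ℝ) (m : ℕ) : ∀ (j : Fin m → Fin G.n) (γ : Ht G.k → ℝ),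
    (∀ ν ∈ G.Nn, γ ν ≤ γ' ν) → ∃ b : Fin m → Ht G.k → ℝ, G.tys γ' γ (List.ofFn j) = List.ofFn b ∧
      (∀ r, ∀ ν ∈ G.Nn, b r ν ≤ γ' ν) ∧ ∀ r, G.cs (b r) (j r) = G.cs γ' (j r) := by
  induction m with
  | zero => exact fun j γ _ => ⟨Fin.elim0, by simp [Geo.tys], fun r => r.elim0, fun r => r.elim0⟩
  | succ m ih =>
    intro j γ h
    obtain ⟨γ₁, e1, h1, h2⟩ : ∃ γ₁, (∀ l, G.tys γ' γ (j 0 :: l) = γ₁ :: G.tys γ' γ₁ l) ∧
        (∀ ν ∈ G.Nn, γ₁ ν ≤ γ' ν) ∧ G.cs γ₁ (j 0) = G.cs γ' (j 0) := by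
      by_cases hj : G.lam (j 0) = 0
      · exact ⟨γ, fun l => by simp [Geo.tys, hj], h, by simp [Geo.cs, hj]⟩
      · refine ⟨G.up γ (G.nu (j 0)) (γ' (G.nu (j 0)) - γ (G.nu (j 0))),
          fun l => by simp [Geo.tys, hj], fun ν hν => ?_, by simp [Geo.cs, Geo.up]⟩
        have h3 := h _ (Geo.nu_mem hj)
        have h4 := h ν hν
        have h5 := G.Mc_nonneg
        unfold Geo.up
        split_ifs with e
        · rw [e]
          linarith
        · nlinarith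
    obtain ⟨b, e2, h3, h4⟩ := ih (fun r => j r.succ) γ₁ h1
    refine ⟨Fin.cons γ₁ b, ?_, fun r => Fin.cases h1 h3 r, fun r => Fin.cases h2 h4 r⟩
    rw [List.ofFn_succ, e1, e2, List.ofFn_succ]
    rfl

theorem Mono_ext {σ σ' : Ht G.k ≃ₗᵢ[ℝ] Ht G.k} {o o' : Ht G.k} {r : ℝ} (hr : 0 < r)
    (h : ∀ a, ‖a‖ ≤ r → σ a + o = σ' a + o') : σ = σ' ∧ o = o' := by
  have h0 : o = o' := by simpa using h 0 (by simpa using hr.le)
  refine ⟨LinearIsometryEquiv.ext fun a => ?_, h0⟩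
  have h1 : 0 < r / (‖a‖ + 1) := by positivity
  have h2 := h ((r / (‖a‖ + 1)) • a) (by
    rw [norm_smul, Real.norm_of_nonneg h1.le, div_mul_eq_mul_div, div_le_iff₀ (by positivity)]
    nlinarith)
  rw [h0, add_left_inj, map_smul, map_smul] at h2
  exact smul_right_injective _ h1.ne' h2

theorem mono (hO : G.Orth) (K : ℝ) {μ : ℝ} (hμ : 0 < μ) : ∃ t > 0, ∀ (S : Sys G) (y : S.I → G.V)
    (γ γ' : Ht G.k → ℝ) σ σ' o o', S.K = K → S.Bd y → G.Ok γ' μ → (∀ ν ∈ G.Nn, γ' ν ≤ 2) →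
    (∀ ν ∈ G.Nn, γ' ν - t ≤ γ ν ∧ γ ν ≤ γ' ν) → σ ∈ G.Sig → S.Coh y γ σ o → S.Coh y γ' σ' o' →
      σ = σ' ∧ o = o' := by
  obtain ⟨τ₀, hτ, hmx⟩ := mx hO K hμ
  obtain ⟨m, j, C, hsm⟩ := mix_small (Geo.span_x (G := G))
  have hM : 0 < (1 + G.Mc) ^ m := pow_pos (by linarith [G.Mc_nonneg]) m
  refine ⟨τ₀ / (1 + G.Mc) ^ m, div_pos hτ hM,
    fun S y γ γ' σ σ' o o' hK hy hγ' h2 hγ hσ hc hc' => Mono_ext (half_pos hμ) fun a ha => ?_⟩
  by_contra hne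
  have hd : 0 < ‖σ a + o - (σ' a + o')‖ := norm_pos_iff.2 (sub_ne_zero.2 hne)
  obtain ⟨E, z, hz, hm⟩ := S.exists_ext (S.not_nul_box y γ 0)
  have hm' : E.sys.In (fun n => y (E.π n)) γ z := ⟨0, hm⟩
  have h1 := hmx γ' hγ' h2 σ hσ o a ha (‖σ a + o - (σ' a + o')‖ / 3) (by positivity)
    (List.ofFn j) S y γ _ E z hK hy hγ (div_pos hτ hM).le
    (by rw [List.length_ofFn, mul_div_cancel₀ _ hM.ne']) hc hz hm' (1 / 3) (by norm_num)
  obtain ⟨b, e1, hb1, hb2⟩ := Mono_tys γ' m j γ fun ν hν => (hγ ν hν).2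
  obtain ⟨κ, hκ, hsm'⟩ := hsm (1 / 3) (by norm_num)
  have hc1 : E.sys.Coh (fun n => y (E.π n)) γ' σ' o' := fun L a ha ε hε =>
    (hc' L a ha ε hε).pull E.h
  have h3 := hc1.of_in (hm'.mono fun ν hν => (hγ ν hν).2) C a (fun ν hν => by
    linarith [(abs_le.1 (Mono_inner (a := a) hν)).2, (hγ' ν hν).1])
    (‖σ a + o - (σ' a + o')‖ / 3) (by positivity) κ hκ
  obtain ⟨n, ⟨h4, h5⟩, h6⟩ := ((h1.and h3).and (E.sys.ev_R 1)).exists
  rw [e1, List.map_ofFn] at h4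
  have h7 := hsm' (G.ty (E.sys.R n) γ' 0) ((fun b => G.ty (E.sys.R n) b 0) ∘ b)
    (fun r => Geo.ty_mono (by linarith) (hb1 r) le_rfl)
    (fun r => by simp only [Function.comp_apply, Geo.ty, hb2]) _
    (Mono_meas E.sys n (E.sys.R n • a) (E.sys.R n • (σ' a + o'))
      (‖σ a + o - (σ' a + o')‖ / 3 * E.sys.R n)) (z n) (by
      refine le_trans (measure_mono fun x hx => ?_) h5
      refine And.intro ?_ hx.1
      have e : G.ty (E.sys.R n) γ' C = fun i => G.ty (E.sys.R n) γ' 0 i + C := by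
        funext i
        simp only [Geo.ty, add_zero]
      rw [e]
      exact hx.2)
  have h8 := (one_le_mix Geo.span_x (Mono_meas E.sys n _ _ _) (Mono_meas E.sys n _ _ _)
    (Set.eq_univ_of_forall fun x => ?_) _ (z n)).trans (add_le_add h4 h7)
  · rw [← ENNReal.ofReal_add (by norm_num) (by norm_num), ENNReal.one_le_ofReal] at h8
    norm_num at h8
  · by_contra h9
    simp only [Set.mem_union, Set.mem_ofPred_eq, not_or, not_le] at h9
    have h10 := norm_sub_le (E.sys.T n (G.pr (E.sys.R n • a) x) - E.sys.R n • (σ' a + o'))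
      (E.sys.T n (G.pr (E.sys.R n • a) x) - E.sys.R n • (σ a + o))
    rw [sub_sub_sub_cancel_left, ← smul_sub, norm_smul, Real.norm_of_nonneg (by linarith)] at h10
    nlinarith [h9.1, h9.2]

end Vale.Agent.P188.Sys
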