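import Vale.Agent.P188.BchL

/-! The Lie algebra and the nilshadow in coordinates. -/

namespace Vale.Agent.P188.Mdl

open scoped InnerProductSpace

variable {M : Mdl}

theorem em_inj : Function.Injective M.em := M.inj

theorem em_mem (x : M.V) : M.em x ∈ M.F.J 1 := M.mem x

theorem p_em (x : M.V) : M.p (M.em x) = x := LinearMap.leftInverse_apply_of_inj (LinearMap.ker_eq_bot.2 em_inj) x

theorem em_br (x y : M.V) : M.em (M.br x y) = M.em x * M.em y - M.em y * M.em x := by
  obtain ⟨z, hz⟩ : ∃ z : M.V, M.em z = M.em x * M.em y - M.em y * M.em x := M.lie x y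
  rw [br, ← hz, p_em]

theorem Nil_le : LinearMap.range M.em ≤ M.F.J 1 := by
  rintro _ ⟨x, rfl⟩
  exact em_mem x

theorem Nil_lie : ∀ u ∈ LinearMap.range M.em, ∀ v ∈ LinearMap.range M.em,
    u * v - v * u ∈ LinearMap.range M.em := by
  rintro _ ⟨x, rfl⟩ _ ⟨y, rfl⟩
  exact ⟨M.br x y, em_br x y⟩

theorem em_st (x y : M.V) : M.em (M.st x y) = bch M.F.d (M.em x) (M.em y) := by
  obtain ⟨z, hz⟩ := bch_mem_lie M.F (LinearMap.range M.em) Nil_le Nil_lie
    (LinearMap.mem_range_self _ x) (LinearMap.mem_range_self _ y)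
  rw [st, ← hz, p_em]

theorem D_em (a : Ht M.k) (x : M.V) : M.D a (M.em x) = M.em (M.dl a x) := M.D_e a x

theorem br_add (x y z : M.V) : M.br x (y + z) = M.br x y + M.br x z := by
  refine em_inj ?_
  simp only [em_br, map_add]
  noncomm_ring

theorem br_smul (c : ℝ) (x y : M.V) : M.br x (c • y) = c • M.br x y := by
  refine em_inj ?_
  simp only [em_br, map_smul, mul_smul_comm, smul_mul_assoc, smul_sub]

theorem br_swap (x y : M.V) : M.br x y = -M.br y x := by
  refine em_inj ?_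
  simp only [em_br, map_neg, neg_sub]

theorem br_jac (x y z : M.V) :
    M.br (M.br x y) z = M.br x (M.br y z) - M.br y (M.br x z) := by
  refine em_inj ?_
  simp only [em_br, map_sub]
  noncomm_ring

theorem st_assoc (x y z : M.V) : M.st (M.st x y) z = M.st x (M.st y z) := by
  refine em_inj ?_
  simp only [em_st]
  exact bch_assoc M.F (em_mem x) (em_mem y) (em_mem z)

theorem st_zero (x : M.V) : M.st x 0 = x := by
  refine em_inj ?_
  rw [em_st, map_zero, bch_comm M.F (em_mem x) (M.F.J 1).zero_mem (Commute.zero_right _), add_zero]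

theorem zero_st (x : M.V) : M.st 0 x = x := by
  refine em_inj ?_
  rw [em_st, map_zero, bch_comm M.F (M.F.J 1).zero_mem (em_mem x) (Commute.zero_left _), zero_add]

theorem st_comm {x y : M.V} (h : M.br x y = 0) : M.st x y = x + y := by
  refine em_inj ?_
  have h1 := em_br x y
  rw [h, map_zero] at h1
  rw [em_st, map_add, bch_comm M.F (em_mem x) (em_mem y) (sub_eq_zero.1 h1.symm)]

theorem Nil_smul (a b : ℝ) (x : M.V) : M.br (a • x) (b • x) = 0 := by
  refine em_inj ?_
  simp only [em_br, map_smul, mul_smul_comm, smul_mul_assoc, map_zero, smul_comm a b, sub_self]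

theorem st_neg (x : M.V) : M.st x (-x) = 0 := by
  have h := Nil_smul 1 (-1) x
  rw [one_smul, neg_one_smul] at h
  rw [st_comm h, add_neg_cancel]

theorem neg_st (x : M.V) : M.st (-x) x = 0 := by
  have h := st_neg (-x)
  rwa [neg_neg] at h

theorem neg_st_rev (x y : M.V) : -M.st x y = M.st (-y) (-x) := by
  have h : M.st (M.st x y) (M.st (-y) (-x)) = 0 := by
    rw [st_assoc, ← st_assoc y, st_neg, zero_st, st_neg]
  rw [← zero_st (M.st (-y) (-x)), ← neg_st (M.st x y), st_assoc, h, st_zero]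

theorem st_smul (a b : ℝ) (x : M.V) : M.st (a • x) (b • x) = (a + b) • x := by
  rw [st_comm (Nil_smul a b x), add_smul]

theorem st_sub_mem (P : Submodule ℝ M.V) (hP : ∀ u, ∀ v ∈ P, M.br u v ∈ P) {x y : M.V}
    (h : M.br x y ∈ P) : M.st x y - x - y ∈ P := by
  have h1 := bch_sub_mem M.F (LinearMap.range M.em) (P.map M.em) Nil_le Nil_lie ?_
    (LinearMap.mem_range_self _ x) (LinearMap.mem_range_self _ y) ⟨_, h, em_br x y⟩
  · obtain ⟨z, hz, e⟩ := h1
    rw [← em_st, ← map_sub, ← map_sub] at e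
    rwa [← em_inj e]
  · rintro _ ⟨u, rfl⟩ _ ⟨v, hv, rfl⟩
    exact ⟨_, hP u v hv, em_br u v⟩

theorem st_mem (L : Submodule ℝ M.V) (hL : ∀ u ∈ L, ∀ v ∈ L, M.br u v ∈ L) {x y : M.V}
    (hx : x ∈ L) (hy : y ∈ L) : M.st x y ∈ L := by
  have h1 := bch_mem_lie M.F (L.map M.em) ?_ ?_ ⟨x, hx, rfl⟩ ⟨y, hy, rfl⟩
  · obtain ⟨z, hz, e⟩ := h1
    rw [← em_st] at e
    rwa [← em_inj e]
  · rintro _ ⟨u, -, rfl⟩
    exact em_mem u
  · rintro _ ⟨u, hu, rfl⟩ _ ⟨v, hv, rfl⟩
    exact ⟨_, hL u hu v hv, em_br u v⟩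

theorem dl_zero (x : M.V) : M.dl 0 x = x := by
  ext i
  rw [dl_ap, inner_zero_right, Real.exp_zero, one_mul]

theorem dl_dl (a b : Ht M.k) (x : M.V) : M.dl a (M.dl b x) = M.dl (a + b) x := by
  ext i
  rw [dl_ap, dl_ap, dl_ap, inner_add_right, Real.exp_add, mul_assoc]

theorem dl_br (a : Ht M.k) (x y : M.V) : M.dl a (M.br x y) = M.br (M.dl a x) (M.dl a y) := by
  refine em_inj ?_
  simp only [em_br, ← D_em, map_sub, map_mul]

theorem dl_st (a : Ht M.k) (x y : M.V) : M.dl a (M.st x y) = M.st (M.dl a x) (M.dl a y) := by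
  refine em_inj ?_
  simp only [em_st, ← D_em, map_bch]

theorem ht_surj : Function.Surjective M.ht := M.t_surj

theorem ht_br (x y : M.V) : M.ht (M.br x y) = 0 := M.t_lie x y _ (em_br x y)

theorem ht_st (x y : M.V) : M.ht (M.st x y) = M.ht x + M.ht y := by
  have h := st_sub_mem (LinearMap.ker M.ht) (fun u v _ => ht_br u v) (ht_br x y)
  rw [LinearMap.mem_ker, map_sub, map_sub, sub_sub, sub_eq_zero] at h
  exact h

theorem Nil_sum (x : M.V) : x = ∑ i, x i • M.bv i := pi_eq_sum_univ' x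

theorem ht_dl (a : Ht M.k) (x : M.V) : M.ht (M.dl a x) = M.ht x := by
  rw [Nil_sum (M.dl a x), map_sum]
  conv_rhs => rw [Nil_sum x, map_sum]
  refine Finset.sum_congr rfl fun i _ => ?_
  by_cases h : M.w i = 0
  · rw [dl_ap, h, inner_zero_left, Real.exp_zero, one_mul]
  · have h1 : M.ht (M.bv i) = 0 := M.t_w i h
    rw [map_smul, map_smul, h1, smul_zero, smul_zero]

theorem eq_sum_bv (x : M.V) : x = ∑ i, x i • M.bv i := Nil_sum x

theorem contDiff_st : ContDiff ℝ ⊤ fun q : M.V × M.V => M.st q.1 q.2 := by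
  have he : ContDiff ℝ ⊤ M.em := (LinearMap.toContinuousLinearMap M.em).contDiff
  have hp : ContDiff ℝ ⊤ M.p := (LinearMap.toContinuousLinearMap M.p).contDiff
  have h1 : ContDiff ℝ ⊤ (ex M.F.d : M.A → M.A) :=
    ContDiff.sum fun k _ => (contDiff_id.pow k).const_smul _
  have h2 : ContDiff ℝ ⊤ (lg M.F.d : M.A → M.A) :=
    ContDiff.sum fun k _ => ((contDiff_id.sub contDiff_const).pow (k + 1)).const_smul _
  exact hp.comp (h2.comp ((h1.comp (he.comp contDiff_fst)).mul (h1.comp (he.comp contDiff_snd))))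

theorem continuous_dl : Continuous fun q : Ht M.k × M.V => M.dl q.1 q.2 := by
  have h : Continuous fun q : Ht M.k × (Fin M.N → ℝ) =>
      fun i => Real.exp ⟪M.w i, q.1⟫_ℝ * q.2 i := by fun_prop
  exact h

/-- iterated brackets of length more than `d` vanish -/
theorem br_nil (l : List M.V) (y : M.V) (h : M.F.d ≤ l.length + 1) : l.foldr M.br y = 0 := by
  have h1 : ∀ l : List M.V, M.em (l.foldr M.br y) ∈ M.F.J (l.length + 1) := fun l => by
    induction l with
    | nil => exact em_mem y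
    | cons a l ih =>
      have h2 := M.F.mul _ _ _ _ (em_mem a) ih
      rw [add_comm] at h2
      rw [List.foldr_cons, em_br, List.length_cons]
      exact Submodule.sub_mem _ h2 (M.F.mul _ _ _ _ ih (em_mem a))
  have h3 := antitone_nat_of_succ_le M.F.anti h (h1 l)
  rw [M.F.bot] at h3
  exact em_inj (((Submodule.mem_bot ℝ).1 h3).trans (map_zero _).symm)

end Vale.Agent.P188.Mdl
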