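import Vale.Agent.P188.Mac

/-! The images of two leaves that differ by one letter. -/

namespace Vale.Agent.P188.Sys

open MeasureTheory Filter Mdl
open scoped InnerProductSpace ENNReal

variable {G : Geo} {S : Sys G} {z z' z'' : S.I → G.V} {γ : Ht G.k → ℝ} {L μ : ℝ}
  {σ : Ht G.k ≃ₗᵢ[ℝ] Ht G.k} {o a : Ht G.k} {c : Fin G.n → ℝ}

/-- the images differ by an element of a box -/
def W1R (S : Sys G) (c : Fin G.n → ℝ) (ε : ℝ) (u u' : S.I → G.V) : Prop :=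
  ∀ ε' > ε, ∀ᶠ n in S.U,
    S.f n (u' n) ∈ G.bx (S.f n (u n)) fun i => S.R n * c i + ε' * S.R n

theorem W1_self (y : G.V) (c : Fin G.n → ℝ) : y ∈ G.bx y c := by
  change G.st (-y) y ∈ G.B c
  rw [neg_st]
  exact zero_mem_Zon

theorem W1R.refl {ε : ℝ} : W1R S c ε z z := fun _ _ => Eventually.of_forall fun _ => W1_self _ _

theorem W1R.trans {ε : ℝ} (h : W1R S c ε z z') (h' : W1R S c ε z' z'') : W1R S c ε z z'' := by
  intro ε' hε
  obtain ⟨C, -, hC⟩ := st_Bx G.x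
  filter_upwards [h ((ε + ε') / 2) (by linarith), h' ((ε + ε') / 2) (by linarith),
    S.SysB_ev C (ε := (ε' - ε) / 2) (by linarith)] with n h1 h2 h3
  have h4 := hC _ _ h1 _ h2
  rw [st_assoc, ← st_assoc (S.f n (z' n)), st_neg, zero_st] at h4
  exact Geo.B_mono (fun i => by linarith) h4

theorem W1_chain {ε : ℝ} {u : ℕ → S.I → G.V} {m : ℕ} (h : ∀ j < m, W1R S c ε (u j) (u (j + 1))) :
    W1R S c ε (u 0) (u m) := by
  induction m with
  | zero => exact W1R.refl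
  | succ m ih => exact (ih fun j hj => h j (by omega)).trans (h m (by omega))

theorem W1_step (S : Sys G) {ε : ℝ} (hε : 0 < ε) : ∃ δ > 0, ∀ (u u' : S.I → G.V) (w : Ht G.k)
    (c : Fin G.n → ℝ), G.la w ≤ c → S.Sm (fun n => S.T n (u n) - S.R n • w) →
      (∀ᶠ n in S.U, G.len ((u n)⁻¹ * u' n) ≤ δ * S.R n) → W1R S c ε u u' := by
  obtain ⟨δ, hδ, H⟩ := lp_near G S.K hε
  refine ⟨δ, hδ, fun u u' w c hc h1 h2 ε' hε' => ?_⟩
  filter_upwards [H S rfl, h1 δ hδ, h2, S.ev_R 0] with n k1 k2 k3 k4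
  refine Geo.B_mono (fun i => ?_) (k1 (u n) (u' n) (S.f n (u n)) w c hc ⟨k2, W1_self _ _⟩ k3).2
  have := mul_le_mul_of_nonneg_right hε'.le k4
  linarith

theorem W1_frac {j m : ℕ} (h : j < m) : ((j : ℝ) / m) ∈ Set.Icc (0 : ℝ) 1 :=
  ⟨by positivity, div_le_one_of_le₀ (by exact_mod_cast h.le) (by positivity)⟩

theorem W1_nat (r : ℝ) {δ : ℝ} (hδ : 0 < δ) : ∃ m : ℕ, 0 < m ∧ (1 : ℝ) / m * r ≤ δ := by
  obtain ⟨m, hm⟩ := exists_nat_ge (r / δ)
  refine ⟨m + 1, m.succ_pos, ?_⟩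
  rw [div_le_iff₀ hδ] at hm
  rw [one_div, inv_mul_le_iff₀ (by positivity)]
  push_cast
  linarith

theorem W1_line (hσ : σ ∈ G.Sig) (hz : S.Bd z) (h : S.Par z γ σ o) (ha : a ∈ G.Cl γ) {b : Ht G.k}
    (hb : b ∈ G.Cl γ) {ε : ℝ} (hε : 0 < ε) : W1R S (G.cs (G.im γ σ o)) ε
      (fun n => G.pr (S.R n • a) (z n)) fun n => G.pr (S.R n • b) (z n) := by
  obtain ⟨δ, hδ, H⟩ := S.W1_step hε
  obtain ⟨C, hC⟩ := id hz
  obtain ⟨δ', hδ', R₀, H'⟩ := G.close_line (‖a‖ + ‖b - a‖ + C) hδ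
  obtain ⟨m, hm, hm'⟩ := W1_nat ‖b - a‖ hδ'
  have key := W1_chain (S := S) (c := G.cs (G.im γ σ o)) (ε := ε) (m := m)
    (u := fun j n => G.pr (S.R n • (a + ((j : ℝ) / m) • (b - a))) (z n)) fun j hj => ?_
  · simpa [hm.ne'] using key
  have hj' := W1_frac hj
  have h1 := (Geo.convex_Cl γ).add_smul_sub_mem ha hb hj'
  refine H _ _ _ _ (Geo.la_le_cs (Geo.mem_Cl_im hσ o h1)) (h.pr hz h1) ?_
  filter_upwards [hC, S.ev_R R₀, S.ev_R 0] with n k1 k2 k3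
  refine H' _ k2 _ _ _ ((norm_sub_le _ _).trans ?_) ?_
  · have h2 : ‖a + ((j : ℝ) / m) • (b - a)‖ ≤ ‖a‖ + ‖b - a‖ := by
      refine (norm_add_le _ _).trans (add_le_add_right ?_ _)
      rw [norm_smul, Real.norm_of_nonneg hj'.1]
      exact mul_le_of_le_one_left (norm_nonneg _) hj'.2
    rw [norm_smul, Real.norm_of_nonneg k3]
    nlinarith [k1.1]
  · rw [sub_sub_sub_cancel_right, ← smul_sub, add_sub_add_left_eq_sub, ← sub_smul, ← sub_div,
      Nat.cast_succ, add_sub_cancel_left, norm_smul, norm_smul, Real.norm_of_nonneg k3,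
      Real.norm_of_nonneg (by positivity), mul_comm]
    exact mul_le_mul_of_nonneg_right hm' k3

theorem W1_jump (hσ : σ ∈ G.Sig) (C₀ : ℝ) {ε : ℝ} (hε : 0 < ε) : ∃ δ > 0,
    ∀ (z v : S.I → G.V) (b : Ht G.k), S.Bd z → S.Par z γ σ o → b ∈ G.Cl γ →
      (∀ᶠ n in S.U, ‖G.ht (z n)‖ ≤ (C₀ - ‖b‖) * S.R n) →
      (∀ᶠ n in S.U, v n ∈ G.B fun i => G.la (S.R n • b) i + G.sz (δ * S.R n) i) →
      W1R S (G.cs (G.im γ σ o)) ε (fun n => G.pr (S.R n • b) (z n))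
        fun n => G.pr (S.R n • b) (G.st (z n) (v n)) := by
  obtain ⟨δ, hδ, H⟩ := S.W1_step hε
  obtain ⟨δ', hδ', R₀, H'⟩ := G.close_cell C₀ hδ
  refine ⟨δ', hδ', fun z v b hz h hb h1 h2 =>
    H _ _ _ _ (Geo.la_le_cs (Geo.mem_Cl_im hσ o hb)) (h.pr hz hb) ?_⟩
  filter_upwards [h1, h2, S.ev_R R₀, S.ev_R 0] with n k1 k2 k3 k4
  refine H' _ k3 _ _ ((norm_sub_le _ _).trans ?_) _ k2
  rw [norm_smul, Real.norm_of_nonneg k4]
  linarith

theorem Ev.refl (z : S.I → G.V) (c : Fin G.n → ℝ) (a : Ht G.k) : S.Ev z z c a :=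
  W1R.refl (ε := 0)

theorem Ev.trans (h : S.Ev z z' c a) (h' : S.Ev z' z'' c a) : S.Ev z z'' c a :=
  W1R.trans (ε := 0) h h'

theorem Ev.congr (h : S.Ev z z' c a) (h' : ∀ᶠ n in S.U, z' n = z'' n) : S.Ev z z'' c a := by
  intro ε hε
  filter_upwards [h ε hε, h'] with n h1 h2
  rwa [← h2]

theorem ev_letter (hμ : 0 < μ) (hγ : G.Ok γ μ) (hσ : σ ∈ G.Sig) (hz : S.Bd z) {i : Fin G.n}
    {s : S.I → ℝ} (hs : ∀ᶠ n in S.U, |s n| ≤ Real.exp (G.ty (S.R n) γ L i))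
    (h : S.Par z γ σ o) (h' : S.Par (fun n => G.st (z n) (s n • G.x i)) γ σ o) (ha : a ∈ G.Cl γ) :
    S.Ev z (fun n => G.st (z n) (s n • G.x i)) (G.cs (G.im γ σ o)) a := by
  intro ε hε
  refine (?_ : W1R S (G.cs (G.im γ σ o)) (ε / 2) _ _) ε (half_lt_self hε)
  have hε' := half_pos hε
  obtain ⟨C, hC⟩ := id hz
  by_cases hi : G.lam i = 0
  · obtain ⟨C', -, hC'⟩ := S.lf_len L
    obtain ⟨δ, hδ, H⟩ := W1_jump (S := S) (γ := γ) (o := o) hσ (C + C' + ‖a‖) hε'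
    obtain ⟨m, hm, hm'⟩ := W1_nat (Real.exp L) hδ
    have hs' : ∀ᶠ n in S.U, |s n| ≤ Real.exp (Real.log (S.R n) + L) := hs.mono fun n k => by
      simpa [Geo.ty, Geo.cs, hi] using k
    have key := W1_chain (S := S) (c := G.cs (G.im γ σ o)) (ε := ε / 2) (m := m)
      (u := fun j n => G.pr (S.R n • a) (G.st (z n) (((j : ℝ) / m * s n) • G.x i))) fun j hj => ?_
    · simpa [hm.ne', st_zero] using key
    have hj' := W1_frac hj
    have h1 : ∀ n, |(j : ℝ) / m * s n| ≤ |s n| := fun n => by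
      rw [abs_mul, abs_of_nonneg hj'.1]
      exact mul_le_of_le_one_left (abs_nonneg _) hj'.2
    have h2 : ∀ᶠ n in S.U, ((j : ℝ) / m * s n) • G.x i ∈ S.Lf L n := hs'.mono fun n k =>
      ⟨Geo.smul_V0 _ (Geo.x_V0 hi), Geo.x_mem ((h1 n).trans k)⟩
    have h3 := H _ (fun n => (1 / m * s n) • G.x i) a
      (hz.of_in (in_st z (hs.mono fun n k => Geo.x_mem ((h1 n).trans k)))) (h.leaf h2) ha ?_ ?_
    · simpa only [st_assoc, st_smul, ← add_mul, ← add_div, Nat.cast_succ] using h3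
    · filter_upwards [hC, hC', h2] with n k1 k2 k3
      rw [ht_st]
      refine (norm_add_le _ _).trans ?_
      linarith [k1.1, (k2 _ k3).2]
    · filter_upwards [hs', S.ev_R 1] with n k1 k2
      refine Geo.x_mem ?_
      have k3 : 0 < S.R n := by linarith
      rw [Real.exp_add, Real.exp_log k3] at k1
      simp only [Geo.la, Geo.sz, hi, inner_zero_left, zero_add, if_true]
      rw [Real.exp_log (by positivity), abs_mul, abs_of_nonneg (by positivity)]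
      calc _ ≤ 1 / m * (S.R n * Real.exp L) := mul_le_mul_of_nonneg_left k1 (by positivity)
        _ = 1 / m * Real.exp L * S.R n := by ring
        _ ≤ _ := mul_le_mul_of_nonneg_right hm' k3.le
  · have hν := Geo.nu_mem hi
    have hb := hγ.cl hμ.le _ hν
    obtain ⟨δ, hδ, H⟩ := W1_jump (S := S) (γ := γ) (o := o) hσ (C + ‖γ (G.nu i) • G.nu i‖) hε'
    refine ((W1_line hσ hz h ha hb hε').trans (H z _ _ hz h hb ?_ ?_)).trans
      (W1_line hσ (hz.of_in (in_st z (hs.mono fun n k => Geo.x_mem k))) h' hb ha hε')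
    · exact hC.mono fun n k => by rw [add_sub_cancel_right]; exact k.1
    · filter_upwards [hs, S.ev_log 1 (half_pos hδ), S.SysB_ev (L - 1) (half_pos hδ)]
        with n k1 k2 k3
      refine Geo.x_mem (k1.trans (Real.exp_le_exp.2 ?_))
      have k4 : G.la (S.R n • γ (G.nu i) • G.nu i) i = S.R n * G.cs γ i := by
        rw [← Geo.cs_inner, Geo.cs, Geo.cs, real_inner_smul_right, Geo.Sig_self hν]
        ring
      simp only [Geo.ty, Geo.sz, hi, if_false, k4]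
      linarith

end Vale.Agent.P188.Sys
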