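import Vale.Agent.P188.Leaf
import Vale.Agent.P188.W1

/-! Pairs of generic points of a box. -/

namespace Vale.Agent.P188.Sys

open MeasureTheory Filter Mdl
open scoped InnerProductSpace ENNReal

variable {G : Geo} {S : Sys G} {y : S.I → G.V} {γ γ' : Ht G.k → ℝ} {E : S.Ext}
  {z z' : E.J → G.V} {L μ : ℝ} {σ : Ht G.k ≃ₗᵢ[ℝ] Ht G.k} {o a : Ht G.k}

theorem pair_ty (R : ℝ) (γ : Ht G.k → ℝ) (L C : ℝ) :
    (fun i => G.ty R γ L i + C) = G.ty R γ (L + C) := funext fun _ => add_assoc _ _ _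

theorem pair_mpr (a : Ht G.k) : Measurable (G.pr a) :=
  (Geo.continuous_pr.comp (continuous_const.prodMk continuous_id)).measurable

theorem pair_mQ (S : Sys G) (n : S.I) (a : Ht G.k) : Measurable fun x => S.T n (G.pr a x) :=
  (S.measurable_T n).comp (pair_mpr a)

theorem pair_both {y z z' : S.I → G.V} (h : S.In y γ z) (h' : S.In y γ z') :
    ∃ L, ∀ᶠ n in S.U, z n ∈ G.bx (y n) (G.ty (S.R n) γ L) ∧
      z' n ∈ G.bx (y n) (G.ty (S.R n) γ L) := by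
  obtain ⟨L, h⟩ := h
  obtain ⟨L', h'⟩ := h'
  refine ⟨max L L', ?_⟩
  filter_upwards [h, h', S.ev_R 0] with n h1 h2 h3
  exact ⟨Geo.B_mono (Geo.ty_mono h3 (fun _ _ => le_rfl) (le_max_left _ _)) h1,
    Geo.B_mono (Geo.ty_mono h3 (fun _ _ => le_rfl) (le_max_right _ _)) h2⟩

theorem pair_lt {b : S.I → Ht G.k} (h : S.Sm b) {ε : ℝ} (hε : 0 < ε) :
    ∀ᶠ n in S.U, ‖b n‖ < ε * S.R n := by
  filter_upwards [h _ (half_pos hε), S.hR.eventually_gt_atTop 0] with n h1 h2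
  exact h1.trans_lt (mul_lt_mul_of_pos_right (half_lt_self hε) h2)

theorem pair_gen (hO : G.Orth) (hμ : 0 < μ) (hγ' : G.Ok γ' μ) (hle : ∀ ν ∈ G.Nn, γ' ν ≤ γ ν)
    (hy : S.Bd y) (hz : E.Gn (S.Wv γ) z) (hm : E.sys.In (fun n => y (E.π n)) γ z) :
    ∃ σ ∈ G.Sig, ∃ o, E.sys.Par z γ' σ o := by
  obtain ⟨σ, h1, o, h2⟩ :=
    exists_par hO (fun ν hν => (hγ'.pos hμ ν hν).trans_le (hle ν hν)) hy hz hm
  exact ⟨σ, h1, o, h2.mono hle⟩

theorem pair_same (hO : G.Orth) (hμ : 0 < μ) (hγ' : G.Ok γ' μ) (hle : ∀ ν ∈ G.Nn, γ' ν ≤ γ ν)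
    (hy : S.Bd y) (hz' : E.Gn (S.Wv γ) z') (hm' : E.sys.In (fun n => y (E.π n)) γ z')
    (hb : E.sys.Bd z) (h : E.sys.Par z γ' σ o)
    (hs : ∀ a ∈ G.Cl γ', E.sys.Sm fun n => E.sys.T n (G.pr (E.sys.R n • a) (z n)) -
      E.sys.T n (G.pr (E.sys.R n • a) (z' n))) : E.sys.Par z' γ' σ o := by
  obtain ⟨σ', -, o', h1⟩ := pair_gen hO hμ hγ' hle hy hz' hm'
  obtain ⟨rfl, rfl⟩ : σ = σ' ∧ o = o' := Geo.eq_of_Cl (hγ'.pos hμ) fun a ha => by
    have h2 := ((h1.pr ((hy.pull E).of_in hm') ha).add (hs a ha)).sub (h.pr hb ha)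
    refine sub_eq_zero.1 (Sm.eq_zero (h2.congr (Eventually.of_forall fun n => ?_)))
    rw [smul_sub]
    abel
  exact h1

theorem pair_step (hO : G.Orth) (hμ : 0 < μ) (hγ' : G.Ok γ' μ) (hle : ∀ ν ∈ G.Nn, γ' ν ≤ γ ν)
    (hy : S.Bd y) (H : S.Hyp y γ γ') (hz : E.Gn (S.Wv γ) z)
    (hm : E.sys.In (fun n => y (E.π n)) γ z) (h : E.sys.Par z γ' σ o) {i : Fin G.n}
    {s : S.I → ℝ} (hs : ∀ᶠ n in S.U, |s n| ≤ Real.exp (G.ty (S.R n) γ' L i)) :
    E.sys.Par (fun n => G.st (z n) (s (E.π n) • G.x i)) γ' σ o := by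
  have h1 : E.sys.In z γ' fun n => G.st (z n) (s (E.π n) • G.x i) :=
    in_st (S := E.sys) (L := L) z (w := fun n => s (E.π n) • G.x i)
      ((E.h.eventually hs).mono fun n hn => Geo.x_mem hn)
  refine pair_same hO hμ hγ' hle hy (hz.st fun n => s n • G.x i) (hm.trans (h1.mono hle))
    ((hy.pull E).of_in hm) h fun a ha ε hε => ?_
  obtain ⟨L₁, hL₁⟩ := hm
  have h2 : ∀ᶠ n in S.U, |s n| ≤ Real.exp (G.ty (S.R n) γ' (max L L₁) i) := by
    filter_upwards [hs, S.ev_R 0] with n h4 h5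
    exact h4.trans (Real.exp_le_exp.2 (Geo.ty_mono h5 (fun _ _ => le_rfl) (le_max_left _ _) i))
  filter_upwards [hz _ (H (max L L₁) i s h2 a ha ε hε), hL₁, E.sys.ev_R 0] with n h4 h5 h6
  exact (not_le.1 fun h7 =>
    h4 ⟨Geo.B_mono (Geo.ty_mono h6 (fun _ _ => le_rfl) (le_max_right _ _)) h5, h7⟩).le

theorem pair_det (hO : G.Orth) (hμ : 0 < μ) (hγ' : G.Ok γ' μ) (hle : ∀ ν ∈ G.Nn, γ' ν ≤ γ ν)
    (hy : S.Bd y) (H : S.Hyp y γ γ') (hz : E.Gn (S.Wv γ) z)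
    (hm : E.sys.In (fun n => y (E.π n)) γ z) (hσ : σ ∈ G.Sig) (h : E.sys.Par z γ' σ o)
    {w : S.I → G.V} (hw : ∀ᶠ n in S.U, w n ∈ G.B (G.ty (S.R n) γ' L)) :
    E.sys.Par (fun n => G.st (z n) (w (E.π n))) γ' σ o ∧ ∀ a ∈ G.Cl γ',
      E.sys.Ev z (fun n => G.st (z n) (w (E.π n))) (G.cs (G.im γ' σ o)) a := by
  obtain ⟨m, j, C, -, hg⟩ := gen_Bx G.x
  have h0 : ∀ n, ∃ (u : ℕ → G.V) (s : Fin m → ℝ), w n ∈ G.B (G.ty (S.R n) γ' L) →
      u 0 = 0 ∧ u m = w n ∧ (∀ r, u r ∈ G.B (G.ty (S.R n) γ' (L + C))) ∧ ∀ r : Fin m,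
        |s r| ≤ Real.exp (G.ty (S.R n) γ' (L + C) (j r)) ∧
          u (r + 1) = G.st (u r) (s r • G.x (j r)) := fun n => by
    by_cases hn : w n ∈ G.B (G.ty (S.R n) γ' L)
    · obtain ⟨u, s, h1⟩ := hg _ _ hn
      rw [← pair_ty]
      exact ⟨u, s, fun _ => h1⟩
    · exact ⟨0, 0, fun h1 => absurd h1 hn⟩
  choose u s hu using h0
  have hw' := E.h.eventually hw
  have h1 : ∀ r ≤ m, E.sys.Par (fun n => G.st (z n) (u (E.π n) r)) γ' σ o ∧ ∀ a ∈ G.Cl γ',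
      E.sys.Ev z (fun n => G.st (z n) (u (E.π n) r)) (G.cs (G.im γ' σ o)) a := by
    intro r
    induction r with
    | zero =>
      intro _
      have e : ∀ᶠ n in E.U, z n = G.st (z n) (u (E.π n) 0) :=
        hw'.mono fun n hn => by rw [(hu _ hn).1, st_zero]
      exact ⟨h.congr e, fun a _ => (Ev.refl (S := E.sys) z _ a).congr e⟩
    | succ r ih =>
      intro hr
      obtain ⟨h2, h3⟩ := ih (by omega)
      have hm1 : E.sys.In (fun n => y (E.π n)) γ fun n => G.st (z n) (u (E.π n) r) :=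
        hm.trans ((in_st (S := E.sys) (L := L + C) z (w := fun n => u (E.π n) r)
          (hw'.mono fun n hn => (hu _ hn).2.2.1 r)).mono hle)
      have hs1 : ∀ᶠ n in S.U, |s n ⟨r, hr⟩| ≤ Real.exp (G.ty (S.R n) γ' (L + C) (j ⟨r, hr⟩)) :=
        hw.mono fun n hn => ((hu _ hn).2.2.2 ⟨r, hr⟩).1
      have h4 := pair_step hO hμ hγ' hle hy H (hz.st fun n => u n r) hm1 h2 hs1
      have e : ∀ᶠ n in E.U, G.st (G.st (z n) (u (E.π n) r)) (s (E.π n) ⟨r, hr⟩ • G.x (j ⟨r, hr⟩)) =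
          G.st (z n) (u (E.π n) (r + 1)) :=
        hw'.mono fun n hn => by rw [((hu _ hn).2.2.2 ⟨r, hr⟩).2, st_assoc]
      exact ⟨h4.congr e, fun a ha => (h3 a ha).trans ((ev_letter (S := E.sys) hμ hγ' hσ
        ((hy.pull E).of_in hm1) (E.h.eventually hs1) h2 h4 ha).congr e)⟩
  have e : ∀ᶠ n in E.U, G.st (z n) (u (E.π n) m) = G.st (z n) (w (E.π n)) :=
    hw'.mono fun n hn => by rw [(hu _ hn).2.1]
  exact ⟨(h1 m le_rfl).1.congr e, fun a ha => ((h1 m le_rfl).2 a ha).congr e⟩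

/-- two generic points have a common good neighbour -/
theorem pair_over (hz : E.Gn (S.Wv γ) z) (hz' : E.Gn (S.Wv γ) z') (hm' : E.sys.In z γ' z')
    {P : S.I → G.V → G.V → Prop} (hP : ∀ n, MeasurableSet {q : G.V × G.V | P n q.1 q.2})
    (h : ∀ (L : ℝ) (w : S.I → G.V), (∀ᶠ n in S.U, w n ∈ G.B (G.ty (S.R n) γ' L)) →
      Nul S.U (S.Wv γ) fun n => {x | P n x (G.st x (w n))}) :
    ∀ᶠ n in E.U, ∃ p, ¬P (E.π n) (z n) p ∧ ¬P (E.π n) (z' n) p := by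
  obtain ⟨L, hL⟩ := hm'
  obtain ⟨C, -, hst⟩ := st_Bx G.x
  have hm : ∀ n, MeasurableSet {q : G.V × G.V | P n q.1 (G.st q.1 q.2)} := fun n =>
    (measurable_fst.prodMk continuous_st.measurable) (hP n)
  have key : ∀ {x : E.J → G.V}, E.Gn (S.Wv γ) x → ∀ L',
      Nul E.U (fun n => volume (G.B (G.ty (S.R (E.π n)) γ' L'))) fun n =>
        {v ∈ G.B (G.ty (S.R (E.π n)) γ' L') | P (E.π n) (x n) (G.st (x n) v)} := fun hx L' =>
    Gen.fub hx E.h (D := fun n => G.B (G.ty (S.R n) γ' L')) (fun _ => isCompact_Zon.measurableSet)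
      (Eventually.of_forall (S.vol_ty γ' L')) hm (h L')
  obtain ⟨C', hC'⟩ := S.vol_ty_le γ' (L + C) L
  have h2 : Nul E.U (fun n => volume (G.B (G.ty (S.R (E.π n)) γ' L))) fun n =>
      {v | G.st (G.st (-z n) (z' n)) v ∈ {v ∈ G.B (G.ty (S.R (E.π n)) γ' (L + C)) |
        P (E.π n) (z n) (G.st (z n) v)}} :=
    ((key hz (L + C)).of_le (Eventually.of_forall fun n => hC' _)).of_vol (C := 1)
      (Eventually.of_forall fun n => by rw [vol_st_left, ENNReal.ofReal_one, one_mul])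
  by_contra hc
  refine not_nul_self (U := E.U) (A := fun n => G.B (G.ty (S.R (E.π n)) γ' L))
    (Eventually.of_forall fun n => S.vol_ty γ' L _) (((key hz' L).union h2).mono ?_)
  filter_upwards [Ultrafilter.eventually_not.2 hc, hL] with n h3 h4 v hv
  by_cases h5 : P (E.π n) (z' n) (G.st (z' n) v)
  · exact Or.inl ⟨hv, h5⟩
  · refine Or.inr ⟨?_, ?_⟩
    · rw [← pair_ty]
      exact hst _ _ h4 _ hv
    · rw [← st_assoc, ← st_assoc, st_neg, zero_st]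
      by_contra h6
      exact h3 ⟨_, h6, h5⟩

theorem pair_par (hO : G.Orth) (hμ : 0 < μ) (hγ' : G.Ok γ' μ) (hle : ∀ ν ∈ G.Nn, γ' ν ≤ γ ν)
    (hy : S.Bd y) (H : S.Hyp y γ γ') (hz : E.Gn (S.Wv γ) z) (hz' : E.Gn (S.Wv γ) z')
    (hm : E.sys.In (fun n => y (E.π n)) γ z) (hm' : E.sys.In z γ' z')
    (h : E.sys.Par z γ' σ o) : E.sys.Par z' γ' σ o := by
  have hm1 := hm.trans (hm'.mono hle)
  refine pair_same hO hμ hγ' hle hy hz' hm1 ((hy.pull E).of_in hm) h fun a ha ε hε => ?_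
  obtain ⟨L, hL⟩ := pair_both hm hm1
  have h1 := pair_over hz hz' hm' (P := fun n x x' => x ∈ G.bx (y n) (G.ty (S.R n) γ L) ∧
      ε / 2 * S.R n ≤ ‖S.T n (G.pr (S.R n • a) x) - S.T n (G.pr (S.R n • a) x')‖)
    (fun n => (measurable_fst (Geo.isCompact_bx _ _).measurableSet).inter
      (measurableSet_le measurable_const (((S.pair_mQ n _).comp measurable_fst).sub
        ((S.pair_mQ n _).comp measurable_snd)).norm)) fun L' w hw => by
      by_contra hc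
      obtain ⟨E₀, x, hx, h2⟩ := S.exists_ext hc
      have h3 : E₀.sys.In (fun n => y (E₀.π n)) γ x := ⟨L, h2.mono fun n hn => hn.1⟩
      obtain ⟨σ₀, hσ₀, o₀, h4⟩ := pair_gen hO hμ hγ' hle hy hx h3
      have h5 := (hy.pull E₀).of_in h3
      have h6 := (h4.pr h5 ha).sub ((pair_det hO hμ hγ' hle hy H hx h3 hσ₀ h4 hw).1.pr
        (h5.of_in (in_st (S := E₀.sys) x (E₀.h.eventually hw))) ha)
      obtain ⟨n, h7, h8⟩ := ((pair_lt h6 (half_pos hε)).and h2).exists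
      rw [sub_sub_sub_cancel_right] at h7
      exact h7.not_ge h8.2
  filter_upwards [h1, hL] with n ⟨p, h2, h3⟩ h4
  have h5 := not_le.1 fun h6 => h2 ⟨h4.1, h6⟩
  have h6 := not_le.1 fun h6 => h3 ⟨h4.2, h6⟩
  rw [norm_sub_rev] at h6
  exact (norm_sub_le_norm_sub_add_norm_sub _ _ _).trans
    ((add_le_add h5.le h6.le).trans_eq (by rw [← add_mul, add_halves]))

/-- test heights -/
noncomputable def pair_b (G : Geo) (μ : ℝ) (j : Option (Fin G.k)) : Ht G.k :=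
  j.elim 0 fun j => μ • EuclideanSpace.single j 1

theorem pair_b_mem (hμ : 0 < μ) (hγ' : G.Ok γ' μ) (j : Option (Fin G.k)) :
    pair_b G μ j ∈ G.Cl γ' := fun ν hν => by
  rcases j with _ | j
  · exact (inner_zero_right (𝕜 := ℝ) ν).trans_le (hγ'.pos hμ ν hν).le
  · refine (real_inner_le_norm _ _).trans (le_trans ?_ (hγ' ν hν).1)
    simp [pair_b, Geo.norm_Nn hν, norm_smul, abs_of_pos hμ]

theorem pair_col (G : Geo) (hμ : 0 < μ) {ε : ℝ} (hε : 0 < ε) : ∃ δ > 0, ∀ σ ∈ G.Sig,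
    ∀ σ' ∈ G.Sig, ∀ o o', (∀ j, ‖σ (pair_b G μ j) + o - (σ' (pair_b G μ j) + o')‖ ≤ 2 * δ) →
      ∀ γ i, G.cs (G.im γ σ' o') i ≤ G.cs (G.im γ σ o) i + ε := by
  obtain ⟨g, hg, h⟩ := G.sig_gap
  obtain ⟨l, Λ, -, hΛ, hl⟩ := G.lam_bd
  refine ⟨min (μ * g / 4) (ε / (2 * Λ)), by positivity, fun σ hσ σ' hσ' o o' h1 γ i => ?_⟩
  have h2 := min_le_left (μ * g / 4) (ε / (2 * Λ))
  have h3 := (le_div_iff₀ (by positivity)).1 (min_le_right (μ * g / 4) (ε / (2 * Λ)))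
  generalize min (μ * g / 4) (ε / (2 * Λ)) = δ at h1 h2 h3
  have h4 : ‖o - o'‖ ≤ 2 * δ := by simpa [pair_b] using h1 none
  obtain rfl : σ = σ' := h σ hσ σ' hσ' fun j => by
    have h5 := norm_sub_le (σ (pair_b G μ (some j)) + o - (σ' (pair_b G μ (some j)) + o')) (o - o')
    have h6 : σ (pair_b G μ (some j)) + o - (σ' (pair_b G μ (some j)) + o') - (o - o') =
        μ • (σ (EuclideanSpace.single j 1) - σ' (EuclideanSpace.single j 1)) := by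
      simp only [pair_b, Option.elim_some, map_smul, smul_sub]
      abel
    rw [h6, norm_smul, Real.norm_of_nonneg hμ.le] at h5
    exact le_of_mul_le_mul_left (by linarith [h1 (some j)]) hμ
  rw [norm_sub_rev] at h4
  have h5 := (real_inner_le_norm (G.lam i) (o' - o)).trans
    (mul_le_mul (hl i).1 h4 (norm_nonneg _) hΛ.le)
  rw [inner_sub_right] at h5
  rw [Geo.cs_im, Geo.cs_im]
  unfold Geo.la
  linarith

theorem pair_ev (hO : G.Orth) (hμ : 0 < μ) (hγ' : G.Ok γ' μ) (hle : ∀ ν ∈ G.Nn, γ' ν ≤ γ ν)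
    (hy : S.Bd y) (H : S.Hyp y γ γ') (hz : E.Gn (S.Wv γ) z) (hz' : E.Gn (S.Wv γ) z')
    (hm : E.sys.In (fun n => y (E.π n)) γ z) (hm' : E.sys.In z γ' z') (hσ : σ ∈ G.Sig)
    (h : E.sys.Par z γ' σ o) (ha : a ∈ G.Cl γ') : E.sys.Ev z z' (G.cs (G.im γ' σ o)) a := by
  intro ε hε
  have hε4 : 0 < ε / 4 := by positivity
  have hm1 := hm.trans (hm'.mono hle)
  obtain ⟨L, hL⟩ := pair_both hm hm1
  obtain ⟨δ, hδ, hcol⟩ := pair_col G hμ hε4
  obtain ⟨C, -, hst⟩ := st_Bx G.x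
  have hF : ∀ n, Measurable fun x => S.f n (G.pr (S.R n • a) x) := fun n =>
    (S.mf n).comp (pair_mpr _)
  have h1 := pair_over hz hz' hm' (P := fun n x x' => x ∈ G.bx (y n) (G.ty (S.R n) γ L) ∧
      (∀ j, ‖S.T n (G.pr (S.R n • pair_b G μ j) x) - S.R n • (σ (pair_b G μ j) + o)‖ ≤
        δ * S.R n) ∧ S.f n (G.pr (S.R n • a) x') ∉ G.bx (S.f n (G.pr (S.R n • a) x))
          fun i => S.R n * G.cs (G.im γ' σ o) i + ε / 2 * S.R n)
    (fun n => by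
      refine (measurable_fst (Geo.isCompact_bx _ _).measurableSet).inter
        (MeasurableSet.inter ?_ (MeasurableSet.compl ?_))
      · refine measurableSet_setOfPred.2 (Measurable.forall fun j => measurableSet_setOfPred.1 ?_)
        exact measurableSet_le (((S.pair_mQ n _).comp measurable_fst).sub measurable_const).norm
          measurable_const
      · exact (continuous_st.measurable.comp ((continuous_neg.measurable.comp
          ((hF n).comp measurable_fst)).prodMk ((hF n).comp measurable_snd)))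
          isCompact_Zon.measurableSet) fun L' w hw => by
      by_contra hc
      obtain ⟨E₀, x, hx, h2⟩ := S.exists_ext hc
      have h3 : E₀.sys.In (fun n => y (E₀.π n)) γ x := ⟨L, h2.mono fun n hn => hn.1⟩
      obtain ⟨σ₀, hσ₀, o₀, h4⟩ := pair_gen hO hμ hγ' hle hy hx h3
      have h5 := hcol σ hσ σ₀ hσ₀ o o₀ (fun j => by
        obtain ⟨n, ⟨h6, h7⟩, h8⟩ := (((h4.pr ((hy.pull E₀).of_in h3) (pair_b_mem hμ hγ' j) δ hδ).and
          h2).and (E₀.sys.hR.eventually_gt_atTop 0)).exists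
        have h9 := (norm_sub_le _ _).trans (add_le_add h6 (h7.2.1 j))
        change ‖S.T _ _ - _ - (S.T _ _ - _)‖ ≤ _ at h9
        rw [sub_sub_sub_cancel_left, ← smul_sub, norm_smul, Real.norm_of_nonneg h8.le] at h9
        exact le_of_mul_le_mul_left (by linarith) h8) γ'
      obtain ⟨n, ⟨h6, h7⟩, h8⟩ := ((((pair_det hO hμ hγ' hle hy H hx h3 hσ₀ h4 hw).2 a ha _ hε4).and
        h2).and (E₀.sys.ev_R 0)).exists
      refine h7.2.2 (Geo.B_mono (fun i => ?_) h6)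
      have h9 := mul_le_mul_of_nonneg_left (h5 i) h8
      change S.R _ * _ + _ * S.R _ ≤ _
      linarith
  have h2 : ∀ {x : E.J → G.V}, E.sys.Bd x → E.sys.Par x γ' σ o → ∀ᶠ n in E.U, ∀ j,
      ‖S.T (E.π n) (G.pr (S.R (E.π n) • pair_b G μ j) (x n)) -
        S.R (E.π n) • (σ (pair_b G μ j) + o)‖ ≤ δ * S.R (E.π n) := fun hb hp =>
    eventually_all.2 fun j => hp.pr hb (pair_b_mem hμ hγ' j) δ hδ
  filter_upwards [h1, hL, h2 ((hy.pull E).of_in hm) h, h2 ((hy.pull E).of_in hm1)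
    (pair_par hO hμ hγ' hle hy H hz hz' hm hm' h), E.sys.SysB_ev C (half_pos hε)]
    with n ⟨p, h3, h4⟩ h5 h6 h7 h8
  have h9 := hst _ _ (not_not.1 fun h0 => h3 ⟨h5.1, h6, h0⟩) _
    (neg_mem_Zon (not_not.1 fun h0 => h4 ⟨h5.2, h7, h0⟩))
  rw [neg_st_rev, neg_neg, st_assoc, ← st_assoc (S.f _ (G.pr _ p)), st_neg, zero_st] at h9
  refine Geo.B_mono (fun i => ?_) h9
  change S.R _ * _ + _ + _ ≤ S.R _ * _ + _ * S.R _
  linarith

theorem coh_of_hyp (hO : G.Orth) (hμ : 0 < μ) (hγ' : G.Ok γ' μ) (hle : ∀ ν ∈ G.Nn, γ' ν ≤ γ ν)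
    (hy : S.Bd y) (H : S.Hyp y γ γ') (hz : E.Gn (S.Wv γ) z)
    (hm : E.sys.In (fun n => y (E.π n)) γ z) (h : E.sys.Par z γ' σ o) : E.sys.Coh z γ' σ o := by
  intro L a ha ε hε
  by_contra hc
  obtain ⟨C, hC⟩ := S.vol_ty_le γ' L 0
  have h1 : ¬Nul E.sys.U (fun n => volume (G.B (G.ty (S.R (E.π n)) γ' L))) fun n =>
      {k | G.st (z n) k ∈ {x ∈ G.bx (z n) (G.ty (E.sys.R n) γ' L) | ε * E.sys.R n ≤
        ‖E.sys.T n (G.pr (E.sys.R n • a) x) - E.sys.R n • (σ a + o)‖}} := fun h1 =>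
    hc ((h1.of_le (Eventually.of_forall fun n => hC _)).of_vol (C := 1)
      (Eventually.of_forall fun n => by rw [vol_st_left, ENNReal.ofReal_one, one_mul]))
  obtain ⟨E', k, hk, h2⟩ := E.sys.exists_ext h1
  have h3 : ∀ᶠ n in E'.U, k n ∈ G.B (G.ty (S.R (E.π (E'.π n))) γ' L) :=
    h2.mono fun n hn => Geo.st_mem_bx.1 hn.1
  have h4 := hz.box (D := fun n => G.B (G.ty (S.R n) γ' L)) (fun _ => isCompact_Zon.measurableSet)
    (Eventually.of_forall (S.vol_ty γ' L)) hk h3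
  have h5 := in_st (S := E'.sys) (fun n => z (E'.π n)) h3
  have h6 := pair_par (E := E.comp E') hO hμ hγ' hle hy H (hz.comp E') h4 (hm.pull E') h5
    (h.pull E')
  have h7 := h6.pr ((((hy.pull E).of_in hm).pull E').of_in h5) ha
  obtain ⟨n, h8, h9⟩ := ((pair_lt h7 hε).and h2).exists
  exact h8.not_ge h9.2

end Vale.Agent.P188.Sys
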