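import Vale.Agent.P188.Lin
import Vale.Agent.P188.BoxAC

/-! Nearby generic points have the same affine approximation. -/

namespace Vale.Agent.P188.Sys

open MeasureTheory Filter Mdl
open scoped InnerProductSpace ENNReal

variable {G : Geo} {S : Sys G} {W : S.I → ℝ≥0∞} {A : S.I → Set G.V} {c : ℝ} {E : S.Ext}
  {z z' : E.J → G.V} {D : Ht G.k →ₗ[ℝ] Ht G.k}

theorem Pw_sz {c R : ℝ} (hR : 1 ≤ R) : G.sz (c * R) ≤ G.sz ((|c| + 1) * R) := fun i => by
  unfold Geo.sz
  split_ifs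
  · rcases eq_or_ne c 0 with rfl | hc
    · simpa using Real.log_nonneg hR
    · have h0 : 0 < R := by linarith
      rw [← Real.log_abs]
      refine Real.log_le_log (abs_pos.2 (mul_ne_zero hc h0.ne')) ?_
      rw [abs_mul, abs_of_pos h0]
      linarith
  · nlinarith [le_abs_self c]

theorem Pw_congr {z z' : S.I → G.V} (h : S.Der z D) (h' : ∀ᶠ n in S.U, z n = z' n) :
    S.Der z' D := fun L ε hε => by
  filter_upwards [h L ε hε, h'] with n h1 h2
  rwa [← h2]

theorem Pw_refl {z : S.I → G.V} (h : S.Der z D) : S.Sim z z D :=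
  ⟨h, h, sm_of_bdd (C := 0) (Eventually.of_forall fun n => by simp)⟩

theorem Pw_exp {C : ℝ} (hC : 0 ≤ C) : 1 ≤ Real.exp C + C := by
  linarith [Real.add_one_le_exp C]

theorem Pw_det (hA : S.Tan W A) (hz : E.Gn W z) (hm : ∀ᶠ n in E.U, z n ∈ A (E.π n))
    (hD : E.sys.Der z D) (hc : 1 ≤ c) {w : S.I → G.V}
    (hw : ∀ᶠ n in S.U, w n ∈ G.B (G.sz (c * S.R n))) :
    E.sys.Sim z (fun n => z n * w (E.π n)) D := by
  obtain ⟨m, j, C, hC, hg⟩ := gen_Bx G.x
  obtain ⟨C1, hC1, hl⟩ := G.len_of_mem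
  obtain ⟨C2, hC2, hh⟩ := ht_le (M := G.toMdl)
  have key : ∀ n, ∃ (v : ℕ → G.V) (s : Fin m → ℝ), w n ∈ G.B (G.sz (c * S.R n)) →
      v 0 = 0 ∧ v m = w n ∧ (∀ r, v r ∈ G.B fun i => G.sz (c * S.R n) i + C) ∧
        ∀ r : Fin m, |s r| ≤ Real.exp (G.sz (c * S.R n) (j r) + C) ∧
          v (r + 1) = G.st (v r) (s r • G.x (j r)) := fun n => by
    by_cases h : w n ∈ G.B (G.sz (c * S.R n))
    · obtain ⟨v, s, h1⟩ := hg _ _ h
      exact ⟨v, s, fun _ => h1⟩
    · exact ⟨0, 0, fun h' => absurd h' h⟩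
  choose v s hv using key
  obtain ⟨c1, hc1⟩ : ∃ c1, c1 = C1 * ((Real.exp C + C) * c) := ⟨_, rfl⟩
  have hlen : ∀ᶠ n in S.U, ∀ r, G.len (v n r) ≤ c1 * S.R n := by
    filter_upwards [hw, S.ev_R 1] with n h1 h2 r
    have h3 : 1 ≤ c * S.R n := one_le_mul_of_one_le_of_one_le hc h2
    refine (hl ((Real.exp C + C) * (c * S.R n)) (one_le_mul_of_one_le_of_one_le (Pw_exp hC) h3) _
      (Geo.B_mono (fun i => G.Close_add hC h3 i) ((hv n h1).2.2.1 r))).trans_eq ?_
    rw [hc1]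
    ring
  have hder : ∀ r, ∃ D', E.sys.Der (fun n => z n * v (E.π n) r) D' := fun r =>
    exists_der (hA.nb c1) (hz.mul fun n => v n r) (by
      filter_upwards [hm, E.h.eventually hlen] with n h1 h2
      exact ⟨z n, h1, by simpa using h2 r⟩)
  have ind : ∀ r ≤ m, E.sys.Sim z (fun n => z n * v (E.π n) r) D := by
    intro r
    induction r with
    | zero =>
      intro _
      refine (Pw_refl hD).congr ?_
      filter_upwards [E.h.eventually hw] with n h1
      rw [(hv _ h1).1, ← one_def, mul_one]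
    | succ r ih =>
      intro hr
      have h0 := ih (Nat.le_of_succ_le hr)
      obtain ⟨ρ, rfl⟩ : ∃ ρ : Fin m, r = ρ := ⟨⟨r, hr⟩, rfl⟩
      have e : ∀ᶠ n in E.U, G.st (z n * v (E.π n) ρ)
          ((s (E.π n) ρ * Real.exp ⟪G.lam (j ρ), G.ht (z n)⟫_ℝ) • G.x (j ρ)) =
            z n * v (E.π n) (ρ + 1) := by
        filter_upwards [E.h.eventually hw] with n h1
        rw [((hv _ h1).2.2.2 ρ).2, mul_def, mul_def, dl_st, st_assoc, map_smul, Geo.dl_x,
          smul_smul]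
      refine h0.trans (Sim.congr ?_ e)
      by_cases hj : G.lam (j ρ) = 0
      · refine Der.leaf (L := Real.log c + C) h0.2.1 ?_
        filter_upwards [E.h.eventually hw, E.h.eventually (S.ev_R 1)] with n h1 h2
        refine ⟨Geo.smul_V0 _ (Geo.x_V0 hj), Geo.x_mem ?_⟩
        have h3 := ((hv _ h1).2.2.2 ρ).1
        rw [hj, inner_zero_left, Real.exp_zero, mul_one]
        refine h3.trans_eq (congrArg Real.exp ?_)
        simp only [Geo.sz, hj, if_true]
        rw [Real.log_mul (by linarith) (by linarith)]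
        ring
      · obtain ⟨D', hD'⟩ := hder (ρ + 1)
        refine Der.letter (c := c + C + ‖G.lam (j ρ)‖ * (C2 * c1)) h0.2.1 hj ?_
          (Pw_congr hD' (e.mono fun n h => h.symm))
        filter_upwards [E.h.eventually hw, E.h.eventually (S.ev_R 1), E.h.eventually hlen]
          with n h1 h2 h4
        have h3 := ((hv _ h1).2.2.2 ρ).1
        simp only [Geo.sz, hj, if_false] at h3
        rw [abs_mul, abs_of_pos (Real.exp_pos _)]
        refine (mul_le_mul_of_nonneg_right h3 (Real.exp_pos _).le).trans ?_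
        rw [← Real.exp_add, Real.exp_le_exp, ht_mul, inner_add_right]
        have h5 := (hh (v (E.π n) ρ)).trans (mul_le_mul_of_nonneg_left (h4 ρ) hC2)
        have h6 := (abs_real_inner_le_norm (G.lam (j ρ)) (G.ht (v (E.π n) ρ))).trans
          (mul_le_mul_of_nonneg_left h5 (norm_nonneg _))
        have h7 := neg_abs_le ⟪G.lam (j ρ), G.ht (v (E.π n) ρ)⟫_ℝ
        have h8 : C ≤ C * S.R (E.π n) := le_mul_of_one_le_right hC h2
        change _ ≤ _ + _ * S.R (E.π n)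
        linarith
  refine (ind m le_rfl).congr ?_
  filter_upwards [E.h.eventually hw] with n h1
  rw [(hv _ h1).2.1]

theorem pw_det (hA : S.Tan W A) (hz : E.Gn W z) (hm : ∀ᶠ n in E.U, z n ∈ A (E.π n))
    (hD : E.sys.Der z D) {w : S.I → G.V} (hw : ∀ᶠ n in S.U, w n ∈ G.B (G.sz (c * S.R n))) :
    E.sys.Sim z (fun n => z n * w (E.π n)) D :=
  Pw_det hA hz hm hD (c := |c| + 1) (le_add_of_nonneg_left (abs_nonneg c)) (by
    filter_upwards [hw, S.ev_R 1] with n h1 h2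
    exact Geo.B_mono (Pw_sz h2) h1)

/-- the test function -/
noncomputable def Pw_t (S : Sys G) (b : Ht G.k) (n : S.I) (q : G.V × G.V) : Ht G.k :=
  S.T n (G.st (q.1 * q.2) (G.X (S.R n • b - G.ht q.2))) - S.T n (G.st q.1 (G.X (S.R n • b)))

theorem Pw_cX : Continuous G.X := G.X.continuous_of_finiteDimensional

theorem Pw_cst {Y : Type} [TopologicalSpace Y] {f g : Y → G.V} (hf : Continuous f)
    (hg : Continuous g) : Continuous fun y => G.st (f y) (g y) :=
  continuous_st.comp (f := fun y => (f y, g y)) (hf.prodMk hg)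

theorem Pw_meas (S : Sys G) (b : Ht G.k) (n : S.I) : Measurable (S.Pw_t b n) := by
  have h1 : Continuous fun q : G.V × G.V =>
      G.st (q.1 * q.2) (G.X (S.R n • b - G.ht q.2)) :=
    Pw_cst continuous_mul (Pw_cX.comp (continuous_const.sub (Len_ht.comp continuous_snd)))
  have h2 : Continuous fun q : G.V × G.V => G.st q.1 (G.X (S.R n • b)) :=
    Pw_cst continuous_fst continuous_const
  exact ((S.measurable_T n).comp h1.measurable).sub ((S.measurable_T n).comp h2.measurable)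

theorem Pw_Rb (S : Sys G) (b : Ht G.k) : ∀ᶠ n in S.U, ‖S.R n • b‖ ≤ ‖b‖ * S.R n := by
  filter_upwards [S.ev_R 0] with n h
  rw [norm_smul, Real.norm_of_nonneg h, mul_comm]

theorem Pw_sm (hA : S.Tan W A) (hz : E.Gn W z) (hm : ∀ᶠ n in E.U, z n ∈ A (E.π n))
    (hc : 1 ≤ c) {w : S.I → G.V} (hw : ∀ᶠ n in S.U, w n ∈ G.B (G.sz (c * S.R n)))
    (b : Ht G.k) : E.sys.Sm fun n => S.Pw_t b (E.π n) (z n, w (E.π n)) := by
  obtain ⟨D, hD⟩ := exists_der hA hz hm
  obtain ⟨C1, hC1, hl⟩ := G.len_of_mem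
  obtain ⟨C2, hC2, hh⟩ := ht_le (M := G.toMdl)
  have h := Pw_det hA hz hm hD hc hw
  have h1 := h.2.1.X (a := fun n => S.R (E.π n) • b - G.ht (w (E.π n)))
    (C := ‖b‖ + C2 * (C1 * c)) (by
      filter_upwards [E.h.eventually hw, E.h.eventually (S.ev_R 1), E.h.eventually (S.Pw_Rb b)]
        with n h1 h2 h3
      have h4 := (hh _).trans (mul_le_mul_of_nonneg_left
        (hl _ (one_le_mul_of_one_le_of_one_le hc h2) _ h1) hC2)
      change _ ≤ _ * S.R (E.π n)
      exact (norm_sub_le _ _).trans (by linarith))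
  have h3 := hD.X (a := fun n => S.R (E.π n) • b) (C := ‖b‖) (E.h.eventually (S.Pw_Rb b))
  refine ((h1.add h.2.2).sub h3).congr (Eventually.of_forall fun n => ?_)
  simp only [Pw_t, T, ht_mul, map_sub, map_add]
  abel

theorem Pw_vol (c : Fin G.n → ℝ) : volume (G.B c) ≠ 0 ∧ volume (G.B c) ≠ ⊤ :=
  ⟨(vol_Bx_pos Geo.span_x c).ne', isCompact_Zon.measure_lt_top.ne⟩

theorem Pw_fub (hA : S.Tan W A) (hAm : ∀ n, MeasurableSet (A n)) (hz : E.Gn W z)
    (hm : ∀ᶠ n in E.U, z n ∈ A (E.π n)) (hc : 1 ≤ c) {C : ℝ} (hC : 0 ≤ C) (b : Ht G.k) {ε : ℝ}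
    (hε : 0 < ε) :
    Nul E.U (fun n => volume (G.B fun i => G.sz (c * S.R (E.π n)) i + C)) fun n =>
      {w ∈ G.B fun i => G.sz (c * S.R (E.π n)) i + C |
        ε * S.R (E.π n) < ‖S.Pw_t b (E.π n) (z n, w)‖} := by
  refine (Gen.fub (D := fun n => G.B fun i => G.sz (c * S.R n) i + C)
    (P := fun n => {q : G.V × G.V | q.1 ∈ A n ∧ ε * S.R n < ‖S.Pw_t b n q‖}) hz E.h
    (fun n => isCompact_Zon.measurableSet) (Eventually.of_forall fun n => Pw_vol _)
    (fun n => (measurable_fst (hAm n)).inter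
      (measurableSet_lt measurable_const (S.Pw_meas b n).norm)) fun ω hω => ?_).mono ?_
  · by_contra hn
    obtain ⟨E', y, hy, hy'⟩ := S.exists_ext hn
    have h := Pw_sm hA hy (hy'.mono fun n h => h.1) (c := (Real.exp C + C) * c)
      (one_le_mul_of_one_le_of_one_le (Pw_exp hC) hc) (w := ω) (by
        filter_upwards [hω, S.ev_R 1] with n h1 h2
        rw [mul_assoc]
        exact Geo.B_mono (fun i => G.Close_add hC (one_le_mul_of_one_le_of_one_le hc h2) i) h1)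
      b ε hε
    obtain ⟨n, h1, h2⟩ := (h.and hy').exists
    exact absurd h1 (not_le.2 h2.2)
  · filter_upwards [hm] with n h1 w hw
    exact ⟨hw.1, h1, hw.2⟩

theorem Pw_cmp (hA : S.Tan W A) (hz : E.Gn W z) (hz' : E.Gn W z')
    (hm : ∀ᶠ n in E.U, z n ∈ A (E.π n))
    (h : ∀ᶠ n in E.U, G.len ((z n)⁻¹ * z' n) ≤ c * E.sys.R n ∧ G.ht (z n) = G.ht (z' n))
    (b : Ht G.k) : E.sys.Sm fun n => E.sys.T n (G.st (z' n) (G.X (S.R (E.π n) • b))) -
      E.sys.T n (G.st (z n) (G.X (S.R (E.π n) • b))) := by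
  intro ε hε
  obtain ⟨Cm, hCm, hmem⟩ := G.mem_of_len
  obtain ⟨C, hC, hst⟩ := st_Bx G.x
  obtain ⟨c', hc', hcc⟩ : ∃ c', 1 ≤ c' ∧ c ≤ c' := ⟨max 1 c, le_max_left _ _, le_max_right _ _⟩
  have hA1 : S.Tan W fun n => G.nb (A n) (max 1 (c' * S.R n)) := (hA.nb c').mono (by
    filter_upwards [S.ev_R 1] with n h
    rw [max_eq_right (one_le_mul_of_one_le_of_one_le hc' h)])
  have hA2 : ∀ n, MeasurableSet (G.nb (A n) (max 1 (c' * S.R n))) := fun n =>
    (isOpen_nb _ (le_max_left _ _)).measurableSet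
  have hl : ∀ᶠ n in E.U, G.len ((z n)⁻¹ * z' n) ≤ c' * S.R (E.π n) := by
    filter_upwards [h, E.h.eventually (S.ev_R 0)] with n h1 h2
    exact h1.1.trans (mul_le_mul_of_nonneg_right hcc h2)
  have hc1 : 1 ≤ Cm * c' := one_le_mul_of_one_le_of_one_le hCm hc'
  have N0 := Pw_fub hA1 hA2 hz (hm.mono fun n h1 =>
    sub_nb _ (zero_le_one.trans (le_max_left _ _)) h1) hc1 hC b (half_pos hε)
  have N1 := Pw_fub hA1 hA2 hz' (by
    filter_upwards [hm, hl] with n h1 h2
    exact ⟨z n, h1, h2.trans (le_max_right _ _)⟩) hc1 hC b (half_pos hε)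
  have N2 := N0.of_vol (C := 1) (B := fun n => {w | G.st ((z n)⁻¹ * z' n) w ∈
      {w ∈ G.B fun i => G.sz (Cm * c' * S.R (E.π n)) i + C |
        ε / 2 * S.R (E.π n) < ‖S.Pw_t b (E.π n) (z n, w)‖}})
    (Eventually.of_forall fun n => by rw [vol_st_left, ENNReal.ofReal_one, one_mul])
  have N3 := (N1.union N2).of_le (W' := fun n => volume (G.B (G.sz (Cm * c' * S.R (E.π n)))))
    (Eventually.of_forall fun n => vol_Bx_add _ _ hC)
  have N4 := Ultrafilter.eventually_not.2 fun h => not_nul_self (U := (E.U : Filter E.J))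
    (A := fun n => G.B (G.sz (Cm * c' * S.R (E.π n)))) (Eventually.of_forall fun n => Pw_vol _)
    (N3.mono h)
  filter_upwards [N4, h, hl, E.h.eventually (S.ev_R 1)] with n h1 h2 h3 h4
  obtain ⟨w, hw, hw'⟩ := Set.not_subset.1 h1
  have hu := hmem _ _ (one_le_mul_of_one_le_of_one_le hc' h4) h3
  rw [← mul_assoc] at hu
  have a1 := not_lt.1 fun h5 => hw' (Or.inl
    ⟨Geo.B_mono (fun i => le_add_of_nonneg_right hC) hw, h5⟩)
  have a2 := not_lt.1 fun h5 => hw' (Or.inr ⟨hst _ _ hu _ hw, h5⟩)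
  have hu0 : G.ht ((z n)⁻¹ * z' n) = 0 := by rw [ht_mul, ht_inv, h2.2, neg_add_cancel]
  have e : z n * G.st ((z n)⁻¹ * z' n) w = z' n * w := by
    rw [st_eq_mul, hu0, neg_zero, dl_zero, ← mul_assoc, mul_inv_cancel_left]
  simp only [Pw_t] at a1 a2
  rw [e, ht_st, hu0, zero_add] at a2
  have a3 := norm_sub_le_of_le a2 a1
  rw [sub_sub_sub_cancel_left] at a3
  change ‖S.T (E.π n) _ - S.T (E.π n) _‖ ≤ ε * S.R (E.π n)
  linarith

theorem pw_eq (hA : S.Tan W A) (hz : E.Gn W z) (hz' : E.Gn W z')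
    (hm : ∀ᶠ n in E.U, z n ∈ A (E.π n)) (hD : E.sys.Der z D)
    (h : ∀ᶠ n in E.U, G.len ((z n)⁻¹ * z' n) ≤ c * E.sys.R n ∧ G.ht (z n) = G.ht (z' n)) :
    E.sys.Sim z z' D := by
  obtain ⟨D', hD'⟩ := exists_der (hA.nb c) hz' (by
    filter_upwards [hm, h] with n h1 h2
    exact ⟨z n, h1, h2.1⟩)
  have h0 : E.sys.Sm fun n => E.sys.T n (z' n) - E.sys.T n (z n) :=
    (Pw_cmp hA hz hz' hm h 0).congr (Eventually.of_forall fun n => by
      simp only [smul_zero, map_zero, st_zero])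
  obtain rfl : D' = D := LinearMap.ext fun b => sub_eq_zero.1 <| Sm.eq_zero (S := E.sys) <| by
    have h1 := hD.X (a := fun n => S.R (E.π n) • b) (C := ‖b‖) (E.h.eventually (S.Pw_Rb b))
    have h2 := hD'.X (a := fun n => S.R (E.π n) • b) (C := ‖b‖) (E.h.eventually (S.Pw_Rb b))
    refine ((((Pw_cmp hA hz hz' hm h b).sub h2).add h1).sub h0).congr
      (Eventually.of_forall fun n => ?_)
    simp only [map_smul, smul_sub]
    abel
  refine ⟨hD, hD', h0.congr ?_⟩
  filter_upwards [h] with n h1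
  rw [h1.2, sub_self (G.ht (z' n)), map_zero, sub_zero]

theorem Pw_ball {r : ℝ} (hr : 0 < r) : volume (Metric.closedBall (0 : Ht G.k) r) ≠ 0 ∧
    volume (Metric.closedBall (0 : Ht G.k) r) ≠ ⊤ :=
  ⟨(Metric.measure_closedBall_pos _ _ hr).ne', measure_closedBall_lt_top.ne⟩

theorem Pw_gen (hz : E.Gn W z) {E' : E.sys.Ext} {ω : E'.J → Ht G.k}
    (hω : E'.Gn (fun n => volume (Metric.closedBall (0 : Ht G.k) (S.R (E.π n)))) ω) {C : ℝ}
    (hC : 0 < C) (hω' : ∀ᶠ n in E'.U, ‖ω n‖ ≤ C * S.R (E.π (E'.π n))) :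
    (E.comp E').Gn W fun n => G.st (z (E'.π n)) (G.X (ω n)) := by
  have hc : Continuous fun q : G.V × Ht G.k => G.st q.1 (G.X q.2) :=
    Pw_cst continuous_fst (Pw_cX.comp continuous_snd)
  refine Gen.avg' (D := fun n => Metric.closedBall (0 : Ht G.k) (C * S.R n))
    (Ψ := fun _ q => G.st q.1 (G.X q.2)) (C := 1) hz E.h (fun n => measurableSet_closedBall)
    ((S.ev_R 1).mono fun n h => Pw_ball (mul_pos hC (one_pos.trans_le h)))
    (fun _ => hc.measurable) (fun n N hN => le_of_eq ?_) E'.h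
    (Gen.of_le hω (C := C ^ Module.finrank ℝ (Ht G.k)) ?_)
    (hω'.mono fun n h => mem_closedBall_zero_iff.2 h)
  · have hm : MeasurableSet {q : G.V × Ht G.k |
        q.2 ∈ Metric.closedBall (0 : Ht G.k) (C * S.R n) ∧ G.st q.1 (G.X q.2) ∈ N} :=
      (measurable_snd measurableSet_closedBall).inter (hc.measurable hN)
    rw [Measure.volume_eq_prod, Measure.prod_apply_symm hm, ENNReal.ofReal_one, one_mul,
      ← setLIntegral_const, ← lintegral_indicator measurableSet_closedBall]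
    refine lintegral_congr fun b => ?_
    by_cases hb : b ∈ Metric.closedBall (0 : Ht G.k) (C * S.R n)
    · rw [Set.indicator_of_mem hb, ← vol_st_right (G.X b) N]
      exact congrArg volume (Set.ext fun x => and_iff_right hb)
    · rw [Set.indicator_of_notMem hb, ← measure_empty (μ := (volume : Measure G.V))]
      exact congrArg volume (Set.eq_empty_of_forall_notMem fun x hx => hb hx.1)
  · filter_upwards [E.h.eventually (S.ev_R 0)] with n h
    exact (Measure.addHaar_closedBall_mul_of_pos _ _ hC _).le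

theorem pw_all (hA : S.Tan W A) (hz : E.Gn W z) (hz' : E.Gn W z')
    (hm : ∀ᶠ n in E.U, z n ∈ A (E.π n)) (hD : E.sys.Der z D)
    (h : ∀ᶠ n in E.U, G.len ((z n)⁻¹ * z' n) ≤ c * E.sys.R n) : E.sys.Sim z z' D := by
  obtain ⟨D', hD'⟩ := exists_der (hA.nb c) hz' (by
    filter_upwards [hm, h] with n h1 h2
    exact ⟨z n, h1, h2⟩)
  obtain ⟨C1, hC1, hl⟩ := G.len_X
  obtain ⟨C2, hC2, hh⟩ := ht_le (M := G.toMdl)
  obtain ⟨E', b, hb, hb'⟩ := E.sys.exists_ext (not_nul_self (U := (E.U : Filter E.J))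
    (A := fun n => Metric.closedBall (0 : Ht G.k) (S.R (E.π n)))
    ((E.h.eventually (S.ev_R 1)).mono fun n h => Pw_ball (one_pos.trans_le h)))
  have hR := E'.h.eventually (E.h.eventually (S.ev_R 1))
  have b1 : ∀ᶠ n in E'.U, ‖b n‖ ≤ 1 * S.R (E.π (E'.π n)) :=
    hb'.mono fun n h => by rw [one_mul]; exact mem_closedBall_zero_iff.1 h
  have hc0 : 0 ≤ C2 * |c| := mul_nonneg hC2 (abs_nonneg c)
  have b2 : ∀ᶠ n in E'.U, ‖b n + (G.ht (z (E'.π n)) - G.ht (z' (E'.π n)))‖ ≤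
      (1 + C2 * |c|) * S.R (E.π (E'.π n)) := by
    filter_upwards [b1, hR, E'.h.eventually h] with n h1 h2 h3
    have h4 := (hh _).trans (mul_le_mul_of_nonneg_left (h3.trans
      (mul_le_mul_of_nonneg_right (le_abs_self c) (zero_le_one.trans h2))) hC2)
    rw [ht_mul, ht_inv, neg_add_eq_sub, norm_sub_rev] at h4
    exact (norm_add_le _ _).trans (by linarith)
  have g1 := Pw_gen hz hb one_pos b1
  have g2 := Pw_gen hz' (E' := E') (Gen.map hb
    (Ψ := fun n v => v + (G.ht (z n) - G.ht (z' n))) fun n => measurePreserving_add_right _ _)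
    (by linarith) b2
  obtain ⟨L1, hL1⟩ := X_lf (S := E'.sys) b1
  obtain ⟨L2, hL2⟩ := X_lf (S := E'.sys) b2
  have s1 := (hD.pull E').leaf hL1
  have s2 := (hD'.pull E').leaf hL2
  have l1 : ∀ (x : G.V) (a : Ht G.k) (C R : ℝ), 1 ≤ R → ‖a‖ ≤ C * R →
      G.len (x⁻¹ * G.st x (G.X a)) ≤ C1 * (C + 1) * R := fun x a C R h1 h2 => by
    rw [← Geo.mul_V0 x (Geo.X_V0 a), inv_mul_cancel_left, mul_assoc]
    exact (hl a).trans (mul_le_mul_of_nonneg_left (by linarith) hC1.le)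
  have s3 := pw_eq (c := C1 * (1 + 1) + c + C1 * (1 + C2 * |c| + 1)) (hA.nb (C1 * (1 + 1))) g1 g2
    (by
      filter_upwards [E'.h.eventually hm, hR, b1] with n h1 h2 h3
      exact ⟨_, h1, l1 _ _ _ _ h2 h3⟩) s1.2.1
    (by
      filter_upwards [E'.h.eventually h, hR, b1, b2] with n h1 h2 h3 h4
      refine ⟨?_, ?_⟩
      · have h5 := l1 (z (E'.π n)) _ _ _ h2 h3
        have h6 := l1 (z' (E'.π n)) _ _ _ h2 h4
        rw [Coarse_sym] at h5
        refine (Coarse_tri _ (z (E'.π n)) _).trans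
          (add_le_add h5 ((Coarse_tri _ (z' (E'.π n)) _).trans (add_le_add h1 h6))) |>.trans_eq ?_
        ring
      · rw [ht_st, ht_st, G.ht_X, G.ht_X]
        abel)
  obtain rfl : D' = D := Der.unique (S := E'.sys) s2.2.1 s3.2.1
  exact Sim.of_pull (S := E.sys) (E := E') ((s1.trans s3).trans s2.symm)

end Vale.Agent.P188.Sys
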