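import Vale.Agent.P188.Star
import Vale.Agent.P188.Fl

/-! The rigidity of the height. -/

namespace Vale.Agent.P188

theorem rigid (G : Geo) (hO : G.Orth) : G.Rigid := fun K => by
  obtain ⟨η, h⟩ := Geo.star hO K
  obtain ⟨C, h'⟩ := G.flat_log K η
  refine ⟨η, C, fun f g q mf mg => ⟨h f g q mf mg, ?_⟩⟩
  obtain ⟨σ, -, hσ⟩ := h f g q mf mg
  exact h' f g σ q hσ

end Vale.Agent.P188
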