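import Vale.Agent.P188.Zero

/-! Quasi-isometries act on the height by a symmetry up to a sublinear error. -/

namespace Vale.Agent.P188.Geo

open Mdl

variable {G : Geo}

theorem star_scale (hO : G.Orth) (K : ℝ) {ε : ℝ} (hε : 0 < ε) : ∃ R₀ : ℝ, ∀ f g : G.V → G.V,
    QIp G.len G.len K f g → Measurable f → Measurable g → ∀ x, ∀ R ≥ R₀, ∃ σ ∈ G.Sig, ∀ y,
      G.len (x⁻¹ * y) ≤ R → ‖G.ht (f y) - G.ht (f x) - σ (G.ht y - G.ht x)‖ ≤ ε * R := by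
  by_contra h
  push Not at h
  choose f g q mf mg x R hR hy using fun n : ℕ => h n
  let S : Sys G := ⟨ℕ, Filter.hyperfilter ℕ, R, Filter.tendsto_atTop_mono hR
    (tendsto_natCast_atTop_atTop.mono_left Nat.hyperfilter_le_atTop), K, f, g, q, mf, mg⟩
  obtain ⟨σ, hσ, h1⟩ := Sys.star_ult (S := S.tr x fun n => (f n (x n))⁻¹) hO fun n => by
    show (f n (x n))⁻¹ * f n (x n * 1) = 1
    rw [mul_one, inv_mul_cancel]
  choose y h2 h3 using fun n => hy n σ hσ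
  obtain ⟨n, h4⟩ := (h1 (fun n => (x n)⁻¹ * y n) h2 ε hε).exists
  have h5 : ‖G.ht ((f n (x n))⁻¹ * f n (x n * ((x n)⁻¹ * y n))) -
      σ (G.ht ((x n)⁻¹ * y n))‖ ≤ ε * R n := h4
  rw [mul_inv_cancel_left, ht_mul, ht_mul, ht_inv, ht_inv, neg_add_eq_sub, neg_add_eq_sub] at h5
  exact (h3 n).not_ge h5

/-- the affine approximation on a ball -/
def StarP (G : Geo) (f : G.V → G.V) (ε : ℝ) (x : G.V) (R : ℝ) (σ : Ht G.k ≃ₗᵢ[ℝ] Ht G.k) : Prop :=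
  σ ∈ G.Sig ∧ ∀ y, G.len (x⁻¹ * y) ≤ R →
    ‖G.ht (f y) - G.ht (f x) - σ (G.ht y - G.ht x)‖ ≤ ε * R

theorem Star_uniq (G : Geo) : ∃ ε > 0, ∃ r > 0, ∀ f x x₁ R R₁ σ σ₁, G.StarP f ε x R σ →
    G.StarP f ε x₁ R₁ σ₁ → G.len (x⁻¹ * x₁) + R₁ ≤ R → R ≤ 4 * R₁ → r ≤ R₁ → σ = σ₁ := by
  obtain ⟨g, hg, hgap⟩ := G.sig_gap
  obtain ⟨C, hC, hX⟩ := G.len_X
  refine ⟨g / (18 * C), by positivity, 2 * C, by positivity,
    fun f x x₁ R R₁ σ σ₁ h h₁ hb h4 hr => hgap σ h.1 σ₁ h₁.1 fun j => ?_⟩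
  have hl := isLen_len (M := G.toMdl)
  have h0 : 0 < R₁ := lt_of_lt_of_le (by positivity) hr
  have ht : 0 < R₁ / (2 * C) := by positivity
  set v : Ht G.k := (R₁ / (2 * C)) • EuclideanSpace.single j 1 with hv
  have a1 : G.len (G.X v) ≤ R₁ := by
    refine (hX v).trans ?_
    rw [hv, norm_smul, PiLp.norm_single, norm_one, mul_one, Real.norm_of_nonneg ht.le]
    have : C * (R₁ / (2 * C)) = R₁ / 2 := by field_simp
    linarith
  have a2 := h₁.2 (x₁ * G.X v) (by rwa [inv_mul_cancel_left])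
  have a3 := h.2 (x₁ * G.X v) (by
    rw [← mul_assoc]
    exact (hl.mul _ _).trans (by linarith))
  have a4 := h.2 x₁ (by linarith)
  have a5 := (norm_sub_le _ _).trans (add_le_add a2 ((norm_sub_le _ _).trans (add_le_add a3 a4)))
  have e : G.ht (f (x₁ * G.X v)) - G.ht (f x₁) - σ₁ (G.ht (x₁ * G.X v) - G.ht x₁) -
      (G.ht (f (x₁ * G.X v)) - G.ht (f x) - σ (G.ht (x₁ * G.X v) - G.ht x) -
        (G.ht (f x₁) - G.ht (f x) - σ (G.ht x₁ - G.ht x))) =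
      (R₁ / (2 * C)) • (σ (EuclideanSpace.single j 1) - σ₁ (EuclideanSpace.single j 1)) := by
    simp only [ht_mul, G.ht_X, hv, map_add, map_sub, map_smul, smul_sub]
    abel
  rw [e, norm_smul, Real.norm_of_nonneg ht.le] at a5
  refine le_of_mul_le_mul_left (a5.trans ?_) ht
  have a6 := mul_le_mul_of_nonneg_left h4 (by positivity : 0 ≤ g / (18 * C))
  have a7 : R₁ / (2 * C) * g = 9 * (g / (18 * C) * R₁) := by
    field_simp
    ring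
  linarith

theorem star (hO : G.Orth) (K : ℝ) : ∃ η : ℝ → ℝ, ∀ f g : G.V → G.V,
    QIp G.len G.len K f g → Measurable f → Measurable g → ∃ σ ∈ G.Sig, ∀ ε > 0, ∀ x y,
      ‖G.ht (f y) - G.ht (f x) - σ (G.ht y - G.ht x)‖ ≤ ε * G.len (x⁻¹ * y) + η ε := by
  obtain ⟨ε₀, h0, r, hr, hu⟩ := G.Star_uniq
  choose! R₀ hR₀ using fun ε (hε : 0 < ε) => star_scale hO K hε
  have hl := isLen_len (M := G.toMdl)
  obtain ⟨R₁, h1, h2⟩ : ∃ R₁, R₀ ε₀ ≤ R₁ ∧ r ≤ R₁ := ⟨_, le_max_left _ _, le_max_right _ _⟩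
  have h3 : 0 < R₁ := hr.trans_le h2
  refine ⟨fun ε => ε * max (R₀ (min ε ε₀)) R₁, fun f g q mf mg => ?_⟩
  have ex : ∀ x R, R₁ ≤ R → ∃ σ, G.StarP f ε₀ x R σ := fun x R hR =>
    hR₀ ε₀ h0 f g q mf mg x R (h1.trans hR)
  have hx : ∀ x : G.V, G.len (x⁻¹ * x) = 0 := fun x => by rw [inv_mul_cancel, hl.one]
  have A : ∀ x σ, G.StarP f ε₀ x R₁ σ → ∀ R σ', R₁ ≤ R → G.StarP f ε₀ x R σ' → σ' = σ := by
    intro x σ hσ R σ' hR hσ'
    obtain ⟨n, hn⟩ := exists_nat_ge (R / R₁)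
    rw [div_le_iff₀ h3] at hn
    induction n generalizing R σ' with
    | zero => exact absurd hn (by rw [Nat.cast_zero, zero_mul]; linarith)
    | succ n ih =>
      rcases le_total R (2 * R₁) with h4 | h4
      · exact hu f x x R R₁ σ' σ hσ' hσ (by rw [hx]; linarith) (by linarith) h2
      · obtain ⟨τ, hτ⟩ := ex x (R - R₁) (by linarith)
        rw [hu f x x R (R - R₁) σ' τ hσ' hτ (by rw [hx]; linarith) (by linarith) (by linarith)]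
        refine ih _ τ (by linarith) hτ ?_
        push_cast at hn
        linarith
  obtain ⟨σ₀, hσ₀⟩ := ex 1 R₁ le_rfl
  have B : ∀ x R σ, R₁ ≤ R → G.StarP f ε₀ x R σ → σ = σ₀ := fun x R σ hR hσ => by
    have h4 := hl.nonneg (1⁻¹ * x)
    obtain ⟨τ₀, hτ₀⟩ := ex x R₁ le_rfl
    obtain ⟨τ₁, hτ₁⟩ := ex x (G.len (1⁻¹ * x) + R₁) (by linarith)
    obtain ⟨τ₂, hτ₂⟩ := ex 1 (G.len (1⁻¹ * x) + (G.len (1⁻¹ * x) + R₁)) (by linarith)
    rw [A x τ₀ hτ₀ R σ hR hσ, ← A x τ₀ hτ₀ _ τ₁ (by linarith) hτ₁,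
      ← hu f 1 x _ _ τ₂ τ₁ hτ₂ hτ₁ le_rfl (by linarith) (by linarith)]
    exact A 1 σ₀ hσ₀ _ τ₂ (by linarith) hτ₂
  refine ⟨σ₀, hσ₀.1, fun ε hε x y => ?_⟩
  have h4 := hl.nonneg (x⁻¹ * y)
  have h5 := le_max_left (R₀ (min ε ε₀)) R₁
  have h6 := le_max_right (R₀ (min ε ε₀)) R₁
  obtain ⟨σ, hσ, h7⟩ := hR₀ _ (lt_min hε h0) f g q mf mg x
    (G.len (x⁻¹ * y) + max (R₀ (min ε ε₀)) R₁) (by linarith)
  rw [← B x _ σ (by linarith) ⟨hσ, fun z hz => (h7 z hz).trans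
    (mul_le_mul_of_nonneg_right (min_le_right _ _) (by linarith))⟩, ← mul_add]
  exact (h7 y (by linarith)).trans (mul_le_mul_of_nonneg_right (min_le_left _ _) (by linarith))

end Vale.Agent.P188.Geo
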