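import Mathlib

/-! Polycyclic groups, word metrics and quasi-isometries. -/

namespace Vale.Agent.P188

/-- a subnormal series from the trivial group to the whole group with cyclic quotients -/
def Polycyclic (G : Type*) [Group G] : Prop :=
  ∃ (m : ℕ) (s : ℕ → Subgroup G), s 0 = ⊥ ∧ s m = ⊤ ∧ ∀ i < m, s i ≤ s (i + 1) ∧
    ∃ _ : ((s i).subgroupOf (s (i + 1))).Normal,
      IsCyclic (s (i + 1) ⧸ (s i).subgroupOf (s (i + 1)))

/-- some subgroup of finite index is polycyclic -/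
def VirtPoly (G : Type*) [Group G] : Prop := ∃ K : Subgroup G, K.FiniteIndex ∧ Polycyclic K

/-- word length with respect to `A` and the inverses of its elements -/
noncomputable def wl {G : Type*} [Group G] (A : Finset G) (g : G) : ℕ :=
  sInf {n | ∃ l : List G, l.length = n ∧ (∀ x ∈ l, x ∈ A ∨ x⁻¹ ∈ A) ∧ l.prod = g}

/-- the word metric -/
noncomputable def wd {G : Type*} [Group G] (A : Finset G) (x y : G) : ℝ := wl A (x⁻¹ * y)

/-- `(K, C)`-quasi-isometries -/
def IsQI {X Y : Type*} (dX : X → X → ℝ) (dY : Y → Y → ℝ) (K C : ℝ) (F : X → Y) : Prop :=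
  1 ≤ K ∧ 0 ≤ C ∧
    (∀ x x', K⁻¹ * dX x x' - C ≤ dY (F x) (F x') ∧ dY (F x) (F x') ≤ K * dX x x' + C) ∧
    ∀ y, ∃ x, dY y (F x) ≤ C

end Vale.Agent.P188
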