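import Vale.Agent.P188.GenB
import Vale.Agent.P188.Close
import Vale.Agent.P188.Coarse

/-! Basic facts on systems. -/

namespace Vale.Agent.P188.Sys

open MeasureTheory Filter Mdl
open scoped InnerProductSpace ENNReal

variable {G : Geo} {S : Sys G} {W : S.I → ℝ≥0∞} {A B : S.I → Set G.V} {a b : S.I → Ht G.k}
  {u v : S.I → G.V} {L c : ℝ}

theorem T_lip (G : Geo) : ∃ C > 0, ∀ (S : Sys G) n x y,
    ‖S.T n y - S.T n x‖ ≤ C * S.K * (G.len (x⁻¹ * y) + 1) := by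
  obtain ⟨C, hC, h⟩ := ht_le (M := G.toMdl)
  refine ⟨C + 1, by linarith, fun S n x y => ?_⟩
  have h1 := h ((S.f n x)⁻¹ * S.f n y)
  rw [ht_mul, ht_inv, neg_add_eq_sub] at h1
  have h2 := (S.q n).lf x y
  have h3 := isLen_len.nonneg ((S.f n x)⁻¹ * S.f n y)
  refine h1.trans ?_
  rw [mul_assoc, mul_add S.K, mul_one]
  exact mul_le_mul (by linarith) h2 h3 (by linarith)

theorem measurable_T (S : Sys G) (n : S.I) : Measurable (S.T n) :=
  Len_ht.measurable.comp (S.mf n)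

theorem one_le_K (S : Sys G) : 1 ≤ S.K :=
  (S.q (Filter.nonempty_of_neBot (S.U : Filter S.I)).some).one_le

theorem ev_R (S : Sys G) (r : ℝ) : ∀ᶠ n in S.U, r ≤ S.R n := tendsto_atTop.1 S.hR r

theorem ev_log (S : Sys G) (C : ℝ) {ε : ℝ} (hε : 0 < ε) :
    ∀ᶠ n in S.U, C * (Real.log (S.R n) + 1) ≤ ε * S.R n := by
  have h := ((Real.isLittleO_log_id_atTop.add
    (Asymptotics.isLittleO_const_id_atTop (1 : ℝ))).const_mul_left C).bound hε
  filter_upwards [S.hR.eventually h, S.ev_R 0] with n h1 h2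
  rw [id, Real.norm_of_nonneg h2] at h1
  exact (le_abs_self _).trans h1

theorem SysB_ev (S : Sys G) (r : ℝ) {ε : ℝ} (hε : 0 < ε) : ∀ᶠ n in S.U, r ≤ ε * S.R n :=
  S.hR.eventually (Geo.Close_ev hε r)

theorem SysB_sm : S.Sm a ↔ a =o[S.U] S.R := by
  rw [Asymptotics.isLittleO_iff]
  refine forall_congr' fun ε => forall_congr' fun _ => eventually_congr ?_
  filter_upwards [S.ev_R 0] with n h
  rw [Real.norm_of_nonneg h]

theorem exists_lim {C : ℝ} (h : ∀ᶠ n in S.U, ‖a n‖ ≤ C * S.R n) :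
    ∃ w : Ht G.k, ‖w‖ ≤ C ∧ S.Sm fun n => a n - S.R n • w := by
  have h0 : ∀ᶠ n in S.U, 0 < S.R n := S.hR.eventually_gt_atTop 0
  obtain ⟨w, hw, hl⟩ := (isCompact_closedBall (0 : Ht G.k) C).ultrafilter_le_nhds
    (S.U.map fun n => (S.R n)⁻¹ • a n) (le_principal_iff.2 (mem_map.2 (by
      filter_upwards [h, h0] with n h1 h2
      rw [Set.mem_preimage, mem_closedBall_zero_iff, norm_smul, Real.norm_of_nonneg (by positivity),
        inv_mul_le_iff₀ h2, mul_comm]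
      exact h1)))
  refine ⟨w, mem_closedBall_zero_iff.1 hw, fun ε hε => ?_⟩
  filter_upwards [Metric.tendsto_nhds.1 (show Tendsto _ (S.U : Filter S.I) _ from hl) ε hε, h0]
    with n h1 h2
  rw [← smul_inv_smul₀ h2.ne' (a n), ← smul_sub, norm_smul, Real.norm_of_nonneg h2.le, mul_comm,
    ← dist_eq_norm]
  exact mul_le_mul_of_nonneg_right h1.le h2.le

theorem Sm.add (h : S.Sm a) (h' : S.Sm b) : S.Sm fun n => a n + b n :=
  SysB_sm.2 ((SysB_sm.1 h).add (SysB_sm.1 h'))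

theorem Sm.sub (h : S.Sm a) (h' : S.Sm b) : S.Sm fun n => a n - b n :=
  SysB_sm.2 ((SysB_sm.1 h).sub (SysB_sm.1 h'))

theorem Sm.neg (h : S.Sm a) : S.Sm fun n => -a n := SysB_sm.2 (SysB_sm.1 h).neg_left

theorem Sm.map (h : S.Sm a) (φ : Ht G.k →ₗ[ℝ] Ht G.k) : S.Sm fun n => φ (a n) :=
  SysB_sm.2 ((φ.toContinuousLinearMap.isBigO_comp a _).trans_isLittleO (SysB_sm.1 h))

theorem Sm.congr (h : S.Sm a) (h' : ∀ᶠ n in S.U, a n = b n) : S.Sm b :=
  fun ε hε => ((h ε hε).and h').mono fun _ h => h.2 ▸ h.1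

theorem Sm.pull (h : S.Sm a) (E : S.Ext) : E.sys.Sm fun n => a (E.π n) :=
  fun ε hε => E.h.eventually (h ε hε)

theorem Sm.eq_zero {w : Ht G.k} (h : S.Sm fun n => S.R n • w) : w = 0 := by
  refine norm_le_zero_iff.1 (le_of_forall_pos_le_add fun ε hε => ?_)
  obtain ⟨n, h1, h2⟩ := ((h ε hε).and (S.hR.eventually_gt_atTop 0)).exists
  rw [norm_smul, Real.norm_of_nonneg h2.le, mul_comm] at h1
  rw [zero_add]
  exact le_of_mul_le_mul_right h1 h2

theorem sm_of_bdd {C : ℝ} (h : ∀ᶠ n in S.U, ‖a n‖ ≤ C) : S.Sm a :=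
  fun _ hε => (h.and (S.SysB_ev C hε)).mono fun _ h => h.1.trans h.2

/-- points at small distance have nearly the same image height -/
theorem sm_of_len (h : ∀ ε > 0, ∀ᶠ n in S.U, G.len ((u n)⁻¹ * v n) ≤ ε * S.R n) :
    S.Sm fun n => S.T n (v n) - S.T n (u n) := by
  obtain ⟨C, hC, hl⟩ := T_lip G
  have hK := one_pos.trans_le S.one_le_K
  have h0 : 0 < C * S.K := mul_pos hC hK
  intro ε hε
  have h1 : 0 < ε / (2 * (C * S.K)) := by positivity
  filter_upwards [h _ h1, S.SysB_ev 1 h1] with n h2 h3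
  refine (hl S n _ _).trans ((mul_le_mul_of_nonneg_left (add_le_add h2 h3) h0.le).trans_eq ?_)
  field_simp
  ring

theorem sm_X (u : S.I → G.V) (h : S.Sm a) :
    S.Sm fun n => S.T n (G.st (u n) (G.X (a n))) - S.T n (u n) := by
  obtain ⟨C, hC, hl⟩ := G.len_X
  refine sm_of_len fun ε hε => ?_
  have h1 : 0 < ε / (2 * C) := by positivity
  filter_upwards [h _ h1, S.SysB_ev 1 h1] with n h2 h3
  rw [← Geo.mul_V0 _ (Geo.X_V0 _), inv_mul_cancel_left]
  refine (hl _).trans ((mul_le_mul_of_nonneg_left (add_le_add h2 h3) hC.le).trans_eq ?_)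
  field_simp
  ring

theorem Rg.mono (h : S.Rg W B c) (hAB : ∀ᶠ n in S.U, A n ⊆ B n) {c' : ℝ} (hc : 0 < c')
    (hc' : c' ≤ c) : S.Rg W A c' := by
  obtain ⟨-, C, h⟩ := h
  refine ⟨hc, C, ?_⟩
  filter_upwards [h, hAB, S.ev_R 0] with n h1 h2 h3
  exact (measure_mono (nb_mono h2 (mul_le_mul_of_nonneg_right hc' h3))).trans h1

theorem Rg.nb (h : S.Rg W A c) {c₁ c₂ : ℝ} (h2 : 0 < c₂) (hc : c₁ + c₂ ≤ c) :
    S.Rg W (fun n => G.nb (A n) (c₁ * S.R n)) c₂ := by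
  obtain ⟨-, C, h⟩ := h
  refine ⟨h2, C, ?_⟩
  filter_upwards [h, S.ev_R 0] with n h1 h3
  refine (measure_mono ((nb_nb _ _ _).trans (nb_mono subset_rfl ?_))).trans h1
  rw [← add_mul]
  exact mul_le_mul_of_nonneg_right hc h3

theorem Rg.symm (h : S.Rg W A c) : S.symm.Rg W (fun n => S.f n '' A n) (c / (2 * S.K)) := by
  obtain ⟨hc, C, h⟩ := h
  obtain ⟨C', hC', h'⟩ := cm_nb (M := G.toMdl) S.K
  have hK := one_pos.trans_le S.one_le_K
  have h0 : 0 < c / (2 * S.K) := by positivity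
  refine ⟨h0, C' * C, ?_⟩
  filter_upwards [h, S.ev_R 0, S.SysB_ev (3 * S.K + 1) (half_pos hc)] with n h1 h2 h3
  rw [ENNReal.ofReal_mul hC'.le, mul_assoc]
  refine (h' _ _ (S.q n) _ _ (mul_nonneg h0.le h2)).trans (mul_le_mul_right
    ((measure_mono (nb_mono subset_rfl ?_)).trans h1) _)
  have : S.K * (c / (2 * S.K) * S.R n) = c / 2 * S.R n := by field_simp
  linarith

theorem Rg.pull (h : S.Rg W A c) (E : S.Ext) :
    E.sys.Rg (fun n => W (E.π n)) (fun n => A (E.π n)) c :=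
  ⟨h.1, h.2.imp fun _ h => E.h.eventually h⟩

theorem Ext.Gn.st {E : S.Ext} {z : E.J → G.V} (h : E.Gn W z) (u : S.I → G.V) :
    E.Gn W fun n => G.st (z n) (u (E.π n)) :=
  Gen.map h (Ψ := fun n x => G.st x (u n)) fun _ => mp_st_right _

theorem Ext.Gn.mul {E : S.Ext} {z : E.J → G.V} (h : E.Gn W z) (u : S.I → G.V) :
    E.Gn W fun n => z n * u (E.π n) :=
  Gen.map h (Ψ := fun n x => x * u n) fun _ => mp_mul_right _

theorem Ext.Gn.st_left {E : S.Ext} {z : E.J → G.V} (h : E.Gn W z) (u : S.I → G.V) :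
    E.Gn W fun n => G.st (u (E.π n)) (z n) :=
  Gen.map h (Ψ := fun n x => G.st (u n) x) fun _ => mp_st_left _

theorem Ext.Gn.comp {Ω : Type} [MeasureSpace Ω] {E : S.Ext} {z : E.J → Ω} (h : E.Gn W z)
    (E' : E.sys.Ext) : (E.comp E').Gn W fun n => z (E'.π n) := Gen.comp h E'.h

theorem Ext.Gn.base {Ω : Type} [MeasureSpace Ω] {E : S.Ext} {E' : E.sys.Ext} {z : E'.J → Ω}
    (h : E'.Gn (fun n => W (E.π n)) z) : (E.comp E').Gn W z :=
  Gen.base (π := E.π) (π' := E'.π) E.h h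

theorem Ext.Gn.box {E : S.Ext} {z : E.J → G.V} (h : E.Gn W z) {D : S.I → Set G.V}
    (hDm : ∀ n, MeasurableSet (D n)) (hD : ∀ᶠ n in S.U, volume (D n) ≠ 0 ∧ volume (D n) ≠ ⊤)
    {E' : E.sys.Ext} {k : E'.J → G.V} (hk : E'.Gn (fun n => volume (D (E.π n))) k)
    (hk' : ∀ᶠ n in E'.U, k n ∈ D (E.π (E'.π n))) :
    (E.comp E').Gn W fun n => G.st (z (E'.π n)) (k n) := by
  have hm : Measurable fun q : G.V × G.V => G.st q.1 q.2 := continuous_st.measurable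
  refine Gen.avg' h E.h hDm hD (Ψ := fun _ q => G.st q.1 q.2) (fun _ => hm) (C := 1)
    (fun n N hN => ?_) E'.h hk hk'
  rw [ENNReal.ofReal_one, one_mul, ← lintegral_indicator_const (hDm n)]
  refine (Measure.prod_apply_symm ((measurable_snd (hDm n)).inter (hm hN))).trans_le
    (lintegral_mono fun y => ?_)
  by_cases hy : y ∈ D n
  · rw [Set.indicator_of_mem hy, ← vol_st_right y N]
    exact measure_mono fun x hx => hx.2
  · rw [Set.indicator_of_notMem hy]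
    exact (measure_mono fun x hx => (hy hx.1).elim).trans_eq measure_empty

theorem X_lf {C : ℝ} (h : ∀ᶠ n in S.U, ‖a n‖ ≤ C * S.R n) :
    ∃ L, ∀ᶠ n in S.U, G.X (a n) ∈ S.Lf L n := by
  obtain ⟨L, -, hL⟩ := G.Close_Xl C
  exact ⟨L, (h.and (S.ev_R 1)).mono fun n h => ⟨Geo.X_V0 _, hL _ h.2 _ h.1⟩⟩

theorem st_lf (S : Sys G) (L L' : ℝ) : ∃ L'', ∀ n, ∀ u ∈ S.Lf L n, ∀ v ∈ S.Lf L' n,
    G.st u v ∈ S.Lf L'' n := by
  obtain ⟨C, -, h⟩ := st_Bx G.x
  refine ⟨max L L' + C, fun n u hu v hv => ⟨Geo.st_V0 hu.1 hv.1, ?_⟩⟩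
  simp only [← add_assoc]
  exact h (fun _ => Real.log (S.R n) + max L L') u
    (Geo.B_mono (fun _ => add_le_add le_rfl (le_max_left _ _)) hu.2) v
    (Geo.B_mono (fun _ => add_le_add le_rfl (le_max_right _ _)) hv.2)

theorem neg_lf {n : S.I} {v : G.V} (h : v ∈ S.Lf L n) : -v ∈ S.Lf L n :=
  ⟨Geo.neg_V0 h.1, neg_mem_Zon h.2⟩

theorem smul_lf {n : S.I} {v : G.V} (h : v ∈ S.Lf L n) {s : ℝ} (hs : |s| ≤ 1) :
    s • v ∈ S.Lf L n := ⟨Geo.smul_V0 s h.1, smul_mem_Zon hs h.2⟩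

theorem lf_len (S : Sys G) (L : ℝ) : ∃ C > 0, ∀ᶠ n in S.U, ∀ v ∈ S.Lf L n,
    G.len v ≤ C * S.R n ∧ ‖G.ht v‖ ≤ C * S.R n := by
  obtain ⟨C, hC, h⟩ := G.len_of_mem
  obtain ⟨C', hC', h'⟩ := ht_le (M := G.toMdl)
  have h0 := Real.one_le_exp (abs_nonneg L)
  refine ⟨(C' + 1) * (C * Real.exp |L|), by positivity, (S.ev_R 1).mono fun n hn v hv => ?_⟩
  have h1 := one_le_mul_of_one_le_of_one_le h0 hn
  have h2 := h _ h1 v (Geo.B_mono (fun i => le_trans (by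
    rw [Real.log_mul (by positivity) (by positivity), Real.log_exp]
    linarith [le_abs_self L]) (G.Close_log_le (one_pos.trans_le h1) i)) hv.2)
  have h3 := (h' v).trans (mul_le_mul_of_nonneg_left h2 hC')
  have h4 : 0 ≤ C * (Real.exp |L| * S.R n) := by positivity
  have h5 := mul_nonneg hC' h4
  constructor <;> linarith

theorem lp_near (G : Geo) (K : ℝ) {ε : ℝ} (hε : 0 < ε) : ∃ δ > 0, ∀ S : Sys G, S.K = K →
    ∀ᶠ n in S.U, ∀ (z z' y : G.V) (w : Ht G.k) (c : Fin G.n → ℝ), G.la w ≤ c →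
      S.Lp n z y w c δ → G.len (z⁻¹ * z') ≤ δ * S.R n → S.Lp n z' y w c ε := by
  obtain ⟨C₁, h1, hT⟩ := T_lip G
  obtain ⟨C₂, h2, hs⟩ := G.step_mem
  obtain ⟨C₃, h3, hb⟩ := st_Bx G.x
  obtain ⟨l, Λ, -, hΛ, hl⟩ := G.lam_bd
  have hA : 0 < 1 + Λ + (C₁ + C₂) * |K| := by positivity
  obtain ⟨δ, hδ, e⟩ : ∃ δ > 0, δ * (1 + Λ + (C₁ + C₂) * |K|) = ε / 2 :=
    ⟨ε / 2 / _, div_pos (half_pos hε) hA, div_mul_cancel₀ _ hA.ne'⟩
  refine ⟨δ, hδ, fun S hK => ?_⟩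
  subst hK
  have hK := S.one_le_K
  rw [abs_of_pos (one_pos.trans_le hK)] at e
  filter_upwards [S.ev_R 0, S.SysB_ev ((C₁ + C₂) * S.K + C₃) (half_pos hε)] with n hR hb' z z' y w c
    hw hp hz
  have e' := congrArg (· * S.R n) e
  have p0 : 0 ≤ δ * S.R n := by positivity
  have p1 : 0 ≤ C₁ * S.K := by positivity
  have p2 : 0 ≤ C₂ * S.K := by positivity
  have p3 := mul_nonneg p1 p0
  have p4 := mul_nonneg p2 p0
  have p5 := mul_nonneg hΛ.le p0
  refine ⟨?_, ?_⟩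
  · have a1 := (hT S n z z').trans (mul_le_mul_of_nonneg_left (add_le_add hz le_rfl) p1)
    have a2 := norm_sub_le_norm_sub_add_norm_sub (S.T n z') (S.T n z) (S.R n • w)
    linarith [hp.1]
  · have a1 := ((S.q n).lf z z').trans (add_le_add (mul_le_mul_of_nonneg_left hz (by linarith))
      le_rfl)
    have a0 : 1 ≤ S.K * (δ * S.R n) + S.K := by
      linarith [mul_nonneg (zero_le_one.trans hK) p0]
    have a2 := hb (fun i => S.R n * c i + (ε * S.R n - C₃)) _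
      (Geo.B_mono (fun i => by linarith) hp.2) _ (Geo.B_mono (fun i => ?_) (hs _ _ _ a0 a1))
    · rw [st_assoc, ← st_assoc (S.f n z), st_neg, zero_st] at a2
      exact Geo.B_mono (fun i => by linarith) a2
    have b1 : G.sz (C₂ * (S.K * (δ * S.R n) + S.K)) i ≤ C₂ * (S.K * (δ * S.R n) + S.K) := by
      unfold Geo.sz
      split_ifs
      · exact Real.log_le_self (by positivity)
      · exact le_rfl
    have b2 := (real_inner_le_norm (G.lam i) (S.T n z - S.R n • w)).trans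
      (mul_le_mul (hl i).1 hp.1 (norm_nonneg _) hΛ.le)
    rw [inner_sub_right, real_inner_smul_right] at b2
    have b3 : S.R n * ⟪G.lam i, w⟫_ℝ ≤ S.R n * c i := mul_le_mul_of_nonneg_left (hw i) hR
    change ⟪G.lam i, S.T n z⟫_ℝ + _ ≤ _
    linarith

end Vale.Agent.P188.Sys
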