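import Vale.Agent.P188.CntD

/-! Sequences of quasi-isometries along an ultrafilter. -/

namespace Vale.Agent.P188

open MeasureTheory Filter Mdl
open scoped InnerProductSpace ENNReal

/-- families of sets of negligible volume -/
def Nul {I Ω : Type} [MeasureSpace Ω] (U : Filter I) (W : I → ℝ≥0∞) (A : I → Set Ω) : Prop :=
  ∀ κ : ℝ, 0 < κ → ∀ᶠ n in U, volume (A n) ≤ ENNReal.ofReal κ * W n

/-- generic points: they avoid all negligible families -/
def Gen {I J Ω : Type} [MeasureSpace Ω] (U : Filter I) (W : I → ℝ≥0∞) (U' : Filter J)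
    (π : J → I) (z : J → Ω) : Prop :=
  ∀ A : I → Set Ω, Nul U W A → ∀ᶠ n in U', z n ∉ A (π n)

/-- a family of quasi-isometries with scales -/
structure Sys (G : Geo) where
  /-- the index set -/
  I : Type
  /-- the ultrafilter -/
  U : Ultrafilter I
  /-- the scales -/
  R : I → ℝ
  hR : Tendsto R U atTop
  /-- the constant -/
  K : ℝ
  /-- the maps -/
  f : I → G.V → G.V
  /-- their inverses -/
  g : I → G.V → G.V
  q : ∀ n, QIp G.len G.len K (f n) (g n)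
  mf : ∀ n, Measurable (f n)
  mg : ∀ n, Measurable (g n)

namespace Geo

variable (G : Geo)

/-- types whose facets are large -/
def Ok (γ : Ht G.k → ℝ) (μ : ℝ) : Prop :=
  ∀ ν ∈ G.Nn, μ ≤ γ ν ∧ ∀ ν' ∈ G.Nn, ν' ≠ ν → ⟪ν', γ ν • ν⟫_ℝ + μ ≤ γ ν'

/-- the loss in the other directions when a facet is moved -/
noncomputable def Mc : ℝ := G.F.d * (∑ i, ‖G.lam i‖) * ∑ i, ‖G.lam i‖⁻¹

open Classical in
/-- the type with one facet moved -/
noncomputable def up (γ : Ht G.k → ℝ) (ν : Ht G.k) (τ : ℝ) : Ht G.k → ℝ :=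
  fun ν' => if ν' = ν then γ ν + τ else γ ν' - G.Mc * τ

open Classical in
/-- the types along a word -/
noncomputable def tys (γ' : Ht G.k → ℝ) : (Ht G.k → ℝ) → List (Fin G.n) → List (Ht G.k → ℝ)
  | _, [] => []
  | γ, j :: l =>
    let γ₁ := if G.lam j = 0 then γ else G.up γ (G.nu j) (γ' (G.nu j) - γ (G.nu j))
    γ₁ :: tys γ' γ₁ l

end Geo

namespace Sys

variable {G : Geo} (S : Sys G)

/-- the height of the image -/
noncomputable def T (n : S.I) (x : G.V) : Ht G.k := G.ht (S.f n x)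

/-- the inverse system -/
@[reducible] def symm : Sys G :=
  { S with f := S.g, g := S.f, q := fun n => ⟨(S.q n).one_le, (S.q n).lg, (S.q n).lf,
      (S.q n).fg, (S.q n).gf⟩, mf := S.mg, mg := S.mf }

/-- change of scale -/
@[reducible] def scale (r : ℝ) (hr : 0 < r) : Sys G :=
  { S with R := fun n => r * S.R n, hR := S.hR.const_mul_atTop hr }

/-- translation -/
@[reducible] noncomputable def tr (a b : S.I → G.V) : Sys G :=
  { S with
    f := fun n x => b n * S.f n (a n * x)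
    g := fun n y => (a n)⁻¹ * S.g n ((b n)⁻¹ * y)
    q := fun n => ⟨(S.q n).one_le,
      fun x y => by simpa [mul_assoc] using (S.q n).lf (a n * x) (a n * y),
      fun x y => by simpa [mul_assoc] using (S.q n).lg ((b n)⁻¹ * x) ((b n)⁻¹ * y),
      fun x => by simpa [mul_assoc] using (S.q n).gf (a n * x),
      fun y => by simpa [mul_assoc] using (S.q n).fg ((b n)⁻¹ * y)⟩
    mf := fun n => ((S.mf n).comp (measurable_const_mul _)).const_mul _
    mg := fun n => ((S.mg n).comp (measurable_const_mul _)).const_mul _ }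

theorem eventually_bind {I : Type} (U : Ultrafilter I) (𝒱 : Ultrafilter ℕ) (p : I × ℕ → Prop) :
    (∀ᶠ q in (𝒱.bind fun l => U.map fun n => (n, l) : Ultrafilter (I × ℕ)), p q) ↔
      ∀ᶠ l in 𝒱, ∀ᶠ n in U, p (n, l) := Iff.rfl

/-- the blow-up -/
@[reducible] noncomputable def blow (𝒱 : Ultrafilter ℕ) : Sys G where
  I := S.I × ℕ
  U := 𝒱.bind fun l => S.U.map fun n => (n, l)
  R q := S.R q.1 / 2 ^ q.2
  hR := tendsto_atTop.2 fun b => (eventually_bind S.U 𝒱 _).2 <| Eventually.of_forall fun l =>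
    tendsto_atTop.1 (S.hR.atTop_div_const (pow_pos two_pos l)) b
  K := S.K
  f q := S.f q.1
  g q := S.g q.1
  q q := S.q q.1
  mf q := S.mf q.1
  mg q := S.mg q.1

/-- refinements of the index set -/
structure Ext where
  /-- the new index set -/
  J : Type
  /-- the new ultrafilter -/
  U : Ultrafilter J
  /-- the projection -/
  π : J → S.I
  h : Tendsto π U S.U

variable {S} in
/-- the refined system -/
@[reducible] def Ext.sys (E : S.Ext) : Sys G where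
  I := E.J
  U := E.U
  R n := S.R (E.π n)
  hR := S.hR.comp E.h
  K := S.K
  f n := S.f (E.π n)
  g n := S.g (E.π n)
  q n := S.q (E.π n)
  mf n := S.mf (E.π n)
  mg n := S.mg (E.π n)

variable {S} in
/-- composition of refinements -/
@[reducible] def Ext.comp (E : S.Ext) (E' : E.sys.Ext) : S.Ext :=
  ⟨E'.J, E'.U, fun n => E.π (E'.π n), E.h.comp E'.h⟩

variable {S} in
/-- generic points of a refinement -/
def Ext.Gn (E : S.Ext) {Ω : Type} [MeasureSpace Ω] (W : S.I → ℝ≥0∞) (z : E.J → Ω) : Prop :=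
  Gen S.U W E.U E.π z

/-- small compared with the scale -/
def Sm (a : S.I → Ht G.k) : Prop := ∀ ε > 0, ∀ᶠ n in S.U, ‖a n‖ ≤ ε * S.R n

/-- bounded elements of weight zero -/
def Lf (L : ℝ) (n : S.I) : Set G.V := G.V0 ∩ G.B fun _ => Real.log (S.R n) + L

/-- regions with a collar of comparable volume -/
def Rg (W : S.I → ℝ≥0∞) (A : S.I → Set G.V) (c : ℝ) : Prop :=
  0 < c ∧ ∃ C : ℝ, ∀ᶠ n in S.U, volume (G.nb (A n) (c * S.R n)) ≤ ENNReal.ofReal C * W n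

/-- regions on which second differences vanish -/
def Tan (W : S.I → ℝ≥0∞) (A : S.I → Set G.V) : Prop :=
  (∀ c > 0, S.Rg W A c) ∧ ∀ (v : Ht G.k) (c : ℝ), ∀ ε > 0, Nul S.U W fun n =>
    {x ∈ G.nb (A n) (c * S.R n) | ε * S.R n ≤ ‖S.T n (G.st x (G.X ((2 * S.R n) • v))) -
      (2 : ℝ) • S.T n (G.st x (G.X (S.R n • v))) + S.T n x‖}

/-- the derivative along a leaf -/
def Der (z : S.I → G.V) (A : Ht G.k →ₗ[ℝ] Ht G.k) : Prop :=
  ∀ L : ℝ, ∀ ε > 0, ∀ᶠ n in S.U, ∀ v ∈ S.Lf L n,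
    ‖S.T n (G.st (z n) v) - S.T n (z n) - A (G.ht v)‖ ≤ ε * S.R n

/-- two points with the same affine approximation -/
def Sim (z z' : S.I → G.V) (A : Ht G.k →ₗ[ℝ] Ht G.k) : Prop :=
  S.Der z A ∧ S.Der z' A ∧ S.Sm fun n => S.T n (z' n) - S.T n (z n) - A (G.ht (z' n) - G.ht (z n))

/-- bounded heights -/
def Bd (y : S.I → G.V) : Prop :=
  ∃ C : ℝ, ∀ᶠ n in S.U, ‖G.ht (y n)‖ ≤ C * S.R n ∧ ‖S.T n (y n)‖ ≤ C * S.R n

/-- the volume of the box of a type -/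
noncomputable def Wv (γ : Ht G.k → ℝ) (n : S.I) : ℝ≥0∞ := volume (G.B (G.ty (S.R n) γ 0))

/-- membership in a box -/
def In (y : S.I → G.V) (γ : Ht G.k → ℝ) (z : S.I → G.V) : Prop :=
  ∃ L : ℝ, ∀ᶠ n in S.U, z n ∈ G.bx (y n) (G.ty (S.R n) γ L)

/-- the height is affine on a leaf -/
def Par (z : S.I → G.V) (γ : Ht G.k → ℝ) (σ : Ht G.k ≃ₗᵢ[ℝ] Ht G.k) (o : Ht G.k) : Prop :=
  ∀ L : ℝ, ∀ ε > 0, ∀ᶠ n in S.U, ∀ v ∈ S.Lf L n, (S.R n)⁻¹ • G.ht (G.st (z n) v) ∈ G.Cl γ →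
    ‖S.T n (G.st (z n) v) - σ (G.ht (G.st (z n) v)) - S.R n • o‖ ≤ ε * S.R n

/-- the height is affine on a box -/
def Coh (y : S.I → G.V) (γ : Ht G.k → ℝ) (σ : Ht G.k ≃ₗᵢ[ℝ] Ht G.k) (o : Ht G.k) : Prop :=
  ∀ L : ℝ, ∀ a ∈ G.Cl γ, ∀ ε > 0, Nul S.U (S.Wv γ) fun n =>
    {x ∈ G.bx (y n) (G.ty (S.R n) γ L) |
      ε * S.R n ≤ ‖S.T n (G.pr (S.R n • a) x) - S.R n • (σ a + o)‖}

/-- letters of type `γ'` do not change the height on most of the box of type `γ` -/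
def Hyp (y : S.I → G.V) (γ γ' : Ht G.k → ℝ) : Prop :=
  ∀ (L : ℝ) (i : Fin G.n) (s : S.I → ℝ), (∀ᶠ n in S.U, |s n| ≤ Real.exp (G.ty (S.R n) γ' L i)) →
    ∀ a ∈ G.Cl γ', ∀ ε > 0, Nul S.U (S.Wv γ) fun n =>
      {x ∈ G.bx (y n) (G.ty (S.R n) γ L) | ε * S.R n ≤
        ‖S.T n (G.pr (S.R n • a) x) - S.T n (G.pr (S.R n • a) (G.st x (s n • G.x i)))‖}

/-- the images of two points at height `a` differ by an element of the image box -/
def Ev (z z' : S.I → G.V) (c : Fin G.n → ℝ) (a : Ht G.k) : Prop :=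
  ∀ ε > 0, ∀ᶠ n in S.U, S.f n (G.pr (S.R n • a) (z' n)) ∈
    G.bx (S.f n (G.pr (S.R n • a) (z n))) fun i => S.R n * c i + ε * S.R n

/-- the image of a point has height `w` and lies in a box -/
def Lp (n : S.I) (z y : G.V) (w : Ht G.k) (c : Fin G.n → ℝ) (ε : ℝ) : Prop :=
  ‖S.T n z - S.R n • w‖ ≤ ε * S.R n ∧ S.f n z ∈ G.bx y fun i => S.R n * c i + ε * S.R n

/-- the volume has exponent at least `η` -/
def Big (D : S.I → Set G.V) (η : ℝ) : Prop :=
  ∀ ε > 0, ∀ᶠ n in S.U, ENNReal.ofReal (Real.exp (S.R n * (η - ε))) ≤ volume (D n) ∧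
    volume (D n) ≠ ⊤

/-- two heights at which most points of a set are mapped into given boxes -/
structure Two (y : S.I → G.V) (D : S.I → Set G.V) (a a' w w' : Ht G.k) (c c' : Fin G.n → ℝ)
    (y₁ y₂ : S.I → G.V) : Prop where
  good : ∀ ε > 0, Nul S.U (fun n => volume (D n)) fun n => {k ∈ D n |
    ¬(S.Lp n (G.pr (S.R n • a') (G.st (y n) k)) (y₁ n) w' c' ε ∧
      S.Lp n (G.pr (S.R n • a) (G.st (y n) k)) (y₂ n) w c ε)}

/-- the data of a facet extension -/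
structure Fe (y : S.I → G.V) (γ : Ht G.k → ℝ) (σ : Ht G.k ≃ₗᵢ[ℝ] Ht G.k) (o : Ht G.k)
    (E : S.Ext) (z : E.J → G.V) (ν : Ht G.k) (τ μ : ℝ) (σ' : Ht G.k ≃ₗᵢ[ℝ] Ht G.k)
    (o' : Ht G.k) : Prop where
  bd : S.Bd y
  ok : G.Ok γ μ
  le : ∀ ν ∈ G.Nn, γ ν ≤ 2
  sig : σ ∈ G.Sig
  coh : S.Coh y γ σ o
  gen : E.Gn (S.Wv γ) z
  mem : E.sys.In (fun n => y (E.π n)) γ z
  nu : ν ∈ G.Nn
  pos : 0 ≤ τ
  sig' : σ' ∈ G.Sig
  coh' : E.sys.Coh z (G.up γ ν τ) σ' o'

end Sys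

end Vale.Agent.P188
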