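import Vale.Agent.P188.Pair
import Vale.Agent.P188.Inter

/-! Leaves of a box that run into the facet of a neighbouring box. -/

namespace Vale.Agent.P188.Sys

open MeasureTheory Filter Mdl
open scoped InnerProductSpace ENNReal

variable {G : Geo} {S : Sys G} {y : S.I → G.V} {γ β β' : Ht G.k → ℝ} {E : S.Ext} {z : E.J → G.V}
  {τ μ μ' : ℝ} {σ σ' : Ht G.k ≃ₗᵢ[ℝ] Ht G.k} {o o' a a' ν : Ht G.k}

theorem TopC_lp {z' : E.J → G.V} (hO : G.Orth) (hμ : 0 < μ) (hβ : G.Ok β μ)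
    (h1 : ∀ ν ∈ G.Nn, β ν ≤ γ ν) (hy : S.Bd y) (hσ : σ ∈ G.Sig) (h : S.Coh y γ σ o)
    (hz : E.Gn (S.Wv γ) z) (hz' : E.Gn (S.Wv γ) z') (hm : E.sys.In (fun n => y (E.π n)) γ z)
    (hm' : E.sys.In z β z') (ha : a ∈ G.Cl β) {ε : ℝ} (hε : 0 < ε) :
    ∀ᶠ n in E.U, E.sys.Lp n (G.pr (E.sys.R n • a) (z' n))
      (E.sys.f n (G.pr (E.sys.R n • a) (z n))) (σ a + o) (G.cs (G.im β σ o)) ε :=
  (h.gen hz' (hm.trans (hm'.mono h1)) (Geo.Cl_mono h1 ha) ε hε).and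
    (pair_ev hO hμ hβ h1 hy (h.hyp h1) hz hz' hm hm' hσ
      ((h.par hO (fun ν hν => (hβ.pos hμ ν hν).trans_le (h1 ν hν)) hy hz hm).mono h1) ha ε hε)

theorem TopC_in (hβ : ∀ ν ∈ G.Nn, 0 ≤ β ν) (u : S.I → G.V) (b : Ht G.k) {k : S.I → G.V}
    (hk : ∀ᶠ n in S.U, G.st (G.X (S.R n • b)) (k n) ∈ G.B (G.ty (S.R n) β 0)) :
    S.In u β fun n => G.st (u n) (k n) := by
  obtain ⟨L, hL⟩ := X_lf (S := S) (a := fun n => -(S.R n • b)) (C := ‖b‖)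
    ((S.ev_R 0).mono fun n hn => by rw [norm_neg, norm_smul, Real.norm_of_nonneg hn, mul_comm])
  have h1 := (in_st u ((hL.and (lf_sub hβ L)).mono fun n h => h.2 h.1)).trans (in_st _ hk)
  simpa only [st_assoc, map_neg, ← st_assoc (-G.X _), neg_st, zero_st] using h1

/-- the common part of the two boxes -/
def TopCK (G : Geo) (γ γ' : Ht G.k → ℝ) (R : ℝ) : Set G.V :=
  (G.B fun i => G.ty R γ' 0 i + 1) ∩ G.B fun i => G.ty R γ 0 i + 1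

/-- the cell at the facet -/
def TopCP (G : Geo) (a : Ht G.k) (L R : ℝ) : Set G.V :=
  G.B fun i => G.la (R • a) i + Real.log R - L

theorem TopC_vol (c : Fin G.n → ℝ) :
    MeasurableSet (G.B c) ∧ volume (G.B c) ≠ 0 ∧ volume (G.B c) ≠ ⊤ :=
  ⟨isCompact_Zon.measurableSet, (vol_Bx_pos Geo.span_x c).ne', isCompact_Zon.measure_lt_top.ne⟩

theorem TopC_volK (γ γ' : Ht G.k → ℝ) (R : ℝ) : MeasurableSet (TopCK G γ γ' R) ∧
    volume (TopCK G γ γ' R) ≠ 0 ∧ volume (TopCK G γ γ' R) ≠ ⊤ :=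
  ⟨(TopC_vol _).1.inter (TopC_vol _).1, fun h => (TopC_vol fun i =>
    min (G.ty R γ' 0 i + 1) (G.ty R γ 0 i + 1)).2.1 (measure_mono_null (Set.subset_inter
      (Geo.B_mono fun _ => min_le_left _ _) (Geo.B_mono fun _ => min_le_right _ _)) h),
    ne_top_of_le_ne_top (TopC_vol _).2.2 (measure_mono Set.inter_subset_left)⟩

theorem TopC_up (γ : Ht G.k → ℝ) (ν : Ht G.k) (τ : ℝ) : G.up γ ν τ ν = γ ν + τ := if_pos rfl

theorem TopC_up' (γ : Ht G.k → ℝ) {ν ν' : Ht G.k} (h : ν' ≠ ν) (τ : ℝ) :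
    G.up γ ν τ ν' = γ ν' - G.Mc * τ := if_neg h

theorem TopC_la (R : ℝ) (a : Ht G.k) (i : Fin G.n) :
    ⟪G.lam i, R • a⟫_ℝ = R * (‖G.lam i‖ * ⟪G.nu i, a⟫_ℝ) := by
  rw [real_inner_smul_right, ← real_inner_smul_left (G.nu i), ← Geo.lam_eq]

theorem TopC_gen (z : S.I → G.V) (hν : ν ∈ G.Nn) (hτ : 0 ≤ τ) (hμ : 0 < μ)
    (h3 : ⟪ν, a⟫_ℝ = γ ν + τ) (h4 : ∀ ν' ∈ G.Nn, ν' ≠ ν → ⟪ν', a⟫_ℝ + μ ≤ G.up γ ν τ ν')
    {D : ℝ → Set G.V} (hD : ∀ R, MeasurableSet (D R) ∧ volume (D R) ≠ 0 ∧ volume (D R) ≠ ⊤)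
    {k : E.J → G.V} (hk : E.Gn (fun n => volume (TopCK G γ (G.up γ ν τ) (S.R n))) k)
    (hk' : ∀ᶠ n in E.U, k n ∈ TopCK G γ (G.up γ ν τ) (E.sys.R n)) {L : ℝ} (hL : 0 ≤ L)
    {E' : E.sys.Ext} {q : E'.J → G.V × G.V}
    (hq : E'.Gn (fun n => volume (D (E.sys.R n)) * volume (TopCP G a L (E.sys.R n))) q)
    (hq' : ∀ᶠ n in E'.U, q n ∈ D (E'.sys.R n) ×ˢ TopCP G a L (E'.sys.R n)) :
    (E.comp E').Gn (S.Wv (G.up γ ν τ)) fun n =>
      G.st (G.st (G.st (z (E.π (E'.π n))) (k (E'.π n))) (q n).1) (q n).2 := by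
  obtain ⟨C₁, hC₁, h5⟩ := Geo.inter hν
  obtain ⟨C, -, h6⟩ := h5 L hL
  obtain ⟨l, Λ, hl, -, h7⟩ := G.lam_bd
  have e : ∀ R, volume (D R ×ˢ TopCP G a L R) = volume (D R) * volume (TopCP G a L R) :=
    fun R => Measure.prod_prod _ _
  refine Gen.avg hk E.h hk' (fun n => (TopC_volK _ _ _).1)
    (D := fun n => D (S.R n) ×ˢ TopCP G a L (S.R n))
    (fun n => (hD _).1.prod (TopC_vol _).1) (Eventually.of_forall fun n => ?_)
    (Ψ := fun n q => G.st (G.st (G.st (z n) q.1) q.2.1) q.2.2)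
    (fun n => Geo.Inter_mst (Geo.Inter_mst (Geo.Inter_mst measurable_const measurable_fst)
      measurable_snd.fst) measurable_snd.snd) (Eventually.of_forall fun n => S.vol_ty _ _ n)
    (C := C) ?_ E'.h (by simp only [e]; exact hq) hq'
  · rw [e]
    exact ⟨mul_ne_zero (hD _).2.1 (TopC_vol _).2.1,
      ENNReal.mul_ne_top (hD _).2.2 (TopC_vol _).2.2⟩
  filter_upwards [S.ev_R 1, S.ev_log C₁ (mul_pos hl hμ)] with n hR h8 N hN
  have R0 : 0 ≤ S.R n := zero_le_one.trans hR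
  have s0 : 0 ≤ ∑ j, ‖G.lam j‖ := Finset.sum_nonneg fun _ _ => norm_nonneg _
  have t0 : 0 ≤ τ * S.R n := mul_nonneg hτ R0
  refine h6 (G.ty (S.R n) (G.up γ ν τ) 0) (G.ty (S.R n) γ 0) (S.R n • a) (Real.log (S.R n))
    (τ * S.R n * ∑ j, ‖G.lam j‖) (Real.log_nonneg hR) (mul_nonneg t0 s0) ⟨fun i hi => ?_,
      fun i hi => ?_⟩ (fun i hi => ?_) (fun i hi => ?_) (z n) _ N (hD _).1 hN
  · rw [TopC_la]
    simp only [Geo.ty, Geo.cs]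
    rcases hi with hi | hi
    · rw [hi, norm_zero]
      ring
    · rw [hi, TopC_up, h3]
      ring
  · rw [Geo.par, not_or] at hi
    have h9 := mul_le_mul_of_nonneg_left (mul_le_mul_of_nonneg_left
      (h4 _ (Geo.nu_mem hi.1) hi.2) (norm_nonneg (G.lam i))) R0
    have h10 := mul_le_mul_of_nonneg_right ((h7 i).2 hi.1) (mul_nonneg hμ.le R0)
    rw [TopC_la]
    simp only [Geo.ty, Geo.cs]
    linarith
  · have h9 := mul_le_mul_of_nonneg_left (Finset.single_le_sum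
      (fun j _ => norm_nonneg (G.lam j)) (Finset.mem_univ i)) t0
    simp only [Geo.ty, Geo.cs]
    rcases hi with hi | hi
    · rw [hi, norm_zero]
      linarith [mul_nonneg t0 s0]
    · rw [hi, TopC_up]
      linarith
  · rw [Geo.par, not_or] at hi
    have h9 := mul_le_mul_of_nonneg_left (Geo.Mc_spec i hi.1) t0
    simp only [Geo.ty, Geo.cs]
    rw [TopC_up' γ hi.2]
    linarith

theorem TopC_P (ha : a ∈ G.Cl β) {L R : ℝ} (hL : 0 ≤ L) (hR : 0 ≤ R) :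
    TopCP G a L R ⊆ G.B (G.ty R β 0) := Geo.B_mono fun i => by
  have h := mul_le_mul_of_nonneg_left (Geo.la_le_cs ha i) hR
  simp only [Geo.la, Geo.ty, real_inner_smul_right] at h ⊢
  linarith

theorem TopC_near (G : Geo) (a : Ht G.k) {δ : ℝ} (hδ : 0 < δ) : ∃ L, 0 ≤ L ∧
    ∀ (S : Sys G) (x : S.I → G.V) (β : Ht G.k → ℝ), (S.Sm fun n => G.ht (x n)) →
      ∀ᶠ n in S.U, ∀ k ∈ G.B (G.ty (S.R n) β 0), ∀ v ∈ TopCP G a L (S.R n),
        G.len ((G.pr (S.R n • a) (G.st (G.st (x n) k) v))⁻¹ * G.pr (S.R n • a) (G.st (x n) k)) ≤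
          δ * S.R n := by
  obtain ⟨C, hC, h1⟩ := G.ht_of_mem
  obtain ⟨ρ, hρ, R₀, h2⟩ := G.close_cell (‖a‖ + 1 + C) hδ
  refine ⟨|Real.log ρ|, abs_nonneg _, fun S x β hx => ?_⟩
  filter_upwards [hx 1 one_pos, S.ev_R R₀, S.ev_R 1] with n h3 h4 h5 k hk v hv
  have R0 : 0 < S.R n := one_pos.trans_le h5
  have h6 := h1 _ (Real.log (S.R n)) (fun i hi => by simp [Geo.ty, Geo.cs, hi]) k hk
  rw [Real.exp_log R0] at h6
  rw [← isLen_len.inv, mul_inv_rev, inv_inv]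
  refine h2 _ h4 _ _ ?_ v (Geo.B_mono (fun i => ?_) hv)
  · have h7 := norm_sub_le (S.R n • a) (G.ht (x n) + G.ht k)
    rw [norm_smul, Real.norm_of_nonneg R0.le] at h7
    rw [ht_st]
    linarith [norm_add_le (G.ht (x n)) (G.ht k)]
  · have h7 := G.Close_log_le (mul_pos hρ R0) i
    rw [Real.log_mul hρ.ne' R0.ne'] at h7
    linarith [neg_abs_le (Real.log ρ)]

theorem TopC_shift {I : Type} {U : Filter I} {W W' : I → ℝ≥0∞} {A : I → Set G.V} (u : I → G.V)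
    (h : ¬Nul U W A) (e : ∀ n, W' n = W n) : ¬Nul U W' fun n => {k | G.st (u n) k ∈ A n} :=
  fun h1 => h fun κ hκ => (h1 κ hκ).mono fun n h2 => by rwa [vol_st_left, e] at h2

theorem top_cfg (hO : G.Orth) (F : S.Fe y γ σ o E z ν τ μ σ' o') (hμ : 0 < μ') (hβ : G.Ok β μ')
    (hβ' : G.Ok β' μ') (h1 : ∀ ν' ∈ G.Nn, β ν' ≤ γ ν') (h2 : ∀ ν' ∈ G.Nn, β' ν' ≤ G.up γ ν τ ν')
    (ha' : a' ∈ G.Cl β) (ha : a ∈ G.Cl β') (h3 : ⟪ν, a⟫_ℝ = γ ν + τ)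
    (h4 : ∀ ν' ∈ G.Nn, ν' ≠ ν → ⟪ν', a⟫_ℝ + μ' ≤ G.up γ ν τ ν') {D : ℝ → Set G.V}
    (hD : ∀ R, MeasurableSet (D R) ∧ volume (D R) ≠ 0 ∧
      D R ⊆ G.B (G.ty R β 0) ∩ G.B (G.ty R β' 0)) :
    ∃ (S' : Sys G) (x y₁ y₂ : S'.I → G.V), S'.K = S.K ∧ (S'.Sm fun n => G.ht (x n)) ∧
      S'.Two x (fun n => D (S'.R n)) a a' (σ' a + o') (σ a' + o) (G.cs (G.im β' σ' o'))
        (G.cs (G.im β σ o)) y₁ y₂ := by
  have b0 : ∀ ν ∈ G.Nn, 0 ≤ β ν := fun ν h => (hβ.pos hμ ν h).le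
  have b1 : ∀ ν ∈ G.Nn, 0 ≤ β' ν := fun ν h => (hβ'.pos hμ ν h).le
  obtain ⟨E2, k0, g0, m0⟩ := E.sys.exists_ext (A := fun n => TopCK G γ (G.up γ ν τ) (E.sys.R n))
    (not_nul_self (Eventually.of_forall fun n => (TopC_volK _ _ _).2))
  have g1 : (E.comp E2).Gn (S.Wv γ) fun n => G.st (z (E2.π n)) (k0 n) :=
    F.gen.box (D := fun n => TopCK G γ (G.up γ ν τ) (S.R n)) (fun n => (TopC_volK _ _ _).1)
      (Eventually.of_forall fun n => (TopC_volK _ _ _).2) g0 m0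
  have i1 : E2.sys.In (fun n => y (E.π (E2.π n))) γ fun n => G.st (z (E2.π n)) (k0 n) :=
    (F.mem.pull E2).trans (in_st (L := 1) _ (m0.mono fun n h =>
      Geo.B_mono (fun i => by simp [Geo.ty]) h.2))
  have i2 : E2.sys.In (fun n => z (E2.π n)) (G.up γ ν τ) fun n => G.st (z (E2.π n)) (k0 n) :=
    in_st (L := 1) _ (m0.mono fun n h => Geo.B_mono (fun i => by simp [Geo.ty]) h.1)
  obtain ⟨C, hC⟩ := (F.bd.pull (E.comp E2)).of_in i1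
  obtain ⟨b, -, hb⟩ := exists_lim (hC.mono fun n h => h.1)
  obtain ⟨Dt, hDt⟩ : ∃ Dt : ℝ → Set G.V, ∀ R k, k ∈ Dt R ↔ G.st (G.X (R • b)) k ∈ D R :=
    ⟨fun R => {k | G.st (G.X (R • b)) k ∈ D R}, fun _ _ => Iff.rfl⟩
  have e0 : ∀ R, Dt R = {k | G.st (G.X (R • b)) k ∈ D R} := fun R => Set.ext (hDt R)
  have e1 : ∀ R, volume (Dt R) = volume (D R) := fun R => by rw [e0, vol_st_left]
  have v1 : ∀ R, MeasurableSet (Dt R) ∧ volume (Dt R) ≠ 0 ∧ volume (Dt R) ≠ ⊤ := fun R => by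
    rw [e1, e0]
    exact ⟨Geo.Inter_mst measurable_const measurable_id (hD R).1, (hD R).2.1, ne_top_of_le_ne_top
      (TopC_vol _).2.2 (measure_mono ((hD R).2.2.trans Set.inter_subset_left))⟩
  obtain ⟨E3, q1, g2, m2⟩ := E2.sys.exists_ext (not_nul_prod
    (D := fun n => TopCP G a 0 (E2.sys.R n))
    (not_nul_self (A := fun n => Dt (E2.sys.R n)) (Eventually.of_forall fun n => (v1 _).2))
    (Eventually.of_forall fun n => (TopC_vol _).2))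
  have g3 := TopC_gen z F.nu F.pos hμ h3 h4 v1 g0 m0 le_rfl g2 m2
  have sm : E3.sys.Sm fun n => G.ht (G.st (G.st (z (E2.π (E3.π n))) (k0 (E3.π n)))
      (-G.X (E3.sys.R n • b))) := (hb.pull E3).congr (Eventually.of_forall fun n => by
    rw [ht_st _ (-_), map_neg, G.ht_X, sub_eq_add_neg])
  refine ⟨E3.sys, _, fun n => E3.sys.f n (G.pr (E3.sys.R n • a')
    (G.st (z (E2.π (E3.π n))) (k0 (E3.π n)))), fun n => E3.sys.f n (G.pr (E3.sys.R n • a)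
      (G.st (G.st (G.st (z (E2.π (E3.π n))) (k0 (E3.π n))) (q1 n).1) (q1 n).2)), rfl, sm,
    ⟨fun ε hε => by_contra fun hN => ?_⟩⟩
  obtain ⟨δ, hδ, h5⟩ := lp_near G S.K hε
  obtain ⟨L, hL, h6⟩ := TopC_near G a hδ
  obtain ⟨E4, q, g4, m4⟩ := E3.sys.exists_ext (not_nul_prod
    (D := fun n => TopCP G a L (E3.sys.R n))
    (TopC_shift (fun n => G.X (E3.sys.R n • b)) hN fun n => e1 (E3.sys.R n))
    (Eventually.of_forall fun n => (TopC_vol _).2))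
  have g5 : (E3.comp E4).Gn
      (fun n => volume (Dt (E2.sys.R n)) * volume (TopCP G a L (E2.sys.R n))) q := g4.base
  have m5 : ∀ᶠ n in E4.U, q n ∈ Dt (E4.sys.R n) ×ˢ TopCP G a L (E4.sys.R n) :=
    m4.mono fun n h => ⟨(hDt _ _).2 h.1.1, h.2⟩
  have g6 := TopC_gen z F.nu F.pos hμ h3 h4 v1 g0 m0 hL g5 m5
  have g7 := g1.box (D := fun n => Dt (S.R n)) (fun n => (v1 _).1)
    (Eventually.of_forall fun n => (v1 _).2) (E' := E3.comp E4) (k := fun n => (q n).1)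
    (Gen.fst (E3.comp E4).h g5 (m5.mono fun n h => h.2)) (m5.mono fun n h => h.1)
  have i3 : ∀ {β : Ht G.k → ℝ}, (∀ ν ∈ G.Nn, 0 ≤ β ν) → (∀ R, D R ⊆ G.B (G.ty R β 0)) →
      ∀ {E5 : E2.sys.Ext} {k : E5.J → G.V}, (∀ᶠ n in E5.U, k n ∈ Dt (E5.sys.R n)) →
      E5.sys.In (fun n => G.st (z (E2.π (E5.π n))) (k0 (E5.π n))) β fun n =>
        G.st (G.st (z (E2.π (E5.π n))) (k0 (E5.π n))) (k n) := fun h h' _ _ hk =>
    TopC_in h _ b (hk.mono fun n h => h' _ ((hDt _ _).1 h))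
  have i4 : ∀ {L : ℝ}, 0 ≤ L → ∀ {E5 : E2.sys.Ext} {q : E5.J → G.V × G.V},
      (∀ᶠ n in E5.U, q n ∈ Dt (E5.sys.R n) ×ˢ TopCP G a L (E5.sys.R n)) →
      E5.sys.In (fun n => G.st (z (E2.π (E5.π n))) (k0 (E5.π n))) β' fun n =>
        G.st (G.st (G.st (z (E2.π (E5.π n))) (k0 (E5.π n))) (q n).1) (q n).2 :=
    fun hL E5 _ hq => (i3 b1 (fun R => (hD R).2.2.trans Set.inter_subset_right)
      (hq.mono fun n h => h.1)).trans (in_st _ ((hq.and (E5.sys.ev_R 0)).mono fun n h =>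
        TopC_P ha hL h.2 h.1.2))
  have lo := TopC_lp (E := (E.comp E2).comp (E3.comp E4)) hO hμ hβ h1 F.bd F.sig F.coh
    (g1.comp (E3.comp E4)) g7 (i1.pull (E3.comp E4))
    (i3 b0 (fun R => (hD R).2.2.trans Set.inter_subset_left) (E5 := E3.comp E4)
      (m5.mono fun n h => h.1)) ha' hε
  have i5 := (i4 le_rfl m2).pull E4
  have up := TopC_lp (E := E2.comp (E3.comp E4)) hO hμ hβ' h2 ((F.bd.pull E).of_in F.mem) F.sig'
    F.coh' (g3.comp E4) g6 ((i2.pull (E3.comp E4)).trans (i5.mono h2))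
    (i5.symm.trans (i4 hL (E5 := E3.comp E4) m5)) ha hδ
  obtain ⟨n, ⟨k1, k2⟩, k3, k4, k5⟩ := ((lo.and up).and (m4.and ((h5 E4.sys rfl).and
    (h6 E4.sys _ β (sm.pull E4))))).exists
  have e2 : ∀ u w k : G.V, G.st (G.st u (-w)) (G.st w k) = G.st u k := fun u w k => by
    rw [st_assoc, ← st_assoc (-w), neg_st, zero_st]
  have k6 := k5 _ ((hD _).2.2 k3.1.1).1 _ k3.2
  refine k3.1.2 ?_
  rw [e2] at k6 ⊢
  exact ⟨k1, k4 _ _ _ _ _ (Geo.la_le_cs (Geo.mem_Cl_im F.sig' o' ha)) k2 k6⟩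

end Vale.Agent.P188.Sys
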