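import Vale.Agent.P188.Mono

/-! The height of the image of an arbitrary point. -/

namespace Vale.Agent.P188.Sys

open MeasureTheory Filter Mdl
open scoped InnerProductSpace ENNReal

variable {G : Geo} {S : Sys G} {y : S.I → G.V} {γ : Ht G.k → ℝ} {σ : Ht G.k ≃ₗᵢ[ℝ] Ht G.k}
  {o a b : Ht G.k}

theorem Zero_ty {R s : ℝ} (hR : R ≠ 0) (hs : s ≠ 0) (γ : Ht G.k → ℝ) (L : ℝ) :
    G.ty (s * R) γ L = G.ty R (fun ν => s * γ ν) (L + Real.log s) := by
  funext i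
  simp only [Geo.ty, Geo.cs]
  rw [Real.log_mul hs hR]
  ring

theorem Coh.scale {r s : ℝ} (hr : 0 < r) (hs : 0 < s)
    (h : (S.scale (s * r) (mul_pos hs hr)).Coh y γ σ o) :
    (S.scale r hr).Coh y (fun ν => s * γ ν) σ (s • o) := by
  intro L a ha ε hε
  have h1 := h (L - Real.log s) (s⁻¹ • a) (fun ν hν => by
    rw [real_inner_smul_right, inv_mul_le_iff₀ hs]
    exact ha ν hν) (ε / s) (div_pos hε hs)
  obtain ⟨C, hC⟩ := (S.scale r hr).vol_ty_le (fun ν => s * γ ν) (0 + Real.log s) 0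
  have h2 : ∀ᶠ n in S.U, r * S.R n ≠ 0 := (S.ev_R 1).mono fun n hn =>
    (mul_pos hr (by linarith)).ne'
  refine (h1.of_le (C := C) (h2.mono fun n hn => ?_)).mono (h2.mono fun n hn x hx => ?_)
  · refine le_trans (le_of_eq ?_) (hC n)
    change volume (G.B (G.ty (s * r * S.R n) γ 0)) = _
    rw [mul_assoc, Zero_ty hn hs.ne']
  · have e1 : (s * r * S.R n) • s⁻¹ • a = (r * S.R n) • a := by
      rw [smul_smul]
      congr 1
      field_simp
    have e2 : (s * r * S.R n) • (σ (s⁻¹ • a) + o) = (r * S.R n) • (σ a + s • o) := by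
      rw [map_smul, smul_add, smul_add, smul_smul, smul_smul]
      congr 2
      · field_simp
      · ring
    have e3 : ε / s * (s * r * S.R n) = ε * (r * S.R n) := by field_simp
    change x ∈ G.bx (y n) (G.ty (s * r * S.R n) γ (L - Real.log s)) ∧ ε / s * (s * r * S.R n) ≤
      ‖S.T n (G.pr ((s * r * S.R n) • s⁻¹ • a) x) - (s * r * S.R n) • (σ (s⁻¹ • a) + o)‖
    rw [e1, e2, e3, mul_assoc, Zero_ty hn hs.ne', sub_add_cancel]
    exact hx

theorem Zero_len (G : Geo) : ∃ C > 0, ∀ (x : G.V) (a : Ht G.k) (r : ℝ), 1 ≤ r → G.len x ≤ r →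
    ‖a‖ ≤ r → G.len (G.pr a x) ≤ C * r := by
  obtain ⟨C, hC, h1⟩ := G.len_X
  obtain ⟨C', hC', h2⟩ := ht_le (M := G.toMdl)
  refine ⟨1 + C * (C' + 2), by positivity, fun x a r hr hx ha => ?_⟩
  have h3 := isLen_len.mul x (G.X (a - G.ht x))
  rw [Geo.mul_V0 _ (Geo.X_V0 _)] at h3
  have h4 : ‖a - G.ht x‖ + 1 ≤ (C' + 2) * r := by
    have h5 := norm_sub_le a (G.ht x)
    have h6 := (h2 x).trans (mul_le_mul_of_nonneg_left hx hC')
    linarith
  have h5 := (h1 (a - G.ht x)).trans (mul_le_mul_of_nonneg_left h4 hC.le)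
  unfold Geo.pr
  linarith

theorem Zero_T (G : Geo) : ∃ C > 0, ∀ S : Sys G, (∀ n, S.f n 1 = 1) → ∀ n x (r : ℝ), 1 ≤ r →
    G.len x ≤ r → ‖S.T n x‖ ≤ C * S.K * r := by
  obtain ⟨C, hC, h1⟩ := T_lip G
  refine ⟨2 * C, by positivity, fun S h n x r hr hx => ?_⟩
  have h2 := h1 S n 1 x
  have h3 : S.T n 1 = 0 := by rw [T, h, one_def, map_zero]
  rw [h3, sub_zero, inv_one, one_mul] at h2
  have h4 : 0 ≤ C * S.K := mul_nonneg hC.le (by linarith [S.one_le_K])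
  nlinarith

theorem Zero_bx (c : Fin G.n → ℝ) (x : G.V) : x ∈ G.bx 1 c ↔ x ∈ G.B c := by
  change G.st (-0) x ∈ G.B c ↔ _
  rw [neg_zero, zero_st]

theorem coh_bound (G : Geo) : ∃ C : ℝ, ∀ (S : Sys G) σ o, (∀ n, S.f n 1 = 1) →
    S.Coh (fun _ => 1) (fun _ => 1) σ o → ‖o‖ ≤ C * S.K := by
  obtain ⟨l, Λ, -, hΛ, hl⟩ := G.lam_bd
  obtain ⟨C₁, R₀, hC₁, h1⟩ := G.len_box (Λ + 1)
  obtain ⟨C₂, hC₂, h2⟩ := Zero_len G
  obtain ⟨C₃, hC₃, h3⟩ := Zero_T G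
  refine ⟨1 + C₃ * ((C₂ + 1) * (C₁ + 1)), fun S σ o h0 h => ?_⟩
  obtain ⟨E, z, hz, hm⟩ := S.exists_ext (S.not_nul_box (fun _ => 1) (fun _ => 1) 0)
  have h4 := h.gen (a := 0) hz ⟨0, hm⟩ (fun ν _ => by simp) 1 one_pos
  obtain ⟨n, ⟨⟨h5, h6⟩, h7⟩, h8⟩ := (((h4.and hm).and (E.sys.ev_R 1)).and (E.sys.ev_R R₀)).exists
  have h9 := h1 _ h8 1 _ (by rw [one_def, map_zero, norm_zero]; positivity) (fun i => ?_)
    (fun i hi => ?_) _ h6
  · rw [inv_one, one_mul] at h9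
    have h10 := h2 (z n) (E.sys.R n • 0) ((C₁ + 1) * E.sys.R n) (by nlinarith) (by linarith)
      (by rw [smul_zero, norm_zero]; positivity)
    have h11 := h3 E.sys (fun n => h0 _) n (G.pr (E.sys.R n • 0) (z n))
      ((C₂ + 1) * ((C₁ + 1) * E.sys.R n))
      (one_le_mul_of_one_le_of_one_le (by linarith) (by nlinarith)) (by nlinarith)
    have h12 := norm_sub_norm_le (E.sys.R n • (σ 0 + o)) (E.sys.T n (G.pr (E.sys.R n • 0) (z n)))
    rw [norm_sub_rev, norm_smul, Real.norm_of_nonneg (by linarith)] at h12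
    rw [map_zero, zero_add] at h5 h12
    have h13 : 1 ≤ S.K := S.one_le_K
    refine le_of_mul_le_mul_left (a := E.sys.R n) ?_ (by linarith)
    have h14 : E.sys.K = S.K := rfl
    rw [h14] at h11
    nlinarith
  · have h10 := Real.log_le_sub_one_of_pos (show 0 < E.sys.R n by linarith)
    have h11 := (hl i).1
    change E.sys.R n * (‖G.lam i‖ * 1) + Real.log (E.sys.R n) + 0 ≤ _
    nlinarith
  · change E.sys.R n * (‖G.lam i‖ * 1) + Real.log (E.sys.R n) + 0 ≤ _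
    rw [hi, norm_zero]
    linarith

theorem Zero_const {α : Type} (F : ∀ r : ℝ, 0 < r → α) {q : ℝ} (h0 : 0 < q) (h1 : q < 1)
    (h : ∀ r hr s (hs : 0 < s), q ≤ s → s ≤ 1 → F (s * r) (mul_pos hs hr) = F r hr)
    (r : ℝ) (hr : 0 < r) (r' : ℝ) (hr' : 0 < r') : F r hr = F r' hr' := by
  have h2 : ∀ (r : ℝ) (hr : 0 < r) (r' : ℝ) (hr' : 0 < r'), q * r' ≤ r → r ≤ r' →
      F r hr = F r' hr' := by
    intro r hr r' hr' h3 h4
    obtain ⟨s, rfl⟩ : ∃ s, r = s * r' := ⟨r / r', (div_mul_cancel₀ r hr'.ne').symm⟩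
    exact h r' hr' s ((mul_pos_iff_of_pos_right hr').1 hr) (le_of_mul_le_mul_right h3 hr')
      (le_of_mul_le_mul_right (by rwa [one_mul]) hr')
  have h3 : ∀ (k : ℕ) (r : ℝ) (hr : 0 < r) (r' : ℝ) (hr' : 0 < r'), q ^ k * r' ≤ r → r ≤ r' →
      F r hr = F r' hr' := by
    intro k
    induction k with
    | zero =>
      intro r hr r' hr' h3 h4
      exact h2 r hr r' hr' (by rw [pow_zero] at h3; nlinarith) h4
    | succ k ih =>
      intro r hr r' hr' h3 h4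
      rcases le_total (q * r') r with h5 | h5
      · exact h2 r hr r' hr' h5 h4
      · exact (ih r hr (q * r') (mul_pos h0 hr') (by rwa [← mul_assoc, ← pow_succ]) h5).trans
          (h r' hr' q h0 le_rfl h1.le)
  have h4 : ∀ (r : ℝ) (hr : 0 < r) (r' : ℝ) (hr' : 0 < r'), r ≤ r' → F r hr = F r' hr' := by
    intro r hr r' hr' h4
    obtain ⟨k, hk⟩ := exists_pow_lt_of_lt_one (div_pos hr hr') h1
    exact h3 k r hr r' hr' ((lt_div_iff₀ hr').1 hk).le h4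
  rcases le_total r r' with h5 | h5
  · exact h4 r hr r' hr' h5
  · exact (h4 r' hr' r hr h5).symm

theorem Zero_bd (h1 : ∀ n, S.f n 1 = 1) : S.Bd fun _ => 1 :=
  ⟨0, Eventually.of_forall fun n => by
    rw [T, h1, one_def, map_zero, norm_zero, zero_mul]
    exact ⟨le_rfl, le_rfl⟩⟩

theorem zero (hO : G.Orth) (h1 : ∀ n, S.f n 1 = 1) : ∃ σ ∈ G.Sig, ∀ (r : ℝ) (hr : 0 < r),
    (S.scale r hr).Coh (fun _ => 1) (fun _ => 1) σ 0 := by
  obtain ⟨μ, hμ, hok⟩ := G.ok_one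
  obtain ⟨t, ht, hm⟩ := mono hO S.K hμ
  obtain ⟨C, hC⟩ := coh_bound G
  choose σ hσ o ho using fun (r : ℝ) (hr : 0 < r) =>
    exists_coh hO hμ hok (Zero_bd (S := S.scale r hr) h1)
  have h2 := Zero_const (fun r hr => (σ r hr, r • o r hr)) (q := max (1 - t) (1 / 2))
    (lt_max_of_lt_right one_half_pos) (max_lt (by linarith) one_half_lt_one)
    fun r hr s hs h3 h4 => by
      have h5 := hm (S.scale r hr) _ _ _ _ _ _ _ rfl (Zero_bd (S := S.scale r hr) h1) hok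
        (fun _ _ => one_le_two) (fun ν _ => ⟨by linarith [le_max_left (1 - t) (1 / 2)],
          by linarith⟩) (hσ _ _) ((ho _ (mul_pos hs hr)).scale hr hs) (ho r hr)
      rw [h5.1, ← h5.2, smul_smul, mul_comm r s]
  have h3 : o 1 one_pos = 0 := by
    refine norm_le_zero_iff.1 (le_of_forall_pos_le_add fun ε hε => ?_)
    have h4 : 0 < ε / (|C * S.K| + 1) := by positivity
    have h5 := (Prod.ext_iff.1 (h2 1 one_pos _ h4)).2
    have h6 : ‖o _ h4‖ ≤ C * S.K := hC (S.scale _ h4) _ _ h1 (ho _ h4)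
    simp only [one_smul] at h5
    rw [h5, norm_smul, Real.norm_of_nonneg h4.le, zero_add, div_mul_eq_mul_div,
      div_le_iff₀ (by positivity)]
    exact mul_le_mul_of_nonneg_left (by linarith [le_abs_self (C * S.K)]) hε.le
  refine ⟨σ 1 one_pos, hσ _ _, fun r hr => ?_⟩
  have h4 := Prod.ext_iff.1 (h2 1 one_pos r hr)
  simp only [h3, smul_zero] at h4
  rw [h4.1, ← (smul_eq_zero.1 h4.2.symm).resolve_left hr.ne']
  exact ho r hr

theorem Coh.tr (ha : ∀ n, G.ht (y n) = S.R n • a) (hb : S.Sm fun n => S.T n (y n) - S.R n • b)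
    (h : (S.tr y fun n => (S.f n (y n))⁻¹).Coh (fun _ => 1) γ σ o) :
    S.Coh y (fun ν => γ ν + ⟪ν, a⟫_ℝ) σ (o + b - σ a) := by
  intro L a' ha' ε hε
  have h1 := h L (a' - a) (fun ν hν => by
    rw [inner_sub_right]
    linarith [ha' ν hν]) (ε / 2) (half_pos hε)
  have e : ∀ n L, G.ty (S.R n) (fun ν => γ ν + ⟪ν, a⟫_ℝ) L =
      fun i => G.ty (S.R n) γ L i + G.la (G.ht (y n)) i := by
    intro n L
    funext i
    rw [ha, Geo.ty, Geo.Sig_cs_add]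
    simp only [Geo.ty, Geo.la, real_inner_smul_right]
    ring
  have h2 : ∀ n, S.Wv γ n ≤ ENNReal.ofReal 1 * S.Wv (fun ν => γ ν + ⟪ν, a⟫_ℝ) n := by
    intro n
    rw [ENNReal.ofReal_one, one_mul, Wv, Wv, e, ← vol_dl (G.ht (y n)) (G.B fun i => _ + _)]
    exact measure_mono fun v hv => (Geo.dl_mem_B _).2 hv
  refine (h1.of_le (Eventually.of_forall h2)).of_vol (C := 1) ?_
  filter_upwards [hb (ε / 2) (half_pos hε)] with n hn
  rw [ENNReal.ofReal_one, one_mul, ← vol_mul_left (y n)⁻¹ {x ∈ G.bx 1 _ | _}]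
  refine measure_mono fun x hx => And.intro ((Zero_bx _ _).2 ?_) ?_
  · refine (Geo.dl_mem_B (G.ht (y n))).1 ?_
    rw [Geo.inv_mul_eq, dl_dl, add_neg_cancel, dl_zero, ← e]
    exact hx.1
  · have e1 : y n * G.pr (S.R n • (a' - a)) ((y n)⁻¹ * x) = G.pr (S.R n • a') x := by
      rw [Geo.pr, Geo.pr, ← Geo.mul_V0 _ (Geo.X_V0 _), ← Geo.mul_V0 _ (Geo.X_V0 _), ← mul_assoc,
        mul_inv_cancel_left, ht_mul, ht_inv, ha]
      congr 2
      module
    change ε / 2 * S.R n ≤ ‖G.ht ((S.f n (y n))⁻¹ *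
      S.f n (y n * G.pr (S.R n • (a' - a)) ((y n)⁻¹ * x))) - S.R n • (σ (a' - a) + o)‖
    rw [e1, ht_mul, ht_inv]
    have h3 := norm_add_le (-G.ht (S.f n (y n)) + G.ht (S.f n (G.pr (S.R n • a') x)) -
      S.R n • (σ (a' - a) + o)) (S.T n (y n) - S.R n • b)
    have e2 : -G.ht (S.f n (y n)) + G.ht (S.f n (G.pr (S.R n • a') x)) -
        S.R n • (σ (a' - a) + o) + (S.T n (y n) - S.R n • b) =
        S.T n (G.pr (S.R n • a') x) - S.R n • (σ a' + (o + b - σ a)) := by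
      rw [map_sub, T, T]
      module
    rw [e2] at h3
    linarith [hx.2]

theorem star_ult (hO : G.Orth) (h1 : ∀ n, S.f n 1 = 1) : ∃ σ ∈ G.Sig, ∀ y : S.I → G.V,
    (∀ n, G.len (y n) ≤ S.R n) → S.Sm fun n => S.T n (y n) - σ (G.ht (y n)) := by
  obtain ⟨σ, hσ, h2⟩ := zero hO h1
  refine ⟨σ, hσ, fun y hy => ?_⟩
  obtain ⟨μ, hμ, hok⟩ := G.ok_one
  obtain ⟨t, ht, hm⟩ := mono hO S.K (half_pos hμ)
  obtain ⟨l, Λ, hl, -, hl'⟩ := G.lam_bd
  obtain ⟨C₀, hC₀, h0⟩ := ht_le (M := G.toMdl)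
  obtain ⟨C₂, hC₂, h3⟩ := Zero_len G
  obtain ⟨C₃, hC₃, h4⟩ := Zero_T G
  obtain ⟨C₄, hC₄, h5⟩ := G.mem_of_len
  obtain ⟨a, ha, ha'⟩ := exists_lim (S := S) (a := fun n => G.ht (y n)) (C := C₀)
    (Eventually.of_forall fun n => (h0 _).trans (mul_le_mul_of_nonneg_left (hy n) hC₀))
  obtain ⟨D, hD, h6⟩ : ∃ D : ℝ, 1 ≤ D ∧
      ∀ᶠ n in S.U, G.len (G.pr (S.R n • a) (y n)) ≤ D * S.R n := by
    refine ⟨(C₂ + 1) * (C₀ + 1), by nlinarith, (S.ev_R 1).mono fun n hn => ?_⟩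
    have h6 := h3 (y n) (S.R n • a) ((C₀ + 1) * S.R n) (by nlinarith) (by nlinarith [hy n])
      (by rw [norm_smul, Real.norm_of_nonneg (by linarith)]; nlinarith)
    nlinarith
  obtain ⟨b, -, hb'⟩ := exists_lim (S := S) (a := fun n => S.T n (G.pr (S.R n • a) (y n)))
    (C := C₃ * S.K * D) ((h6.and (S.ev_R 1)).mono fun n hn => by
      rw [mul_assoc _ D]
      exact h4 S h1 n _ _ (by nlinarith [hn.2]) hn.1)
  obtain ⟨σ', hσ', h7⟩ := zero (S := S.tr (fun n => G.pr (S.R n • a) (y n))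
    fun n => (S.f n (G.pr (S.R n • a) (y n)))⁻¹) hO fun n => by simp
  obtain ⟨δ, hδ, hδ1, hδ2, hδ3⟩ : ∃ δ : ℝ, 0 < δ ∧ δ ≤ μ / 4 ∧ δ ≤ 1 / 2 ∧ 2 * δ ≤ t :=
    ⟨min (min (μ / 4) (1 / 2)) (t / 2), by positivity, (min_le_left _ _).trans (min_le_left _ _),
      (min_le_left _ _).trans (min_le_right _ _),
      by linarith [min_le_right (min (μ / 4) (1 / 2)) (t / 2)]⟩
  obtain ⟨r, hr, hr1, hr2, hr3⟩ : ∃ r : ℝ, 0 < r ∧ C₄ * D ≤ r ∧ 2 * (C₄ * D) ≤ r * l ∧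
      ‖r⁻¹ • a‖ ≤ δ := by
    have h8 : 0 < C₄ * D := by positivity
    have h9 : 0 ≤ ‖a‖ / δ := by positivity
    have h10 : 0 < 2 * (C₄ * D) / l := by positivity
    refine ⟨C₄ * D + 2 * (C₄ * D) / l + ‖a‖ / δ, by positivity, by linarith,
      (div_le_iff₀ hl).1 (by linarith), ?_⟩
    rw [norm_smul, Real.norm_of_nonneg (by positivity), inv_mul_le_iff₀ (by positivity)]
    exact (div_le_iff₀ hδ).1 (by linarith)
  have h8 : (S.scale r hr).Coh (fun n => G.pr (S.R n • a) (y n))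
      (fun ν => 1 + ⟪ν, r⁻¹ • a⟫_ℝ) σ' (0 + r⁻¹ • b - σ' (r⁻¹ • a)) := by
    have e : ∀ (n : S.I) (v : Ht G.k), (r * S.R n) • r⁻¹ • v = S.R n • v := fun n v => by
      rw [smul_smul]
      congr 1
      field_simp
    refine Coh.tr (S := S.scale r hr) (fun n => (Geo.ht_pr _ _).trans (e n a).symm)
      (fun ε hε => (hb' (ε * r) (mul_pos hε hr)).mono fun n hn => ?_) (h7 r hr)
    change ‖S.T n _ - (r * S.R n) • r⁻¹ • b‖ ≤ ε * (r * S.R n)
    rw [e, ← mul_assoc]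
    exact hn
  have h9 : ∀ ν ∈ G.Nn, -δ ≤ ⟪ν, r⁻¹ • a⟫_ℝ ∧ ⟪ν, r⁻¹ • a⟫_ℝ ≤ δ := fun ν hν =>
    abs_le.1 ((Mono_inner hν).trans hr3)
  have h10 : (S.scale r hr).In (fun _ => 1) (fun ν => 1 + ⟪ν, r⁻¹ • a⟫_ℝ)
      fun n => G.pr (S.R n • a) (y n) := by
    refine ⟨0, (h6.and (S.ev_R 1)).mono fun n hn => (Zero_bx _ _).2 (Geo.B_mono (fun i => ?_)
      (h5 _ _ (by nlinarith [hn.2]) hn.1))⟩
    have h11 : 1 ≤ C₄ * (D * S.R n) :=
      one_le_mul_of_one_le_of_one_le hC₄ (one_le_mul_of_one_le_of_one_le hD hn.2)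
    have h12 : C₄ * (D * S.R n) ≤ r * S.R n := by nlinarith [hn.2]
    change G.sz _ i ≤ r * S.R n * (‖G.lam i‖ * (1 + ⟪G.nu i, r⁻¹ • a⟫_ℝ)) +
      Real.log (r * S.R n) + 0
    unfold Geo.sz
    split_ifs with hi
    · rw [hi, norm_zero]
      linarith [Real.log_le_log (by linarith) h12]
    · have h13 := Real.log_nonneg (h11.trans h12)
      have h14 : l * (1 / 2) ≤ ‖G.lam i‖ * (1 + ⟪G.nu i, r⁻¹ • a⟫_ℝ) :=
        mul_le_mul ((hl' i).2 hi) (by linarith [(h9 _ (Geo.nu_mem hi)).1]) (by norm_num)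
          (norm_nonneg _)
      have h15 := mul_le_mul_of_nonneg_left h14 (show 0 ≤ r * S.R n by linarith)
      nlinarith [hn.2]
  have hok' : G.Ok (fun _ => 1 + δ) (μ / 2) :=
    (hok.pert (t := δ) fun ν _ => by rw [add_sub_cancel_left, abs_of_pos hδ]).mono (by linarith)
  have hbd := Zero_bd (S := S.scale r hr) h1
  obtain ⟨σ₂, -, o₂, h11⟩ := exists_coh hO (half_pos hμ) hok' hbd
  have h12 := hm (S.scale r hr) _ _ _ _ _ _ _ rfl hbd hok' (fun _ _ => by linarith)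
    (fun ν hν => ⟨by linarith [(h9 ν hν).1], by linarith [(h9 ν hν).2]⟩) hσ'
    (h8.of_in h10.symm) h11
  have h13 := hm (S.scale r hr) _ _ _ _ _ _ _ rfl hbd hok' (fun _ _ => by linarith)
    (fun ν hν => ⟨by linarith, by linarith⟩) hσ (h2 r hr) h11
  have h14 : b = σ a := by
    have h15 := h12.2.trans h13.2.symm
    rw [h12.1, ← h13.1, zero_add, map_smul, ← smul_sub, smul_eq_zero, sub_eq_zero] at h15
    exact h15.resolve_left (inv_pos.2 hr).ne'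
  have h15 := sm_X y ha'.neg
  refine ((hb'.sub h15).sub (ha'.map σ.toLinearEquiv.toLinearMap)).congr
    (Eventually.of_forall fun n => ?_)
  simp only [neg_sub, h14, Geo.pr, LinearEquiv.coe_coe, LinearIsometryEquiv.coe_toLinearEquiv,
    map_sub, map_smul]
  abel

end Vale.Agent.P188.Sys
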